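import Mathlib

/-!
Analytic sets are null measurable for every finite measure: they can be approximated from inside
by compact sets, as outer measures are continuous along increasing sequences of arbitrary sets.
-/

noncomputable section

open MeasureTheory Set Filter
open scoped ENNReal Topology

namespace Vale.Agent.P158

/-- The sequences bounded by `b` in their first `k` places. -/
def initBox (b : ℕ → ℕ) (k : ℕ) : Set (ℕ → ℕ) := {σ | ∀ i < k, σ i ≤ b i}

/-- The sequences bounded by `b` everywhere. -/
def fullBox (b : ℕ → ℕ) : Set (ℕ → ℕ) := univ.pi fun i => Iic (b i)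

lemma isCompact_fullBox (b : ℕ → ℕ) : IsCompact (fullBox b) :=
  isCompact_univ_pi fun i => (finite_Iic (b i)).isCompact

variable {α : Type*} [TopologicalSpace α] [T2Space α] {f : (ℕ → ℕ) → α}

lemma iInter_closure_subset (hf : Continuous f) (b : ℕ → ℕ) :
    ⋂ k, closure (f '' initBox b k) ⊆ f '' fullBox b := by
  intro x hx
  by_contra hxK
  obtain ⟨U, V, hU, hV, hKU, hxV, hUV⟩ := SeparatedNhds.of_isCompact_isCompact
    ((isCompact_fullBox b).image hf) (isCompact_singleton (x := x))
    (disjoint_singleton_right.2 hxK)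
  have h : ∀ τ ∈ fullBox b, ∃ k : ℕ, ∀ σ : ℕ → ℕ, (∀ i < k, σ i = τ i) → f σ ∈ U := by
    intro τ hτ
    obtain ⟨I, u, hu, hsub⟩ := isOpen_pi_iff.1 (hU.preimage hf) τ (hKU (mem_image_of_mem f hτ))
    refine ⟨I.sup id + 1, fun σ hσ => hsub fun i hi => ?_⟩
    rw [hσ i (Nat.lt_succ_of_le (Finset.le_sup (f := id) hi))]
    exact (hu i hi).2
  choose! k hk using h
  have hopen : ∀ τ : ℕ → ℕ, IsOpen {σ : ℕ → ℕ | ∀ i < k τ, σ i = τ i} := fun τ => by
    have e : {σ : ℕ → ℕ | ∀ i < k τ, σ i = τ i} =
        (↑(Finset.range (k τ)) : Set ℕ).pi fun i => {τ i} := by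
      ext σ; simp [Set.mem_pi]
    rw [e]
    exact isOpen_set_pi (Finset.finite_toSet _) fun i _ => isOpen_discrete _
  obtain ⟨t, ht⟩ := (isCompact_fullBox b).elim_finite_subcover
    (fun τ : fullBox b => {σ : ℕ → ℕ | ∀ i < k τ, σ i = τ.1 i}) (fun τ => hopen τ.1)
    (fun σ hσ => mem_iUnion.2 ⟨⟨σ, hσ⟩, fun i _ => rfl⟩)
  set K := t.sup fun τ => k τ.1
  have hsub : f '' initBox b K ⊆ U := by
    rintro - ⟨σ, hσ, rfl⟩
    obtain ⟨τ, hτt, hτ⟩ := mem_iUnion₂.1
      (ht (a := fun i => min (σ i) (b i)) fun i _ => mem_Iic.2 (min_le_right _ _))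
    refine hk τ.1 τ.2 σ fun i hi => ?_
    have hle : k τ.1 ≤ K := Finset.le_sup (f := fun τ : fullBox b => k τ.1) hτt
    rw [← hτ i hi]
    exact (min_eq_left (hσ i (hi.trans_le hle))).symm
  have hxV' : x ∈ V := hxV rfl
  obtain ⟨y, hyV, hy⟩ := mem_closure_iff.1 (mem_iInter.1 hx K) V hV hxV'
  exact disjoint_left.1 hUV (hsub hy) hyV

variable [MeasurableSpace α] [OpensMeasurableSpace α]

lemma exists_compact_subset_of_range (μ : Measure α) [IsFiniteMeasure μ] (hf : Continuous f)
    {ε : ℝ≥0∞} (hε : ε ≠ 0) :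
    ∃ K ⊆ range f, IsCompact K ∧ μ (range f) ≤ μ K + ε := by
  obtain ⟨δ, hδ, hδsum⟩ := ENNReal.exists_pos_sum_of_countable hε ℕ
  have step : ∀ (b : ℕ → ℕ) (k : ℕ), ∃ m : ℕ,
      μ (f '' initBox b k) ≤ μ (f '' (initBox b k ∩ {σ | σ k ≤ m})) + δ k := by
    intro b k
    have hu : f '' initBox b k = ⋃ m : ℕ, f '' (initBox b k ∩ {σ | σ k ≤ m}) := by
      rw [← image_iUnion, ← inter_iUnion,
        eq_univ_of_forall fun σ : ℕ → ℕ => mem_iUnion.2 ⟨σ k, le_refl (σ k)⟩, inter_univ]
    have hm : Monotone fun m : ℕ => f '' (initBox b k ∩ {σ | σ k ≤ m}) := fun m m' h =>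
      image_mono (inter_subset_inter_right _ fun σ (hσ : σ k ≤ m) => hσ.trans h)
    have hlim := tendsto_measure_iUnion_atTop (μ := μ) hm
    rw [← hu] at hlim
    rcases le_or_gt (μ (f '' initBox b k)) (δ k) with h | h
    · exact ⟨0, h.trans le_add_self⟩
    obtain ⟨m, hm'⟩ := (hlim.eventually_const_lt (ENNReal.sub_lt_self (measure_ne_top μ _)
      (pos_of_gt h).ne' (ENNReal.coe_ne_zero.2 (hδ k).ne'))).exists
    exact ⟨m, tsub_le_iff_right.1 hm'.le⟩
  choose m hm using step
  -- the bounds, built one place at a time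
  let B : ℕ → ℕ → ℕ := fun k => Nat.rec (fun _ => 0) (fun k c => Function.update c k (m c k)) k
  have hB : ∀ k i, i < k → B k i = B (i + 1) i := by
    intro k
    induction k with
    | zero => intro i hi; omega
    | succ k ih =>
      intro i hi
      rcases Nat.lt_succ_iff_lt_or_eq.1 hi with h | h
      · rw [← ih i h]
        exact Function.update_of_ne h.ne _ _
      · rw [h]
  let b : ℕ → ℕ := fun i => B (i + 1) i
  have hbox : ∀ k, initBox b k = initBox (B k) k := fun k =>
    Set.ext fun σ => forall₂_congr fun i hi => by rw [hB k i hi]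
  have key : ∀ k, μ (range f) ≤ μ (f '' initBox b k) + ∑ i ∈ Finset.range k, (δ i : ℝ≥0∞) := by
    intro k
    induction k with
    | zero => simp [initBox]
    | succ k ih =>
      refine ih.trans ?_
      rw [Finset.sum_range_succ, ← add_assoc, add_right_comm]
      refine add_le_add_left ?_ _
      rw [hbox k]
      refine (hm (B k) k).trans (add_le_add_left (measure_mono (image_mono fun σ hσ => ?_)) _)
      intro i hi
      rcases Nat.lt_succ_iff_lt_or_eq.1 hi with h | h
      · rw [show b i = B k i from (hB k i h).symm]; exact hσ.1 i h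
      · subst h
        show σ i ≤ Function.update (B i) i (m (B i) i) i
        rw [Function.update_self]
        exact hσ.2
  refine ⟨f '' fullBox b, image_subset_range _ _, (isCompact_fullBox b).image hf, ?_⟩
  have hanti : Antitone fun k => closure (f '' initBox b k) := fun k k' h =>
    closure_mono (image_mono fun σ hσ i hi => hσ i (hi.trans_le h))
  have hlim := tendsto_measure_iInter_atTop (μ := μ)
    (fun k => isClosed_closure.measurableSet.nullMeasurableSet) hanti ⟨0, measure_ne_top _ _⟩
  have hge : ∀ k, μ (range f) ≤ μ (closure (f '' initBox b k)) + ε := fun k =>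
    (key k).trans (add_le_add (measure_mono subset_closure)
      ((ENNReal.sum_le_tsum _).trans hδsum.le))
  exact (ge_of_tendsto' (hlim.add_const ε) hge).trans
    (add_le_add_left (measure_mono (iInter_closure_subset hf b)) _)

/-- An analytic set is measurable up to a null set for every finite measure. -/
theorem nullMeasurableSet_of_analyticSet {s : Set α} (hs : AnalyticSet s) (μ : Measure α)
    [IsFiniteMeasure μ] : NullMeasurableSet s μ := by
  rw [MeasureTheory.AnalyticSet] at hs
  rcases hs with rfl | ⟨f, hf, rfl⟩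
  · exact nullMeasurableSet_empty
  choose K hsub hcpt hK using fun n : ℕ =>
    exists_compact_subset_of_range μ hf (ε := ((n : ℝ≥0∞) + 1)⁻¹) (by simp)
  set B := ⋃ n, K n
  have hB : MeasurableSet B := MeasurableSet.iUnion fun n => (hcpt n).isClosed.measurableSet
  have hBs : B ⊆ range f := iUnion_subset hsub
  have he : Tendsto (fun n : ℕ => ((n : ℝ≥0∞) + 1)⁻¹) atTop (𝓝 0) := by
    have h := ENNReal.tendsto_inv_nat_nhds_zero.comp (tendsto_add_atTop_nat 1)
    simpa [Function.comp_def] using h
  have hle : μ (range f) ≤ μ B := by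
    simpa using ge_of_tendsto' (tendsto_const_nhds.add he) fun n =>
      (hK n).trans (add_le_add_left (measure_mono (subset_iUnion K n)) _)
  set T := toMeasurable μ (range f)
  have hT : μ (T \ B) = 0 := by
    rw [measure_sdiff (hBs.trans (subset_toMeasurable _ _)) hB.nullMeasurableSet (measure_ne_top _ _),
      measure_toMeasurable, tsub_eq_zero_iff_le]
    exact hle
  refine hB.nullMeasurableSet.congr ((ae_eq_set).2 ⟨?_, ?_⟩)
  · rw [sdiff_eq_bot_iff.2 hBs]; exact measure_empty
  · exact measure_mono_null (sdiff_subset_sdiff_left (subset_toMeasurable _ _)) hT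

/-- A measurable set of a Polish space has null measurable image under a measurable map. -/
theorem nullMeasurableSet_image {X Y : Type*} [TopologicalSpace X] [PolishSpace X]
    [MeasurableSpace X] [BorelSpace X] [TopologicalSpace Y] [T2Space Y] [SecondCountableTopology Y]
    [MeasurableSpace Y] [OpensMeasurableSpace Y] {s : Set X} {g : X → Y} (hs : MeasurableSet s)
    (hg : Measurable g) (μ : Measure Y) [IsFiniteMeasure μ] : NullMeasurableSet (g '' s) μ :=
  nullMeasurableSet_of_analyticSet (hs.analyticSet_image hg) μ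

end Vale.Agent.P158
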