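import Vale.Agent.P158.Spec

/-!
Deterministic facts about passage times: edge codes, weights of walks, attained minima,
triangle inequality, Lipschitz bounds, uniqueness of geodesics.
-/

open MeasureTheory Filter Topology

namespace Vale.Agent.P158

section edges

lemma adj_iff {x y : V} : Adj x y ↔
    (x.1 = y.1 ∧ (y.2 = x.2 + 1 ∨ x.2 = y.2 + 1)) ∨
      (x.2 = y.2 ∧ (y.1 = x.1 + 1 ∨ x.1 = y.1 + 1)) := by
  unfold Adj
  rcases abs_cases (x.1 - y.1) with ⟨h1, h1'⟩ | ⟨h1, h1'⟩ <;>
    rcases abs_cases (x.2 - y.2) with ⟨h2, h2'⟩ | ⟨h2, h2'⟩ <;> rw [h1, h2] <;> omega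

lemma Adj.symm {x y : V} (h : Adj x y) : Adj y x := grid.adj_symm h

lemma Adj.ne {x y : V} (h : Adj x y) : x ≠ y := grid.ne_of_adj h

lemma edgeOf_comm (x y : V) : edgeOf x y = edgeOf y x := by
  simp only [edgeOf, min_comm, eq_comm]

lemma wt_comm (t : Conf) (x y : V) : wt t x y = wt t y x := by rw [wt, wt, edgeOf_comm]

lemma eFst_eSnd_adj (e : Edge) : Adj (eFst e) (eSnd e) := by
  obtain ⟨⟨a, b⟩, v⟩ := e
  cases v <;> simp [adj_iff, eFst, eSnd]

lemma edgeOf_eFst_eSnd (e : Edge) : edgeOf (eFst e) (eSnd e) = e := by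
  obtain ⟨⟨a, b⟩, v⟩ := e
  cases v <;> simp [edgeOf, eFst, eSnd]

lemma ends_edgeOf {x y : V} (h : Adj x y) :
    (eFst (edgeOf x y) = x ∧ eSnd (edgeOf x y) = y) ∨
      (eFst (edgeOf x y) = y ∧ eSnd (edgeOf x y) = x) := by
  obtain ⟨a, b⟩ := x
  obtain ⟨c, d⟩ := y
  rw [adj_iff] at h
  simp only at h
  rcases h with ⟨h1, h2 | h2⟩ | ⟨h1, h2 | h2⟩ <;> subst h1 <;> subst h2 <;>
    simp [edgeOf, eFst, eSnd]

lemma edgeOf_eq_iff {x y u v : V} (h : Adj x y) (h' : Adj u v) :
    edgeOf x y = edgeOf u v ↔ (x = u ∧ y = v) ∨ (x = v ∧ y = u) := by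
  refine ⟨fun he => ?_, ?_⟩
  · rcases ends_edgeOf h with ⟨a, b⟩ | ⟨a, b⟩ <;> rcases ends_edgeOf h' with ⟨c, d⟩ | ⟨c, d⟩ <;>
      simp_all
  · rintro (⟨rfl, rfl⟩ | ⟨rfl, rfl⟩)
    · rfl
    · exact edgeOf_comm _ _

/-- The four neighbours of a vertex. -/
def nbrs (x : V) : Finset V :=
  {(x.1 + 1, x.2), (x.1 - 1, x.2), (x.1, x.2 + 1), (x.1, x.2 - 1)}

lemma mem_nbrs {x y : V} : y ∈ nbrs x ↔ Adj x y := by
  obtain ⟨a, b⟩ := x
  obtain ⟨c, d⟩ := y
  simp only [nbrs, Finset.mem_insert, Finset.mem_singleton, Prod.mk.injEq, adj_iff]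
  omega

lemma card_nbrs_le (x : V) : (nbrs x).card ≤ 4 := by
  refine (Finset.card_insert_le _ _).trans (Nat.succ_le_succ ?_)
  refine (Finset.card_insert_le _ _).trans (Nat.succ_le_succ ?_)
  exact (Finset.card_insert_le _ _).trans (by simp)

/-- The finitely many walks of length at most `n` from `x`. -/
lemma finite_walks_le (n : ℕ) : ∀ x : V,
    {q : Σ y, grid.Walk x y | q.2.length ≤ n}.Finite := by
  classical
  induction n with
  | zero =>
    intro x
    refine (Set.finite_singleton (⟨x, .nil⟩ : Σ y, grid.Walk x y)).subset ?_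
    rintro ⟨y, p⟩ hp
    cases p with
    | nil => rfl
    | cons h q => simp at hp
  | succ n ih =>
    intro x
    have hf : (⋃ z ∈ ((nbrs x : Finset V) : Set V), (fun q : Σ y, grid.Walk z y =>
        if h : Adj x z then (⟨q.1, .cons h q.2⟩ : Σ y, grid.Walk x y) else ⟨x, .nil⟩) ''
          {q | q.2.length ≤ n}).Finite :=
      (nbrs x).finite_toSet.biUnion fun z _ => (ih z).image _
    refine (hf.insert (⟨x, .nil⟩ : Σ y, grid.Walk x y)).subset ?_
    rintro ⟨y, p⟩ hp
    cases p with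
    | nil => exact Or.inl rfl
    | @cons _ z _ h q =>
      refine Or.inr (Set.mem_iUnion₂.2 ⟨z, mem_nbrs.2 h, ⟨y, q⟩, ?_, ?_⟩)
      · simpa using hp
      · exact dif_pos h

end edges

section walks
variable {t : Conf} {S S' : Set Edge} {x y z : V}

@[simp] lemma plen_nil : plen t (.nil : grid.Walk x x) = 0 := rfl

@[simp] lemma plen_cons (h : grid.Adj x y) (p : grid.Walk y z) :
    plen t (.cons h p) = wt t x y + plen t p := by simp [plen]

lemma plen_append (p : grid.Walk x y) (q : grid.Walk y z) :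
    plen t (p.append q) = plen t p + plen t q := by simp [plen]

lemma plen_concat (p : grid.Walk x y) (h : grid.Adj y z) :
    plen t (p.concat h) = plen t p + wt t y z := by simp [plen]

@[simp] lemma plen_copy {x' y' : V} (p : grid.Walk x y) (hx : x = x') (hy : y = y') :
    plen t (p.copy hx hy) = plen t p := by subst hx hy; rfl

lemma plen_reverse (p : grid.Walk x y) : plen t p.reverse = plen t p := by
  simp only [plen, SimpleGraph.Walk.darts_reverse, List.map_reverse, List.sum_reverse,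
    List.map_map]
  congr 1
  exact List.map_congr_left fun d _ => by simp [wt_comm]

lemma plen_nonneg (h : ∀ e, 0 ≤ t e) (p : grid.Walk x y) : 0 ≤ plen t p :=
  List.sum_nonneg (by simp only [List.mem_map]; rintro a ⟨d, -, rfl⟩; exact h _)

lemma plen_pos (h : ∀ e, 0 < t e) (hne : x ≠ y) (p : grid.Walk x y) : 0 < plen t p := by
  cases p with
  | nil => exact absurd rfl hne
  | cons a q =>
    rw [plen_cons]; exact add_pos_of_pos_of_nonneg (h _) (plen_nonneg (fun e => (h e).le) q)

lemma plen_le_of_range {M : ℝ} (h : InRange M t) (p : grid.Walk x y) :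
    plen t p ≤ M * p.length := by
  induction p with
  | nil => simp
  | @cons u v w a q ih =>
    rw [plen_cons, SimpleGraph.Walk.length_cons]; push_cast
    have : wt t u v ≤ M := (h (edgeOf u v)).2
    linarith

lemma le_plen_of_le {c : ℝ} (p : grid.Walk x y)
    (h : ∀ d ∈ p.darts, c ≤ wt t d.toProd.1 d.toProd.2) : c * p.length ≤ plen t p := by
  induction p with
  | nil => simp
  | cons a q ih =>
    simp only [SimpleGraph.Walk.darts_cons, List.forall_mem_cons] at h
    rw [plen_cons, SimpleGraph.Walk.length_cons]; push_cast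
    linarith [ih h.2, h.1]

lemma sublist_sum_lt {α : Type*} {f : α → ℝ} {l₁ l₂ : List α} (hs : l₁.Sublist l₂)
    (hf : ∀ a ∈ l₂, 0 < f a) :
    (l₁.map f).sum ≤ (l₂.map f).sum ∧
      (l₁ ≠ l₂ → (l₁.map f).sum < (l₂.map f).sum) := by
  induction hs with
  | slnil => simp
  | @cons l₁ l₂ a _ ih =>
    have h := ih fun b hb => hf b (List.mem_cons_of_mem _ hb)
    have := hf a List.mem_cons_self
    simp only [List.map_cons, List.sum_cons]
    exact ⟨by linarith [h.1], fun _ => by linarith [h.1]⟩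
  | @cons_cons l₁ l₂ a _ ih =>
    have h := ih fun b hb => hf b (List.mem_cons_of_mem _ hb)
    simp only [List.map_cons, List.sum_cons]
    exact ⟨by linarith [h.1], fun hne => by linarith [h.2 fun e => hne (by rw [e])]⟩

lemma plen_bypass_le (h : ∀ e, 0 ≤ t e) (p : grid.Walk x y) : plen t p.bypass ≤ plen t p :=
  List.Sublist.sum_le_sum (p.darts_bypass_sublist_darts.map _)
    (by simp only [List.mem_map]; rintro a ⟨d, -, rfl⟩; exact h _)

lemma plen_bypass_lt (h : ∀ e, 0 < t e) {p : grid.Walk x y} (hp : ¬ p.IsPath) :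
    plen t p.bypass < plen t p := by
  refine (sublist_sum_lt p.darts_bypass_sublist_darts fun d _ => h _).2 fun he => hp ?_
  rw [SimpleGraph.Walk.isPath_def, ← SimpleGraph.Walk.cons_map_snd_darts, ← he,
    SimpleGraph.Walk.cons_map_snd_darts]
  exact p.bypass_isPath.support_nodup

lemma walkIn_nil : WalkIn S (.nil : grid.Walk x x) := by simp [WalkIn]

@[simp] lemma walkIn_cons_iff (h : grid.Adj x y) (p : grid.Walk y z) :
    WalkIn S (.cons h p) ↔ edgeOf x y ∈ S ∧ WalkIn S p := by simp [WalkIn]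

lemma walkIn_univ (p : grid.Walk x y) : WalkIn Set.univ p := fun _ _ => trivial

lemma WalkIn.mono {p : grid.Walk x y} (h : WalkIn S p) (hs : S ⊆ S') : WalkIn S' p :=
  fun d hd => hs (h d hd)

lemma walkIn_append_iff (p : grid.Walk x y) (q : grid.Walk y z) :
    WalkIn S (p.append q) ↔ WalkIn S p ∧ WalkIn S q := by
  simp [WalkIn, or_imp, forall_and]

lemma WalkIn.reverse {p : grid.Walk x y} (h : WalkIn S p) : WalkIn S p.reverse := by
  intro d hd
  simp only [SimpleGraph.Walk.darts_reverse, List.mem_reverse, List.mem_map] at hd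
  obtain ⟨d', hd', rfl⟩ := hd
  simpa [edgeOf_comm] using h d' hd'

lemma WalkIn.copy {x' y' : V} {p : grid.Walk x y} (h : WalkIn S p) (hx : x = x') (hy : y = y') :
    WalkIn S (p.copy hx hy) := by subst hx hy; exact h

lemma WalkIn.bypass {p : grid.Walk x y} (h : WalkIn S p) : WalkIn S p.bypass :=
  fun d hd => h d (p.darts_bypass_subset_darts hd)

lemma ConnIn.refl (x : V) : ConnIn S x x := ⟨.nil, walkIn_nil⟩

lemma ConnIn.symm (h : ConnIn S x y) : ConnIn S y x := h.elim fun p hp => ⟨p.reverse, hp.reverse⟩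

lemma ConnIn.trans (h : ConnIn S x y) (h' : ConnIn S y z) : ConnIn S x z :=
  h.elim fun p hp => h'.elim fun q hq => ⟨p.append q, (walkIn_append_iff p q).2 ⟨hp, hq⟩⟩

lemma exists_walk_l1 (x y : V) :
    ∃ p : grid.Walk x y, (p.length : ℤ) = |x.1 - y.1| + |x.2 - y.2| := by
  obtain ⟨n, hn⟩ : ∃ n : ℕ, (n : ℤ) = |x.1 - y.1| + |x.2 - y.2| :=
    ⟨(|x.1 - y.1| + |x.2 - y.2|).toNat,
      Int.toNat_of_nonneg (add_nonneg (abs_nonneg _) (abs_nonneg _))⟩
  rw [← hn]
  induction n generalizing x with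
  | zero =>
    obtain rfl : x = y := by
      have := abs_nonneg (x.1 - y.1)
      have := abs_nonneg (x.2 - y.2)
      have h1 : |x.1 - y.1| = 0 := by omega
      have h2 : |x.2 - y.2| = 0 := by omega
      rw [abs_eq_zero] at h1 h2
      exact Prod.ext (by omega) (by omega)
    exact ⟨.nil, rfl⟩
  | succ n ih =>
    obtain ⟨z, hz, hd⟩ : ∃ z, Adj x z ∧ (n : ℤ) = |z.1 - y.1| + |z.2 - y.2| := by
      obtain ⟨a, b⟩ := x
      obtain ⟨c, d⟩ := y
      simp only at hn
      push_cast at hn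
      rcases lt_trichotomy a c with h | h | h
      · exact ⟨(a + 1, b), by simp [adj_iff], by
          rw [abs_of_neg (by omega : a - c < 0)] at hn
          simp only; rw [abs_of_nonpos (by omega : a + 1 - c ≤ 0)]; omega⟩
      · subst h
        rcases lt_trichotomy b d with h | h | h
        · exact ⟨(a, b + 1), by simp [adj_iff], by
            rw [abs_of_neg (by omega : b - d < 0)] at hn
            simp only; rw [abs_of_nonpos (by omega : b + 1 - d ≤ 0)]; omega⟩
        · subst h; simp at hn; omega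
        · exact ⟨(a, b - 1), by simp [adj_iff], by
            rw [abs_of_pos (by omega : 0 < b - d)] at hn
            simp only; rw [abs_of_nonneg (by omega : 0 ≤ b - 1 - d)]; omega⟩
      · exact ⟨(a - 1, b), by simp [adj_iff], by
          rw [abs_of_pos (by omega : 0 < a - c)] at hn
          simp only; rw [abs_of_nonneg (by omega : 0 ≤ a - 1 - c)]; omega⟩
    obtain ⟨p, hp⟩ := ih z hd
    exact ⟨.cons (show grid.Adj x z from hz) p, by simp only [SimpleGraph.Walk.length_cons]; push_cast; omega⟩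

lemma connIn_univ (x y : V) : ConnIn Set.univ x y :=
  (exists_walk_l1 x y).elim fun p _ => ⟨p, walkIn_univ p⟩

end walks

section passage
variable {t : Conf} {S S' : Set Edge} {x y z : V}

lemma T_eq_TS (t : Conf) (x y : V) : T t x y = TS t Set.univ x y := by
  simp [T, TS, walkIn_univ, Set.image_univ]

variable (h0 : ∀ e, 0 ≤ t e)
include h0

lemma bddBelow_TS (S : Set Edge) (x y : V) :
    BddBelow (plen t '' {p : grid.Walk x y | WalkIn S p}) :=
  ⟨0, by rintro _ ⟨p, -, rfl⟩; exact plen_nonneg h0 p⟩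

lemma TS_le {p : grid.Walk x y} (hp : WalkIn S p) : TS t S x y ≤ plen t p :=
  csInf_le (bddBelow_TS h0 S x y) ⟨p, hp, rfl⟩

lemma T_le (p : grid.Walk x y) : T t x y ≤ plen t p := by
  rw [T_eq_TS]; exact TS_le h0 (walkIn_univ p)

omit h0 in
lemma le_TS {c : ℝ} (hc : ConnIn S x y) (h : ∀ p : grid.Walk x y, WalkIn S p → c ≤ plen t p) :
    c ≤ TS t S x y :=
  le_csInf (hc.elim fun p hp => ⟨_, p, hp, rfl⟩) (by rintro _ ⟨p, hp, rfl⟩; exact h p hp)

omit h0 in
lemma le_T {c : ℝ} (h : ∀ p : grid.Walk x y, c ≤ plen t p) : c ≤ T t x y := by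
  rw [T_eq_TS]; exact le_TS (connIn_univ x y) fun p _ => h p

lemma TS_nonneg (S : Set Edge) (x y : V) : 0 ≤ TS t S x y :=
  Real.sInf_nonneg (by rintro _ ⟨p, -, rfl⟩; exact plen_nonneg h0 p)

lemma T_nonneg (x y : V) : 0 ≤ T t x y := by rw [T_eq_TS]; exact TS_nonneg h0 _ x y

lemma TS_self (S : Set Edge) (x : V) : TS t S x x = 0 :=
  le_antisymm (by simpa using TS_le h0 (walkIn_nil (S := S) (x := x))) (TS_nonneg h0 S x x)

lemma T_self (x : V) : T t x x = 0 := by rw [T_eq_TS, TS_self h0]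

lemma TS_mono (hs : S ⊆ S') (hc : ConnIn S x y) : TS t S' x y ≤ TS t S x y :=
  le_TS hc fun _ hp => TS_le h0 (hp.mono hs)

lemma T_le_TS (hc : ConnIn S x y) : T t x y ≤ TS t S x y := le_TS hc fun p _ => T_le h0 p

omit h0 in
lemma TS_comm (S : Set Edge) (x y : V) : TS t S x y = TS t S y x := by
  have key : ∀ a b : V, plen t '' {p : grid.Walk a b | WalkIn S p}
      ⊆ plen t '' {p : grid.Walk b a | WalkIn S p} := by
    rintro a b _ ⟨p, hp, rfl⟩
    exact ⟨p.reverse, hp.reverse, plen_reverse p⟩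
  exact congrArg sInf (Set.Subset.antisymm (key x y) (key y x))

omit h0 in
lemma T_comm (t : Conf) (x y : V) : T t x y = T t y x := by rw [T_eq_TS, T_eq_TS, TS_comm]

lemma TS_triangle (hxy : ConnIn S x y) (hyz : ConnIn S y z) :
    TS t S x z ≤ TS t S x y + TS t S y z := by
  suffices h : TS t S x z - TS t S x y ≤ TS t S y z by linarith
  refine le_TS hyz fun q hq => ?_
  suffices h : TS t S x z - plen t q ≤ TS t S x y by linarith
  refine le_TS hxy fun p hp => ?_
  have := TS_le h0 ((walkIn_append_iff p q).2 ⟨hp, hq⟩)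
  rw [plen_append] at this
  linarith

lemma T_triangle (x y z : V) : T t x z ≤ T t x y + T t y z := by
  simp only [T_eq_TS]; exact TS_triangle h0 (connIn_univ x y) (connIn_univ y z)

lemma TS_lip (hax : ConnIn S z x) (hxy : ConnIn S x y) :
    |TS t S z x - TS t S z y| ≤ TS t S x y := by
  rw [abs_sub_le_iff]
  constructor
  · have := TS_triangle h0 (hax.trans hxy) hxy.symm
    rw [TS_comm S y x] at this; linarith
  · have := TS_triangle h0 hax hxy; linarith

lemma T_lip (z x y : V) : |T t z x - T t z y| ≤ T t x y := by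
  simp only [T_eq_TS]; exact TS_lip h0 (connIn_univ z x) (connIn_univ x y)

lemma TS_le_wt (h : Adj x y) (he : edgeOf x y ∈ S) : TS t S x y ≤ wt t x y := by
  simpa using TS_le h0 (p := (.cons (show grid.Adj x y from h) .nil : grid.Walk x y))
    (by simp [he, walkIn_nil])

lemma T_le_wt (h : Adj x y) : T t x y ≤ wt t x y := by
  rw [T_eq_TS]; exact TS_le_wt h0 h trivial

end passage

lemma T_le_l1 {t : Conf} {M : ℝ} (h : InRange M t) (x y : V) :
    T t x y ≤ M * ((|x.1 - y.1| + |x.2 - y.2| : ℤ) : ℝ) := by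
  obtain ⟨p, hp⟩ := exists_walk_l1 x y
  refine (T_le (fun e => (h e).1) p).trans ((plen_le_of_range h p).trans (le_of_eq ?_))
  rw [← hp]; norm_cast

lemma abs_T_sub_le {t : Conf} {M : ℝ} (h : InRange M t) (z x y : V) :
    |T t z x - T t z y| ≤ M * ((|x.1 - y.1| + |x.2 - y.2| : ℤ) : ℝ) :=
  (T_lip (fun e => (h e).1) z x y).trans (T_le_l1 h x y)

section good
variable {M κ : ℝ} {t : Conf} {S : Set Edge} {x y : V}

lemma InRange.nonneg (h : InRange M t) (e : Edge) : 0 ≤ t e := (h e).1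

lemma Good.nonneg (h : Good M κ t) (e : Edge) : 0 ≤ t e := (h.pos e).le

/-- The infimum is attained by a self-avoiding walk. -/
lemma exists_geodesic_of_lenBound (h0 : ∀ e, 0 ≤ t e) (hκ : 0 < κ) (hl : LenBound κ t)
    (hc : ConnIn S x y) :
    ∃ p : grid.Walk x y, p.IsPath ∧ WalkIn S p ∧ plen t p = TS t S x y := by
  obtain ⟨p0, hp0⟩ := hc
  obtain ⟨N, hN⟩ := eventually_atTop.1 (hl x)
  set A := {p : grid.Walk x y | p.IsPath ∧ WalkIn S p ∧ plen t p ≤ plen t p0} with hA
  have hfin : A.Finite := by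
    refine ((finite_walks_le (max N ⌈plen t p0 / κ⌉₊) x).preimage
      (Function.Injective.injOn (f := fun p : grid.Walk x y => (⟨y, p⟩ : Σ z, grid.Walk x z))
        sigma_mk_injective)).subset ?_
    rintro p ⟨hp, -, hle⟩
    simp only [Set.mem_preimage, Set.mem_setOf_eq]
    rcases le_or_gt p.length N with h | h
    · exact h.trans (le_max_left _ _)
    · refine le_trans ?_ (le_max_right _ _)
      have h2 := (hN p.length h.le y p hp rfl).trans hle
      have h3 : (p.length : ℝ) ≤ plen t p0 / κ := by rw [le_div_iff₀ hκ]; linarith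
      exact_mod_cast h3.trans (Nat.le_ceil _)
  have hne : A.Nonempty := ⟨p0.bypass, p0.bypass_isPath, hp0.bypass, plen_bypass_le h0 p0⟩
  obtain ⟨p, ⟨hp1, hp2, hp3⟩, hmin⟩ := Set.exists_min_image A (plen t) hfin hne
  refine ⟨p, hp1, hp2, le_antisymm (le_TS ⟨p0, hp0⟩ fun q hq => ?_) (TS_le h0 hp2)⟩
  rcases le_or_gt (plen t q.bypass) (plen t p0) with h | h
  · exact (hmin _ ⟨q.bypass_isPath, hq.bypass, h⟩).trans (plen_bypass_le h0 q)
  · exact hp3.trans (h.le.trans (plen_bypass_le h0 q))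

lemma Good.exists_geodesic (h : Good M κ t) (hκ : 0 < κ) (hc : ConnIn S x y) :
    ∃ p : grid.Walk x y, p.IsPath ∧ WalkIn S p ∧ plen t p = TS t S x y :=
  exists_geodesic_of_lenBound h.nonneg hκ h.lenBound hc

lemma Good.exists_geodesic_univ (h : Good M κ t) (hκ : 0 < κ) (x y : V) :
    ∃ p : grid.Walk x y, p.IsPath ∧ plen t p = T t x y := by
  obtain ⟨p, h1, -, h3⟩ := h.exists_geodesic hκ (connIn_univ x y)
  exact ⟨p, h1, h3.trans (T_eq_TS t x y).symm⟩

/-- A walk that achieves the infimum is self-avoiding when all weights are positive. -/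
lemma isPath_of_plen_le (hpos : ∀ e, 0 < t e) {p : grid.Walk x y} (hp : WalkIn S p)
    (h : plen t p ≤ TS t S x y) : p.IsPath := by
  by_contra hn
  linarith [plen_bypass_lt hpos hn, TS_le (fun e => (hpos e).le) hp.bypass]

/-- Geodesics inside an edge set are unique. -/
lemma geodesic_unique (hpos : ∀ e, 0 < t e) (htf : TieFree t) {p q : grid.Walk x y}
    (hp : WalkIn S p) (hq : WalkIn S q) (h1 : plen t p ≤ TS t S x y)
    (h2 : plen t q ≤ TS t S x y) : p = q := by
  refine htf x y p q (isPath_of_plen_le hpos hp h1) (isPath_of_plen_le hpos hq h2) ?_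
  linarith [TS_le (fun e => (hpos e).le) hp, TS_le (fun e => (hpos e).le) hq]

lemma Good.unique (h : Good M κ t) {p q : grid.Walk x y} (hp : WalkIn S p) (hq : WalkIn S q)
    (h1 : plen t p = TS t S x y) (h2 : plen t q = TS t S x y) : p = q :=
  geodesic_unique h.pos h.tieFree hp hq h1.le h2.le

/-- The two parts of a geodesic are geodesics. -/
lemma TS_append_eq (h0 : ∀ e, 0 ≤ t e) {z : V} {p : grid.Walk x y} {q : grid.Walk y z}
    (hp : WalkIn S p) (hq : WalkIn S q) (h : plen t (p.append q) = TS t S x z) :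
    plen t p = TS t S x y ∧ plen t q = TS t S y z := by
  rw [plen_append] at h
  have := TS_triangle h0 ⟨p, hp⟩ ⟨q, hq⟩
  have := TS_le h0 hp
  have := TS_le h0 hq
  exact ⟨by linarith, by linarith⟩

end good

section sequences
variable {t : Conf}

lemma rlen_zero (r : ℕ → V) : rlen t r 0 = 0 := by simp [rlen]

lemma rlen_succ (r : ℕ → V) (n : ℕ) :
    rlen t r (n + 1) = rlen t r n + wt t (r n) (r (n + 1)) := Finset.sum_range_succ _ _

lemma rlen_mono (h0 : ∀ e, 0 ≤ t e) (r : ℕ → V) : Monotone (rlen t r) :=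
  monotone_nat_of_le_succ fun n => by
    rw [rlen_succ]; exact le_add_of_nonneg_right (h0 _)

/-- The piece of a one-sided path between two indices, as a walk. -/
lemma exists_segment {r : ℕ → V} (hadj : ∀ i, Adj (r i) (r (i + 1))) {i j : ℕ} (hij : i ≤ j) :
    ∃ p : grid.Walk (r i) (r j), p.length = j - i ∧ plen t p = rlen t r j - rlen t r i ∧
      p.support = (List.range (j - i + 1)).map (fun m => r (i + m)) ∧
      (Function.Injective r → p.IsPath) ∧
      (∀ S : Set Edge, (∀ m, i ≤ m → m < j → edgeOf (r m) (r (m + 1)) ∈ S) → WalkIn S p) := by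
  obtain ⟨d, rfl⟩ := Nat.exists_eq_add_of_le hij
  simp only [Nat.add_sub_cancel_left]
  clear hij
  induction d with
  | zero => exact ⟨.nil, rfl, by simp, by simp, fun _ => .nil, fun _ _ => walkIn_nil⟩
  | succ d ih =>
    obtain ⟨p, hl, hw, hs, -, hS⟩ := ih
    have ha : grid.Adj (r (i + d)) (r (i + (d + 1))) := hadj (i + d)
    have hsup : (p.concat ha).support
        = (List.range (d + 1 + 1)).map (fun m => r (i + m)) := by
      rw [SimpleGraph.Walk.support_concat, hs, List.range_succ (n := d + 1)]; simp [add_assoc]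
    refine ⟨p.concat ha, by simp [hl], ?_, hsup, fun hinj => ?_, fun S h => ?_⟩
    · rw [plen_concat, hw, show i + (d + 1) = i + d + 1 from rfl, rlen_succ]; ring
    · rw [SimpleGraph.Walk.isPath_def, hsup]
      exact List.nodup_range.map fun a b hab => by simpa using hinj hab
    · rw [SimpleGraph.Walk.concat_eq_append, walkIn_append_iff]
      refine ⟨hS S fun m h1 h2 => h m h1 (by omega), ?_⟩
      simpa [walkIn_nil, add_assoc] using h (i + d) (by omega) (by omega)

lemma IsBigeodesic.sum_eq_T (h0 : ∀ e, 0 ≤ t e) {γ : ℤ → V} (hγ : IsBigeodesic t γ) {i j : ℤ}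
    (hij : i ≤ j) : ∑ k ∈ Finset.Ico i j, wt t (γ k) (γ (k + 1)) = T t (γ i) (γ j) := by
  rcases hij.eq_or_lt with rfl | h
  · simp [T_self h0]
  · exact hγ.geo i j h

lemma fwd_adj {γ : ℤ → V} (hγ : IsBigeodesic t γ) (i : ℤ) (n : ℕ) :
    Adj (fwd γ i n) (fwd γ i (n + 1)) := by
  simpa [fwd, add_assoc] using hγ.adj (i + n)

lemma bwd_adj {γ : ℤ → V} (hγ : IsBigeodesic t γ) (i : ℤ) (n : ℕ) :
    Adj (bwd γ i n) (bwd γ i (n + 1)) := by
  have h := (hγ.adj (i - (n + 1 : ℕ))).symm
  rw [show i - ((n + 1 : ℕ) : ℤ) + 1 = i - n by push_cast; ring] at h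
  exact h

lemma fwd_injective {γ : ℤ → V} (hγ : IsBigeodesic t γ) (i : ℤ) :
    Function.Injective (fwd γ i) := fun a b h => by simpa using hγ.inj h

lemma bwd_injective {γ : ℤ → V} (hγ : IsBigeodesic t γ) (i : ℤ) :
    Function.Injective (bwd γ i) := fun a b h => by simpa using hγ.inj h

lemma rlen_fwd_eq_T (h0 : ∀ e, 0 ≤ t e) {γ : ℤ → V} (hγ : IsBigeodesic t γ) (i : ℤ) (n : ℕ) :
    rlen t (fwd γ i) n = T t (γ i) (γ (i + n)) := by
  rw [← hγ.sum_eq_T h0 (by omega : i ≤ i + n)]
  induction n with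
  | zero => simp [rlen]
  | succ n ih =>
    rw [rlen_succ, ih, show i + ((n + 1 : ℕ) : ℤ) = i + n + 1 by push_cast; ring,
      ← Finset.insert_Ico_right_eq_Ico_add_one (by omega : i ≤ i + n),
      Finset.sum_insert (by simp)]
    simp only [fwd, Nat.cast_add, Nat.cast_one, ← add_assoc]
    ring

lemma rlen_bwd_eq_T (h0 : ∀ e, 0 ≤ t e) {γ : ℤ → V} (hγ : IsBigeodesic t γ) (i : ℤ) (n : ℕ) :
    rlen t (bwd γ i) n = T t (γ (i - n)) (γ i) := by
  rw [← hγ.sum_eq_T h0 (by omega : i - n ≤ i)]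
  induction n with
  | zero => simp [rlen]
  | succ n ih =>
    rw [rlen_succ, ih, show (i - ((n + 1 : ℕ) : ℤ)) = i - n - 1 by push_cast; ring]
    rw [← Finset.insert_Ico_left_eq_Ico_sub_one (by omega : i - n ≤ i),
      Finset.sum_insert (by simp)]
    simp only [bwd]
    rw [show i - ((n + 1 : ℕ) : ℤ) = i - n - 1 by push_cast; ring, sub_add_cancel, wt_comm]
    ring

end sequences

end Vale.Agent.P158
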