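import Vale.Agent.P158.Basic
import Vale.Agent.P158.Gen.Law

/-!
Almost sure properties of the weights: range, positivity, absence of ties, and counting of
self-avoiding walks with many edges in a set of small probability.
-/

open MeasureTheory ProbabilityTheory Filter Topology
open scoped ENNReal

namespace Vale.Agent.P158

/-- The edges traversed by a walk. -/
def edgeList {x y : V} (p : grid.Walk x y) : List Edge :=
  p.darts.map fun d => edgeOf d.toProd.1 d.toProd.2

/-- The number of traversed edges with weight in `B`. -/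
noncomputable def hitCount (B : Set ℝ) (t : Conf) {x y : V} (p : grid.Walk x y) : ℕ :=
  open Classical in (edgeList p).countP fun e => decide (t e ∈ B)

section lists
variable {x y z : V}

@[simp] lemma edgeList_nil : edgeList (.nil : grid.Walk x x) = [] := rfl

@[simp] lemma edgeList_cons (h : grid.Adj x y) (p : grid.Walk y z) :
    edgeList (.cons h p) = edgeOf x y :: edgeList p := rfl

lemma plen_eq_edgeSum (t : Conf) (p : grid.Walk x y) : plen t p = ((edgeList p).map t).sum := by
  induction p with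
  | nil => simp
  | cons h q ih => simp [ih, wt]

lemma length_edgeList (p : grid.Walk x y) : (edgeList p).length = p.length := by simp [edgeList]

lemma edgeList_nodup {p : grid.Walk x y} (hp : p.IsPath) : (edgeList p).Nodup := by
  have h : (p.darts.map SimpleGraph.Dart.edge).Nodup := hp.isTrail.edges_nodup
  refine List.Nodup.map_on (fun d hd d' hd' he => ?_) h.of_map
  refine List.inj_on_of_nodup_map h hd hd' ?_
  simp only [SimpleGraph.Dart.edge]
  rcases (edgeOf_eq_iff d.adj d'.adj).1 he with ⟨a, b⟩ | ⟨a, b⟩ <;> simp [a, b, Sym2.eq_swap]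

lemma mem_support_of_mem_edgeList {p : grid.Walk x y} {u v : V} (huv : Adj u v)
    (h : edgeOf u v ∈ edgeList p) : u ∈ p.support := by
  simp only [edgeList, List.mem_map] at h
  obtain ⟨d, hd, he⟩ := h
  rcases (edgeOf_eq_iff d.adj huv).1 he with ⟨a, -⟩ | ⟨-, b⟩
  · exact a ▸ p.dart_fst_mem_support_of_mem_darts hd
  · exact b ▸ p.dart_snd_mem_support_of_mem_darts hd

lemma plen_ge_low {r : ℝ} {t : Conf} (h0 : ∀ e, 0 ≤ t e) (p : grid.Walk x y) :
    r * ((p.length : ℝ) - hitCount (Set.Iio r) t p) ≤ plen t p := by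
  classical
  rw [plen_eq_edgeSum, ← length_edgeList, hitCount]
  generalize edgeList p = l
  induction l with
  | nil => simp
  | cons e l ih =>
    simp only [List.length_cons, List.map_cons, List.sum_cons, List.countP_cons, Set.mem_Iio]
    by_cases he : t e < r
    · simp only [he, decide_true, if_true]
      push_cast
      simp only [Set.mem_Iio] at ih
      linarith [h0 e]
    · simp only [he, decide_false, Bool.false_eq_true, if_false, add_zero]
      push_cast
      simp only [Set.mem_Iio] at ih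
      linarith [not_lt.1 he]

end lists

section law
variable {G : Measure ℝ}

lemma law_isProbG (hG : LawGen G) : IsProbabilityMeasure (law G) := by
  have := hG.prob; unfold law; infer_instance

lemma law_evalG (hG : LawGen G) (e : Edge) : (law G).map (fun t => t e) = G := by
  have := hG.prob; exact Measure.infinitePi_map_eval _ e

lemma law_preimageG (hG : LawGen G) (e : Edge) {s : Set ℝ} (hs : MeasurableSet s) :
    law G {t | t e ∈ s} = G s := by
  conv_rhs => rw [← law_evalG hG e, Measure.map_apply (measurable_pi_apply e) hs]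
  rfl

/-- The weights of different edges are independent. -/
lemma law_iIndepG (hG : LawGen G) : iIndepFun (fun e : Edge => fun t : Conf => t e) (law G) := by
  have := hG.prob
  exact iIndepFun_infinitePi (P := fun _ : Edge => G) (X := fun _ x => x) fun _ => measurable_id

lemma law_forall_memG (hG : LawGen G) (F : Finset Edge) {B : Set ℝ} (hB : MeasurableSet B) :
    law G {t | ∀ e ∈ F, t e ∈ B} = G B ^ F.card := by
  have := hG.prob
  have h := Measure.infinitePi_pi (μ := fun _ : Edge => G) (s := F) (t := fun _ => B)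
    fun _ _ => hB
  rw [Finset.prod_const] at h
  rw [← h]; congr 1

lemma law_ae_nonnegG (hG : LawGen G) : ∀ᵐ t ∂law G, ∀ e, 0 ≤ t e := by
  have := hG.prob
  refine ae_all_iff.2 fun e => ?_
  rw [ae_iff]
  exact (law_preimageG hG e measurableSet_Ici.compl).trans
    ((prob_compl_eq_zero_iff measurableSet_Ici).2 hG.supp)

lemma ae_posG (hG : LawGen G) : ∀ᵐ t ∂law G, ∀ e, 0 < t e := by
  have h0 : ∀ e : Edge, ∀ᵐ t ∂law G, t e ≠ 0 := fun e => by
    rw [ae_iff]
    simp only [ne_eq, not_not]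
    exact (law_preimageG hG e (measurableSet_singleton 0)).trans (hG.noAtoms 0)
  filter_upwards [law_ae_nonnegG hG, ae_all_iff.2 h0] with t ht hn e
  exact lt_of_le_of_ne (ht e) (hn e).symm

/-- Two different self-avoiding walks with the same ends differ in one edge weight. -/
lemma exists_tie_edge {x y : V} (p q : grid.Walk x y) (hp : p.IsPath) (hq : q.IsPath)
    (hne : p ≠ q) : ∃ (e : Edge) (l₁ l₂ : List Edge), e ∉ l₁ ∧ e ∉ l₂ ∧
      ∀ t : Conf, plen t p = plen t q → t e = (l₂.map t).sum - (l₁.map t).sum := by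
  induction p with
  | nil => exact absurd (SimpleGraph.Walk.isPath_iff_eq_nil.1 hq).symm hne
  | @cons u v w h p ih =>
    cases q with
    | nil => simp at hp
    | @cons _ v' _ h' q =>
      rw [SimpleGraph.Walk.cons_isPath_iff] at hp hq
      by_cases hv : v = v'
      · subst hv
        obtain ⟨e, l₁, l₂, h1, h2, h3⟩ := ih q hp.1 hq.1 fun he => hne (by rw [he])
        exact ⟨e, l₁, l₂, h1, h2, fun t ht => h3 t (by simpa using ht)⟩
      · refine ⟨edgeOf u v, edgeList p, edgeList (.cons h' q),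
          fun hm => hp.2 (mem_support_of_mem_edgeList h hm), ?_, fun t ht => ?_⟩
        · rw [edgeList_cons, List.mem_cons]
          rintro (he | hm)
          · rcases (edgeOf_eq_iff h h').1 he with ⟨-, a⟩ | ⟨a, b⟩
            · exact hv a
            · exact (Adj.ne h) b.symm
          · exact hq.2 (mem_support_of_mem_edgeList h hm)
        · rw [← plen_eq_edgeSum, ← plen_eq_edgeSum, ← ht, plen_cons]
          simp [wt]

lemma tie_nullG (hG : LawGen G) {e : Edge} {l₁ l₂ : List Edge} (h1 : e ∉ l₁) (h2 : e ∉ l₂) :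
    law G {t | t e = (l₂.map t).sum - (l₁.map t).sum} = 0 := by
  classical
  have := hG.prob
  have := law_isProbG hG
  set s : Finset Edge := (l₁ ++ l₂).toFinset with hs
  have hes : e ∉ s := by simp [hs, h1, h2]
  set φ : (s → ℝ) → ℝ := fun v =>
    (l₂.map fun a => if h : a ∈ s then v ⟨a, h⟩ else 0).sum
      - (l₁.map fun a => if h : a ∈ s then v ⟨a, h⟩ else 0).sum with hφ
  have hφm : Measurable φ := by
    have hl : ∀ l : List Edge,
        Measurable fun v : s → ℝ => (l.map fun a => if h : a ∈ s then v ⟨a, h⟩ else 0).sum := by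
      intro l
      induction l with
      | nil => simp
      | cons a l ih =>
        simp only [List.map_cons, List.sum_cons]
        by_cases h : a ∈ s
        · simp only [h, dif_pos]; exact (measurable_pi_apply _).add ih
        · simpa only [h, dif_neg, not_false_eq_true, zero_add] using ih
    exact (hl l₂).sub (hl l₁)
  have hφe : ∀ t : Conf, φ (fun i : s => t i) = (l₂.map t).sum - (l₁.map t).sum := by
    intro t
    simp only [hφ]
    congr 2 <;> refine List.map_congr_left fun a ha => ?_ <;>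
      rw [dif_pos (show a ∈ s by simp [hs, ha])]
  have hind : IndepFun (fun t : Conf => t e) (fun t : Conf => φ (fun i : s => t i)) (law G) := by
    have h := (law_iIndepG hG).indepFun_finset ({e} : Finset Edge) s
      (Finset.disjoint_singleton_left.2 hes) fun i => measurable_pi_apply i
    exact h.comp (φ := fun v : ({e} : Finset Edge) → ℝ => v ⟨e, Finset.mem_singleton_self e⟩)
      (measurable_pi_apply _) hφm
  have hFm : Measurable fun t : Conf => φ (fun i : s => t i) :=
    Measurable.comp hφm (f := fun (t : Conf) (i : s) => t i)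
      (measurable_pi_lambda _ fun i => measurable_pi_apply _)
  have hD : MeasurableSet {q : ℝ × ℝ | q.1 = q.2} := measurableSet_eq_fun measurable_fst
    measurable_snd
  have hmap := (indepFun_iff_map_prod_eq_prod_map_map (measurable_pi_apply e).aemeasurable
    hFm.aemeasurable).1 hind
  rw [law_evalG hG e] at hmap
  have hz : law G {t | t e = φ (fun i : s => t i)} = 0 := by
    have h := Measure.map_apply ((measurable_pi_apply e).prodMk hFm) hD (μ := law G)
    rw [hmap, Measure.prod_apply_symm hD] at h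
    refine h.symm.trans ((lintegral_congr fun b => ?_).trans lintegral_zero)
    exact (congrArg G (Set.ext fun a => by simp)).trans (hG.noAtoms b)
  simpa only [hφe] using hz

lemma ae_tieFreeG (hG : LawGen G) : ∀ᵐ t ∂law G, TieFree t := by
  have : ∀ x y : V, Countable (grid.Walk x y) := fun x y => by
    have hs : (⋃ n : ℕ, {q : Σ z, grid.Walk x z | q.2.length ≤ n}).Countable :=
      Set.countable_iUnion fun n => (finite_walks_le n x).countable
    have : Countable (Σ z, grid.Walk x z) := by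
      rw [← Set.countable_univ_iff]
      exact hs.mono fun q _ => Set.mem_iUnion.2 ⟨q.2.length, le_refl q.2.length⟩
    exact (sigma_mk_injective (β := fun z => grid.Walk x z) (i := y)).countable
  refine ae_all_iff.2 fun x => ae_all_iff.2 fun y => ae_all_iff.2 fun p => ae_all_iff.2 fun q => ?_
  by_cases h : p.IsPath ∧ q.IsPath ∧ p ≠ q
  · obtain ⟨e, l₁, l₂, h1, h2, h3⟩ := exists_tie_edge p q h.1 h.2.1 h.2.2
    have hn : ∀ᵐ t ∂law G, t e ≠ (l₂.map t).sum - (l₁.map t).sum := by
      rw [ae_iff]; simpa only [ne_eq, not_not] using tie_nullG hG h1 h2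
    filter_upwards [hn] with t ht _ _ he
    exact absurd (h3 t he) ht
  · filter_upwards with t hp hq _
    exact not_not.1 fun hne => h ⟨hp, hq, hne⟩

end law

section counting
variable {G : Measure ℝ}

/-- All walks of length `n` from `x`. -/
noncomputable def walksFrom : ℕ → ∀ x : V, Finset (Σ y, grid.Walk x y)
  | 0, x => {⟨x, .nil⟩}
  | n + 1, x => open Classical in (nbrs x).attach.biUnion fun z =>
      (walksFrom n z.1).image fun q =>
        ⟨q.1, .cons (show grid.Adj x z.1 from mem_nbrs.1 z.2) q.2⟩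

lemma card_walksFrom : ∀ (n : ℕ) (x : V), (walksFrom n x).card ≤ 4 ^ n
  | 0, x => by simp [walksFrom]
  | n + 1, x => by
    classical
    rw [walksFrom]
    refine Finset.card_biUnion_le.trans ((Finset.sum_le_card_nsmul _ _ (4 ^ n) fun z _ =>
      Finset.card_image_le.trans (card_walksFrom n z.1)).trans ?_)
    rw [Finset.card_attach, smul_eq_mul, pow_succ']
    exact Nat.mul_le_mul_right _ (card_nbrs_le x)

lemma mem_walksFrom : ∀ {x y : V} (p : grid.Walk x y),
    (⟨y, p⟩ : Σ z, grid.Walk x z) ∈ walksFrom p.length x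
  | _, _, .nil => by simp [walksFrom]
  | _, _, .cons (v := v) h p => by
    classical
    rw [SimpleGraph.Walk.length_cons, walksFrom]
    exact Finset.mem_biUnion.2 ⟨⟨v, mem_nbrs.2 h⟩, Finset.mem_attach _ _,
      Finset.mem_image.2 ⟨_, mem_walksFrom p, rfl⟩⟩

lemma length_of_mem_walksFrom : ∀ (n : ℕ) (x : V) (q : Σ y, grid.Walk x y),
    q ∈ walksFrom n x → q.2.length = n
  | 0, x, q, hq => by
    simp only [walksFrom, Finset.mem_singleton] at hq; subst hq; rfl
  | n + 1, x, q, hq => by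
    simp only [walksFrom, Finset.mem_biUnion, Finset.mem_image] at hq
    obtain ⟨z, -, q', hq', rfl⟩ := hq
    simp [length_of_mem_walksFrom n _ q' hq']

/-- Exponential bound for self-avoiding walks with a positive share of edges in a small set. -/
lemma hitCount_probG (hG : LawGen G) {θ : ℝ} (hθ : 0 < θ) : ∃ δ : ℝ, 0 < δ ∧
    ∀ B, MeasurableSet B → G B ≤ ENNReal.ofReal δ → ∀ (x : V) (n : ℕ),
      law G {t | ∃ y, ∃ p : grid.Walk x y, p.IsPath ∧ p.length = n ∧ θ * n < hitCount B t p}
        ≤ ENNReal.ofReal ((1 / 2) ^ n) := by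
  classical
  have := hG.prob
  obtain ⟨m, hm⟩ := exists_nat_gt (1 / θ)
  refine ⟨(1 / 16) ^ m, by positivity, fun B hB hδ x n => ?_⟩
  have hm' : 1 ≤ (m : ℝ) * θ := ((div_lt_iff₀ hθ).1 hm).le
  set W := (walksFrom n x).filter fun q => q.2.IsPath with hW
  set Fs : (Σ y, grid.Walk x y) → Finset (Finset Edge) := fun q =>
    (edgeList q.2).toFinset.powerset.filter fun F : Finset Edge => θ * (n : ℝ) < (F.card : ℝ)
    with hFs
  have hsub : {t : Conf | ∃ y, ∃ p : grid.Walk x y,
      p.IsPath ∧ p.length = n ∧ θ * n < hitCount B t p} ⊆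
      ⋃ q ∈ W, ⋃ F ∈ Fs q, {t | ∀ e ∈ F, t e ∈ B} := by
    rintro t ⟨y, p, hp, rfl, hc⟩
    refine Set.mem_iUnion₂.2 ⟨⟨y, p⟩, by simp [hW, hp, mem_walksFrom p], Set.mem_iUnion₂.2
      ⟨(edgeList p).toFinset.filter fun e => t e ∈ B, ?_, fun e he => (Finset.mem_filter.1 he).2⟩⟩
    have e1 : (((edgeList p).toFinset.filter fun e => t e ∈ B).card : ℝ) = hitCount B t p := by
      rw [hitCount, List.countP_eq_length_filter,
        ← List.toFinset_card_of_nodup ((edgeList_nodup hp).filter _), List.toFinset_filter]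
      simp
    simp only [hFs, Finset.mem_filter, Finset.mem_powerset]
    exact ⟨Finset.filter_subset _ _, by rw [e1]; exact hc⟩
  have hone : ∀ q ∈ W, ∀ F ∈ Fs q,
      law G {t | ∀ e ∈ F, t e ∈ B} ≤ ENNReal.ofReal ((1 / 16) ^ n) := by
    intro q _ F hF
    simp only [hFs, Finset.mem_filter, Finset.mem_powerset] at hF
    rw [law_forall_memG hG F hB]
    refine (pow_le_pow_left' hδ _).trans ?_
    rw [← ENNReal.ofReal_pow (by positivity), ← pow_mul]
    refine ENNReal.ofReal_le_ofReal (pow_le_pow_of_le_one (by norm_num) (by norm_num) ?_)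
    have : (n : ℝ) ≤ (m : ℝ) * F.card := by
      calc (n : ℝ) ≤ (m : ℝ) * θ * n := le_mul_of_one_le_left (Nat.cast_nonneg _) hm'
        _ = (m : ℝ) * (θ * n) := by ring
        _ ≤ _ := mul_le_mul_of_nonneg_left hF.2.le (Nat.cast_nonneg _)
    exact_mod_cast this
  have hcard : ∀ q ∈ W, (Fs q).card ≤ 2 ^ n := by
    intro q hq
    refine (Finset.card_filter_le _ _).trans ?_
    rw [Finset.card_powerset]
    refine Nat.pow_le_pow_right two_pos ((List.toFinset_card_le _).trans (le_of_eq ?_))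
    rw [length_edgeList]
    exact length_of_mem_walksFrom n x q (Finset.mem_filter.1 hq).1
  calc _ ≤ law G (⋃ q ∈ W, ⋃ F ∈ Fs q, {t | ∀ e ∈ F, t e ∈ B}) := measure_mono hsub
    _ ≤ ∑ q ∈ W, law G (⋃ F ∈ Fs q, {t | ∀ e ∈ F, t e ∈ B}) := measure_biUnion_finset_le _ _
    _ ≤ ∑ q ∈ W, ∑ _F ∈ Fs q, ENNReal.ofReal ((1 / 16) ^ n) :=
      Finset.sum_le_sum fun q hq => (measure_biUnion_finset_le _ _).trans
        (Finset.sum_le_sum (hone q hq))
    _ ≤ W.card • ((2 ^ n : ℕ) • ENNReal.ofReal ((1 / 16) ^ n)) :=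
      Finset.sum_le_card_nsmul _ _ _ fun q hq => by
        rw [Finset.sum_const]; exact nsmul_le_nsmul_left zero_le (hcard q hq)
    _ ≤ (4 ^ n) • ((2 ^ n : ℕ) • ENNReal.ofReal ((1 / 16) ^ n)) :=
      nsmul_le_nsmul_left zero_le ((Finset.card_filter_le _ _).trans (card_walksFrom n x))
    _ = _ := by
      rw [nsmul_eq_mul, nsmul_eq_mul, ← ENNReal.ofReal_natCast, ← ENNReal.ofReal_natCast (2 ^ n),
        ← ENNReal.ofReal_mul (Nat.cast_nonneg _), ← ENNReal.ofReal_mul (Nat.cast_nonneg _)]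
      push_cast
      rw [← mul_assoc, ← mul_pow, ← mul_pow]
      norm_num

/-- Almost surely, long self-avoiding walks have few edges with weight in a small set. -/
lemma ae_hitCountG (hG : LawGen G) {θ : ℝ} (hθ : 0 < θ) : ∃ δ : ℝ, 0 < δ ∧
    ∀ B, MeasurableSet B → G B ≤ ENNReal.ofReal δ → ∀ᵐ t ∂law G, ∀ x : V, ∀ᶠ n : ℕ in atTop,
      ∀ (y : V) (p : grid.Walk x y), p.IsPath → p.length = n → (hitCount B t p : ℝ) ≤ θ * n := by
  obtain ⟨δ, hδ, h⟩ := hitCount_probG hG hθ
  refine ⟨δ, hδ, fun B hB hle => ae_all_iff.2 fun x => ?_⟩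
  have hsum : ∑' n : ℕ, law G {t | ∃ y, ∃ p : grid.Walk x y,
      p.IsPath ∧ p.length = n ∧ θ * n < hitCount B t p} ≠ ∞ := by
    refine ne_top_of_le_ne_top ?_ (ENNReal.tsum_le_tsum fun n => h B hB hle x n)
    rw [← ENNReal.ofReal_tsum_of_nonneg (fun n => by positivity)
      (summable_geometric_of_lt_one (by norm_num) (by norm_num))]
    exact ENNReal.ofReal_ne_top
  filter_upwards [ae_eventually_notMem hsum] with t ht
  filter_upwards [ht] with n hn y p hp hl
  exact not_lt.1 fun hlt => hn ⟨y, p, hp, hl, hlt⟩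

/-- Small sets near the lower end of the support. -/
lemma exists_small_lowG (hG : LawGen G) {δ : ℝ} (hδ : 0 < δ) :
    ∃ r : ℝ, 0 < r ∧ 0 < G (Set.Iio r) ∧ G (Set.Iio r) ≤ ENNReal.ofReal δ := by
  have := hG.prob
  have hIcc : G (Set.Ici 0)ᶜ = 0 := (prob_compl_eq_zero_iff measurableSet_Ici).2 hG.supp
  set S := {r : ℝ | G (Set.Iic r) = 0} with hS
  have h0 : (0 : ℝ) ∈ S := by
    refine le_antisymm ?_ zero_le
    calc G (Set.Iic 0) ≤ G ((Set.Ici 0)ᶜ ∪ {0}) := measure_mono fun a (ha : a ≤ 0) => by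
            rcases ha.eq_or_lt with h | h
            · exact Or.inr h
            · exact Or.inl fun hc => (not_le_of_gt h) hc
      _ ≤ G (Set.Ici 0)ᶜ + G {0} := measure_union_le _ _
      _ = 0 := by rw [hIcc, hG.noAtoms, add_zero]
  have hbd : BddAbove S := by
    obtain ⟨k, hk⟩ : ∃ k : ℕ, G (Set.Iic (k : ℝ)) ≠ 0 := by
      by_contra! hc
      refine one_ne_zero (α := ℝ≥0∞) ?_
      rw [← measure_univ (μ := G)]
      refine measure_mono_null (fun x _ => ?_) (measure_iUnion_null hc)
      obtain ⟨k, hk⟩ := exists_nat_ge x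
      exact Set.mem_iUnion.2 ⟨k, hk⟩
    exact ⟨k, fun r (hr : G (Set.Iic r) = 0) => le_of_not_gt fun hlt =>
      hk (measure_mono_null (Set.Iic_subset_Iic.2 hlt.le) hr)⟩
  set a := sSup S
  have ha0 : 0 ≤ a := le_csSup hbd h0
  have hlt : ∀ b < a, G (Set.Iic b) = 0 := fun b hb => by
    obtain ⟨s, hs, hbs⟩ := exists_lt_of_lt_csSup ⟨0, h0⟩ hb
    exact measure_mono_null (Set.Iic_subset_Iic.2 hbs.le) hs
  have hIio : G (Set.Iio a) = 0 := by
    have e : Set.Iio a = ⋃ k : ℕ, Set.Iic (a - 1 / (k + 1)) := by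
      ext b
      simp only [Set.mem_Iio, Set.mem_iUnion, Set.mem_Iic]
      refine ⟨fun hb => ?_, fun ⟨k, hk⟩ => ?_⟩
      · obtain ⟨k, hk⟩ := exists_nat_one_div_lt (sub_pos.2 hb)
        exact ⟨k, by linarith⟩
      · have : (0 : ℝ) < 1 / (k + 1) := by positivity
        linarith
    rw [e]
    exact measure_iUnion_null fun k => hlt _ (by
      have : (0 : ℝ) < 1 / ((k : ℕ) + 1) := by positivity
      linarith)
  have hIic : G (Set.Iic a) = 0 := by
    rw [← Set.Iio_union_right]
    exact measure_union_null hIio (hG.noAtoms a)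
  have hpos : ∀ r, a < r → 0 < G (Set.Iio r) := fun r hr => by
    refine pos_iff_ne_zero.2 fun h => ?_
    have hm : (a + r) / 2 ∈ S :=
      measure_mono_null (Set.Iic_subset_Iio.2 (by linarith)) h
    linarith [le_csSup hbd hm]
  have hlim : Tendsto (fun k : ℕ => G (Set.Iio (a + 1 / (k + 1)))) atTop (𝓝 (G (Set.Iic a))) := by
    have e : Set.Iic a = ⋂ k : ℕ, Set.Iio (a + 1 / (k + 1)) := by
      ext b
      simp only [Set.mem_Iic, Set.mem_iInter, Set.mem_Iio]
      refine ⟨fun hb k => ?_, fun h => le_of_not_gt fun hb => ?_⟩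
      · have : (0 : ℝ) < 1 / (k + 1) := by positivity
        linarith
      · obtain ⟨k, hk⟩ := exists_nat_one_div_lt (sub_pos.2 hb)
        linarith [h k]
    rw [e]
    refine tendsto_measure_iInter_atTop (fun k => measurableSet_Iio.nullMeasurableSet)
      (fun i j hij => Set.Iio_subset_Iio ?_) ⟨0, measure_ne_top _ _⟩
    have : (i : ℝ) + 1 ≤ j + 1 := by exact_mod_cast Nat.add_le_add_right hij 1
    gcongr
  rw [hIic] at hlim
  obtain ⟨k, hk⟩ := (hlim.eventually_le_const (ENNReal.ofReal_pos.2 hδ)).exists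
  have : (0 : ℝ) < 1 / (k + 1) := by positivity
  exact ⟨a + 1 / (k + 1), by linarith, hpos _ (by linarith), hk⟩

/-- Exponential bound for cheap long self-avoiding walks. -/
lemma short_walk_probG (hG : LawGen G) : ∃ κ : ℝ, 0 < κ ∧ ∀ (x : V) (n : ℕ),
    law G {t | ∃ y, ∃ p : grid.Walk x y, p.IsPath ∧ p.length = n ∧ plen t p < κ * n}
      ≤ ENNReal.ofReal ((1 / 2) ^ n) := by
  obtain ⟨δ, hδ, h⟩ := hitCount_probG hG (θ := 1 / 2) (by norm_num)
  obtain ⟨r, hr, -, hle⟩ := exists_small_lowG hG hδ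
  refine ⟨r / 2, by linarith, fun x n => ?_⟩
  refine le_trans (measure_mono_ae ?_) (h _ measurableSet_Iio hle x n)
  filter_upwards [ae_posG hG] with t ht
  rintro ⟨y, p, hp, hl, hlt⟩
  refine ⟨y, p, hp, hl, ?_⟩
  have := plen_ge_low (r := r) (fun e => (ht e).le) p
  rw [hl] at this
  by_contra hc
  have := mul_le_mul_of_nonneg_left (not_lt.1 hc) hr.le
  linarith

/-- The real form of `short_walk_probG`. -/
lemma short_walk_prob_realG (hG : LawGen G) : ∃ κ : ℝ, 0 < κ ∧ ∀ (x : V) (n : ℕ),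
    (law G).real {t | ∃ y, ∃ p : grid.Walk x y, p.IsPath ∧ p.length = n ∧ plen t p < κ * n}
      ≤ (1 / 2) ^ n := by
  obtain ⟨κ, hκ, h⟩ := short_walk_probG hG
  exact ⟨κ, hκ, fun x n =>
    ENNReal.toReal_le_of_le_ofReal (by positivity) (h x n)⟩

/-- `short_walk_probG` in powers of `1 / 2` in `ℝ≥0∞`. -/
lemma short_walk_prob_powG (hG : LawGen G) : ∃ κ : ℝ, 0 < κ ∧ ∀ (x : V) (n : ℕ),
    law G {t | ∃ (y : V) (p : grid.Walk x y), p.IsPath ∧ p.length = n ∧ plen t p < κ * n}
      ≤ (1 / 2 : ℝ≥0∞) ^ n := by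
  obtain ⟨κ, hκ, h⟩ := short_walk_probG hG
  refine ⟨κ, hκ, fun x n => (h x n).trans (le_of_eq ?_)⟩
  rw [ENNReal.ofReal_pow (by norm_num)]
  norm_num [ENNReal.ofReal_div_of_pos]

lemma ae_lenBoundG (hG : LawGen G) : ∃ κ : ℝ, 0 < κ ∧ ∀ᵐ t ∂law G, LenBound κ t := by
  obtain ⟨δ, hδ, h⟩ := ae_hitCountG hG (θ := 1 / 2) (by norm_num)
  obtain ⟨r, hr, -, hle⟩ := exists_small_lowG hG hδ
  refine ⟨r / 2, by linarith, ?_⟩
  filter_upwards [h _ measurableSet_Iio hle, ae_posG hG] with t ht hpos x
  filter_upwards [ht x] with n hn y p hp hl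
  have := plen_ge_low (r := r) (fun e => (hpos e).le) p
  rw [hl] at this
  have := mul_le_mul_of_nonneg_left (hn y p hp hl) hr.le
  linarith

/-- Almost every configuration is good. -/
theorem exists_goodG (hG : LawGen G) : ∃ κ : ℝ, 0 < κ ∧ ∀ᵐ t ∂law G, GoodG κ t := by
  obtain ⟨κ, hκ, h⟩ := ae_lenBoundG hG
  refine ⟨κ, hκ, ?_⟩
  filter_upwards [h, ae_posG hG, ae_tieFreeG hG] with t a c d
  exact ⟨c, d, a⟩

/-- Almost surely, every long self-avoiding walk uses an edge outside a given small set. -/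
lemma ae_exists_notMemG (hG : LawGen G) : ∃ δ : ℝ, 0 < δ ∧
    ∀ B, MeasurableSet B → G B ≤ ENNReal.ofReal δ → ∀ᵐ t ∂law G, ∀ x : V, ∀ᶠ n : ℕ in atTop,
      ∀ (y : V) (p : grid.Walk x y), p.IsPath → p.length = n →
        ∃ d ∈ p.darts, wt t d.toProd.1 d.toProd.2 ∉ B := by
  classical
  obtain ⟨δ, hδ, h⟩ := ae_hitCountG hG (θ := 1 / 2) (by norm_num)
  refine ⟨δ, hδ, fun B hB hle => ?_⟩
  filter_upwards [h B hB hle] with t ht x
  filter_upwards [ht x, eventually_ge_atTop 1] with n hn h1 y p hp hl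
  by_contra hc
  push Not at hc
  have hall : hitCount B t p = n := by
    rw [hitCount, ← hl, ← length_edgeList, List.countP_eq_length]
    intro e he
    simp only [edgeList, List.mem_map] at he
    obtain ⟨d, hd, rfl⟩ := he
    simpa [wt] using hc d hd
  have := hn y p hp hl
  rw [hall] at this
  have : (1 : ℝ) ≤ n := by exact_mod_cast h1
  linarith

end counting

section bounded
variable {G : Measure ℝ} {M : ℝ}

lemma law_isProb (hG : LawOK G M) : IsProbabilityMeasure (law G) := law_isProbG hG.gen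

lemma law_eval (hG : LawOK G M) (e : Edge) : (law G).map (fun t => t e) = G := law_evalG hG.gen e

lemma law_preimage (hG : LawOK G M) (e : Edge) {s : Set ℝ} (hs : MeasurableSet s) :
    law G {t | t e ∈ s} = G s := law_preimageG hG.gen e hs

/-- The weights of different edges are independent. -/
lemma law_iIndep (hG : LawOK G M) : iIndepFun (fun e : Edge => fun t : Conf => t e) (law G) :=
  law_iIndepG hG.gen

lemma law_forall_mem (hG : LawOK G M) (F : Finset Edge) {B : Set ℝ} (hB : MeasurableSet B) :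
    law G {t | ∀ e ∈ F, t e ∈ B} = G B ^ F.card := law_forall_memG hG.gen F hB

lemma law_ae_inRange (hG : LawOK G M) : ∀ᵐ t ∂law G, InRange M t := by
  have := hG.prob
  refine ae_all_iff.2 fun e => ?_
  rw [ae_iff]
  exact (law_preimage hG e measurableSet_Icc.compl).trans
    ((prob_compl_eq_zero_iff measurableSet_Icc).2 hG.supp)

lemma ae_pos (hG : LawOK G M) : ∀ᵐ t ∂law G, ∀ e, 0 < t e := ae_posG hG.gen

lemma tie_null (hG : LawOK G M) {e : Edge} {l₁ l₂ : List Edge} (h1 : e ∉ l₁) (h2 : e ∉ l₂) :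
    law G {t | t e = (l₂.map t).sum - (l₁.map t).sum} = 0 := tie_nullG hG.gen h1 h2

lemma ae_tieFree (hG : LawOK G M) : ∀ᵐ t ∂law G, TieFree t := ae_tieFreeG hG.gen

/-- Exponential bound for self-avoiding walks with a positive share of edges in a small set. -/
lemma hitCount_prob (hG : LawOK G M) {θ : ℝ} (hθ : 0 < θ) : ∃ δ : ℝ, 0 < δ ∧
    ∀ B, MeasurableSet B → G B ≤ ENNReal.ofReal δ → ∀ (x : V) (n : ℕ),
      law G {t | ∃ y, ∃ p : grid.Walk x y, p.IsPath ∧ p.length = n ∧ θ * n < hitCount B t p}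
        ≤ ENNReal.ofReal ((1 / 2) ^ n) := hitCount_probG hG.gen hθ

/-- Almost surely, long self-avoiding walks have few edges with weight in a small set. -/
lemma ae_hitCount (hG : LawOK G M) {θ : ℝ} (hθ : 0 < θ) : ∃ δ : ℝ, 0 < δ ∧
    ∀ B, MeasurableSet B → G B ≤ ENNReal.ofReal δ → ∀ᵐ t ∂law G, ∀ x : V, ∀ᶠ n : ℕ in atTop,
      ∀ (y : V) (p : grid.Walk x y), p.IsPath → p.length = n → (hitCount B t p : ℝ) ≤ θ * n :=
  ae_hitCountG hG.gen hθ

/-- Small sets near the lower end of the support. -/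
lemma exists_small_low (hG : LawOK G M) {δ : ℝ} (hδ : 0 < δ) :
    ∃ r : ℝ, 0 < r ∧ 0 < G (Set.Iio r) ∧ G (Set.Iio r) ≤ ENNReal.ofReal δ :=
  exists_small_lowG hG.gen hδ

/-- Exponential bound for cheap long self-avoiding walks. -/
lemma short_walk_prob (hG : LawOK G M) : ∃ κ : ℝ, 0 < κ ∧ ∀ (x : V) (n : ℕ),
    law G {t | ∃ y, ∃ p : grid.Walk x y, p.IsPath ∧ p.length = n ∧ plen t p < κ * n}
      ≤ ENNReal.ofReal ((1 / 2) ^ n) := short_walk_probG hG.gen

/-- The real form of `short_walk_prob`. -/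
lemma short_walk_prob_real (hG : LawOK G M) : ∃ κ : ℝ, 0 < κ ∧ ∀ (x : V) (n : ℕ),
    (law G).real {t | ∃ y, ∃ p : grid.Walk x y, p.IsPath ∧ p.length = n ∧ plen t p < κ * n}
      ≤ (1 / 2) ^ n := short_walk_prob_realG hG.gen

/-- `short_walk_prob` in powers of `1 / 2` in `ℝ≥0∞`. -/
lemma short_walk_prob_pow (hG : LawOK G M) : ∃ κ : ℝ, 0 < κ ∧ ∀ (x : V) (n : ℕ),
    law G {t | ∃ (y : V) (p : grid.Walk x y), p.IsPath ∧ p.length = n ∧ plen t p < κ * n}
      ≤ (1 / 2 : ℝ≥0∞) ^ n := short_walk_prob_powG hG.gen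

lemma ae_lenBound (hG : LawOK G M) : ∃ κ : ℝ, 0 < κ ∧ ∀ᵐ t ∂law G, LenBound κ t :=
  ae_lenBoundG hG.gen

/-- Almost every configuration is good. -/
theorem exists_good (hG : LawOK G M) : ∃ κ : ℝ, 0 < κ ∧ ∀ᵐ t ∂law G, Good M κ t := by
  obtain ⟨κ, hκ, h⟩ := exists_goodG hG.gen
  refine ⟨κ, hκ, ?_⟩
  filter_upwards [h, law_ae_inRange hG] with t a b
  exact ⟨b, a.pos, a.tieFree, a.lenBound⟩

/-- Almost surely, every long self-avoiding walk uses an edge outside a given small set. -/
lemma ae_exists_notMem (hG : LawOK G M) : ∃ δ : ℝ, 0 < δ ∧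
    ∀ B, MeasurableSet B → G B ≤ ENNReal.ofReal δ → ∀ᵐ t ∂law G, ∀ x : V, ∀ᶠ n : ℕ in atTop,
      ∀ (y : V) (p : grid.Walk x y), p.IsPath → p.length = n →
        ∃ d ∈ p.darts, wt t d.toProd.1 d.toProd.2 ∉ B := ae_exists_notMemG hG.gen

end bounded

end Vale.Agent.P158
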