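import Vale.Agent.P158.Bent.Strict

/-!
Bent sites are rare at every pair of large proportional scales.

The slopes are cut into finitely many pairs `v1 < v2`. Where the shape is linear between the two
slopes, a site is a seed and the telescoping count applies. Where it is strictly subadditive, the
passage time through the origin contradicts the shape theorem.
-/

open MeasureTheory Filter Topology
open scoped ENNReal

namespace Vale.Agent.P158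

namespace Bent

open Vale.Agent.P158.Straight (Shape IsOffset vec)

variable {G : Measure ℝ} {M : ℝ}

/-- The sites whose slopes are separated by the pair `v1 < v2`. -/
def pairSite (k : ℤ) (R : ℕ) (r₁ C v1 v2 : ℝ) (n₁ n₂ : ℕ) : Set Conf :=
  {t | ∃ γ i₀ i₁ i j, SiteSeg k R r₁ C n₁ n₂ t γ i₀ i₁ i j ∧
    v1 * (-(n₁ : ℝ)) ≤ ((γ i₀).2 : ℝ) ∧ v2 * (n₂ : ℝ) ≤ ((γ i₁).2 : ℝ)}

/-- The sites at which the slope grows by at least `ρ`. -/
def upSite (k : ℤ) (R : ℕ) (r₁ C ρ : ℝ) (n₁ n₂ : ℕ) : Set Conf :=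
  {t | ∃ γ i₀ i₁ i j, SiteSeg k R r₁ C n₁ n₂ t γ i₀ i₁ i j ∧
    ρ ≤ ((γ i₁).2 : ℝ) / n₂ - -((γ i₀).2 : ℝ) / n₁}

theorem exists_Iic_pos {r₁ : ℝ} (h : 0 < G (Set.Iio r₁)) :
    ∃ r₀, r₀ < r₁ ∧ 0 < G (Set.Iic r₀) := by
  have hsub : Set.Iio r₁ ⊆ ⋃ m : ℕ, Set.Iic (r₁ - 1 / ((m : ℝ) + 1)) := fun x hx => by
    obtain ⟨m, hm⟩ := exists_nat_one_div_lt (K := ℝ) (sub_pos.2 (Set.mem_Iio.1 hx))
    exact Set.mem_iUnion.2 ⟨m, by simp only [Set.mem_Iic]; linarith⟩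
  obtain ⟨m, hm⟩ := exists_measure_pos_of_not_measure_iUnion_null
    (h.trans_le (measure_mono hsub)).ne'
  exact ⟨_, sub_lt_self _ (by positivity), hm⟩

theorem pair_tendsto_zero (hG : LawOK G M) {k : ℤ} (hk : k = 0 ∨ k = 1) (R : ℕ) {r₁ : ℝ}
    (hr : 0 < G (Set.Iio r₁)) (C : ℝ) {v1 v2 c₁ c₂ : ℝ} (hv : v1 < v2) (hc₁ : 0 < c₁)
    (hc₂ : 0 < c₂) :
    Tendsto (fun n : ℕ => law G (pairSite k R r₁ C v1 v2 ⌈c₁ * n⌉₊ ⌈c₂ * n⌉₊)) atTop (𝓝 0) := by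
  obtain ⟨κ, hS⟩ := exists_shortBound hG
  by_cases hlin : mu G (vec k v1 + vec k v2) = mu G (vec k v1) + mu G (vec k v2)
  swap
  · exact strict_tendsto_zero hG hS hk R r₁ C hv hc₁ hc₂ hlin
  have := hG.prob
  have : IsProbabilityMeasure (law G) := by unfold law; infer_instance
  obtain ⟨r₀, hr₀, hpos⟩ := exists_Iic_pos hr
  let E : V → ℕ → Set Conf := fun d n =>
    {t | IsOffset k d ∧ Seed k ⌈c₁ * n⌉₊ ⌈c₂ * n⌉₊ R v1 v2 r₁ d t}
  have hE : ∀ d, Tendsto (fun n => law G (E d n)) atTop (𝓝 0) := by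
    intro d
    by_cases hd : IsOffset k d
    · have h := tendsto_zero_of_toReal
        (seed_tendsto_zero hG (Straight.shape hG hS) hk (Straight.meets hk) hd hv hlin R hr₀ hpos
          hc₁ hc₂)
      exact h.congr fun n => congrArg (law G) (by ext t; simp [E, hd])
    · exact tendsto_const_nhds.congr fun n => by
        rw [show E d n = ∅ by ext t; simp [E, hd], measure_empty]
  have hsum : Tendsto (fun n => law G (E (1, 0) n) + law G (E (0, 1) n)) atTop (𝓝 0) := by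
    simpa using (hE (1, 0)).add (hE (0, 1))
  refine tendsto_of_tendsto_of_tendsto_of_le_of_le tendsto_const_nhds hsum
    (fun n => zero_le) fun n => ?_
  refine le_trans (measure_mono (t := (E (1, 0) n ∪ E (0, 1) n) ∪ {t | ¬∀ e, 0 ≤ t e}) ?_)
    ((measure_union_le _ _).trans ?_)
  · rintro t ⟨γ, i₀, i₁, i, j, h, h1, h2⟩
    by_cases h0 : ∀ e, 0 ≤ t e
    swap
    · exact Or.inr h0
    obtain ⟨d, hd, hs⟩ := seed_of_site hk h0 h h1 h2
    rcases hd.2 with rfl | rfl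
    · exact Or.inl (Or.inl ⟨hd, hs⟩)
    · exact Or.inl (Or.inr ⟨hd, hs⟩)
  · rw [show law G {t | ¬∀ e, 0 ≤ t e} = 0 from ae_iff.1 hG.ae_nonneg, add_zero]
    exact measure_union_le _ _

theorem up_of_pairs {k : ℤ} {R : ℕ} {r₁ : ℝ} (C : ℝ) {ρ c₁ c₂ : ℝ}
    (hpair : ∀ C v1 v2, v1 < v2 → Tendsto
      (fun n : ℕ => law G (pairSite k R r₁ C v1 v2 ⌈c₁ * n⌉₊ ⌈c₂ * n⌉₊)) atTop (𝓝 0))
    (hρ : 0 < ρ) (hc₁ : 0 < c₁) (hc₂ : 0 < c₂) :
    Tendsto (fun n : ℕ => law G (upSite k R r₁ C ρ ⌈c₁ * n⌉₊ ⌈c₂ * n⌉₊)) atTop (𝓝 0) := by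
  set w := ρ / 4
  have hw : 0 < w := by positivity
  set L := ⌈2 * C / w⌉₊
  let P : ℕ → ℕ → Set Conf := fun l n =>
    pairSite k R r₁ C (-C + l * w) (-C + l * w + w) ⌈c₁ * n⌉₊ ⌈c₂ * n⌉₊
  have hsum : Tendsto (fun n => ∑ l ∈ Finset.range (L + 1), law G (P l n)) atTop (𝓝 0) := by
    simpa using tendsto_finsetSum (Finset.range (L + 1)) fun l _ =>
      hpair C _ _ (lt_add_of_pos_right (-C + (l : ℝ) * w) hw)
  refine tendsto_of_tendsto_of_tendsto_of_le_of_le' tendsto_const_nhds hsum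
    (Eventually.of_forall fun n => zero_le) ?_
  filter_upwards [eventually_gt_atTop 0] with n hn
  refine le_trans (measure_mono ?_) (measure_biUnion_finset_le _ _)
  rintro t ⟨γ, i₀, i₁, i, j, h, hd⟩
  have hn1 : (0 : ℝ) < (⌈c₁ * n⌉₊ : ℕ) := Nat.cast_pos.2 (Nat.ceil_pos.2 (by positivity))
  have hn2 : (0 : ℝ) < (⌈c₂ * n⌉₊ : ℕ) := Nat.cast_pos.2 (Nat.ceil_pos.2 (by positivity))
  set sa : ℝ := -((γ i₀).2 : ℝ) / (⌈c₁ * n⌉₊ : ℕ) with hsa
  have hsa' : |sa| ≤ C := by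
    rw [hsa, abs_div, abs_neg, Nat.abs_cast, div_le_iff₀ hn1]; exact h.slope₀
  obtain ⟨ha1, ha2⟩ := abs_le.1 hsa'
  set l := ⌈(sa + C) / w⌉₊
  have hl0 : 0 ≤ (sa + C) / w := div_nonneg (by linarith) hw.le
  have hl1 : sa + C ≤ l * w := (div_le_iff₀ hw).1 (Nat.le_ceil _)
  have hl2 : (l : ℝ) * w ≤ sa + C + w := by
    have := mul_le_mul_of_nonneg_right (Nat.ceil_lt_add_one hl0).le hw.le
    rwa [add_mul, div_mul_cancel₀ _ hw.ne', one_mul] at this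
  have hlL : l ≤ L := Nat.ceil_le_ceil (by gcongr; linarith)
  refine Set.mem_iUnion₂.2 ⟨l, Finset.mem_range.2 (by omega), γ, i₀, i₁, i, j, h, ?_, ?_⟩
  · have h3 : sa ≤ -C + l * w := by linarith
    rw [hsa, div_le_iff₀ hn1] at h3
    linarith
  · have h4 : -C + l * w + w ≤ ((γ i₁).2 : ℝ) / (⌈c₂ * n⌉₊ : ℕ) := by
      have : w + w ≤ ρ := by simp only [w]; linarith
      linarith
    exact (le_div_iff₀ hn2).1 h4

/-- A site segment in the coordinates of a level-preserving symmetry. -/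
theorem site_sym {k : ℤ} {R : ℕ} {r₁ C C' : ℝ} {n₁ n₂ : ℕ} {t : Conf} {γ : ℤ → V}
    {i₀ i₁ i j : ℤ} (σ : LatSym) (hz : σ.vmap 0 = 0) (hl : ∀ v, lev k (σ.vmap v) = lev k v)
    (hC : ∀ v, |((σ.vmap v).2 : ℝ)| ≤ |(v.2 : ℝ)| + |(lev k v : ℝ)|) (hC' : C + 1 ≤ C')
    (h : SiteSeg k R r₁ C n₁ n₂ t γ i₀ i₁ i j) :
    SiteSeg k R r₁ C' n₁ n₂ (σ.symm.act t) (fun m => σ.vmap (γ m)) i₀ i₁ i j := by
  have hadj : ∀ m, i₀ ≤ m → m < i₁ → Adj (σ.vmap (γ m)) (σ.vmap (γ (m + 1))) :=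
    fun m a b => (σ.adj_map _ _).2 (h.seg.adj m a b)
  have hwt : ∀ m, i₀ ≤ m → m < i₁ →
      wt (σ.symm.act t) (σ.vmap (γ m)) (σ.vmap (γ (m + 1))) = wt t (γ m) (γ (m + 1)) := by
    intro m a b
    rw [σ.symm.wt_act t (hadj m a b)]
    simp [LatSym.symm]
  have hlo := h.cross.lo
  have hle := h.cross.le
  have hhi := h.cross.hi
  refine ⟨⟨h.seg.le, hadj, fun a ha b hb e => h.seg.inj ha hb (σ.vmap.injective e), ?_⟩,
    ⟨hlo, hle, hhi, h.cross.len, ?_, ?_, fun m a b => ?_, fun m a b => ?_⟩, ?_, ?_, ?_, ?_,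
    fun m a b => ?_, ?_, ?_⟩
  · rw [σ.symm.T_act, Finset.sum_congr rfl fun m hm =>
      hwt m (Finset.mem_Ico.1 hm).1 (Finset.mem_Ico.1 hm).2, h.seg.geo]
    simp [LatSym.symm]
  · rw [hl]; exact h.cross.first
  · rw [hl]; exact h.cross.last
  · rw [hl]; exact h.cross.before m a b
  · rw [hl]; exact h.cross.after m a b
  · rw [h.origin, hz]
  · have := hwt (i - 1) (by omega) (by omega)
    rw [sub_add_cancel] at this
    rw [this]
    exact h.heavy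
  · rw [hl]; exact h.lev₀
  · rw [hl]; exact h.lev₁
  · rw [hl]; exact h.strip m a b
  · refine (hC _).trans ?_
    have h1 := h.slope₀
    have h2 := mul_le_mul_of_nonneg_right hC' (Nat.cast_nonneg (α := ℝ) n₁)
    rw [h.lev₀]; push_cast; rw [abs_neg, Nat.abs_cast]
    linarith
  · refine (hC _).trans ?_
    have h1 := h.slope₁
    have h2 := mul_le_mul_of_nonneg_right hC' (Nat.cast_nonneg (α := ℝ) n₂)
    rw [h.lev₁]; push_cast; rw [Nat.abs_cast]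
    linarith

/-- A level-preserving symmetry which reverses the order of slopes. -/
theorem exists_revSym {k : ℤ} (hk : k = 0 ∨ k = 1) :
    ∃ σ : LatSym, σ.vmap 0 = 0 ∧ (∀ v, lev k (σ.vmap v) = lev k v) ∧
      (∀ v, ((σ.vmap v).2 : ℝ) = k * (lev k v : ℝ) - v.2) := by
  rcases hk with rfl | rfl
  · exact ⟨flipSym, by simp, fun v => by simp [lev], fun v => by simp⟩
  · exact ⟨swapSym, by simp, fun v => by simp [lev]; ring, fun v => by simp [lev]⟩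

theorem bentSite_subset {k : ℤ} (hk : k = 0 ∨ k = 1) (R : ℕ) (r₁ C ρ : ℝ) {n₁ n₂ : ℕ}
    (hn₁ : 0 < n₁) (hn₂ : 0 < n₂) :
    ∃ σ : LatSym, bentSite k R r₁ C ρ n₁ n₂ ⊆
      upSite k R r₁ C ρ n₁ n₂ ∪ σ.act ⁻¹' upSite k R r₁ (C + 1) ρ n₁ n₂ := by
  obtain ⟨σ, hz, hl, hy⟩ := exists_revSym hk
  refine ⟨σ.symm, ?_⟩
  rintro t ⟨γ, i₀, i₁, i, j, h, hρ⟩
  rcases le_abs.1 hρ with hd | hd
  · refine Or.inr ⟨fun m => σ.vmap (γ m), i₀, i₁, i, j, site_sym σ hz hl ?_ le_rfl h, ?_⟩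
    · intro v
      rw [hy]
      rcases hk with rfl | rfl
      · simp
      · push_cast; rw [one_mul, abs_sub_comm]; exact abs_sub _ _
    · rw [hy, hy, h.lev₀, h.lev₁]
      have a1 : (0 : ℝ) < n₁ := Nat.cast_pos.2 hn₁
      have a2 : (0 : ℝ) < n₂ := Nat.cast_pos.2 hn₂
      push_cast
      rw [sub_div, neg_sub, sub_div, mul_div_assoc, mul_div_assoc, neg_div, div_self a1.ne',
        div_self a2.ne']
      rw [neg_div] at hd
      linarith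
  · refine Or.inl ⟨γ, i₀, i₁, i, j, h, ?_⟩
    linarith

end Bent

/-- Bent sites are rare when the sites of every separated pair of slopes are. -/
theorem bentNull_of_pairs {G : Measure ℝ} [IsProbabilityMeasure G]
    (hpair : ∀ k : ℤ, k = 0 ∨ k = 1 → ∀ (R : ℕ) (r₁ : ℝ), 0 < G (Set.Iio r₁) →
      ∀ c₁ c₂ : ℝ, 0 < c₁ → 0 < c₂ → ∀ C v1 v2, v1 < v2 → Tendsto
        (fun n : ℕ => law G (Bent.pairSite k R r₁ C v1 v2 ⌈c₁ * n⌉₊ ⌈c₂ * n⌉₊)) atTop (𝓝 0)) :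
    BentNull G := by
  intro k hk R r₁ C ρ hr hρ c₁ c₂ hc₁ hc₂
  have hp := hpair k hk R r₁ hr c₁ c₂ hc₁ hc₂
  have hsum : Tendsto (fun n : ℕ => law G (Bent.upSite k R r₁ C ρ ⌈c₁ * n⌉₊ ⌈c₂ * n⌉₊) +
      law G (Bent.upSite k R r₁ (C + 1) ρ ⌈c₁ * n⌉₊ ⌈c₂ * n⌉₊)) atTop (𝓝 0) := by
    simpa using (Bent.up_of_pairs C hp hρ hc₁ hc₂).add (Bent.up_of_pairs (C + 1) hp hρ hc₁ hc₂)
  refine tendsto_of_tendsto_of_tendsto_of_le_of_le' tendsto_const_nhds hsum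
    (Eventually.of_forall fun n => zero_le) ?_
  filter_upwards [eventually_gt_atTop 0] with n hn
  have hn' : (0 : ℝ) < n := Nat.cast_pos.2 hn
  obtain ⟨σ, hσ⟩ := Bent.bentSite_subset hk R r₁ C ρ
    (Nat.ceil_pos.2 (mul_pos hc₁ hn')) (Nat.ceil_pos.2 (mul_pos hc₂ hn'))
  refine (measure_mono hσ).trans ((measure_union_le _ _).trans ?_)
  rw [σ.law_act_preimage]

/-- Bent sites are rare. -/
theorem bentNull {G : Measure ℝ} {M : ℝ} (hG : LawOK G M) : BentNull G :=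
  have := hG.prob
  bentNull_of_pairs fun _ hk R _ hr _ _ hc₁ hc₂ C _ _ hv =>
    Bent.pair_tendsto_zero hG hk R hr C hv hc₁ hc₂

end Vale.Agent.P158
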