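import Vale.Agent.P158.Planar

/-!
The meeting lemma in square boxes: two walks in a box whose ends lie on its boundary in
interleaved cyclic order share a vertex.
-/

open SimpleGraph

namespace Vale.Agent.P158

/-- The vertex lies in the box of radius `N`. -/
def InSq (N : ℤ) (v : V) : Prop := -N ≤ v.1 ∧ v.1 ≤ N ∧ -N ≤ v.2 ∧ v.2 ≤ N

/-- The vertex lies on the boundary of the box of radius `N`. -/
def OnBd (N : ℤ) (v : V) : Prop :=
  InSq N v ∧ (v.2 = -N ∨ v.1 = N ∨ v.2 = N ∨ v.1 = -N)

/-- The position on the boundary, counter-clockwise from the lower left corner. -/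
def bdPos (N : ℤ) (v : V) : ℤ :=
  if v.2 = -N then v.1 + N else if v.1 = N then 3 * N + v.2
  else if v.2 = N then 5 * N - v.1 else 7 * N - v.2

theorem bdPos_injOn {N : ℤ} {u v : V} (hu : OnBd N u) (hv : OnBd N v)
    (h : bdPos N u = bdPos N v) : u = v := by
  obtain ⟨⟨u1, u2, u3, u4⟩, hu⟩ := hu
  obtain ⟨⟨v1, v2, v3, v4⟩, hv⟩ := hv
  unfold bdPos at h
  refine Prod.ext ?_ ?_ <;> split_ifs at h <;> omega

theorem bdPos_mem {N : ℤ} {v : V} (hv : OnBd N v) : 0 ≤ bdPos N v ∧ bdPos N v ≤ 8 * N := by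
  obtain ⟨⟨v1, v2, v3, v4⟩, -⟩ := hv
  unfold bdPos
  split_ifs <;> omega

namespace Planar

/-- Crossing count of a fixed path from the boundary vertex `z` to infinity outside the box. -/
def boxTail (N : ℤ) (v z : V) : ZMod 2 :=
  if (z.2 = N ∧ z.1 ≤ v.1) ∨ (z.2 ≠ N ∧ z.1 = N ∧ v.1 = N ∧ v.2 < z.2) then 1 else 0

theorem crossPar_below : ∀ {a b : V} (p : grid.Walk a b) (v : V),
    (∀ x ∈ p.support, v.2 < x.2) →
    crossPar 0 p v = (if a.1 ≤ v.1 then 1 else 0) + (if b.1 ≤ v.1 then 1 else 0) := by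
  intro a b p
  induction p with
  | nil => intro v _; simp [crossPar, CharTwo.add_self_eq_zero]
  | @cons x y z hxy p ih =>
    intro v h
    have hx := h x (by simp)
    have hy := h y (by simp)
    have hrec := ih v fun u hu => h u (List.mem_cons_of_mem _ hu)
    have key : crossStep 0 (lev 0 v) v.2 x y =
        (if x.1 ≤ v.1 then 1 else 0) + (if y.1 ≤ v.1 then 1 else 0) := by
      simp only [crossStep, lev, zero_mul, add_zero]
      split_ifs <;> first | rfl | decide | (exfalso; omega)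
    simp only [crossPar, Walk.darts_cons, List.map_cons, List.sum_cons] at hrec ⊢
    linear_combination key + hrec +
      (if y.1 ≤ v.1 then (1 : ZMod 2) else 0) * (CharTwo.two_eq_zero : (2 : ZMod 2) = 0)

theorem crossPar_zero : ∀ {a b : V} (p : grid.Walk a b) (v : V),
    (∀ x ∈ p.support, v.1 < x.1) ∨ (∀ x ∈ p.support, x.1 ≤ v.1) ∨ (∀ x ∈ p.support, x.2 ≤ v.2) →
    crossPar 0 p v = 0 := by
  intro a b p v h
  refine List.sum_eq_zero fun z hz => ?_
  obtain ⟨e, he, rfl⟩ := List.mem_map.1 hz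
  have h1 := p.dart_fst_mem_support_of_mem_darts he
  have h2 := p.dart_snd_mem_support_of_mem_darts he
  rw [crossStep, if_neg]
  simp only [lev, zero_mul, add_zero]
  rcases h with h | h | h <;> have := h _ h1 <;> have := h _ h2 <;> omega

/-- The invariant: crossing parity completed by the two tails. -/
def boxPar (N : ℤ) {a b : V} (p : grid.Walk a b) (v : V) : ZMod 2 :=
  crossPar 0 p v + boxTail N v a + boxTail N v b

theorem boxTail_add {N : ℤ} {v w z : V} (hz : OnBd N z) (hv : InSq N v) (hw : InSq N w)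
    (hzv : z ≠ v) (hzw : z ≠ w)
    (hvw : (w.1 = v.1 + 1 ∧ w.2 = v.2) ∨ (w.1 = v.1 ∧ w.2 = v.2 + 1)) :
    boxTail N v z + boxTail N w z = endTerm 0 v w z := by
  obtain ⟨⟨z1, z2, z3, z4⟩, hb⟩ := hz
  obtain ⟨v1, v2, v3, v4⟩ := hv
  obtain ⟨w1, w2, w3, w4⟩ := hw
  simp only [ne_eq, Prod.ext_iff, not_and_or] at hzv hzw
  simp only [boxTail, endTerm, lev, zero_mul, add_zero]
  split_ifs <;> first | rfl | decide | (exfalso; omega)

theorem boxPar_eq_of_adj {N : ℤ} {a b v w : V} (p : grid.Walk a b) (ha : OnBd N a)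
    (hb : OnBd N b) (hv : InSq N v) (hw : InSq N w) (hvw : Adj v w) (hvp : v ∉ p.support)
    (hwp : w ∉ p.support) : boxPar N p v = boxPar N p w := by
  have base : ∀ v w : V, ((w.1 = v.1 + 1 ∧ w.2 = v.2) ∨ (w.1 = v.1 ∧ w.2 = v.2 + 1)) →
      InSq N v → InSq N w → v ∉ p.support → w ∉ p.support → boxPar N p v = boxPar N p w := by
    intro v w hs hv hw hvp hwp
    have h := crossPar_add (Or.inl rfl : (0 : ℤ) = 0 ∨ (0 : ℤ) = 1) hs p hvp hwp
    have hA := boxTail_add ha hv hw (fun e => hvp (e ▸ p.start_mem_support))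
      (fun e => hwp (e ▸ p.start_mem_support)) hs
    have hB := boxTail_add hb hv hw (fun e => hvp (e ▸ p.end_mem_support))
      (fun e => hwp (e ▸ p.end_mem_support)) hs
    rw [← CharTwo.add_eq_zero]
    unfold boxPar
    linear_combination h + hA + hB +
      (endTerm 0 v w a + endTerm 0 v w b) * (CharTwo.two_eq_zero : (2 : ZMod 2) = 0)
  rcases adj_cases hvw with h | h | h | h
  · exact base v w (Or.inl h) hv hw hvp hwp
  · exact (base w v (Or.inl h) hw hv hwp hvp).symm
  · exact base v w (Or.inr h) hv hw hvp hwp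
  · exact (base w v (Or.inr h) hw hv hwp hvp).symm

theorem boxPar_const {N : ℤ} {a b : V} (p : grid.Walk a b) (ha : OnBd N a) (hb : OnBd N b) :
    ∀ {c d : V} (q : grid.Walk c d), (∀ x ∈ q.support, InSq N x ∧ x ∉ p.support) →
      boxPar N p c = boxPar N p d := by
  intro c d q
  induction q with
  | nil => intro _; rfl
  | @cons x y z hxy q ih =>
    intro h
    have hx := h x (by simp)
    have hy := h y (by simp)
    exact (boxPar_eq_of_adj p ha hb hx.1 hy.1 hxy hx.2 hy.2).trans
      (ih fun u hu => h u (List.mem_cons_of_mem _ hu))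

/-- The indicator of a later position on the boundary. -/
def bdLater (N : ℤ) (c z : V) : ZMod 2 := if bdPos N c < bdPos N z then 1 else 0

/-- The part of the value of the invariant depending on one end only. -/
def bdSide (N : ℤ) (z : V) : ZMod 2 := if z.2 = -N ∨ z.1 = N ∨ z.2 = N then 1 else 0

theorem tail_bottom {N : ℤ} {c z : V} (hz : OnBd N z) (hc : InSq N c) (hne : z ≠ c)
    (h : c.2 = -N) :
    (if z.1 ≤ c.1 then 1 else 0) + boxTail N c z = bdLater N c z + bdSide N z := by
  obtain ⟨⟨z1, z2, z3, z4⟩, hb⟩ := hz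
  obtain ⟨c1, c2, c3, c4⟩ := hc
  simp only [ne_eq, Prod.ext_iff, not_and_or] at hne
  simp only [boxTail, bdLater, bdSide, bdPos, h, if_true]
  split_ifs <;> first | rfl | decide | (exfalso; omega)

theorem tail_right {N : ℤ} {c z : V} (hz : OnBd N z) (hc : InSq N c) (hne : z ≠ c)
    (h : c.2 ≠ -N) (h' : c.1 = N) : boxTail N c z = bdLater N c z + bdSide N z + 1 := by
  obtain ⟨⟨z1, z2, z3, z4⟩, hb⟩ := hz
  obtain ⟨c1, c2, c3, c4⟩ := hc
  simp only [ne_eq, Prod.ext_iff, not_and_or] at hne
  simp only [boxTail, bdLater, bdSide, bdPos, h, h', if_true, if_false, true_and]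
  split_ifs <;> first | rfl | decide | (exfalso; omega)

theorem tail_top {N : ℤ} {c z : V} (hz : OnBd N z) (hc : InSq N c) (hne : z ≠ c)
    (h : c.2 ≠ -N) (h' : c.1 ≠ N) (h'' : c.2 = N) :
    boxTail N c z = bdLater N c z + bdSide N z + 1 := by
  obtain ⟨⟨z1, z2, z3, z4⟩, hb⟩ := hz
  obtain ⟨c1, c2, c3, c4⟩ := hc
  simp only [ne_eq, Prod.ext_iff, not_and_or] at hne
  rw [h''] at h
  simp only [boxTail, bdLater, bdSide, bdPos, h, h', h'', if_true, if_false]
  split_ifs <;> first | rfl | decide | (exfalso; omega)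

theorem tail_left {N : ℤ} {c z : V} (hz : OnBd N z) (hc : InSq N c) (hne : z ≠ c)
    (h : c.2 ≠ -N) (h' : c.1 ≠ N) (h'' : c.2 ≠ N) (h4 : c.1 = -N) :
    endTerm 0 (c.1 - 1, c.2) c z + boxTail N c z = bdLater N c z + bdSide N z + 1 := by
  obtain ⟨⟨z1, z2, z3, z4⟩, hb⟩ := hz
  obtain ⟨c1, c2, c3, c4⟩ := hc
  simp only [ne_eq, Prod.ext_iff, not_and_or] at hne
  simp only [endTerm, lev, zero_mul, add_zero, boxTail, bdLater, bdSide, bdPos, h, h', h'', false_and, and_false, or_false,
    if_false]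
  split_ifs <;> first | rfl | decide | (exfalso; omega)

/-- The value of the invariant on the boundary. -/
theorem boxPar_bd {N : ℤ} {a b c : V} (p : grid.Walk a b) (ha : OnBd N a) (hb : OnBd N b)
    (hc : OnBd N c) (hp : ∀ x ∈ p.support, InSq N x) (hcp : c ∉ p.support) :
    boxPar N p c = bdLater N c a + bdLater N c b + (bdSide N a + bdSide N b) := by
  have hac : a ≠ c := fun e => hcp (e ▸ p.start_mem_support)
  have hbc : b ≠ c := fun e => hcp (e ▸ p.end_mem_support)
  have two : (2 : ZMod 2) = 0 := CharTwo.two_eq_zero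
  unfold boxPar
  by_cases h1 : c.2 = -N
  · have hs : ((c.1, c.2 - 1) : V) ∉ p.support := fun h => by
      have := hp _ h; simp only [InSq] at this; omega
    have h := crossPar_add (Or.inl rfl : (0 : ℤ) = 0 ∨ (0 : ℤ) = 1) (v := (c.1, c.2 - 1)) (w := c)
      (Or.inr ⟨rfl, by simp⟩) p hs hcp
    rw [crossPar_below p _ fun x hx => by have := hp x hx; simp only [InSq] at this; omega] at h
    simp only [endTerm, lev, zero_mul, add_zero, ne_eq, not_true_eq_false, false_and,
      if_false] at h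
    rw [← CharTwo.add_eq_zero.1 h]
    linear_combination tail_bottom ha hc.1 hac h1 + tail_bottom hb hc.1 hbc h1
  by_cases h2 : c.1 = N
  · rw [crossPar_zero p c (Or.inr (Or.inl fun x hx => by
      have := hp x hx; simp only [InSq] at this; omega))]
    linear_combination tail_right ha hc.1 hac h1 h2 + tail_right hb hc.1 hbc h1 h2 + two
  by_cases h3 : c.2 = N
  · rw [crossPar_zero p c (Or.inr (Or.inr fun x hx => by
      have := hp x hx; simp only [InSq] at this; omega))]
    linear_combination tail_top ha hc.1 hac h1 h2 h3 + tail_top hb hc.1 hbc h1 h2 h3 + two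
  have h4' := hc.2
  have h4 : c.1 = -N := by omega
  have hs : ((c.1 - 1, c.2) : V) ∉ p.support := fun h => by
    have := hp _ h; simp only [InSq] at this; omega
  have h := crossPar_add (Or.inl rfl : (0 : ℤ) = 0 ∨ (0 : ℤ) = 1) (v := (c.1 - 1, c.2)) (w := c)
    (Or.inl ⟨by simp, rfl⟩) p hs hcp
  rw [crossPar_zero p _ (Or.inl fun x hx => by
    have := hp x hx; simp only [InSq] at this; omega), zero_add] at h
  have hcb : InSq N c := hc.1
  linear_combination h + tail_left ha hcb hac h1 h2 h3 h4 + tail_left hb hcb hbc h1 h2 h3 h4 + two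

end Planar

open Planar

/-- Two walks in a box with ends on its boundary in interleaved order share a vertex. -/
theorem meet_box {N : ℤ} {a b c d : V} (p : grid.Walk a b) (q : grid.Walk c d)
    (hp : ∀ x ∈ p.support, InSq N x) (hq : ∀ x ∈ q.support, InSq N x)
    (ha : OnBd N a) (hb : OnBd N b) (hc : OnBd N c) (hd : OnBd N d)
    (hac : bdPos N a ≤ bdPos N c) (hcb : bdPos N c ≤ bdPos N b)
    (hbd : bdPos N b ≤ bdPos N d) : ∃ x, x ∈ p.support ∧ x ∈ q.support := by
  by_contra hno
  have hcp : c ∉ p.support := fun h => hno ⟨c, h, q.start_mem_support⟩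
  have hdp : d ∉ p.support := fun h => hno ⟨d, h, q.end_mem_support⟩
  have h := boxPar_const p ha hb q fun x hx => ⟨hq x hx, fun h => hno ⟨x, h, hx⟩⟩
  rw [boxPar_bd p ha hb hc hp hcp, boxPar_bd p ha hb hd hp hdp] at h
  have hca : bdPos N c ≠ bdPos N a := fun e =>
    hcp (bdPos_injOn hc ha e ▸ p.start_mem_support)
  have hcb' : bdPos N c ≠ bdPos N b := fun e => hcp (bdPos_injOn hc hb e ▸ p.end_mem_support)
  have hdb : bdPos N d ≠ bdPos N b := fun e => hdp (bdPos_injOn hd hb e ▸ p.end_mem_support)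
  simp only [bdLater, if_neg (show ¬bdPos N c < bdPos N a by omega),
    if_pos (show bdPos N c < bdPos N b by omega),
    if_neg (show ¬bdPos N d < bdPos N a by omega),
    if_neg (show ¬bdPos N d < bdPos N b by omega), zero_add] at h
  exact one_ne_zero (by linear_combination h)

end Vale.Agent.P158
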