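import Mathlib

/-!
The Efron–Stein inequality for functions of finitely many coordinates of an i.i.d. family.
-/

open MeasureTheory Finset
open scoped ENNReal

namespace Vale.Agent.P158

variable {ι : Type*} [DecidableEq ι] (G : Measure ℝ) [IsProbabilityMeasure G]

/-- Resampling one coordinate preserves the product law. -/
theorem measurePreserving_update (i : ι) :
    MeasurePreserving (fun z : (ι → ℝ) × ℝ => Function.update z.1 i z.2)
      ((Measure.infinitePi fun _ : ι => G).prod G) (Measure.infinitePi fun _ : ι => G) := by
  have hm : Measurable (fun z : (ι → ℝ) × ℝ => Function.update z.1 i z.2) := measurable_update'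
  refine ⟨hm, Measure.eq_infinitePi _ fun s t ht => ?_⟩
  have hpre : (fun z : (ι → ℝ) × ℝ => Function.update z.1 i z.2) ⁻¹' (Set.pi s t) =
      (Set.pi (s.erase i : Finset ι) t) ×ˢ (if i ∈ s then t i else Set.univ) := by
    ext ⟨x, v⟩
    simp only [Set.mem_preimage, Set.mem_pi, Finset.mem_coe, Set.mem_prod, Finset.mem_erase]
    constructor
    · intro h
      refine ⟨fun j hj => ?_, ?_⟩
      · simpa [Function.update_of_ne hj.1] using h j hj.2
      · split_ifs with hi
        · simpa using h i hi
        · trivial
    · rintro ⟨h1, h2⟩ j hj
      rcases eq_or_ne j i with rfl | hne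
      · simpa [hj] using h2
      · simpa [Function.update_of_ne hne] using h1 j ⟨hne, hj⟩
  rw [Measure.map_apply hm (MeasurableSet.pi s.countable_toSet fun j _ => ht j), hpre,
    Measure.prod_prod, Measure.infinitePi_pi _ (fun j _ => ht j)]
  by_cases hi : i ∈ s
  · rw [if_pos hi, prod_erase_mul s (fun j => G (t j)) hi]
  · rw [if_neg hi, measure_univ, mul_one, erase_eq_of_notMem hi]

/-- Bounded measurable functions are integrable. -/
lemma integrable_of_bdd {α : Type*} [MeasurableSpace α] {μ : Measure α} [IsFiniteMeasure μ]
    {f : α → ℝ} {B : ℝ} (hm : Measurable f) (hB : ∀ x, |f x| ≤ B) : Integrable f μ :=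
  Integrable.of_bound hm.aestronglyMeasurable B (Filter.Eventually.of_forall fun x => hB x)

lemma posPart_sub (a b : ℝ) : (a - b) ^ 2 = max (a - b) 0 ^ 2 + max (b - a) 0 ^ 2 := by
  rcases le_total a b with h | h
  · rw [max_eq_right (by linarith), max_eq_left (by linarith)]; ring
  · rw [max_eq_left (by linarith), max_eq_right (by linarith)]; ring

/-- The variance over one coordinate is half the expected squared difference of two copies. -/
lemma var_one {g : ℝ → ℝ} {B : ℝ} (hm : Measurable g) (hB : ∀ v, |g v| ≤ B) :
    ∫ v, (g v - ∫ w, g w ∂G) ^ 2 ∂G = ∫ v, (∫ w, max (g w - g v) 0 ^ 2 ∂G) ∂G := by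
  set m := ∫ w, g w ∂G
  have hi : Integrable g G := integrable_of_bdd hm hB
  have hi2 : Integrable (fun v => g v ^ 2) G := integrable_of_bdd (hm.pow_const 2) fun v => by
    rw [abs_pow]; exact pow_le_pow_left₀ (abs_nonneg _) (hB v) 2
  set h : ℝ × ℝ → ℝ := fun z => max (g z.2 - g z.1) 0 ^ 2 with hh
  have hmh : Measurable h := by fun_prop
  have hBh : ∀ z, |h z| ≤ (2 * B) ^ 2 := fun z => by
    rw [hh, abs_pow]
    refine pow_le_pow_left₀ (abs_nonneg _) ?_ 2
    rw [abs_of_nonneg (le_max_right _ _)]
    exact max_le (by linarith [(abs_le.1 (hB z.1)).1, (abs_le.1 (hB z.2)).2])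
      (by linarith [(abs_nonneg (g z.1)).trans (hB z.1)])
  have hint : Integrable h (G.prod G) := integrable_of_bdd hmh hBh
  have hswap : ∫ v, (∫ w, max (g v - g w) 0 ^ 2 ∂G) ∂G =
      ∫ v, (∫ w, max (g w - g v) 0 ^ 2 ∂G) ∂G :=
    (integral_integral_swap (f := fun v w => max (g w - g v) 0 ^ 2) hint).symm
  have h1 : ∀ v, ∫ w, (g w - g v) ^ 2 ∂G = (∫ w, g w ^ 2 ∂G) - 2 * g v * m + g v ^ 2 := by
    intro v
    rw [show (fun w => (g w - g v) ^ 2) = fun w => g w ^ 2 - 2 * g v * g w + g v ^ 2 by
      funext w; ring]
    rw [integral_add (hi2.sub' (hi.const_mul _)) (integrable_const _),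
      integral_sub hi2 (hi.const_mul _), integral_const_mul, integral_const]
    simp [m]
  have h2 : ∫ v, (g v - m) ^ 2 ∂G = (∫ w, g w ^ 2 ∂G) - m ^ 2 := by
    rw [show (fun v => (g v - m) ^ 2) = fun v => g v ^ 2 - 2 * m * g v + m ^ 2 by funext v; ring]
    rw [integral_add (hi2.sub' (hi.const_mul _)) (integrable_const _),
      integral_sub hi2 (hi.const_mul _), integral_const_mul, integral_const]
    simp [m]; ring
  have h3 : ∫ v, (∫ w, (g w - g v) ^ 2 ∂G) ∂G = 2 * ((∫ w, g w ^ 2 ∂G) - m ^ 2) := by
    simp only [h1]
    rw [integral_add (Integrable.sub' (integrable_const _) ((hi.const_mul 2).mul_const m)) hi2,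
      integral_sub (integrable_const _) ((hi.const_mul 2).mul_const m), integral_mul_const,
      integral_const_mul, integral_const]
    simp [m]; ring
  have ha : ∀ v, Integrable (fun w => max (g w - g v) 0 ^ 2) G := fun v =>
    integrable_of_bdd (by fun_prop) fun w => hBh (v, w)
  have hb : ∀ v, Integrable (fun w => max (g v - g w) 0 ^ 2) G := fun v =>
    integrable_of_bdd (by fun_prop) fun w => hBh (w, v)
  have h4 : ∫ v, (∫ w, (g w - g v) ^ 2 ∂G) ∂G =
      ∫ v, (∫ w, max (g w - g v) 0 ^ 2 ∂G) ∂G + ∫ v, (∫ w, max (g v - g w) 0 ^ 2 ∂G) ∂G := by
    have hadd := integral_add hint.integral_prod_left hint.swap.integral_prod_left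
    simp only [hh, Function.comp_apply, Prod.swap_prod_mk] at hadd
    rw [← hadd]
    refine integral_congr_ae (Filter.Eventually.of_forall fun v => ?_)
    simp only [posPart_sub]
    rw [integral_add (ha v) (hb v)]
  rw [hswap, h3] at h4
  rw [h2]; linarith

/-- The Efron–Stein inequality. -/
theorem efron_stein (S : Finset ι) (f : (ι → ℝ) → ℝ) (B : ℝ) (hm : Measurable f)
    (hB : ∀ t, |f t| ≤ B) (hdep : ∀ t t', (∀ e ∈ S, t e = t' e) → f t = f t') :
    let P := Measure.infinitePi fun _ : ι => G
    ∫ t, (f t - ∫ u, f u ∂P) ^ 2 ∂P ≤
      ∑ e ∈ S, ∫ t, (∫ v, max (f (Function.update t e v) - f t) 0 ^ 2 ∂G) ∂P := by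
  intro P
  induction S using Finset.induction_on generalizing f B with
  | empty =>
      have hc : ∀ t, f t = f 0 := fun t => hdep t 0 (by simp)
      simp [hc]
  | insert e S he ih =>
      have hB0 : 0 ≤ B := (abs_nonneg _).trans (hB 0)
      set g : (ι → ℝ) → ℝ := fun t => ∫ v, f (Function.update t e v) ∂G with hg
      have hupd : Measurable fun z : (ι → ℝ) × ℝ => Function.update z.1 e z.2 := measurable_update'
      have hmg : Measurable g := by
        have : StronglyMeasurable (Function.uncurry fun t v => f (Function.update t e v)) :=
          (hm.comp hupd).stronglyMeasurable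
        exact this.integral_prod_right'.measurable
      have hBg : ∀ t, |g t| ≤ B := fun t => by
        have h := norm_integral_le_of_norm_le_const (μ := G) (C := B)
          (f := fun v => f (Function.update t e v)) (Filter.Eventually.of_forall fun v => hB _)
        simpa [g, Real.norm_eq_abs] using h
      have hdepg : ∀ t t', (∀ j ∈ S, t j = t' j) → g t = g t' := fun t t' h => by
        refine integral_congr_ae (Filter.Eventually.of_forall fun v => hdep _ _ fun j hj => ?_)
        rcases eq_or_ne j e with rfl | hne
        · simp
        · simp [Function.update_of_ne hne, h j ((mem_insert.1 hj).resolve_left hne)]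
      have hgupd : ∀ t v, g (Function.update t e v) = g t := fun t v => by
        simp only [g, Function.update_idem]
      have hmp := measurePreserving_update G e
      -- integration along the resampling map
      have key : ∀ F : (ι → ℝ) → ℝ, Measurable F → ∀ C, (∀ t, |F t| ≤ C) →
          ∫ t, F t ∂P = ∫ t, (∫ v, F (Function.update t e v) ∂G) ∂P := by
        intro F hF C hC
        rw [show ∫ t, F t ∂P = ∫ z, F (Function.update z.1 e z.2) ∂(P.prod G) by
          conv_lhs => rw [show P = _ from hmp.map_eq.symm]
          exact integral_map hupd.aemeasurable hF.aestronglyMeasurable]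
        exact integral_prod _ (integrable_of_bdd (hF.comp hupd) fun z => hC _)
      have hmean : ∫ u, f u ∂P = ∫ u, g u ∂P := key f hm B hB
      set m := ∫ u, g u ∂P
      have hm_le : |m| ≤ B := by
        have h := norm_integral_le_of_norm_le_const (μ := P) (C := B) (f := g)
          (Filter.Eventually.of_forall fun u => hBg u)
        simpa [m, Real.norm_eq_abs] using h
      have sqb : ∀ {a b : ℝ}, |a| ≤ B → |b| ≤ B → |(a - b) ^ 2| ≤ (2 * B) ^ 2 := fun ha hb => by
        rw [abs_pow]
        exact pow_le_pow_left₀ (abs_nonneg _) ((abs_sub _ _).trans (by linarith)) 2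
      have hsplit : ∫ t, (f t - m) ^ 2 ∂P =
          ∫ t, (∫ v, (f (Function.update t e v) - g t) ^ 2 ∂G) ∂P + ∫ t, (g t - m) ^ 2 ∂P := by
        rw [key _ ((hm.sub_const m).pow_const 2) _ fun t => sqb (hB t) hm_le,
          ← integral_add ?_ ?_]
        · refine integral_congr_ae (Filter.Eventually.of_forall fun t => ?_)
          have hi : Integrable (fun v => f (Function.update t e v)) G :=
            integrable_of_bdd (hm.comp (measurable_update t)) fun v => hB _
          have hi2 : Integrable (fun v => (f (Function.update t e v) - g t) ^ 2) G :=
            integrable_of_bdd (((hm.comp (measurable_update t)).sub_const _).pow_const 2)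
              fun v => sqb (hB _) (hBg t)
          show ∫ v, (f (Function.update t e v) - m) ^ 2 ∂G = _
          rw [show (fun v => (f (Function.update t e v) - m) ^ 2) = fun v =>
            (f (Function.update t e v) - g t) ^ 2 +
              2 * (g t - m) * (f (Function.update t e v) - g t) + (g t - m) ^ 2 by funext v; ring]
          have hA : Integrable (fun v => (f (Function.update t e v) - g t) ^ 2 +
              2 * (g t - m) * (f (Function.update t e v) - g t)) G :=
            hi2.add ((hi.sub' (integrable_const (g t))).const_mul _)
          rw [integral_add hA (integrable_const _),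
            integral_add hi2 ((hi.sub' (integrable_const (g t))).const_mul _), integral_const_mul,
            integral_sub hi (integrable_const _), integral_const, integral_const]
          simp [g]
        · have hmF : StronglyMeasurable (Function.uncurry fun t v =>
              (f (Function.update t e v) - g t) ^ 2) :=
            (((hm.comp hupd).sub (hmg.comp measurable_fst)).pow_const 2).stronglyMeasurable
          refine integrable_of_bdd (B := (2 * B) ^ 2) hmF.integral_prod_right'.measurable fun t => ?_
          have h := norm_integral_le_of_norm_le_const (μ := G) (C := (2 * B) ^ 2)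
            (f := fun v => (f (Function.update t e v) - g t) ^ 2)
            (Filter.Eventually.of_forall fun v => sqb (hB _) (hBg t))
          simpa [Real.norm_eq_abs] using h
        · exact integrable_of_bdd ((hmg.sub_const m).pow_const 2) fun t => sqb (hBg t) hm_le
      rw [sum_insert he, hmean, hsplit]
      refine add_le_add (le_of_eq ?_) ((ih g B hmg hBg hdepg).trans ?_)
      · -- the resampled coordinate
        have hF : Measurable fun t => ∫ v, max (f (Function.update t e v) - f t) 0 ^ 2 ∂G := by
          have : StronglyMeasurable (Function.uncurry fun t v =>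
              max (f (Function.update t e v) - f t) 0 ^ 2) :=
            ((((hm.comp hupd).sub (hm.comp measurable_fst)).max measurable_const).pow_const
              2).stronglyMeasurable
          exact this.integral_prod_right'.measurable
        have pb : ∀ a b : ℝ, |a| ≤ B → |b| ≤ B → |max (a - b) 0 ^ 2| ≤ (2 * B) ^ 2 := fun a b ha hb => by
          rw [abs_pow, abs_of_nonneg (le_max_right _ _)]
          exact pow_le_pow_left₀ (le_max_right _ _)
            (max_le (by linarith [(abs_le.1 ha).2, (abs_le.1 hb).1]) (by linarith)) 2
        rw [key _ hF ((2 * B) ^ 2) fun t => by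
          have h := norm_integral_le_of_norm_le_const (μ := G) (C := (2 * B) ^ 2)
            (f := fun v => max (f (Function.update t e v) - f t) 0 ^ 2)
            (Filter.Eventually.of_forall fun v => pb _ _ (hB _) (hB t))
          simpa [Real.norm_eq_abs] using h]
        refine integral_congr_ae (Filter.Eventually.of_forall fun t => ?_)
        simp only [Function.update_idem]
        exact var_one G (g := fun v => f (Function.update t e v)) (hm.comp (measurable_update t))
          fun v => hB _
      · -- the other coordinates, by Jensen
        refine sum_le_sum fun j hj => ?_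
        have hje : j ≠ e := fun h => he (h ▸ hj)
        set H : (ι → ℝ) → ℝ := fun t => ∫ v, max (f (Function.update t j v) - f t) 0 ^ 2 ∂G
        have hu2 : Measurable fun z : (ι → ℝ) × ℝ => Function.update z.1 j z.2 := measurable_update'
        have hmH : Measurable H := by
          have : StronglyMeasurable (Function.uncurry fun t v =>
              max (f (Function.update t j v) - f t) 0 ^ 2) :=
            ((((hm.comp hu2).sub (hm.comp measurable_fst)).max measurable_const).pow_const
              2).stronglyMeasurable
          exact this.integral_prod_right'.measurable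
        have pb : ∀ a b : ℝ, |a| ≤ B → |b| ≤ B → |max (a - b) 0 ^ 2| ≤ (2 * B) ^ 2 := fun a b ha hb => by
          rw [abs_pow, abs_of_nonneg (le_max_right _ _)]
          exact pow_le_pow_left₀ (le_max_right _ _)
            (max_le (by linarith [(abs_le.1 ha).2, (abs_le.1 hb).1]) (by linarith)) 2
        have hBH : ∀ t, |H t| ≤ (2 * B) ^ 2 := fun t => by
          have h := norm_integral_le_of_norm_le_const (μ := G) (C := (2 * B) ^ 2)
            (f := fun v => max (f (Function.update t j v) - f t) 0 ^ 2)
            (Filter.Eventually.of_forall fun v => pb _ _ (hB _) (hB t))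
          simpa [H, Real.norm_eq_abs] using h
        rw [key H hmH _ hBH]
        have int1 : Integrable (fun t => ∫ v, max (g (Function.update t j v) - g t) 0 ^ 2 ∂G) P := by
          have : StronglyMeasurable (Function.uncurry fun t v =>
              max (g (Function.update t j v) - g t) 0 ^ 2) :=
            ((((hmg.comp hu2).sub (hmg.comp measurable_fst)).max measurable_const).pow_const
              2).stronglyMeasurable
          refine integrable_of_bdd (B := (2 * B) ^ 2) this.integral_prod_right'.measurable fun t => ?_
          have h := norm_integral_le_of_norm_le_const (μ := G) (C := (2 * B) ^ 2)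
            (f := fun v => max (g (Function.update t j v) - g t) 0 ^ 2)
            (Filter.Eventually.of_forall fun v => pb _ _ (hBg _) (hBg t))
          simpa [Real.norm_eq_abs] using h
        have int2 : Integrable (fun t => ∫ w, H (Function.update t e w) ∂G) P := by
          have : StronglyMeasurable (Function.uncurry fun t w => H (Function.update t e w)) :=
            (hmH.comp hupd).stronglyMeasurable
          refine integrable_of_bdd (B := (2 * B) ^ 2) this.integral_prod_right'.measurable fun t => ?_
          have h := norm_integral_le_of_norm_le_const (μ := G) (C := (2 * B) ^ 2)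
            (f := fun w => H (Function.update t e w)) (Filter.Eventually.of_forall fun w => hBH _)
          simpa [Real.norm_eq_abs] using h
        refine integral_mono int1 int2 fun t => ?_
        set D : ℝ × ℝ → ℝ := fun z =>
          f (Function.update (Function.update t e z.1) j z.2) - f (Function.update t e z.1)
        have hmu : Measurable fun z : ℝ × ℝ => Function.update t e z.1 :=
          (measurable_update t).comp measurable_fst
        have hmD : Measurable D :=
          (hm.comp (hu2.comp (hmu.prodMk measurable_snd))).sub (hm.comp hmu)
        have hD : Integrable (fun z => max (D z) 0 ^ 2) (G.prod G) :=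
          integrable_of_bdd ((hmD.max measurable_const).pow_const 2) fun z => pb _ _ (hB _) (hB _)
        calc ∫ v, max (g (Function.update t j v) - g t) 0 ^ 2 ∂G
            ≤ ∫ v, (∫ w, max (D (w, v)) 0 ^ 2 ∂G) ∂G := by
              refine integral_mono (integrable_of_bdd (B := (2 * B) ^ 2) (by fun_prop) fun v =>
                pb _ _ (hBg _) (hBg t)) hD.swap.integral_prod_left fun v => ?_
              have hdiff : g (Function.update t j v) - g t = ∫ w, D (w, v) ∂G := by
                simp only [g, D]
                simp_rw [Function.update_comm hje]
                rw [integral_sub]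
                · exact integrable_of_bdd (hm.comp ((measurable_update'.comp
                    ((measurable_update t).prodMk measurable_const)))) fun w => hB _
                · exact integrable_of_bdd (hm.comp (measurable_update t)) fun w => hB _
              rw [hdiff]
              have hx : Integrable (fun w => D (w, v)) G :=
                integrable_of_bdd (B := 2 * B) (hmD.comp (measurable_id.prodMk measurable_const))
                  fun w => (abs_sub _ _).trans (by linarith [hB (Function.update (Function.update t e w) j v), hB (Function.update t e w)])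
              refine (ConvexOn.map_integral_le (g := fun x : ℝ => max x 0 ^ 2) ?_ ?_
                isClosed_univ (Filter.Eventually.of_forall fun _ => Set.mem_univ _) hx ?_)
              · exact ((convexOn_id convex_univ).sup (convexOn_const 0 convex_univ)).pow
                  (fun x _ => le_max_right _ _) 2
              · exact Continuous.continuousOn (by fun_prop)
              · exact integrable_of_bdd (((hmD.comp (measurable_id.prodMk measurable_const)).max
                  measurable_const).pow_const 2) fun w => pb _ _ (hB _) (hB _)
          _ = ∫ w, (∫ v, max (D (w, v)) 0 ^ 2 ∂G) ∂G :=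
              (integral_integral_swap (f := fun w v => max (D (w, v)) 0 ^ 2) hD).symm
          _ = _ := rfl

end Vale.Agent.P158
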