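import Vale.Agent.P158.Basic
import Vale.Agent.P158.EfronStein

/-!
The variance of a point-to-point passage time grows at most linearly in the distance.
-/

open MeasureTheory Filter Topology
open scoped ENNReal

namespace Vale.Agent.P158

/-- Self-avoiding walks of length `n` from `x` of weight less than `κ n`. -/
def shortSet (κ : ℝ) (x : V) (n : ℕ) : Set Conf :=
  {t | ∃ (y : V) (p : grid.Walk x y), p.IsPath ∧ p.length = n ∧ plen t p < κ * n}

/-- Short self-avoiding walks are exponentially unlikely. -/
def ShortBound (G : Measure ℝ) (κ : ℝ) : Prop :=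
  0 < κ ∧ ∀ (x : V) (n : ℕ), law G (shortSet κ x n) ≤ (1 / 2 : ℝ≥0∞) ^ n

/-- The weights truncated to `[0, M]`. -/
def clip (M : ℝ) (t : Conf) : Conf := fun e => min M (max 0 (t e))

section walk
variable {x y : V}

/-- The edge codes of a walk. -/
noncomputable def codes (p : grid.Walk x y) : Finset Edge :=
  (p.darts.map fun d => edgeOf d.toProd.1 d.toProd.2).toFinset

lemma walkIn_iff_codes {S : Set Edge} {p : grid.Walk x y} :
    WalkIn S p ↔ ↑(codes p) ⊆ S := by
  simp only [codes, List.coe_toFinset, Set.subset_def, List.mem_map, Set.mem_ofPred_eq, WalkIn]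
  exact ⟨fun h e ⟨d, hd, he⟩ => he ▸ h d hd, fun h d hd => h _ ⟨d, hd, rfl⟩⟩

lemma codes_nodup {p : grid.Walk x y} (hp : p.IsPath) :
    (p.darts.map fun d => edgeOf d.toProd.1 d.toProd.2).Nodup := by
  have h : (p.darts.map SimpleGraph.Dart.edge).Nodup := hp.isTrail.edges_nodup
  refine (List.Nodup.of_map _ h).map_on fun d hd d' hd' he => List.inj_on_of_nodup_map h hd hd' ?_
  rcases (edgeOf_eq_iff d.adj d'.adj).1 he with ⟨a, b⟩ | ⟨a, b⟩
  · exact Sym2.eq_iff.2 (Or.inl ⟨a, b⟩)
  · exact Sym2.eq_iff.2 (Or.inr ⟨a, b⟩)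

lemma card_codes {p : grid.Walk x y} (hp : p.IsPath) : (codes p).card = p.length := by
  rw [codes, List.toFinset_card_of_nodup (codes_nodup hp), List.length_map,
    SimpleGraph.Walk.length_darts]

lemma plen_eq_sum {p : grid.Walk x y} (hp : p.IsPath) (t : Conf) :
    plen t p = ∑ e ∈ codes p, t e := by
  rw [codes, List.sum_toFinset t (codes_nodup hp), List.map_map]
  rfl

lemma plen_congr {t t' : Conf} {S : Set Edge} {p : grid.Walk x y} (hp : WalkIn S p)
    (h : ∀ e ∈ S, t e = t' e) : plen t p = plen t' p := by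
  unfold plen
  exact congrArg List.sum (List.map_congr_left fun d hd => h _ (hp d hd))

lemma TS_congr {t t' : Conf} {S : Set Edge} (h : ∀ e ∈ S, t e = t' e) :
    TS t S x y = TS t' S x y := by
  unfold TS
  congr 1
  exact Set.image_congr fun p hp => plen_congr hp h

instance countable_walk (x y : V) : Countable (grid.Walk x y) := by
  have : (Set.univ : Set (Σ z, grid.Walk x z)).Countable := by
    refine (Set.countable_iUnion fun n => (finite_walks_le n x).countable).mono fun q _ =>
      Set.mem_iUnion.2 ⟨q.2.length, show q.2.length ≤ q.2.length from le_rfl⟩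
  have : Countable (Σ z, grid.Walk x z) := Set.countable_univ_iff.1 this
  exact Function.Injective.countable (f := fun p : grid.Walk x y => (⟨y, p⟩ : Σ z, grid.Walk x z))
    sigma_mk_injective

lemma measurable_plen (p : grid.Walk x y) : Measurable fun t : Conf => plen t p := by
  induction p with
  | nil => simp
  | cons h q ih =>
    simp only [plen_cons]
    exact (measurable_pi_apply _).add ih

lemma measurable_TS' (S : Set Edge) (x y : V) : Measurable fun t : Conf => TS t S x y := by
  have : (fun t : Conf => TS t S x y) =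
      fun t => ⨅ p : {p : grid.Walk x y // WalkIn S p}, plen t p.1 := by
    funext t; rw [TS, sInf_image']; rfl
  rw [this]
  exact Measurable.iInf fun p => measurable_plen p.1

lemma measurable_T' (x y : V) : Measurable fun t : Conf => T t x y := by
  simpa only [T_eq_TS] using measurable_TS' Set.univ x y

lemma measurableSet_shortSet (κ : ℝ) (x : V) (n : ℕ) : MeasurableSet (shortSet κ x n) := by
  have : shortSet κ x n = ⋃ q ∈ {q : Σ y, grid.Walk x y | q.2.length ≤ n},
      {t : Conf | q.2.IsPath ∧ q.2.length = n ∧ plen t q.2 < κ * n} := by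
    ext t
    simp only [shortSet, Set.mem_ofPred_eq, Set.mem_iUnion, exists_prop]
    exact ⟨fun ⟨y, p, h⟩ => ⟨⟨y, p⟩, h.2.1.le, h⟩, fun ⟨⟨y, p⟩, _, h⟩ => ⟨y, p, h⟩⟩
  rw [this]
  refine MeasurableSet.biUnion (finite_walks_le n x).countable fun q _ => ?_
  exact (MeasurableSet.const _).inter ((MeasurableSet.const _).inter
    (measurableSet_lt (measurable_plen q.2) measurable_const))

end walk

section clip
variable {G : Measure ℝ} {M : ℝ}

lemma LawOK.M_nonneg (hG : LawOK G M) : 0 ≤ M := by
  by_contra h
  have := hG.supp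
  rw [Set.Icc_eq_empty h, measure_empty] at this
  exact zero_ne_one this

lemma clip_range (hM : 0 ≤ M) (t : Conf) : InRange M (clip M t) := fun _ =>
  ⟨le_min hM (le_max_left _ _), min_le_left _ _⟩

lemma clip_eq {t : Conf} (h : InRange M t) : clip M t = t := by
  funext e; simp [clip, max_eq_right (h e).1, min_eq_right (h e).2]

lemma measurable_clip (M : ℝ) : Measurable (clip M) := by
  unfold clip; fun_prop

lemma ae_inRange (hG : LawOK G M) : ∀ᵐ t ∂law G, InRange M t := by
  have := hG.prob
  simp only [InRange]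
  rw [ae_all_iff]
  intro e
  have hmap : (law G).map (fun t => t e) = G := Measure.infinitePi_map_eval _ e
  have h1 : ∀ᵐ u ∂G, u ∈ Set.Icc (0 : ℝ) M :=
    mem_ae_iff.2 ((prob_compl_eq_zero_iff measurableSet_Icc).2 hG.supp)
  exact ae_of_ae_map (measurable_pi_apply e).aemeasurable (hmap.symm ▸ h1)

lemma ae_clip (hG : LawOK G M) : ∀ᵐ t ∂law G, clip M t = t :=
  (ae_inRange hG).mono fun _ h => clip_eq h

end clip

section variance
variable {G : Measure ℝ} {M κ : ℝ}

lemma exists_min_path {t : Conf} (h0 : ∀ e, 0 ≤ t e) {S : Finset Edge} {x y : V}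
    {p0 : grid.Walk x y} (hp0 : WalkIn (S : Set Edge) p0) :
    ∃ p : grid.Walk x y, p.IsPath ∧ WalkIn (S : Set Edge) p ∧ plen t p = TS t S x y := by
  set A := {p : grid.Walk x y | p.IsPath ∧ WalkIn (S : Set Edge) p}
  have hfin : A.Finite := by
    refine ((finite_walks_le S.card x).preimage
      (Function.Injective.injOn (f := fun p : grid.Walk x y => (⟨y, p⟩ : Σ z, grid.Walk x z))
        sigma_mk_injective)).subset fun p hp => ?_
    simp only [Set.mem_preimage, Set.mem_ofPred_eq]
    rw [← card_codes hp.1]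
    exact Finset.card_le_card (Finset.coe_subset.1 (walkIn_iff_codes.1 hp.2))
  obtain ⟨p, ⟨h1, h2⟩, hmin⟩ :=
    Set.exists_min_image A (plen t) hfin ⟨p0.bypass, p0.bypass_isPath, hp0.bypass⟩
  refine ⟨p, h1, h2, le_antisymm (le_TS ⟨p0, hp0⟩ fun q hq => ?_) (TS_le h0 h2)⟩
  exact (hmin _ ⟨q.bypass_isPath, hq.bypass⟩).trans (plen_bypass_le h0 q)

open scoped Classical in
/-- Resampling the edges of a finite set changes the passage time by at most `M` on the edges of
one optimal path, and not at all elsewhere. -/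
lemma sum_upd_le (hM : 0 ≤ M) {S : Finset Edge} {x y : V} {p0 : grid.Walk x y}
    (hp0 : WalkIn (S : Set Edge) p0) (t : Conf) :
    ∃ p : grid.Walk x y, p.IsPath ∧ plen (clip M t) p ≤ plen (clip M t) p0 ∧ p.length ≤ S.card ∧
      (∀ (e : Edge) (v : ℝ), max (TS (clip M (Function.update t e v)) S x y -
          TS (clip M t) S x y) 0 ^ 2 ≤ if e ∈ codes p then M ^ 2 else 0) ∧
      (∑ e ∈ S, if e ∈ codes p then M ^ 2 else 0) = M ^ 2 * p.length := by
  have h0 : ∀ t' : Conf, ∀ e, 0 ≤ clip M t' e := fun t' e => (clip_range hM t' e).1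
  obtain ⟨p, hp, hin, hpe⟩ := exists_min_path (h0 t) hp0
  have hsub : codes p ⊆ S := Finset.coe_subset.1 (walkIn_iff_codes.1 hin)
  refine ⟨p, hp, hpe ▸ TS_le (h0 t) hp0, card_codes hp ▸ Finset.card_le_card hsub, ?_, ?_⟩
  · intro e v
    have h1 := TS_le (h0 (Function.update t e v)) hin
    split_ifs with he
    · have h2 : plen (clip M (Function.update t e v)) p ≤ plen (clip M t) p + M := by
        rw [plen_eq_sum hp, plen_eq_sum hp, ← Finset.add_sum_erase _ _ he,
          ← Finset.add_sum_erase _ _ he]
        have hh : ∀ i ∈ (codes p).erase e, clip M (Function.update t e v) i = clip M t i :=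
          fun i hi => by simp [clip, Function.update_of_ne (Finset.ne_of_mem_erase hi)]
        rw [Finset.sum_congr rfl hh]
        linarith [(clip_range hM (Function.update t e v) e).2, h0 t e]
      exact pow_le_pow_left₀ (le_max_right _ _) (max_le (by linarith) hM) 2
    · have h2 : plen (clip M (Function.update t e v)) p = plen (clip M t) p :=
        plen_congr (walkIn_iff_codes.2 subset_rfl) fun i hi => by
          simp [clip, Function.update_of_ne (ne_of_mem_of_not_mem hi he)]
      rw [max_eq_right (by linarith)]; simp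
  · rw [Finset.sum_ite_mem, Finset.inter_eq_right.2 hsub, Finset.sum_const, card_codes hp,
      nsmul_eq_mul, mul_comm]

lemma sum_short (hG : LawOK G M) (hS : ShortBound G κ) (x : V) (N : ℕ) :
    ∫ t, (∑ n ∈ Finset.range (N + 1),
      (n : ℝ) * (shortSet κ x n).indicator (fun _ => (1 : ℝ)) (clip M t)) ∂law G ≤ 2 := by
  have := hG.prob
  have : IsProbabilityMeasure (law G) := by unfold law; infer_instance
  have hi : ∀ n, Integrable (fun t => (shortSet κ x n).indicator (fun _ => (1 : ℝ)) (clip M t))
      (law G) := fun n => integrable_of_bdd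
    ((measurable_const.indicator (measurableSet_shortSet κ x n)).comp (measurable_clip M))
    (B := 1) fun t => by by_cases h : clip M t ∈ shortSet κ x n <;> simp [h]
  rw [integral_finsetSum _ fun n _ => (hi n).const_mul _]
  have key : ∀ n : ℕ, ∫ t, (n : ℝ) * (shortSet κ x n).indicator (fun _ => (1 : ℝ)) (clip M t) ∂law G
      ≤ (n : ℝ) * (1 / 2 : ℝ) ^ n := fun n => by
    rw [integral_const_mul]
    refine mul_le_mul_of_nonneg_left ?_ (Nat.cast_nonneg n)
    rw [integral_congr_ae (g := fun t => (shortSet κ x n).indicator (fun _ => (1 : ℝ)) t)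
        ((ae_clip hG).mono fun t ht => by simp only [ht]),
      integral_indicator_const _ (measurableSet_shortSet κ x n), smul_eq_mul, mul_one,
      measureReal_def]
    have := ENNReal.toReal_mono (by simp) (hS.2 x n)
    simpa [ENNReal.toReal_pow] using this
  refine (Finset.sum_le_sum fun n _ => key n).trans ?_
  have h := hasSum_coe_mul_geometric_of_norm_lt_one (𝕜 := ℝ) (r := 1 / 2) (by norm_num)
  norm_num at h
  simpa using sum_le_hasSum _ (fun n _ => by positivity) h

/-- Variance bound inside a finite set of edges. -/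
lemma var_TS_le (hG : LawOK G M) (hS : ShortBound G κ) {S : Finset Edge} {x y : V}
    {p0 : grid.Walk x y} (hp0 : WalkIn (S : Set Edge) p0) :
    ∫ t, (TS (clip M t) S x y - ∫ u, TS (clip M u) S x y ∂law G) ^ 2 ∂law G ≤
      M ^ 2 * ((M * p0.length + 1) / κ + 2) := by
  have := hG.prob
  have : IsProbabilityMeasure (law G) := by unfold law; infer_instance
  have hM := hG.M_nonneg
  have h0 : ∀ t' : Conf, ∀ e, 0 ≤ clip M t' e := fun t' e => (clip_range hM t' e).1
  set f : Conf → ℝ := fun t => TS (clip M t) S x y with hf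
  have hm : Measurable f := (measurable_TS' S x y).comp (measurable_clip M)
  have hB : ∀ t, |f t| ≤ M * p0.length := fun t => by
    rw [abs_of_nonneg (TS_nonneg (h0 t) _ _ _)]
    exact (TS_le (h0 t) hp0).trans (plen_le_of_range (clip_range hM t) p0)
  have hdep : ∀ t t', (∀ e ∈ S, t e = t' e) → f t = f t' := fun t t' h =>
    TS_congr fun e he => by simp [clip, h e he]
  refine (efron_stein G S f _ hm hB hdep).trans ?_
  have hB2 : ∀ (e : Edge) (z : Conf × ℝ),
      |max (f (Function.update z.1 e z.2) - f z.1) 0 ^ 2| ≤ M ^ 2 := fun e z => by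
    obtain ⟨p, -, -, -, h, -⟩ := sum_upd_le hM hp0 z.1
    rw [abs_of_nonneg (sq_nonneg _)]
    exact (h e z.2).trans (by split_ifs; exacts [le_rfl, sq_nonneg M])
  have hmF : ∀ e : Edge, Measurable fun z : Conf × ℝ =>
      max (f (Function.update z.1 e z.2) - f z.1) 0 ^ 2 := fun e => by
    have : Measurable fun z : Conf × ℝ => Function.update z.1 e z.2 := measurable_update'
    fun_prop
  set g : Edge → Conf → ℝ := fun e t => ∫ v, max (f (Function.update t e v) - f t) 0 ^ 2 ∂G
    with hg
  have hgm : ∀ e, Measurable (g e) := fun e =>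
    ((hmF e).stronglyMeasurable.integral_prod_right' (ν := G)).measurable
  have hgB : ∀ e t, |g e t| ≤ M ^ 2 := fun e t => by
    have := norm_integral_le_of_norm_le_const (μ := G) (C := M ^ 2)
      (f := fun v => max (f (Function.update t e v) - f t) 0 ^ 2)
      (Eventually.of_forall fun v => hB2 e (t, v))
    simpa [g, Real.norm_eq_abs] using this
  set A := (M * p0.length + 1) / κ with hA
  have hA0 : 0 ≤ A := div_nonneg (by positivity) hS.1.le
  set H : Conf → ℝ := fun t => M ^ 2 * (A + ∑ n ∈ Finset.range (S.card + 1),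
      (n : ℝ) * (shortSet κ x n).indicator (fun _ => (1 : ℝ)) (clip M t)) with hH
  have hpt : ∀ t, ∑ e ∈ S, g e t ≤ H t := fun t => by
    obtain ⟨p, hp, hle, hlen, h, hsum⟩ := sum_upd_le hM hp0 t
    have h1 : ∑ e ∈ S, g e t ≤ M ^ 2 * p.length := hsum ▸ Finset.sum_le_sum fun e _ => by
      refine (integral_mono_of_nonneg (Eventually.of_forall fun v => sq_nonneg _)
        (integrable_const _) (Eventually.of_forall fun v => h e v)).trans ?_
      rw [integral_const]; simp
    refine h1.trans (mul_le_mul_of_nonneg_left ?_ (sq_nonneg M))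
    have hnn : ∀ n : ℕ, (0 : ℝ) ≤ (n : ℝ) * (shortSet κ x n).indicator (fun _ => (1 : ℝ)) (clip M t) :=
      fun n => mul_nonneg (Nat.cast_nonneg n) (Set.indicator_nonneg (fun _ _ => zero_le_one) _)
    rcases le_or_gt (p.length : ℝ) A with hc | hc
    · linarith [Finset.sum_nonneg fun n (_ : n ∈ Finset.range (S.card + 1)) => hnn n]
    · have hmem : clip M t ∈ shortSet κ x p.length := by
        refine ⟨y, p, hp, rfl, (hle.trans (plen_le_of_range (clip_range hM t) p0)).trans_lt ?_⟩
        rw [hA, div_lt_iff₀ hS.1] at hc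
        linarith
      have := Finset.single_le_sum (f := fun n : ℕ => (n : ℝ) *
        (shortSet κ x n).indicator (fun _ => (1 : ℝ)) (clip M t)) (fun n _ => hnn n)
        (Finset.mem_range.2 (Nat.lt_succ_of_le hlen))
      simp only [Set.indicator_of_mem hmem, mul_one] at this
      linarith
  show ∑ e ∈ S, ∫ t, g e t ∂law G ≤ _
  have hgi : ∀ e, Integrable (g e) (law G) := fun e => integrable_of_bdd (hgm e) (hgB e)
  rw [← integral_finsetSum _ fun e _ => hgi e]
  have hsi : Integrable (fun t => ∑ n ∈ Finset.range (S.card + 1),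
      (n : ℝ) * (shortSet κ x n).indicator (fun _ => (1 : ℝ)) (clip M t)) (law G) :=
    integrable_finsetSum _ fun n _ => (integrable_of_bdd
      ((measurable_const.indicator (measurableSet_shortSet κ x n)).comp (measurable_clip M))
      (B := 1) fun t => by by_cases h : clip M t ∈ shortSet κ x n <;> simp [h]).const_mul _
  refine (integral_mono (integrable_finsetSum _ fun e _ => hgi e)
    (((integrable_const A).add hsi).const_mul _) hpt).trans ?_
  rw [integral_const_mul, integral_add' (integrable_const A) hsi, integral_const]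
  simp only [probReal_univ, one_smul]
  exact mul_le_mul_of_nonneg_left (by linarith [sum_short hG hS x S.card]) (sq_nonneg M)

/-- The edge box of radius `L`. -/
noncomputable def boxE (L : ℕ) : Finset Edge :=
  (Finset.Icc (-(L : ℤ)) L ×ˢ Finset.Icc (-(L : ℤ)) L) ×ˢ Finset.univ

lemma mem_boxE_eventually (e : Edge) : ∀ᶠ L in atTop, e ∈ boxE L := by
  filter_upwards [eventually_ge_atTop (e.1.1.natAbs + e.1.2.natAbs)] with L hL
  simp only [boxE, Finset.mem_product, Finset.mem_Icc, Finset.mem_univ, and_true]
  omega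

lemma tendsto_TS_box {t : Conf} (h0 : ∀ e, 0 ≤ t e) {x y : V} (p0 : grid.Walk x y) :
    Tendsto (fun L => TS t (↑(boxE L ∪ codes p0)) x y) atTop (𝓝 (T t x y)) := by
  have hc : ∀ L, ConnIn (↑(boxE L ∪ codes p0)) x y := fun L =>
    ⟨p0, walkIn_iff_codes.2 (by simp)⟩
  refine tendsto_order.2 ⟨fun b hb => Eventually.of_forall fun L =>
    hb.trans_le (T_le_TS h0 (hc L)), fun b hb => ?_⟩
  obtain ⟨p, hp⟩ : ∃ p : grid.Walk x y, plen t p < b := by
    by_contra hcon
    push Not at hcon
    exact absurd (le_T hcon) (not_le.2 hb)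
  have : ∀ᶠ L in atTop, ∀ e ∈ codes p, e ∈ boxE L :=
    (Finset.eventually_all (codes p)).2 fun e _ => mem_boxE_eventually e
  filter_upwards [this] with L hL
  refine lt_of_le_of_lt (TS_le h0 (walkIn_iff_codes.2 fun e he => ?_)) hp
  exact Finset.mem_coe.2 (Finset.mem_union_left _ (hL e he))

/-- The variance of the passage time is at most linear in the distance. -/
theorem var_T_le (hG : LawOK G M) (hS : ShortBound G κ) (x y : V) :
    ∫ t, (T t x y - ∫ u, T u x y ∂law G) ^ 2 ∂law G ≤
      M ^ 2 * ((M * ((|x.1 - y.1| + |x.2 - y.2| : ℤ) : ℝ) + 1) / κ + 2) := by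
  have := hG.prob
  have : IsProbabilityMeasure (law G) := by unfold law; infer_instance
  have hM := hG.M_nonneg
  obtain ⟨p0, hp0⟩ := exists_walk_l1 x y
  rw [← hp0]; push_cast
  set F : ℕ → Conf → ℝ := fun L t => TS (clip M t) (↑(boxE L ∪ codes p0)) x y with hF
  set f : Conf → ℝ := fun t => T (clip M t) x y with hf
  have h0 : ∀ t' : Conf, ∀ e, 0 ≤ clip M t' e := fun t' e => (clip_range hM t' e).1
  have hin : ∀ L, WalkIn (↑(boxE L ∪ codes p0) : Set Edge) p0 := fun L =>
    walkIn_iff_codes.2 (by simp)
  set B := M * p0.length with hBdef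
  have hmF : ∀ L, Measurable (F L) := fun L => (measurable_TS' _ x y).comp (measurable_clip M)
  have hBF : ∀ L t, |F L t| ≤ B := fun L t => by
    rw [abs_of_nonneg (TS_nonneg (h0 t) _ _ _)]
    exact (TS_le (h0 t) (hin L)).trans (plen_le_of_range (clip_range hM t) p0)
  have hlim : ∀ t, Tendsto (fun L => F L t) atTop (𝓝 (f t)) := fun t => tendsto_TS_box (h0 t) p0
  have hmean : Tendsto (fun L => ∫ t, F L t ∂law G) atTop (𝓝 (∫ t, f t ∂law G)) :=
    tendsto_integral_of_dominated_convergence (fun _ => B)
      (fun L => (hmF L).aestronglyMeasurable) (integrable_const B)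
      (fun L => Eventually.of_forall fun t => hBF L t) (Eventually.of_forall hlim)
  have hmb : ∀ L, |∫ t, F L t ∂law G| ≤ B := fun L => by
    simpa using norm_integral_le_of_norm_le_const (μ := law G) (f := F L) (C := B)
      (Eventually.of_forall fun t => hBF L t)
  have hvar : Tendsto (fun L => ∫ t, (F L t - ∫ u, F L u ∂law G) ^ 2 ∂law G) atTop
      (𝓝 (∫ t, (f t - ∫ u, f u ∂law G) ^ 2 ∂law G)) :=
    tendsto_integral_of_dominated_convergence (fun _ => (2 * B) ^ 2)
      (fun L => (((hmF L).sub_const _).pow_const 2).aestronglyMeasurable) (integrable_const _)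
      (fun L => Eventually.of_forall fun t => by
        rw [norm_pow, Real.norm_eq_abs]
        exact pow_le_pow_left₀ (abs_nonneg _) ((abs_sub _ _).trans
          (by linarith [hBF L t, hmb L])) 2)
      (Eventually.of_forall fun t => ((hlim t).sub hmean).pow 2)
  have e1 : ∫ u, f u ∂law G = ∫ u, T u x y ∂law G :=
    integral_congr_ae ((ae_clip hG).mono fun t ht => by simp only [hf, ht])
  have e2 : ∫ t, (f t - ∫ u, f u ∂law G) ^ 2 ∂law G =
      ∫ t, (T t x y - ∫ u, T u x y ∂law G) ^ 2 ∂law G := by
    rw [e1]; exact integral_congr_ae ((ae_clip hG).mono fun t ht => by simp only [hf, ht])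
  rw [← e2]
  exact le_of_tendsto' hvar fun L => var_TS_le hG hS (hin L)

end variance

end Vale.Agent.P158
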