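import Vale.Agent.P158.Spec
import Vale.Agent.P158.MuVar
import Vale.Agent.P158.Gen.Law

/-!
Measure-theoretic lemmas for P158: invariance of the law under the lattice symmetries with the
covariance of passage times and bigeodesics, resampling of finitely many edges, and measurability
of events asking for the existence of an infinite path with closed properties.
-/

open MeasureTheory Filter Topology Set

namespace Vale.Agent.P158

/-! ### Lattice symmetries -/

/-- A symmetry of the square lattice together with its action on edges. -/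
structure LatSym where
  vmap : V ≃ V
  emap : Edge ≃ Edge
  adj_map : ∀ x y, Adj (vmap x) (vmap y) ↔ Adj x y
  edge_map : ∀ x y, Adj x y → emap (edgeOf x y) = edgeOf (vmap x) (vmap y)

namespace LatSym

/-- The action of a symmetry on configurations. -/
def act (σ : LatSym) (t : Conf) : Conf := fun e => t (σ.emap e)

/-- The inverse symmetry. -/
def symm (σ : LatSym) : LatSym where
  vmap := σ.vmap.symm
  emap := σ.emap.symm
  adj_map x y := by
    have := σ.adj_map (σ.vmap.symm x) (σ.vmap.symm y)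
    simpa using this.symm
  edge_map x y h := by
    have h' : Adj (σ.vmap.symm x) (σ.vmap.symm y) := by
      have := σ.adj_map (σ.vmap.symm x) (σ.vmap.symm y)
      simpa [h] using this
    apply σ.emap.injective
    simp [σ.edge_map _ _ h']

lemma act_symm_act (σ : LatSym) (t : Conf) : σ.symm.act (σ.act t) = t := by
  funext e
  show t (σ.emap (σ.emap.symm e)) = t e
  simp

lemma act_act_symm (σ : LatSym) (t : Conf) : σ.act (σ.symm.act t) = t := by
  funext e
  show t (σ.emap.symm (σ.emap e)) = t e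
  simp

/-- The symmetry as a graph homomorphism. -/
def hom (σ : LatSym) : grid →g grid where
  toFun := σ.vmap
  map_rel' h := (σ.adj_map _ _).2 h

@[simp] lemma hom_apply (σ : LatSym) (x : V) : σ.hom x = σ.vmap x := rfl

lemma wt_act (σ : LatSym) (t : Conf) {x y : V} (h : Adj x y) :
    wt (σ.act t) x y = wt t (σ.vmap x) (σ.vmap y) := by
  show t (σ.emap (edgeOf x y)) = _
  rw [σ.edge_map x y h]
  rfl

lemma plen_map (σ : LatSym) (t : Conf) {x y : V} (p : grid.Walk x y) :
    plen t (p.map σ.hom) = plen (σ.act t) p := by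
  unfold plen
  rw [SimpleGraph.Walk.darts_map, List.map_map]
  refine congrArg List.sum (List.map_congr_left fun d _ => ?_)
  exact (σ.wt_act t d.adj).symm

lemma walkIn_map (σ : LatSym) (S : Set Edge) {x y : V} (p : grid.Walk x y) :
    WalkIn (σ.emap '' S) (p.map σ.hom) ↔ WalkIn S p := by
  unfold WalkIn
  rw [SimpleGraph.Walk.darts_map]
  simp only [List.mem_map, forall_exists_index, and_imp, forall_apply_eq_imp_iff₂]
  refine forall₂_congr fun d _ => ?_
  have e : edgeOf (σ.hom.mapDart d).toProd.1 (σ.hom.mapDart d).toProd.2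
      = σ.emap (edgeOf d.toProd.1 d.toProd.2) := (σ.edge_map _ _ d.adj).symm
  rw [e, σ.emap.injective.mem_set_image]

lemma TS_act (σ : LatSym) (t : Conf) (S : Set Edge) (x y : V) :
    TS (σ.act t) S x y = TS t (σ.emap '' S) (σ.vmap x) (σ.vmap y) := by
  unfold TS
  congr 1
  ext a
  constructor
  · rintro ⟨p, hp, rfl⟩
    exact ⟨p.map σ.hom, (σ.walkIn_map S p).2 hp, σ.plen_map t p⟩
  · rintro ⟨q, hq, rfl⟩
    have hx : σ.symm.hom (σ.vmap x) = x := σ.vmap.symm_apply_apply x
    have hy : σ.symm.hom (σ.vmap y) = y := σ.vmap.symm_apply_apply y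
    refine ⟨(q.map σ.symm.hom).copy hx hy, ?_, ?_⟩
    · have h := (σ.symm.walkIn_map (σ.emap '' S) q).2 hq
      rw [show σ.symm.emap '' (σ.emap '' S) = S from σ.emap.symm_image_image S] at h
      intro d hd
      rw [SimpleGraph.Walk.darts_copy] at hd
      exact h d hd
    · show plen (σ.act t) _ = plen t q
      have := σ.symm.plen_map (σ.act t) q
      rw [act_symm_act] at this
      rw [← this]
      unfold plen
      rw [SimpleGraph.Walk.darts_copy]

lemma TS_univ (t : Conf) (x y : V) : TS t Set.univ x y = T t x y := by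
  unfold TS T
  congr 1
  ext a
  simp [WalkIn]

lemma T_act (σ : LatSym) (t : Conf) (x y : V) :
    T (σ.act t) x y = T t (σ.vmap x) (σ.vmap y) := by
  rw [← TS_univ, ← TS_univ, TS_act, Set.image_univ, σ.emap.range_eq_univ]

lemma isBigeodesic_act (σ : LatSym) (t : Conf) (γ : ℤ → V) :
    IsBigeodesic (σ.act t) γ ↔ IsBigeodesic t (fun i => σ.vmap (γ i)) := by
  constructor
  · rintro ⟨hi, ha, hg⟩
    refine ⟨σ.vmap.injective.comp hi, fun i => (σ.adj_map _ _).2 (ha i), fun i j hij => ?_⟩
    have h := hg i j hij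
    rw [σ.T_act] at h
    rw [← h]
    exact Finset.sum_congr rfl fun k _ => (σ.wt_act t (ha k)).symm
  · rintro ⟨hi, ha, hg⟩
    have ha' : ∀ i, Adj (γ i) (γ (i + 1)) := fun i => (σ.adj_map _ _).1 (ha i)
    refine ⟨fun i j h => hi (by simp [h]), ha', fun i j hij => ?_⟩
    rw [σ.T_act, ← hg i j hij]
    exact Finset.sum_congr rfl fun k _ => σ.wt_act t (ha' k)

lemma rlen_act (σ : LatSym) (t : Conf) {r : ℕ → V} (h : ∀ i, Adj (r i) (r (i + 1))) (n : ℕ) :
    rlen (σ.act t) r n = rlen t (fun i => σ.vmap (r i)) n :=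
  Finset.sum_congr rfl fun k _ => σ.wt_act t (h k)

lemma isRayIn_act (σ : LatSym) (t : Conf) (S : Set Edge) (r : ℕ → V) :
    IsRayIn (σ.act t) S r ↔ IsRayIn t (σ.emap '' S) (fun i => σ.vmap (r i)) := by
  constructor
  · rintro ⟨hi, ha, hm, hg⟩
    refine ⟨σ.vmap.injective.comp hi, fun i => (σ.adj_map _ _).2 (ha i), fun i => ?_,
      fun i j hij => ?_⟩
    · rw [← σ.edge_map _ _ (ha i)]
      exact mem_image_of_mem _ (hm i)
    · rw [← σ.rlen_act t ha, ← σ.rlen_act t ha, ← σ.TS_act]
      exact hg i j hij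
  · rintro ⟨hi, ha, hm, hg⟩
    have ha' : ∀ i, Adj (r i) (r (i + 1)) := fun i => (σ.adj_map _ _).1 (ha i)
    refine ⟨fun i j h => hi (by simp [h]), ha', fun i => ?_, fun i j hij => ?_⟩
    · have := hm i
      rw [← σ.edge_map _ _ (ha' i), σ.emap.injective.mem_set_image] at this
      exact this
    · rw [σ.rlen_act t ha', σ.rlen_act t ha', σ.TS_act]
      exact hg i j hij

lemma bus_act (σ : LatSym) (t : Conf) (S : Set Edge) {r : ℕ → V}
    (h : ∀ i, Adj (r i) (r (i + 1))) (z : V) :
    bus (σ.act t) S r z = bus t (σ.emap '' S) (fun i => σ.vmap (r i)) (σ.vmap z) := by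
  unfold bus
  simp only [TS_act, σ.rlen_act t h]

lemma inRange_act (σ : LatSym) (M : ℝ) (t : Conf) : InRange M (σ.act t) ↔ InRange M t :=
  ⟨fun h e => by simpa [act] using h (σ.emap.symm e), fun h e => h _⟩

end LatSym

/-- Translation by `v`. -/
def shiftSym (v : V) : LatSym where
  vmap := Equiv.addRight v
  emap := Equiv.prodCongr (Equiv.addRight v) (Equiv.refl Bool)
  adj_map x y := by simp [Adj]
  edge_map x y _ := by
    simp [edgeOf, Equiv.prodCongr, Prod.ext_iff, min_add_add_right]

/-- Exchange of the two coordinates. -/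
def swapSym : LatSym where
  vmap :=
    ⟨fun x => (x.2, x.1), fun x => (x.2, x.1), fun _ => rfl, fun _ => rfl⟩
  emap :=
    ⟨fun e => ((e.1.2, e.1.1), !e.2), fun e => ((e.1.2, e.1.1), !e.2), fun e => by simp,
      fun e => by simp⟩
  adj_map x y := by simp [Adj, add_comm]
  edge_map x y h := by
    simp only [Adj] at h
    by_cases h1 : x.1 = y.1
    · have h2 : x.2 ≠ y.2 := fun h2 => by simp [h1, h2] at h
      simp [edgeOf, h1, h2]
    · have h2 : x.2 = y.2 := by
        rcases abs_cases (x.1 - y.1) with hc | hc <;>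
          rcases abs_cases (x.2 - y.2) with hd | hd <;> omega
      simp [edgeOf, h1, h2]

/-- Reversal of the second coordinate on edges. -/
def flipE (e : Edge) : Edge :=
  if e.2 then ((e.1.1, -e.1.2 - 1), true) else ((e.1.1, -e.1.2), false)

lemma flipE_flipE (e : Edge) : flipE (flipE e) = e := by
  rcases e with ⟨⟨a, b⟩, c⟩
  cases c <;> simp [flipE]

/-- Reversal of the second coordinate. -/
def flipSym : LatSym where
  vmap :=
    ⟨fun x => (x.1, -x.2), fun x => (x.1, -x.2), fun x => by simp, fun x => by simp⟩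
  emap := ⟨flipE, flipE, flipE_flipE, flipE_flipE⟩
  adj_map x y := by
    show |x.1 - y.1| + |-x.2 - -y.2| = 1 ↔ _
    rw [show -x.2 - -y.2 = -(x.2 - y.2) by ring, abs_neg]
    rfl
  edge_map x y h := by
    simp only [Adj] at h
    show flipE (edgeOf x y) = edgeOf (x.1, -x.2) (y.1, -y.2)
    by_cases h1 : x.1 = y.1
    · simp only [h1, sub_self, abs_zero, zero_add] at h
      simp only [flipE, edgeOf, h1, decide_true, if_true, Prod.mk.injEq, and_true, true_and]
      rcases abs_cases (x.2 - y.2) with hd | hd <;> omega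
    · have h2 : x.2 = y.2 := by
        rcases abs_cases (x.1 - y.1) with hc | hc <;>
          rcases abs_cases (x.2 - y.2) with hd | hd <;> omega
      simp [flipE, edgeOf, h1, h2]

lemma shift_eq_act (v : V) (t : Conf) : shift v t = (shiftSym v).act t := rfl

lemma swapConf_eq_act (t : Conf) : swapConf t = swapSym.act t := rfl

lemma flipConf_eq_act (t : Conf) : flipConf t = flipSym.act t := rfl

@[simp] lemma shiftSym_vmap (v x : V) : (shiftSym v).vmap x = x + v := rfl

@[simp] lemma shiftSym_emap (v : V) (e : Edge) : (shiftSym v).emap e = eShift v e := rfl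

@[simp] lemma swapSym_vmap (x : V) : swapSym.vmap x = (x.2, x.1) := rfl

@[simp] lemma flipSym_vmap (x : V) : flipSym.vmap x = (x.1, -x.2) := rfl

lemma shift_shift (u v : V) (t : Conf) : shift u (shift v t) = shift (u + v) t := by
  funext e; simp [shift, eShift, add_assoc]

lemma shift_zero (t : Conf) : shift 0 t = t := by
  funext e; simp [shift, eShift]

lemma T_shift (v : V) (t : Conf) (x y : V) : T (shift v t) x y = T t (x + v) (y + v) :=
  (shiftSym v).T_act t x y

lemma TS_shift (v : V) (t : Conf) (S : Set Edge) (x y : V) :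
    TS (shift v t) S x y = TS t (eShift v '' S) (x + v) (y + v) :=
  (shiftSym v).TS_act t S x y

lemma isBigeodesic_shift (v : V) (t : Conf) (γ : ℤ → V) :
    IsBigeodesic (shift v t) γ ↔ IsBigeodesic t (fun i => γ i + v) :=
  (shiftSym v).isBigeodesic_act t γ

lemma isBigeodesic_swapConf (t : Conf) (γ : ℤ → V) :
    IsBigeodesic (swapConf t) γ ↔ IsBigeodesic t (fun i => ((γ i).2, (γ i).1)) :=
  swapSym.isBigeodesic_act t γ

lemma isBigeodesic_flipConf (t : Conf) (γ : ℤ → V) :
    IsBigeodesic (flipConf t) γ ↔ IsBigeodesic t (fun i => ((γ i).1, -(γ i).2)) :=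
  flipSym.isBigeodesic_act t γ

lemma plen_shift (v : V) (t : Conf) {x y : V} (p : grid.Walk x y) :
    plen (shift v t) p = plen t (p.map (shiftSym v).hom) :=
  ((shiftSym v).plen_map t p).symm

lemma image_eShift_lefE (v : V) (k L : ℤ) : eShift v '' lefE k L = lefE k (L + lev k v) := by
  ext e
  simp only [mem_image, lefE, mem_ofPred_eq]
  constructor
  · rintro ⟨f, ⟨h1, h2⟩, rfl⟩
    rcases f with ⟨⟨a, b⟩, c⟩
    cases c <;> simp [eShift, eFst, eSnd, lev] at * <;>
      constructor <;> nlinarith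
  · rintro ⟨h1, h2⟩
    refine ⟨eShift (-v) e, ?_, by simp [eShift]⟩
    rcases e with ⟨⟨a, b⟩, c⟩
    cases c <;> simp [eShift, eFst, eSnd, lev] at * <;>
      constructor <;> nlinarith

lemma image_eShift_rigE (v : V) (k L : ℤ) : eShift v '' rigE k L = rigE k (L + lev k v) := by
  ext e
  simp only [mem_image, rigE, mem_ofPred_eq]
  constructor
  · rintro ⟨f, ⟨h1, h2⟩, rfl⟩
    rcases f with ⟨⟨a, b⟩, c⟩
    cases c <;> simp [eShift, eFst, eSnd, lev] at * <;>
      constructor <;> nlinarith
  · rintro ⟨h1, h2⟩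
    refine ⟨eShift (-v) e, ?_, by simp [eShift]⟩
    rcases e with ⟨⟨a, b⟩, c⟩
    cases c <;> simp [eShift, eFst, eSnd, lev] at * <;>
      constructor <;> nlinarith

lemma inCone_add (k σ : ℤ) (a b : ℝ) (R : ℕ) (r : ℕ → V) (v : V) :
    InCone k σ a b R (fun n => r n + v) ↔ InCone k σ a b R r := by
  have h1 : ∀ n, lev k (r n + v) - lev k (r 0 + v) = lev k (r n) - lev k (r 0) := fun n => by
    simp [lev]; ring
  have h2 : ∀ n, (r n + v).2 - (r 0 + v).2 = (r n).2 - (r 0).2 := fun n => by simp
  simp only [InCone, h1, h2]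

lemma coneLine_shift (v : V) (t : Conf) (k : ℤ) (a b : ℝ) (R : ℕ) (γ : ℤ → V) :
    ConeLine (shift v t) k a b R γ ↔ ConeLine t k a b R (fun i => γ i + v) := by
  unfold ConeLine
  rw [isBigeodesic_shift, ← inCone_add k 1 a b R (fwd γ 0) v,
    ← inCone_add k (-1) a b R (bwd γ 0) v]
  rfl

lemma inCone_flip (σ : ℤ) (a b : ℝ) (R : ℕ) (r : ℕ → V) :
    InCone 0 σ a b R (fun n => ((r n).1, -(r n).2)) ↔ InCone 0 σ (-b) (-a) R r := by
  have h : ∀ n, σ * (-(r n).2 - -(r 0).2) = -(σ * ((r n).2 - (r 0).2)) := fun n => by ring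
  simp only [InCone, lev, zero_mul, add_zero, h, Int.cast_neg, neg_mul]
  refine forall₂_congr fun n _ => ?_
  constructor <;> rintro ⟨h1, h2, h3⟩ <;> exact ⟨h1, by linarith, by linarith⟩

lemma coneLine_flipConf (t : Conf) (a b : ℝ) (R : ℕ) (γ : ℤ → V) :
    ConeLine (flipConf t) 0 a b R γ ↔
      ConeLine t 0 (-b) (-a) R (fun i => ((γ i).1, -(γ i).2)) := by
  unfold ConeLine
  rw [isBigeodesic_flipConf]
  have h1 := inCone_flip 1 (-b) (-a) R (fwd γ 0)
  have h2 := inCone_flip (-1) (-b) (-a) R (bwd γ 0)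
  simp only [neg_neg] at h1 h2
  rw [← h1, ← h2]
  rfl

/-- A shift carries the entrance event to the entrance event at another site. -/
lemma shift_mem_unitEvent (v : V) (t : Conf) (r₁ a b : ℝ) (R J : ℕ) :
    shift v t ∈ unitEvent r₁ a b R J ↔
      r₁ ≤ wt t (v + (-1, 0)) v ∧
        ∃ γ, ConeLine t 0 a b R γ ∧ Entrance J (fun i => γ i - v) := by
  have he : edgeOf (v + (-1, 0)) v = eShift v ((-1, 0), false) := by
    simp [edgeOf, eShift, Prod.ext_iff]
    omega
  simp only [unitEvent, mem_ofPred_eq, wt, he]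
  refine and_congr Iff.rfl ⟨?_, ?_⟩
  · rintro ⟨γ, h1, h2⟩
    exact ⟨fun i => γ i + v, (coneLine_shift v t 0 a b R γ).1 h1, by simpa using h2⟩
  · rintro ⟨γ, h1, h2⟩
    refine ⟨fun i => γ i - v, (coneLine_shift v t 0 a b R _).2 ?_, h2⟩
    simpa using h1

/-- Re-indexing a bigeodesic. -/
lemma IsBigeodesic.reindex {t : Conf} {γ : ℤ → V} (h : IsBigeodesic t γ) (m : ℤ) :
    IsBigeodesic t (fun i => γ (i + m)) := by
  refine ⟨h.inj.comp (add_left_injective m), fun i => ?_, fun i j hij => ?_⟩
  · simpa [add_assoc, add_comm, add_left_comm] using h.adj (i + m)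
  · show _ = T t (γ (i + m)) (γ (j + m))
    rw [← h.geo (i + m) (j + m) (by omega), ← Finset.map_add_right_Ico, Finset.sum_map]
    refine Finset.sum_congr rfl fun k _ => ?_
    simp [add_assoc, add_comm]

/-! ### Asymptotic directions -/

lemma finite_norm_toPlane_lt (c : ℝ) : {x : V | ‖toPlane x‖ < c}.Finite := by
  obtain ⟨N, hN⟩ : ∃ N : ℕ, c ≤ N := exists_nat_ge c
  refine (Set.finite_Icc ((-(N : ℤ), -(N : ℤ)) : V) ((N : ℤ), (N : ℤ))).subset fun x hx => ?_
  have h1 := (Complex.abs_re_le_norm (toPlane x)).trans (le_of_lt (hx.trans_le hN))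
  have h2 := (Complex.abs_im_le_norm (toPlane x)).trans (le_of_lt (hx.trans_le hN))
  simp only [toPlane, abs_le] at h1 h2
  refine ⟨⟨?_, ?_⟩, ?_, ?_⟩ <;> simp only
  · exact_mod_cast h1.1
  · exact_mod_cast h2.1
  · exact_mod_cast h1.2
  · exact_mod_cast h2.2

lemma tendsto_norm_toPlane {r : ℕ → V} (hr : Function.Injective r) :
    Tendsto (fun n => ‖toPlane (r n)‖) atTop atTop := by
  refine tendsto_atTop.2 fun c => ?_
  rw [← Nat.cofinite_eq_atTop, eventually_cofinite]
  exact ((finite_norm_toPlane_lt c).preimage hr.injOn).subset fun n hn => by simpa using hn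

lemma toPlane_add (x v : V) : toPlane (x + v) = toPlane x + toPlane v := by
  apply Complex.ext <;> simp [toPlane]

lemma RayDir.add {r : ℕ → V} {θ : ℂ} (h : RayDir r θ) (hr : Function.Injective r) (v : V) :
    RayDir (fun n => r n + v) θ := by
  have hr' : Function.Injective (fun n => r n + v) := (add_left_injective v).comp hr
  have hN := tendsto_norm_toPlane hr'
  have h1 : Tendsto (fun n => ‖toPlane (r n)‖ / ‖toPlane (r n + v)‖) atTop (𝓝 1) := by
    have hinv := (tendsto_inv_atTop_zero.comp hN).const_mul ‖toPlane v‖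
    rw [mul_zero] at hinv
    have hev : ∀ᶠ n in atTop, 0 < ‖toPlane (r n + v)‖ := hN.eventually_gt_atTop 0
    have : Tendsto (fun n => ‖toPlane (r n)‖ / ‖toPlane (r n + v)‖ - 1) atTop (𝓝 0) := by
      refine squeeze_zero_norm' ?_ hinv
      filter_upwards [hev] with n hn
      rw [Real.norm_eq_abs, Function.comp, div_sub_one hn.ne', abs_div, abs_of_pos hn,
        ← div_eq_mul_inv]
      gcongr
      have := abs_norm_sub_norm_le (toPlane (r n)) (toPlane (r n + v))
      simpa [toPlane_add] using this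
    simpa using this.add_const 1
  have h2 : Tendsto (fun n => ‖toPlane (r n + v)‖⁻¹ • toPlane v) atTop (𝓝 0) := by
    simpa using (tendsto_inv_atTop_zero.comp hN).smul_const (toPlane v)
  have h3 := (h1.smul h).add h2
  rw [one_smul, add_zero] at h3
  refine h3.congr' ?_
  filter_upwards [(tendsto_norm_toPlane hr).eventually_gt_atTop 0] with n hn
  rw [smul_smul, toPlane_add, smul_add]
  congr 2
  field_simp

lemma rayDir_add_iff {r : ℕ → V} {θ : ℂ} (hr : Function.Injective r) (v : V) :
    RayDir (fun n => r n + v) θ ↔ RayDir r θ := by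
  refine ⟨fun h => ?_, fun h => h.add hr v⟩
  have := h.add (v := -v) ((add_left_injective v).comp hr)
  simpa [add_assoc] using this

lemma RayDir.swap {r : ℕ → V} {θ : ℂ} (h : RayDir r θ) :
    RayDir (fun n => ((r n).2, (r n).1)) ⟨θ.im, θ.re⟩ := by
  have hc : Continuous fun z : ℂ => (⟨z.im, z.re⟩ : ℂ) := by
    have : (fun z : ℂ => (⟨z.im, z.re⟩ : ℂ)) =
        fun z => (z.im : ℂ) + (z.re : ℂ) * Complex.I := by
      funext z; apply Complex.ext <;> simp
    rw [this]; fun_prop
  refine ((hc.tendsto θ).comp h).congr fun n => ?_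
  have hn : ‖toPlane ((r n).2, (r n).1)‖ = ‖toPlane (r n)‖ := by
    simp [Complex.norm_def, Complex.normSq_apply, toPlane, add_comm]
  apply Complex.ext <;> simp [hn] <;> simp [toPlane]

lemma RayDir.flip {r : ℕ → V} {θ : ℂ} (h : RayDir r θ) :
    RayDir (fun n => ((r n).1, -(r n).2)) ⟨θ.re, -θ.im⟩ := by
  have hc : Continuous fun z : ℂ => (⟨z.re, -z.im⟩ : ℂ) := by
    have : (fun z : ℂ => (⟨z.re, -z.im⟩ : ℂ)) = fun z => (starRingEnd ℂ) z := by
      funext z; apply Complex.ext <;> simp
    rw [this]; exact Complex.continuous_conj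
  refine ((hc.tendsto θ).comp h).congr fun n => ?_
  have hn : ‖toPlane ((r n).1, -(r n).2)‖ = ‖toPlane (r n)‖ := by
    simp [Complex.norm_def, Complex.normSq_apply, toPlane]
  apply Complex.ext <;> simp [hn] <;> simp [toPlane]

lemma hasDirections_iff (γ : ℤ → V) :
    HasDirections γ ↔ (∃ θ, RayDir (fwd γ 0) θ) ∧ ∃ θ, RayDir (bwd γ 0) θ := by
  simp [HasDirections, RayDir, fwd, bwd]

lemma injective_fwd {γ : ℤ → V} (h : Function.Injective γ) (i : ℤ) :
    Function.Injective (fwd γ i) := fun m n e => by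
  have := h e; omega

lemma injective_bwd {γ : ℤ → V} (h : Function.Injective γ) (i : ℤ) :
    Function.Injective (bwd γ i) := fun m n e => by
  have := h e; omega

lemma hasDirections_add {γ : ℤ → V} (hγ : Function.Injective γ) (v : V) :
    HasDirections (fun i => γ i + v) ↔ HasDirections γ := by
  rw [hasDirections_iff, hasDirections_iff]
  exact and_congr (exists_congr fun θ => rayDir_add_iff (injective_fwd hγ 0) v)
    (exists_congr fun θ => rayDir_add_iff (injective_bwd hγ 0) v)

lemma HasDirections.swap {γ : ℤ → V} (h : HasDirections γ) :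
    HasDirections (fun i => ((γ i).2, (γ i).1)) := by
  obtain ⟨⟨a, ha⟩, ⟨b, hb⟩⟩ := (hasDirections_iff γ).1 h
  exact (hasDirections_iff _).2 ⟨⟨_, ha.swap⟩, ⟨_, hb.swap⟩⟩

lemma HasDirections.flip {γ : ℤ → V} (h : HasDirections γ) :
    HasDirections (fun i => ((γ i).1, -(γ i).2)) := by
  obtain ⟨⟨a, ha⟩, ⟨b, hb⟩⟩ := (hasDirections_iff γ).1 h
  exact (hasDirections_iff _).2 ⟨⟨_, ha.flip⟩, ⟨_, hb.flip⟩⟩

/-! ### Invariance of the law -/

/-- The action of a symmetry as a measurable equivalence. -/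
def LatSym.actEquiv (σ : LatSym) : Conf ≃ᵐ Conf where
  toFun := σ.act
  invFun := σ.symm.act
  left_inv := σ.act_symm_act
  right_inv := σ.act_act_symm
  measurable_toFun := measurable_pi_lambda _ fun e => measurable_pi_apply _
  measurable_invFun := measurable_pi_lambda _ fun e => measurable_pi_apply _

@[simp] lemma LatSym.coe_actEquiv (σ : LatSym) : ⇑σ.actEquiv = σ.act := rfl

lemma LatSym.measurable_act (σ : LatSym) : Measurable σ.act := σ.actEquiv.measurable

section Law

variable {G : Measure ℝ} [IsProbabilityMeasure G]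

lemma LatSym.map_act_law (σ : LatSym) : (law G).map σ.act = law G := by
  refine Measure.eq_infinitePi _ fun s u hu => ?_
  rw [Measure.map_apply σ.measurable_act
    (MeasurableSet.pi s.countable_toSet fun i _ => hu i)]
  have e : σ.act ⁻¹' Set.pi s u
      = Set.pi (s.map σ.emap.toEmbedding) (fun f => u (σ.emap.symm f)) := by
    ext t
    simp only [mem_preimage, Set.mem_pi, Finset.mem_coe, Finset.mem_map, forall_exists_index,
      and_imp, Equiv.coe_toEmbedding, forall_apply_eq_imp_iff₂, LatSym.act, Equiv.symm_apply_apply]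
  rw [e, law, Measure.infinitePi_pi _ (fun i _ => hu _), Finset.prod_map]
  simp

lemma LatSym.measurePreserving_act (σ : LatSym) :
    MeasurePreserving σ.act (law G) (law G) := ⟨σ.measurable_act, σ.map_act_law⟩

lemma LatSym.law_act_preimage (σ : LatSym) (E : Set Conf) : law G (σ.act ⁻¹' E) = law G E :=
  MeasurePreserving.measure_preimage_equiv (f := σ.actEquiv) σ.measurePreserving_act E

lemma LatSym.ae_act (σ : LatSym) {p : Conf → Prop} (h : ∀ᵐ t ∂law G, p t) :
    ∀ᵐ t ∂law G, p (σ.act t) :=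
  σ.measurePreserving_act.quasiMeasurePreserving.ae h

lemma law_shift_preimage (v : V) (E : Set Conf) : law G (shift v ⁻¹' E) = law G E :=
  (shiftSym v).law_act_preimage E

lemma law_swapConf_preimage (E : Set Conf) : law G (swapConf ⁻¹' E) = law G E :=
  swapSym.law_act_preimage E

lemma law_flipConf_preimage (E : Set Conf) : law G (flipConf ⁻¹' E) = law G E :=
  flipSym.law_act_preimage E

lemma measurePreserving_shift (v : V) : MeasurePreserving (shift v) (law G) (law G) :=
  (shiftSym v).measurePreserving_act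

lemma measurePreserving_swapConf : MeasurePreserving swapConf (law G) (law G) :=
  swapSym.measurePreserving_act

lemma measurePreserving_flipConf : MeasurePreserving flipConf (law G) (law G) :=
  flipSym.measurePreserving_act

lemma ae_shift {p : Conf → Prop} (h : ∀ᵐ t ∂law G, p t) :
    ∀ᵐ t ∂law G, ∀ v : V, p (shift v t) :=
  ae_all_iff.2 fun v => (shiftSym v).ae_act h

lemma ae_swapConf {p : Conf → Prop} (h : ∀ᵐ t ∂law G, p t) :
    ∀ᵐ t ∂law G, p (swapConf t) := swapSym.ae_act h

lemma ae_flipConf {p : Conf → Prop} (h : ∀ᵐ t ∂law G, p t) :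
    ∀ᵐ t ∂law G, p (flipConf t) := flipSym.ae_act h

/-! ### Resampling finitely many edges -/

omit [IsProbabilityMeasure G] in
lemma measurable_override (S : Finset Edge) :
    Measurable fun q : Conf × (S → ℝ) => override q.1 S q.2 := by
  refine measurable_pi_lambda _ fun e => ?_
  by_cases h : e ∈ S <;> simp only [override, h, dite_true, dite_false]
  · exact (measurable_pi_apply _).comp measurable_snd
  · exact (measurable_pi_apply _).comp measurable_fst

lemma map_override (S : Finset Edge) :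
    ((law G).prod (Measure.pi fun _ : S => G)).map (fun q => override q.1 S q.2) = law G := by
  classical
  refine Measure.eq_infinitePi _ fun s u hu => ?_
  rw [Measure.map_apply (measurable_override S)
    (MeasurableSet.pi s.countable_toSet fun i _ => hu i)]
  have e : (fun q : Conf × (S → ℝ) => override q.1 S q.2) ⁻¹' Set.pi s u
      = Set.pi ((s.filter fun i => i ∉ S : Finset Edge) : Set Edge) u ×ˢ
        (Set.univ.pi fun i : S => if i.1 ∈ s then u i else Set.univ) := by
    ext q
    simp only [mem_preimage, Set.mem_pi, Finset.mem_coe, mem_prod, Finset.mem_filter, mem_univ,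
      forall_const, and_imp]
    constructor
    · intro h
      refine ⟨fun i hi hS => by simpa [override, hS] using h i hi, fun i => ?_⟩
      split_ifs with hi
      · simpa [override, i.2] using h i hi
      · trivial
    · rintro ⟨h1, h2⟩ i hi
      by_cases hS : i ∈ S
      · simpa [override, hS, hi] using h2 ⟨i, hS⟩
      · simpa [override, hS] using h1 i hi hS
  rw [e, Measure.prod_prod, law, Measure.infinitePi_pi _ (fun i _ => hu i), Measure.pi_pi]
  have e2 : ∀ i : S, G (if i.1 ∈ s then u i else Set.univ)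
      = if i.1 ∈ s then G (u i) else 1 := fun i => by split_ifs <;> simp
  simp only [e2]
  rw [Finset.prod_coe_sort S (fun i => if i ∈ s then G (u i) else 1), Finset.prod_ite_mem,
    ← Finset.prod_filter_mul_prod_filter_not s (fun i => i ∈ S) (fun i => G (u i)), mul_comm]
  congr 1
  exact Finset.prod_congr (by ext i; simp [and_comm]) fun _ _ => rfl

lemma measurePreserving_override (S : Finset Edge) :
    MeasurePreserving (fun q : Conf × (S → ℝ) => override q.1 S q.2)
      ((law G).prod (Measure.pi fun _ : S => G)) (law G) :=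
  ⟨measurable_override S, map_override S⟩

/-- An almost sure property survives resampling of any finite set of edges. -/
theorem ae_override {p : Conf → Prop} (h : ∀ᵐ t ∂law G, p t) :
    ∀ᵐ t ∂law G, ∀ S : Finset Edge,
      ∀ᵐ v ∂Measure.pi (fun _ : S => G), p (override t S v) :=
  ae_all_iff.2 fun S =>
    Measure.ae_ae_of_ae_prod ((measurePreserving_override S).quasiMeasurePreserving.ae h)

/-- An almost sure property holds for some choice of new values in given non-null sets. -/
theorem exists_override {p : Conf → Prop} (h : ∀ᵐ t ∂law G, p t) :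
    ∀ᵐ t ∂law G, ∀ (S : Finset Edge) (U : S → Set ℝ), (∀ e, 0 < G (U e)) →
      ∃ v : S → ℝ, (∀ e, v e ∈ U e) ∧ p (override t S v) := by
  filter_upwards [ae_override h] with t ht S U hU
  by_contra hne
  push Not at hne
  have h0 : Measure.pi (fun _ : S => G) (Set.univ.pi U) = 0 :=
    measure_mono_null (fun v hv => hne v fun e => hv e (mem_univ e)) (ae_iff.1 (ht S))
  rw [Measure.pi_pi] at h0
  exact (Finset.prod_ne_zero_iff.2 fun e _ => (hU e).ne') h0

/-- If resampling a finite set of edges leads into `E` with positive probability from a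
positive-probability set of configurations, then `E` is not null. -/
theorem law_pos_of_override (S : Finset Edge) (E : Set Conf)
    (h : ¬ ∀ᵐ t ∂law G, ∀ᵐ v ∂Measure.pi (fun _ : S => G), override t S v ∉ E) :
    0 < law G E := by
  refine pos_iff_ne_zero.2 fun h0 => h ?_
  filter_upwards [ae_override (p := fun t => t ∉ E) (measure_eq_zero_iff_ae_notMem.1 h0)]
    with t ht using ht S

/-- Resampling one edge, with the new value as first coordinate. -/
lemma measurePreserving_update' (e : Edge) :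
    MeasurePreserving (fun q : ℝ × Conf => Function.update q.2 e q.1) (G.prod (law G)) (law G) := by
  have : IsProbabilityMeasure (law G) := by unfold law; infer_instance
  have hs : MeasurePreserving Prod.swap (G.prod (law G)) ((law G).prod G) :=
    Measure.measurePreserving_swap
  exact (measurePreserving_update G e).comp hs

/-- An almost sure property survives resampling of any one edge. -/
theorem ae_update {p : Conf → Prop} (h : ∀ᵐ t ∂law G, p t) :
    ∀ᵐ t ∂law G, ∀ e : Edge, ∀ᵐ x ∂G, p (Function.update t e x) :=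
  ae_all_iff.2 fun e =>
    Measure.ae_ae_of_ae_prod ((measurePreserving_update G e).quasiMeasurePreserving.ae h)

end Law

/-! ### Facts on one weight -/

lemma LawOK.ae_mem {G : Measure ℝ} {M : ℝ} (hG : LawOK G M) : ∀ᵐ x ∂G, x ∈ Icc (0 : ℝ) M := by
  have := hG.prob
  rw [ae_mem_iff_measure_eq measurableSet_Icc.nullMeasurableSet, hG.supp, measure_univ]

lemma LawOK.ae_conf {G : Measure ℝ} {M : ℝ} (hG : LawOK G M) {p : ℝ → Prop}
    (h : ∀ᵐ x ∂G, p x) : ∀ᵐ t ∂law G, ∀ e : Edge, p (t e) := by
  have := hG.prob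
  exact ae_all_iff.2 fun e =>
    (measurePreserving_eval_infinitePi (fun _ : Edge => G) e).quasiMeasurePreserving.ae h

lemma LawOK.ae_nonneg {G : Measure ℝ} {M : ℝ} (hG : LawOK G M) :
    ∀ᵐ t ∂law G, ∀ e : Edge, 0 ≤ t e :=
  hG.ae_conf (hG.ae_mem.mono fun _ hx => hx.1)

lemma LawGen.ae_mem {G : Measure ℝ} (hG : LawGen G) : ∀ᵐ x ∂G, x ∈ Ici (0 : ℝ) := by
  have := hG.prob
  rw [ae_mem_iff_measure_eq measurableSet_Ici.nullMeasurableSet, hG.supp, measure_univ]

lemma LawGen.ae_conf {G : Measure ℝ} (hG : LawGen G) {p : ℝ → Prop}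
    (h : ∀ᵐ x ∂G, p x) : ∀ᵐ t ∂law G, ∀ e : Edge, p (t e) := by
  have := hG.prob
  exact ae_all_iff.2 fun e =>
    (measurePreserving_eval_infinitePi (fun _ : Edge => G) e).quasiMeasurePreserving.ae h

lemma LawGen.ae_nonneg {G : Measure ℝ} (hG : LawGen G) : ∀ᵐ t ∂law G, ∀ e : Edge, 0 ≤ t e :=
  hG.ae_conf (hG.ae_mem.mono fun _ hx => hx)

/-- For an atomless law almost every value has mass immediately to its left. -/
lemma ae_left_mass {G : Measure ℝ} (hG : ∀ x, G {x} = 0) :
    ∀ᵐ x ∂G, ∀ ε > 0, 0 < G (Ioo (x - ε) x) := by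
  have hn : ∀ (n : ℕ) (q : ℚ),
      G {x | G (Ioo (x - 1 / (n + 1)) x) = 0 ∧ (q : ℝ) ≤ x ∧ x < q + 1 / (n + 1)} = 0 := by
    intro n q
    set ε : ℝ := 1 / (n + 1)
    set B := {x : ℝ | G (Ioo (x - ε) x) = 0 ∧ (q : ℝ) ≤ x ∧ x < q + ε}
    have hU : G (⋃ x ∈ B, Ioo (x - ε) x) = 0 := by
      obtain ⟨C, hC, hCB⟩ := TopologicalSpace.isOpen_iUnion_countable
        (fun x : B => Ioo ((x : ℝ) - ε) x) fun x => isOpen_Ioo
      rw [biUnion_eq_iUnion, ← hCB]
      exact (measure_biUnion_null_iff hC).2 fun x _ => x.2.1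
    have hsub : B ⊆ (⋃ x ∈ B, Ioo (x - ε) x) ∪ {x | x ∈ B ∧ ∀ y ∈ B, y ≤ x} := by
      intro x hx
      by_cases hm : ∀ y ∈ B, y ≤ x
      · exact Or.inr ⟨hx, hm⟩
      · push Not at hm
        obtain ⟨y, hy, hxy⟩ := hm
        exact Or.inl (mem_iUnion₂.2 ⟨y, hy, by linarith [hx.2.1, hy.2.2], hxy⟩)
    refine measure_mono_null hsub (measure_union_null hU ?_)
    by_cases hmax : ∃ m, m ∈ B ∧ ∀ y ∈ B, y ≤ m
    · obtain ⟨m, hm, hm'⟩ := hmax
      refine measure_mono_null (fun x hx => ?_) (hG m)
      exact le_antisymm (hm' x hx.1) (hx.2 m hm)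
    · refine measure_mono_null (fun x hx => ?_) measure_empty
      exact hmax ⟨x, hx⟩
  rw [ae_iff]
  refine measure_mono_null ?_ (measure_iUnion_null fun n => measure_iUnion_null fun q => hn n q)
  intro x hx
  simp only [mem_ofPred_eq, not_forall, not_lt, nonpos_iff_eq_zero] at hx
  obtain ⟨ε, hε, h0⟩ := hx
  obtain ⟨n, hn'⟩ := exists_nat_one_div_lt hε
  have hp : (0 : ℝ) < 1 / (n + 1) := by positivity
  obtain ⟨q, hq1, hq2⟩ := exists_rat_btwn (show x - 1 / ((n : ℝ) + 1) < x by linarith)
  refine mem_iUnion.2 ⟨n, mem_iUnion.2 ⟨q, ?_, hq2.le, by linarith⟩⟩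
  exact measure_mono_null (Ioo_subset_Ioo (by linarith) le_rfl) h0

/-! ### Measurability of passage times -/

lemma continuous_plen {x y : V} (p : grid.Walk x y) : Continuous fun t : Conf => plen t p :=
  continuous_list_sum p.darts fun _ _ => continuous_apply _

lemma continuous_rlen (r : ℕ → V) (n : ℕ) : Continuous fun t : Conf => rlen t r n :=
  continuous_finsetSum _ fun _ _ => continuous_apply _

lemma measurable_T (x y : V) : Measurable fun t : Conf => T t x y :=
  Measurable.iInf fun p => measurable_plen p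

lemma measurable_TS (S : Set Edge) (x y : V) : Measurable fun t : Conf => TS t S x y :=
  Measurable.sInf (f := fun p t => plen t p) (Set.to_countable _) fun p _ => measurable_plen p

lemma measurable_bus (S : Set Edge) (r : ℕ → V) (z : V) :
    Measurable fun t : Conf => bus t S r z :=
  Measurable.iInf fun n => (measurable_TS S _ _).sub (continuous_rlen r n).measurable

/-! ### Closed events and their projections -/

/-- The configurations with nonnegative weights. -/
def NN : Set Conf := {t | ∀ e, 0 ≤ t e}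

lemma isClosed_NN : IsClosed NN := by
  simp only [NN, ofPred_forall]
  exact isClosed_iInter fun e => isClosed_le continuous_const (continuous_apply e)

lemma plen_nonneg_of_NN {t : Conf} (ht : t ∈ NN) {x y : V} (p : grid.Walk x y) :
    0 ≤ plen t p :=
  List.sum_nonneg fun a ha => by
    obtain ⟨d, -, rfl⟩ := List.mem_map.1 ha
    exact ht _

lemma NN_mem_ae {G : Measure ℝ} (hG : LawGen G) : ∀ᵐ t ∂law G, t ∈ NN := hG.ae_nonneg

lemma isClosed_coord {ι : Type*} (i j : ι) (P : V → V → Prop) :
    IsClosed {γ : ι → V | P (γ i) (γ j)} := by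
  have hc : Continuous fun γ : ι → V => (γ i, γ j) :=
    (continuous_apply (A := fun _ : ι => V) i).prodMk (continuous_apply (A := fun _ : ι => V) j)
  exact (isClosed_discrete {q : V × V | P q.1 q.2}).preimage hc

/-- Paths indexed by `ℤ` through `v` at time `0`. -/
def pathsFrom (v : V) : Set (ℤ → V) := {γ | γ 0 = v ∧ ∀ i, Adj (γ i) (γ (i + 1))}

/-- One-sided paths starting at `v`. -/
def raysFrom (v : V) : Set (ℕ → V) := {r | r 0 = v ∧ ∀ i, Adj (r i) (r (i + 1))}

lemma abs_sub_le_of_adj {x y : V} (h : Adj x y) : |x.1 - y.1| ≤ 1 ∧ |x.2 - y.2| ≤ 1 := by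
  have h1 := abs_nonneg (x.1 - y.1)
  have h2 := abs_nonneg (x.2 - y.2)
  unfold Adj at h
  omega

lemma isCompact_pathsFrom (v : V) : IsCompact (pathsFrom v) := by
  have hcl : IsClosed (pathsFrom v) := by
    simp only [pathsFrom, ofPred_and, ofPred_forall]
    refine (isClosed_eq (continuous_apply 0) continuous_const).inter
      (isClosed_iInter fun i => ?_)
    exact isClosed_coord i (i + 1) Adj
  refine IsCompact.of_isClosed_subset (isCompact_univ_pi fun i : ℤ =>
    (Set.finite_Icc (v - (|i|, |i|)) (v + (|i|, |i|))).isCompact) hcl ?_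
  rintro γ ⟨h0, hadj⟩ i -
  have key : |(γ i).1 - v.1| ≤ |i| ∧ |(γ i).2 - v.2| ≤ |i| := by
    induction i using Int.induction_on with
    | zero => simp [h0]
    | succ n ih =>
      have hs := abs_sub_le_of_adj (hadj n)
      rw [abs_le, abs_le] at ih hs ⊢
      rw [abs_of_nonneg (by omega : (0 : ℤ) ≤ (n : ℤ))] at ih
      rw [abs_of_nonneg (by omega : (0 : ℤ) ≤ (n : ℤ) + 1)]
      omega
    | pred n ih =>
      have hs := abs_sub_le_of_adj (hadj (-n - 1))
      rw [sub_add_cancel] at hs
      rw [abs_le, abs_le] at ih hs ⊢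
      rw [abs_of_nonpos (by omega : -(n : ℤ) ≤ 0)] at ih
      rw [abs_of_nonpos (by omega : -(n : ℤ) - 1 ≤ 0)]
      omega
  rw [abs_le, abs_le] at key
  simp only [mem_Icc, Prod.le_def, Prod.fst_sub, Prod.snd_sub, Prod.fst_add, Prod.snd_add]
  omega

lemma isCompact_raysFrom (v : V) : IsCompact (raysFrom v) := by
  have hcl : IsClosed (raysFrom v) := by
    simp only [raysFrom, ofPred_and, ofPred_forall]
    refine (isClosed_eq (continuous_apply 0) continuous_const).inter
      (isClosed_iInter fun i => ?_)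
    exact isClosed_coord i (i + 1) Adj
  refine IsCompact.of_isClosed_subset (isCompact_univ_pi fun i : ℕ =>
    (Set.finite_Icc (v - ((i : ℤ), (i : ℤ))) (v + ((i : ℤ), (i : ℤ)))).isCompact) hcl ?_
  rintro r ⟨h0, hadj⟩ i -
  have key : |(r i).1 - v.1| ≤ (i : ℤ) ∧ |(r i).2 - v.2| ≤ (i : ℤ) := by
    induction i with
    | zero => simp [h0]
    | succ n ih =>
      have hs := abs_sub_le_of_adj (hadj n)
      rw [abs_le, abs_le] at ih hs ⊢
      omega
  rw [abs_le, abs_le] at key
  simp only [mem_Icc, Prod.le_def, Prod.fst_sub, Prod.snd_sub, Prod.fst_add, Prod.snd_add]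
  omega

/-- The projection of a closed set along a compact set of paths is closed. -/
lemma isClosed_exists_mem {X : Type*} [TopologicalSpace X] {K : Set X} (hK : IsCompact K)
    {C : Set (Conf × X)} (hC : IsClosed C) : IsClosed {t | ∃ x ∈ K, (t, x) ∈ C} := by
  have := isCompact_iff_compactSpace.1 hK
  have e : {t | ∃ x ∈ K, (t, x) ∈ C}
      = Prod.fst '' ((fun q : Conf × K => (q.1, (q.2 : X))) ⁻¹' C) := by
    ext t
    constructor
    · rintro ⟨x, hx, h⟩; exact ⟨(t, ⟨x, hx⟩), h, rfl⟩
    · rintro ⟨⟨s, x⟩, h, rfl⟩; exact ⟨x, x.2, h⟩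
  rw [e]
  exact isClosedMap_fst_of_compactSpace _ (hC.preimage (by fun_prop))

lemma continuous_wt_apply {X : Type*} [TopologicalSpace X] {f : X → Conf} {g h : X → V}
    (hf : Continuous f) (hg : Continuous g) (hh : Continuous h) :
    Continuous fun q => wt (f q) (g q) (h q) := by
  have hev : Continuous fun q : Conf × Edge => q.1 q.2 :=
    continuous_prod_of_discrete_right.2 fun e => continuous_apply e
  have hed : Continuous fun q : V × V => edgeOf q.1 q.2 := continuous_of_discreteTopology
  exact hev.comp (hf.prodMk (hed.comp (hg.prodMk hh)))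

lemma exists_walk_sum {t : Conf} {γ : ℤ → V} (hadj : ∀ i, Adj (γ i) (γ (i + 1))) {i j : ℤ}
    (hij : i ≤ j) :
    ∃ p : grid.Walk (γ i) (γ j),
      plen t p = ∑ k ∈ Finset.Ico i j, wt t (γ k) (γ (k + 1)) := by
  induction j, hij using Int.leInduction with
  | base => exact ⟨.nil, by simp [plen]⟩
  | succ j hj ih =>
    obtain ⟨p, hp⟩ := ih
    have ha : grid.Adj (γ j) (γ (j + 1)) := hadj j
    refine ⟨p.concat ha, ?_⟩
    have e : Finset.Ico i (j + 1) = insert j (Finset.Ico i j) := by
      ext x; simp only [Finset.mem_Ico, Finset.mem_insert]; omega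
    rw [e, Finset.sum_insert (by simp), ← hp]
    simp [plen, SimpleGraph.Walk.darts_concat, add_comm]

/-- With nonnegative weights, being a bigeodesic is a family of inequalities. -/
lemma isBigeodesic_iff {t : Conf} (ht : t ∈ NN) (γ : ℤ → V) :
    IsBigeodesic t γ ↔ (∀ i j, γ i = γ j → i = j) ∧ (∀ i, Adj (γ i) (γ (i + 1))) ∧
      ∀ i j, i < j → ∀ (x y : V) (p : grid.Walk x y), γ i = x → γ j = y →
        ∑ k ∈ Finset.Ico i j, wt t (γ k) (γ (k + 1)) ≤ plen t p := by
  have hbdd : ∀ x y, BddBelow (Set.range fun p : grid.Walk x y => plen t p) := fun x y =>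
    ⟨0, by rintro _ ⟨p, rfl⟩; exact plen_nonneg_of_NN ht p⟩
  constructor
  · rintro ⟨hi, ha, hg⟩
    refine ⟨fun i j h => hi h, ha, ?_⟩
    rintro i j hij x y p rfl rfl
    rw [hg i j hij]
    exact csInf_le (hbdd _ _) ⟨p, rfl⟩
  · rintro ⟨hi, ha, hg⟩
    refine ⟨fun i j h => hi i j h, ha, fun i j hij => ?_⟩
    obtain ⟨p, hp⟩ := exists_walk_sum (t := t) ha hij.le
    refine le_antisymm (le_csInf ⟨_, ⟨p, rfl⟩⟩ ?_) (hp ▸ csInf_le (hbdd _ _) ⟨p, rfl⟩)
    rintro _ ⟨q, rfl⟩
    exact hg i j hij _ _ q rfl rfl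

lemma isClosed_isBigeodesic :
    IsClosed {q : Conf × (ℤ → V) | q.1 ∈ NN ∧ IsBigeodesic q.1 q.2} := by
  have e : {q : Conf × (ℤ → V) | q.1 ∈ NN ∧ IsBigeodesic q.1 q.2}
      = {q | q.1 ∈ NN} ∩ ({q | ∀ i j, q.2 i = q.2 j → i = j} ∩
        ({q | ∀ i, Adj (q.2 i) (q.2 (i + 1))} ∩
        {q | ∀ i j, i < j → ∀ (x y : V) (p : grid.Walk x y), q.2 i = x → q.2 j = y →
          ∑ k ∈ Finset.Ico i j, wt q.1 (q.2 k) (q.2 (k + 1)) ≤ plen q.1 p})) := by
    ext q
    exact ⟨fun h => ⟨h.1, (isBigeodesic_iff h.1 q.2).1 h.2⟩,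
      fun h => ⟨h.1, (isBigeodesic_iff h.1 q.2).2 h.2⟩⟩
  rw [e]
  have hcoord : ∀ i : ℤ, Continuous fun q : Conf × (ℤ → V) => q.2 i :=
    fun i => (continuous_apply i).comp continuous_snd
  refine (isClosed_NN.preimage continuous_fst).inter (IsClosed.inter ?_ (IsClosed.inter ?_ ?_))
  · simp only [ofPred_forall]
    exact isClosed_iInter fun i => isClosed_iInter fun j =>
      (isClosed_discrete {w : V × V | w.1 = w.2 → i = j}).preimage
        ((hcoord i).prodMk (hcoord j))
  · simp only [ofPred_forall]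
    exact isClosed_iInter fun i => (isClosed_discrete {w : V × V | Adj w.1 w.2}).preimage
        ((hcoord i).prodMk (hcoord (i + 1)))
  · simp only [ofPred_forall]
    refine isClosed_iInter fun i => isClosed_iInter fun j => isClosed_iInter fun _ =>
      isClosed_iInter fun x => isClosed_iInter fun y => isClosed_iInter fun p => ?_
    have : {q : Conf × (ℤ → V) | q.2 i = x → q.2 j = y →
        ∑ k ∈ Finset.Ico i j, wt q.1 (q.2 k) (q.2 (k + 1)) ≤ plen q.1 p}
      = (fun q => q.2 i) ⁻¹' {x}ᶜ ∪ (fun q => q.2 j) ⁻¹' {y}ᶜ ∪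
        {q | ∑ k ∈ Finset.Ico i j, wt q.1 (q.2 k) (q.2 (k + 1)) ≤ plen q.1 p} := by
      ext q; simp only [mem_ofPred_eq, mem_union, mem_preimage, mem_compl_iff, mem_singleton_iff]
      tauto
    rw [this]
    refine (((isClosed_discrete _).preimage (hcoord i)).union
      ((isClosed_discrete _).preimage (hcoord j))).union (isClosed_le ?_ ?_)
    · exact continuous_finsetSum _ fun k _ =>
        continuous_wt_apply continuous_fst (hcoord k) (hcoord (k + 1))
    · exact (continuous_plen p).comp continuous_fst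

lemma isClosed_inCone (k σ : ℤ) (a b : ℝ) (R : ℕ) :
    IsClosed {r : ℕ → V | InCone k σ a b R r} := by
  simp only [InCone, ofPred_forall]
  exact isClosed_iInter fun n => isClosed_iInter fun _ =>
    isClosed_coord 0 n fun x y => 0 < σ * (lev k y - lev k x) ∧
      a * (σ * (lev k y - lev k x) : ℤ) ≤ (σ * (y.2 - x.2) : ℤ) ∧
      ((σ * (y.2 - x.2) : ℤ) : ℝ) ≤ b * (σ * (lev k y - lev k x) : ℤ)

lemma isClosed_coneLine (k : ℤ) (a b : ℝ) (R : ℕ) :
    IsClosed {q : Conf × (ℤ → V) | q.1 ∈ NN ∧ ConeLine q.1 k a b R q.2} := by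
  have e : {q : Conf × (ℤ → V) | q.1 ∈ NN ∧ ConeLine q.1 k a b R q.2}
      = {q : Conf × (ℤ → V) | q.1 ∈ NN ∧ IsBigeodesic q.1 q.2} ∩
        ((fun q => fwd q.2 0) ⁻¹' {r | InCone k 1 a b R r} ∩
         (fun q => bwd q.2 0) ⁻¹' {r | InCone k (-1) a b R r}) := by
    ext q; simp [ConeLine, and_assoc]
  rw [e]
  refine isClosed_isBigeodesic.inter (((isClosed_inCone ..).preimage ?_).inter
    ((isClosed_inCone ..).preimage ?_)) <;>
  exact continuous_pi fun n => (continuous_apply _).comp continuous_snd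

lemma isClosed_entrance (J : ℕ) : IsClosed {γ : ℤ → V | Entrance J γ} := by
  simp only [Entrance, ofPred_and, ofPred_forall]
  refine (isClosed_eq (continuous_apply 0) continuous_const).inter
    ((isClosed_eq (continuous_apply (-1)) continuous_const).inter (IsClosed.inter ?_ ?_))
  · exact isClosed_iInter fun i => isClosed_iInter fun _ =>
      isClosed_coord i i fun x _ => x.1 < 0
  · refine isClosed_iInter fun F => ?_
    by_cases hF : F.card ≤ J
    · simp [hF]
    · have : {γ : ℤ → V | (∀ i ∈ F, min (γ i).1 (γ (i + 1)).1 = -1 ∧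
          max (γ i).1 (γ (i + 1)).1 = 0) → F.card ≤ J}
        = ⋃ i ∈ F, (fun γ : ℤ → V => (γ i, γ (i + 1))) ⁻¹'
            {w : V × V | ¬(min w.1.1 w.2.1 = -1 ∧ max w.1.1 w.2.1 = 0)} := by
        ext γ; simp [hF, not_and]
      rw [this]
      exact F.finite_toSet.isClosed_biUnion fun i _ => isClosed_coord i (i + 1) fun x y =>
        ¬(min x.1 y.1 = -1 ∧ max x.1 y.1 = 0)

/-- A closed property of a configuration and a path through a given vertex gives a Borel
event. -/
lemma measurableSet_exists_path {v : V} {C : Set (Conf × (ℤ → V))} (hC : IsClosed C) :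
    MeasurableSet {t | ∃ γ ∈ pathsFrom v, (t, γ) ∈ C} :=
  (isClosed_exists_mem (isCompact_pathsFrom v) hC).measurableSet

/-- The two-path version. -/
lemma measurableSet_exists_paths {v w : V} {C : Set (Conf × ((ℤ → V) × (ℤ → V)))}
    (hC : IsClosed C) :
    MeasurableSet {t | ∃ q ∈ pathsFrom v ×ˢ pathsFrom w, (t, q) ∈ C} :=
  (isClosed_exists_mem ((isCompact_pathsFrom v).prod (isCompact_pathsFrom w)) hC).measurableSet

lemma isClosed_unitEvent_inter (r₁ a b : ℝ) (R J : ℕ) :
    IsClosed (NN ∩ unitEvent r₁ a b R J) := by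
  have e : NN ∩ unitEvent r₁ a b R J = {t | r₁ ≤ t ((-1, 0), false)} ∩
      {t | ∃ γ ∈ pathsFrom (0, 0), (t, γ) ∈
        {q : Conf × (ℤ → V) | q.1 ∈ NN ∧ ConeLine q.1 0 a b R q.2} ∩
          Prod.snd ⁻¹' {γ | Entrance J γ}} := by
    ext t
    constructor
    · rintro ⟨hn, hr, γ, hc, he⟩
      exact ⟨hr, γ, ⟨he.1, hc.1.adj⟩, ⟨hn, hc⟩, he⟩
    · rintro ⟨hr, γ, -, ⟨hn, hc⟩, he⟩
      exact ⟨hn, hr, γ, hc, he⟩
  rw [e]
  exact (isClosed_le continuous_const (continuous_apply _)).inter
    (isClosed_exists_mem (isCompact_pathsFrom _)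
      ((isClosed_coneLine ..).inter ((isClosed_entrance J).preimage continuous_snd)))

lemma measurableSet_unitEvent_inter (r₁ a b : ℝ) (R J : ℕ) :
    MeasurableSet (NN ∩ unitEvent r₁ a b R J) :=
  (isClosed_unitEvent_inter r₁ a b R J).measurableSet

/-- Events are null measurable once their trace on nonnegative configurations is measurable. -/
lemma nullMeasurableSet_of_inter_NN {G : Measure ℝ} (hG : LawGen G) {E : Set Conf}
    (hE : MeasurableSet (NN ∩ E)) : NullMeasurableSet E (law G) := by
  refine hE.nullMeasurableSet.congr (ae_eq_set.2 ⟨?_, ?_⟩)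
  · exact measure_mono_null (fun t ht => (ht.2 ht.1.2).elim) measure_empty
  · exact measure_mono_null (fun t ht hn => ht.2 ⟨hn, ht.1⟩) (ae_iff.1 (NN_mem_ae hG))

lemma nullMeasurableSet_unitEvent {G : Measure ℝ} (hG : LawGen G) (r₁ a b : ℝ)
    (R J : ℕ) : NullMeasurableSet (unitEvent r₁ a b R J) (law G) :=
  nullMeasurableSet_of_inter_NN hG (measurableSet_unitEvent_inter r₁ a b R J)

lemma nullMeasurableSet_shift_unitEvent {G : Measure ℝ} (hG : LawGen G) (v : V)
    (r₁ a b : ℝ) (R J : ℕ) :
    NullMeasurableSet (shift v ⁻¹' unitEvent r₁ a b R J) (law G) := by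
  have := hG.prob
  exact (nullMeasurableSet_unitEvent hG r₁ a b R J).preimage
    (measurePreserving_shift v).quasiMeasurePreserving

end Vale.Agent.P158
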