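import Vale.Agent.P158.Spec2
import Vale.Agent.P158.Meas
import Vale.Agent.P158.PlanarBox

/-!
Interfaces of the second stage: finite-scale objects, their null and counting statements, and
the sites of the main argument for bigeodesics without directions.
-/

open MeasureTheory Filter Topology
open scoped ENNReal

namespace Vale.Agent.P158

/-- Composition of lattice symmetries. -/
def LatSym.comp (σ τ : LatSym) : LatSym where
  vmap := τ.vmap.trans σ.vmap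
  emap := τ.emap.trans σ.emap
  adj_map x y := (σ.adj_map _ _).trans (τ.adj_map x y)
  edge_map x y h := by
    simp [τ.edge_map x y h, σ.edge_map _ _ ((τ.adj_map x y).2 h)]

/-- Reversal of the first coordinate. -/
def negXSym : LatSym := swapSym.comp (flipSym.comp swapSym)

/-- The point reflection. -/
def negSym : LatSym := flipSym.comp negXSym

/-- The symmetries which turn one of the eight frames into `x` or `x + y`. -/
def frameSyms : List LatSym :=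
  [shiftSym 0, swapSym, flipSym, negXSym, negSym, negSym.comp swapSym]

/-- A finite geodesic segment, indices `i₀` to `i₁`. -/
structure SegGeo (t : Conf) (γ : ℤ → V) (i₀ i₁ : ℤ) : Prop where
  le : i₀ ≤ i₁
  adj : ∀ m, i₀ ≤ m → m < i₁ → Adj (γ m) (γ (m + 1))
  inj : Set.InjOn γ (Set.Icc i₀ i₁)
  geo : ∑ m ∈ Finset.Ico i₀ i₁, wt t (γ m) (γ (m + 1)) = T t (γ i₀) (γ i₁)

/-- The segment crosses level `c` with first visit `i`, last visit `j` and at most `R` steps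
between them. -/
structure Cross (k : ℤ) (γ : ℤ → V) (i₀ i₁ c : ℤ) (R : ℕ) (i j : ℤ) : Prop where
  lo : i₀ < i
  le : i ≤ j
  hi : j < i₁
  len : j - i ≤ R
  first : lev k (γ i) = c
  last : lev k (γ j) = c
  before : ∀ m, i₀ ≤ m → m < i → lev k (γ m) < c
  after : ∀ m, j < m → m ≤ i₁ → c < lev k (γ m)

/-- The crossing of level `c` by the whole path, as seen inside the box of radius `N`. -/
structure BoxCross (k : ℤ) (γ : ℤ → V) (N c : ℤ) (R : ℕ) (i j : ℤ) : Prop where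
  le : i ≤ j
  len : j - i ≤ R
  first : lev k (γ i) = c
  last : lev k (γ j) = c
  step : lev k (γ (i - 1)) = c - 1
  before : ∀ m, m < i → InSq N (γ m) → lev k (γ m) < c
  after : ∀ m, j < m → InSq N (γ m) → c < lev k (γ m)

/-- A geodesic segment from level `-n₁` to level `n₂` inside that strip, crossing level `0` first
at the origin, through an edge of weight at least `r₁`. -/
structure SiteSeg (k : ℤ) (R : ℕ) (r₁ C : ℝ) (n₁ n₂ : ℕ) (t : Conf) (γ : ℤ → V)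
    (i₀ i₁ i j : ℤ) : Prop where
  seg : SegGeo t γ i₀ i₁
  cross : Cross k γ i₀ i₁ 0 R i j
  origin : γ i = 0
  heavy : r₁ ≤ wt t (γ (i - 1)) (γ i)
  lev₀ : lev k (γ i₀) = -(n₁ : ℤ)
  lev₁ : lev k (γ i₁) = (n₂ : ℤ)
  strip : ∀ m, i₀ ≤ m → m ≤ i₁ → -(n₁ : ℤ) ≤ lev k (γ m) ∧ lev k (γ m) ≤ (n₂ : ℤ)
  slope₀ : |((γ i₀).2 : ℝ)| ≤ C * n₁
  slope₁ : |((γ i₁).2 : ℝ)| ≤ C * n₂

/-- The origin is a site at which the two slopes differ by at least `ρ`. -/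
def bentSite (k : ℤ) (R : ℕ) (r₁ C ρ : ℝ) (n₁ n₂ : ℕ) : Set Conf :=
  {t | ∃ γ i₀ i₁ i j, SiteSeg k R r₁ C n₁ n₂ t γ i₀ i₁ i j ∧
    ρ ≤ |-((γ i₀).2 : ℝ) / n₁ - ((γ i₁).2 : ℝ) / n₂|}

/-- The origin is a site whose segment stays in no tube of relative width `ρ`. -/
def wildSite (k : ℤ) (R : ℕ) (r₁ C ρ : ℝ) (n : ℕ) : Set Conf :=
  {t | ∃ γ i₀ i₁ i j, SiteSeg k R r₁ C n n t γ i₀ i₁ i j ∧
    ∀ s : ℝ, |s| ≤ C →
      ∃ m, i₀ ≤ m ∧ m ≤ i₁ ∧ ρ * n < |((γ m).2 : ℝ) - s * lev k (γ m)|}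

/-- The origin is a site both slopes of which lie in `[a, b]`. -/
def slopeSite (k : ℤ) (R : ℕ) (r₁ C : ℝ) (n : ℕ) (a b : ℝ) : Set Conf :=
  {t | ∃ γ i₀ i₁ i j, SiteSeg k R r₁ C n n t γ i₀ i₁ i j ∧
    a * n ≤ -((γ i₀).2 : ℝ) ∧ -((γ i₀).2 : ℝ) ≤ b * n ∧
    a * n ≤ ((γ i₁).2 : ℝ) ∧ ((γ i₁).2 : ℝ) ≤ b * n}

/-- Bent sites are rare at every pair of large proportional scales. -/
def BentNull (G : Measure ℝ) : Prop :=
  ∀ k : ℤ, k = 0 ∨ k = 1 → ∀ (R : ℕ) (r₁ C ρ : ℝ), 0 < G (Set.Iio r₁) → 0 < ρ →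
    ∀ c₁ c₂ : ℝ, 0 < c₁ → 0 < c₂ →
      Tendsto (fun n : ℕ => law G (bentSite k R r₁ C ρ ⌈c₁ * n⌉₊ ⌈c₂ * n⌉₊)) atTop (𝓝 0)

/-- Wild sites are rare at every large scale. -/
def WildNull (G : Measure ℝ) : Prop :=
  ∀ k : ℤ, k = 0 ∨ k = 1 → ∀ (R : ℕ) (r₁ C ρ : ℝ), 0 < G (Set.Iio r₁) → 0 < ρ →
    Tendsto (fun n : ℕ => law G (wildSite k R r₁ C ρ n)) atTop (𝓝 0)

/-- The expected number of separated slope units at a site is bounded. -/
def SlopeBound (G : Measure ℝ) : Prop :=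
  ∀ k : ℤ, k = 0 ∨ k = 1 → ∀ (R : ℕ) (r₁ C : ℝ), 0 < G (Set.Iio r₁) →
    ∃ K : ℝ, ∀ (gap : ℝ), 0 < gap → ∀ (m : ℕ) (a b : Fin m → ℝ),
      (∀ u, a u ≤ b u ∧ -C ≤ a u ∧ b u ≤ C) → (∀ u v, u < v → b u + gap ≤ a v) →
      ∀ᶠ n : ℕ in atTop, ∑ u, (law G (slopeSite k R r₁ C n (a u) (b u))).toReal ≤ K

/-- Every geodesic segment between boundary points of the box of radius `N` which passes near
the centre is short and has a frame in which all but `ε N` levels are crossed in at most `R`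
steps through a heavy edge, all but `ε N` of its steps being that close to such a crossing. -/
def ChordOK (γ₀ C r₁ ε : ℝ) (R N : ℕ) (t : Conf) : Prop :=
  ∀ γ i₀ i₁, SegGeo t γ i₀ i₁ → OnBd N (γ i₀) → OnBd N (γ i₁) →
    (∃ m, i₀ ≤ m ∧ m ≤ i₁ ∧ InSq ⌊γ₀ * N / 8⌋ (γ m)) →
    ((i₁ - i₀ : ℤ) : ℝ) ≤ C * N ∧
    ∃ σ ∈ frameSyms, ∃ k : ℤ, (k = 0 ∨ k = 1) ∧
      (lev k (σ.vmap (γ i₀)) : ℝ) ≤ -γ₀ * N ∧ γ₀ * N ≤ (lev k (σ.vmap (γ i₁)) : ℝ) ∧
      (({c : ℤ | |(c : ℝ)| ≤ γ₀ * N / 2 ∧ ¬∃ i j, Cross k (σ.vmap ∘ γ) i₀ i₁ c R i j ∧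
        r₁ ≤ wt t (γ (i - 1)) (γ i)}.ncard : ℕ) : ℝ) ≤ ε * N ∧
      (({m : ℤ | i₀ ≤ m ∧ m ≤ i₁ ∧ |(lev k (σ.vmap (γ m)) : ℝ)| ≤ γ₀ * N / 4 ∧
        ¬∃ c i j, Cross k (σ.vmap ∘ γ) i₀ i₁ c R i j ∧ r₁ ≤ wt t (γ (i - 1)) (γ i) ∧
          |m - i| ≤ (R : ℤ)}.ncard : ℕ) : ℝ) ≤ ε * N

/-- Chords are well behaved with high probability, the heavy threshold depending on the
tolerance. -/
def ChordProp (G : Measure ℝ) : Prop :=
  ∃ γ₀ C : ℝ, 0 < γ₀ ∧ γ₀ ≤ 1 ∧ 0 < C ∧ ∀ ε : ℝ, 0 < ε →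
    ∃ (r₁ : ℝ) (R : ℕ), 0 < G (Set.Iio r₁) ∧
      Tendsto (fun N : ℕ => law G {t | ¬ChordOK γ₀ C r₁ ε R N t}) atTop (𝓝 0)

/-- The segment of the path between its first and its last visit of the box of radius `N`, which
meets the box of radius `N'`. -/
structure LineChord (t : Conf) (N N' : ℤ) (γ : ℤ → V) (i₀ i₁ : ℤ) : Prop where
  line : IsBigeodesic t γ
  mem₀ : InSq N (γ i₀)
  mem₁ : InSq N (γ i₁)
  only : ∀ m, InSq N (γ m) → i₀ ≤ m ∧ m ≤ i₁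
  near : ∃ m, InSq N' (γ m)

/-- The vertex lists of the chords of bigeodesics through the middle of a box. -/
def lineChords (t : Conf) (N N' : ℤ) : Set (List V) :=
  {l | ∃ γ i₀ i₁, LineChord t N N' γ i₀ i₁ ∧
    l = (List.range ((i₁ - i₀).toNat + 1)).map fun m : ℕ => γ (i₀ + m)}

/-- The expected number of chords of bigeodesics is linear in the scale. -/
def ChordCount (G : Measure ℝ) : Prop :=
  ∀ γ₀ C r₁ : ℝ, 0 < γ₀ → γ₀ ≤ 1 → 0 < C → 0 < G (Set.Iio r₁) →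
    ∃ K : ℕ, 8 ≤ γ₀ * K ∧ ∀ ε : ℝ, 0 < ε → ε ≤ γ₀ / 32 → ∀ R : ℕ, ∀ᶠ N : ℕ in atTop,
      ∫⁻ t in {t | ChordOK γ₀ C r₁ ε R (K * N) t}, ((lineChords t N N).encard : ℝ≥0∞) ∂law G ≤
        (K : ℝ≥0∞) ^ 2 * N

/-- Routes avoiding the entrance edge at index `0` cost at least `δ` more. -/
def RigidEdge (t : Conf) (δ : ℝ) (γ : ℤ → V) : Prop :=
  ∀ (n m : ℕ) (x z : V) (p : grid.Walk x z), γ (-((n : ℤ) + 1)) = x → γ m = z →
    WalkIn {edgeOf (γ (-1)) (γ 0)}ᶜ p → T t x z + δ ≤ plen t p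

/-- The parameters of the sites of the main argument. -/
structure SiteP where
  /-- steps of the crossing of the site level -/
  R : ℕ
  /-- steps of the crossings of the two outer levels -/
  R' : ℕ
  /-- half width of a strip -/
  L : ℕ
  /-- outer level -/
  Lam : ℕ
  /-- box -/
  N : ℕ
  /-- width of the tube -/
  w : ℝ
  /-- tolerance of the slope -/
  ε : ℝ
  /-- rigidity -/
  δ : ℝ
  /-- heavy threshold -/
  r : ℝ

/-- A rigid bigeodesic confined in a tube of slope close to `s` around a site `x`, with at least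
`L` heavy edges in the strip around the site and bounded crossings of the outer levels. -/
structure LineSite (P : SiteP) (k : ℤ) (s : ℝ) (x : V) (t : Conf) (γ : ℤ → V) (iL jR : ℤ) :
    Prop where
  line : IsBigeodesic t γ
  origin : γ 0 = x
  site : ∃ j, BoxCross k γ P.N (lev k x) P.R 0 j
  left : ∃ j, BoxCross k γ P.N (-(P.Lam : ℤ)) P.R' iL j ∧ j < 0
  right : ∃ i, BoxCross k γ P.N P.Lam P.R' i jR ∧ 0 < i
  inBox : ∀ m, iL - 1 ≤ m → m ≤ jR + 1 → InSq P.N (γ m)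
  tube : ∃ s' : ℝ, |s' - s| ≤ P.ε ∧ ∀ m, iL ≤ m → m ≤ jR →
    |((γ m).2 : ℝ) - x.2 - s' * (lev k (γ m) - lev k x)| ≤ P.w
  rigid : RigidEdge t P.δ γ
  heavy : P.L ≤ {m : ℤ | iL ≤ m ∧ m < jR ∧ P.r ≤ wt t (γ m) (γ (m + 1)) ∧
    |lev k (γ m) - lev k x| ≤ (P.L : ℤ) ∧ |lev k (γ (m + 1)) - lev k x| ≤ (P.L : ℤ)}.ncard

end Vale.Agent.P158
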