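import Vale.Agent.P158.StraightDir

/-!
A bent bigeodesic produces seeds at all large scales.
-/

open MeasureTheory Filter Topology

namespace Vale.Agent.P158.Straight

open Vale.Agent.P158

theorem lev_step {k : ℤ} (hk : k = 0 ∨ k = 1) {x y : V} (h : Adj x y) :
    |lev k x - lev k y| ≤ 1 := by
  rcases adj_iff.1 h with ⟨h1, h2 | h2⟩ | ⟨h1, h2 | h2⟩ <;>
    rcases hk with rfl | rfl <;> rw [abs_le] <;> simp only [lev] <;> omega

theorem isOffset_of_adj {k : ℤ} (hk : k = 0 ∨ k = 1) {d : V} (h : Adj 0 d) (hl : lev k d = 1) :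
    IsOffset k d := by
  obtain ⟨a, b⟩ := d
  refine ⟨hl, ?_⟩
  rcases adj_iff.1 h with ⟨h1, h2 | h2⟩ | ⟨h1, h2 | h2⟩ <;>
    simp only [Prod.fst_zero, Prod.snd_zero] at h1 h2 <;>
    rcases hk with rfl | rfl <;> simp only [lev] at hl <;> simp only [Prod.mk.injEq] <;> omega

/-- The facts about a bent line with its entrance at the origin. -/
structure Entered (k : ℤ) (t : Conf) (γ : ℤ → V) : Prop where
  geo : IsBigeodesic t γ
  zero : γ 0 = 0
  left : ∀ i : ℤ, i < 0 → lev k (γ i) < 0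

theorem Entered.offset {k : ℤ} (hk : k = 0 ∨ k = 1) {t : Conf} {γ : ℤ → V} (h : Entered k t γ) :
    IsOffset k (-γ (-1)) := by
  have ha : Adj (γ (-1)) 0 := by simpa [h.zero] using h.geo.adj (-1)
  have hl := h.left (-1) (by norm_num)
  have hs := lev_step hk ha
  have h0 : lev k (0 : V) = 0 := by simp [lev]
  rw [h0, sub_zero, abs_le] at hs
  refine isOffset_of_adj hk ?_ ?_
  · simpa [Adj] using ha
  · simp only [lev, Prod.fst_neg, Prod.snd_neg] at *; linarith

theorem Entered.seeds {k : ℤ} (hk : k = 0 ∨ k = 1) {t : Conf} (h0 : ∀ e, 0 ≤ t e) {γ : ℤ → V}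
    (h : Entered k t γ) {v1 v2 r : ℝ}
    (hr : r ≤ t (edge0 (-γ (-1))))
    (hup : Tendsto (fun i => lev k (γ i)) atTop atTop)
    (hdown : Tendsto (fun i => lev k (γ i)) atBot atBot)
    (hf : ∀ᶠ i in atTop, v2 * (lev k (γ i) : ℝ) ≤ ((γ i).2 : ℝ))
    (hb : ∀ᶠ i in atBot, v1 * (lev k (γ i) : ℝ) ≤ ((γ i).2 : ℝ)) :
    ∃ R : ℕ, ∀ᶠ n : ℕ in atTop, Seed k n R v1 v2 r (-γ (-1)) t := by
  obtain ⟨A1, hA1⟩ := eventually_atTop.1 hf
  obtain ⟨B1, hB1⟩ := eventually_atBot.1 hb
  obtain ⟨U0, hU0⟩ := eventually_atTop.1 (hup.eventually_gt_atTop 0)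
  have hstep : ∀ i, |lev k (γ i) - lev k (γ (i + 1))| ≤ 1 := fun i => lev_step hk (h.geo.adj i)
  have hlip : ∀ i : ℤ, |lev k (γ i)| ≤ |i| := by
    intro i
    induction i using Int.induction_on with
    | zero => simp [h.zero, lev]
    | succ m ih =>
      have := hstep m
      rw [abs_le] at this ih ⊢
      rw [abs_of_nonneg (by omega : (0 : ℤ) ≤ m)] at ih
      rw [abs_of_nonneg (by omega : (0 : ℤ) ≤ m + 1)]
      omega
    | pred m ih =>
      have := hstep (-m - 1)
      rw [show -(m : ℤ) - 1 + 1 = -m by ring] at this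
      rw [abs_le] at this ih ⊢
      rw [abs_of_nonpos (by omega : -(m : ℤ) ≤ 0)] at ih
      rw [abs_of_nonpos (by omega : -(m : ℤ) - 1 ≤ 0)]
      omega
  -- the last visit of level zero
  obtain ⟨j, hj, hjmax⟩ := Int.exists_greatest_of_bdd (P := fun i => lev k (γ i) ≤ 0)
    ⟨U0, fun z hz => le_of_not_gt fun hlt => absurd (hU0 z hlt.le) (not_lt.2 hz)⟩
    ⟨0, by simp [h.zero, lev]⟩
  have hj0 : 0 ≤ j := hjmax 0 (by simp [h.zero, lev])
  have hjlev : lev k (γ j) = 0 := by
    have h1 : 0 < lev k (γ (j + 1)) := not_le.1 fun hc => by linarith [hjmax _ hc]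
    have := hstep j
    rw [abs_le] at this
    omega
  refine ⟨j.toNat, ?_⟩
  rw [eventually_atTop]
  refine ⟨(max (max A1 (-B1)) (j + 2)).toNat, fun n hn => ?_⟩
  have hnA : A1 ≤ (n : ℤ) := by omega
  have hnB : -(n : ℤ) ≤ B1 := by omega
  have hn2 : j + 2 ≤ (n : ℤ) := by omega
  -- the exit on the right
  obtain ⟨U1, hU1⟩ := eventually_atTop.1 (hup.eventually_ge_atTop (n : ℤ))
  obtain ⟨b, ⟨hb1, hb2⟩, hbmin⟩ := Int.exists_least_of_bdd
    (P := fun i => j ≤ i ∧ (n : ℤ) ≤ lev k (γ i)) ⟨j, fun z hz => hz.1⟩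
    ⟨max U1 j, le_max_right _ _, hU1 _ (le_max_left _ _)⟩
  have hblev : lev k (γ b) = n := by
    have hbj : b ≠ j := fun e => by rw [e, hjlev] at hb2; omega
    have h1 : lev k (γ (b - 1)) < n := not_le.1 fun hc => by
      linarith [hbmin (b - 1) ⟨by omega, hc⟩]
    have := hstep (b - 1)
    rw [sub_add_cancel, abs_le] at this
    omega
  have hbn : (n : ℤ) ≤ b := by
    have := hlip b
    rw [hblev, abs_of_nonneg (by omega : (0 : ℤ) ≤ n), abs_of_nonneg (by omega : 0 ≤ b)] at this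
    exact this
  -- the exit on the left
  obtain ⟨L1, hL1⟩ := eventually_atBot.1 (hdown.eventually_le_atBot (-(n : ℤ)))
  obtain ⟨a, ⟨ha1, ha2⟩, hamax⟩ := Int.exists_greatest_of_bdd
    (P := fun i => i ≤ -1 ∧ lev k (γ i) ≤ -(n : ℤ)) ⟨-1, fun z hz => hz.1⟩
    ⟨min L1 (-1), min_le_right _ _, hL1 _ (min_le_left _ _)⟩
  have hl1 : lev k (γ (-1)) = -1 := by
    have := (h.offset hk).1
    simp only [lev, Prod.fst_neg, Prod.snd_neg] at *; linarith
  have halev : lev k (γ a) = -(n : ℤ) := by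
    have ha : a ≠ -1 := fun e => by rw [e, hl1] at ha2; omega
    have h1 : -(n : ℤ) < lev k (γ (a + 1)) := not_le.1 fun hc => by
      linarith [hamax (a + 1) ⟨by omega, hc⟩]
    have := hstep a
    rw [abs_le] at this
    omega
  have han : a ≤ -(n : ℤ) := by
    have := hlip a
    rw [halev, abs_neg, abs_of_nonneg (by omega : (0 : ℤ) ≤ n), abs_of_nonpos (by omega : a ≤ 0)] at this
    omega
  -- segments
  have seg : ∀ i i' : ℤ, a ≤ i → i ≤ i' → ∃ p : grid.Walk (γ i) (γ i'),
      (p.length : ℤ) = i' - i ∧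
      plen t p = rlen t (fwd γ a) (i' - a).toNat - rlen t (fwd γ a) (i - a).toNat ∧
      ∀ S : Set Edge, (∀ m, i ≤ m → m < i' → edgeOf (γ m) (γ (m + 1)) ∈ S) → WalkIn S p := by
    intro i i' hai hii
    obtain ⟨p, hl, hw, -, -, hS⟩ := exists_segment (r := fwd γ a) (fun m => fwd_adj h.geo a m)
      (i := (i - a).toNat) (j := (i' - a).toNat) (by omega)
    have e1 : fwd γ a (i - a).toNat = γ i := by simp only [fwd]; congr 1; omega
    have e2 : fwd γ a (i' - a).toNat = γ i' := by simp only [fwd]; congr 1; omega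
    refine ⟨p.copy e1 e2, by rw [SimpleGraph.Walk.length_copy, hl]; omega, by rw [plen_copy, hw],
      fun S hmem => WalkIn.copy (hS S fun m h1 h2 => ?_) _ _⟩
    have := hmem (a + m) (by omega) (by omega)
    simpa [fwd, add_assoc] using this
  obtain ⟨wl, -, wlp, wlS⟩ := seg a (-1) le_rfl ha1
  obtain ⟨wm, wml, wmp, wmS⟩ := seg 0 j (by omega) hj0
  obtain ⟨wr, -, wrp, wrS⟩ := seg j b (by omega) hb1
  refine ⟨hr, γ a, γ b, γ j, wl.copy rfl (by simp), wm.copy h.zero rfl, wr, ?_, ?_, ?_, ?_, halev,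
    hblev, hjlev, ?_, ?_, ?_⟩
  · refine WalkIn.copy (wlS _ fun m h1 h2 => (edge_mem_strip (h.geo.adj m)).2 ?_) _ _
    have key : ∀ i, a ≤ i → i ≤ -1 → -(n : ℤ) ≤ lev k (γ i) ∧ lev k (γ i) ≤ -1 := fun i hi hi' => by
      refine ⟨?_, by have := h.left i (by omega); omega⟩
      by_contra hc
      have := hamax i ⟨hi', by omega⟩
      obtain rfl : i = a := by omega
      omega
    have := key m h1 (by omega)
    have := key (m + 1) (by omega) (by omega)
    omega
  · refine wrS _ fun m h1 h2 => (edge_mem_strip (h.geo.adj m)).2 ?_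
    have key : ∀ i, j ≤ i → i ≤ b → 0 ≤ lev k (γ i) ∧ lev k (γ i) ≤ n := fun i hi hi' => by
      constructor
      · rcases hi.eq_or_lt with rfl | hlt
        · omega
        · exact le_of_not_gt fun hc => absurd (hjmax i hc.le) (by omega)
      · by_contra hc
        have := hbmin i ⟨hi, by omega⟩
        obtain rfl : i = b := by omega
        omega
    have := key m h1 h2.le
    have := key (m + 1) (by omega) (by omega)
    omega
  · rw [SimpleGraph.Walk.length_copy]; omega
  · refine WalkIn.copy (wmS _ fun m h1 h2 => ?_) _ _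
    intro he
    have ha1' : Adj ((0 : V) - -γ (-1)) 0 := (h.offset hk).adj 0
    rcases (edgeOf_eq_iff (h.geo.adj m) ha1').1 he with ⟨e1, e2⟩ | ⟨e1, e2⟩
    · have : γ m = γ (-1) := by rw [e1]; simp
      have := h.geo.inj this
      omega
    · have : γ (m + 1) = γ (-1) := by rw [e2]; simp
      have := h.geo.inj this
      omega
  · have := hB1 a (by omega)
    rw [halev] at this
    push_cast at this
    exact this
  · have := hA1 b (by omega)
    rw [hblev] at this
    push_cast at this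
    exact this
  · intro w
    have hw := T_le h0 w
    have hT := rlen_fwd_eq_T h0 h.geo a (b - a).toNat
    rw [show a + ((b - a).toNat : ℤ) = b by omega] at hT
    have he : t (edge0 (-γ (-1))) =
        rlen t (fwd γ a) (0 - a).toNat - rlen t (fwd γ a) (-1 - a).toNat := by
      rw [show (0 - a).toNat = (-1 - a).toNat + 1 by omega, rlen_succ]
      simp only [fwd, wt, edge0]
      rw [show a + ((-1 - a).toNat : ℤ) = -1 by omega,
        show a + (((-1 - a).toNat + 1 : ℕ) : ℤ) = 0 by omega, h.zero]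
      simp
    rw [plen_copy, plen_copy, wlp, wmp, wrp, he, sub_self, Int.toNat_zero, rlen_zero]
    linarith

end Vale.Agent.P158.Straight
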