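import Vale.Agent.P158.Basic

/-!
Walks in strips between two levels: connectivity, restricted passage times, exchange.
-/

namespace Vale.Agent.P158.Straight

open Vale.Agent.P158

/-- The edges of the closed strip between levels `A` and `B`. -/
def Strip (k A B : ℤ) : Set Edge := rigE k A ∩ lefE k B

/-- The meeting property of the strips of frame `k`. -/
def Meets (k : ℤ) : Prop :=
  ∀ (A B : ℤ) (a a' q q' : V) (P : grid.Walk a q') (Q : grid.Walk a' q), A < B →
    lev k a = A → lev k a' = A → lev k q = B → lev k q' = B → a.2 ≤ a'.2 → q.2 ≤ q'.2 →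
    WalkIn (Strip k A B) P → WalkIn (Strip k A B) Q → ∃ c, c ∈ P.support ∧ c ∈ Q.support

theorem edge_mem_strip {k A B : ℤ} {x y : V} (h : Adj x y) :
    edgeOf x y ∈ Strip k A B ↔ (A ≤ lev k x ∧ A ≤ lev k y) ∧ (lev k x ≤ B ∧ lev k y ≤ B) := by
  rcases ends_edgeOf h with ⟨h1, h2⟩ | ⟨h1, h2⟩ <;>
    simp [Strip, rigE, lefE, h1, h2, and_comm, and_left_comm]

section Len
variable {t : Conf}

theorem exists_walk_near {S : Set Edge} {x y : V} (hc : ConnIn S x y) {ε : ℝ} (hε : 0 < ε) :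
    ∃ p : grid.Walk x y, WalkIn S p ∧ plen t p < TS t S x y + ε := by
  obtain ⟨p, hp⟩ := hc
  obtain ⟨_, ⟨q, hq, rfl⟩, hlt⟩ :=
    exists_lt_of_csInf_lt (s := plen t '' {p : grid.Walk x y | WalkIn S p}) ⟨_, p, hp, rfl⟩
      (b := TS t S x y + ε) (lt_add_of_pos_right _ hε)
  exact ⟨q, hq, hlt⟩

/-- The exchange inequality at a common vertex of two crossing walks. -/
theorem exchange (h : ∀ e, 0 ≤ t e) {k A B : ℤ} (hm : Meets k) (hAB : A < B) {a a' q q' : V}
    (ha : lev k a = A) (ha' : lev k a' = A) (hq : lev k q = B) (hq' : lev k q' = B)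
    (hs : a.2 ≤ a'.2) (hs' : q.2 ≤ q'.2) (hc : ConnIn (Strip k A B) a q')
    (hc' : ConnIn (Strip k A B) a' q) :
    TS t (Strip k A B) a q + TS t (Strip k A B) a' q' ≤
      TS t (Strip k A B) a q' + TS t (Strip k A B) a' q := by
  classical
  refine le_of_forall_pos_le_add fun ε hε => ?_
  obtain ⟨P, hP, hP'⟩ := exists_walk_near (t := t) hc (half_pos hε)
  obtain ⟨Q, hQ, hQ'⟩ := exists_walk_near (t := t) hc' (half_pos hε)
  obtain ⟨c, hcP, hcQ⟩ := hm A B a a' q q' P Q hAB ha ha' hq hq' hs hs' hP hQ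
  have sub : ∀ {x y : V} {W : grid.Walk x y}, WalkIn (Strip k A B) W → ∀ (hc : c ∈ W.support),
      WalkIn (Strip k A B) (W.takeUntil c hc) ∧ WalkIn (Strip k A B) (W.dropUntil c hc) :=
    fun hW hc => ⟨fun d hd => hW d (SimpleGraph.Walk.darts_takeUntil_subset_darts _ hc hd),
      fun d hd => hW d (SimpleGraph.Walk.darts_dropUntil_subset_darts _ hc hd)⟩
  have e1 := congrArg (plen t) (SimpleGraph.Walk.take_spec P hcP)
  have e2 := congrArg (plen t) (SimpleGraph.Walk.take_spec Q hcQ)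
  rw [plen_append] at e1 e2
  have h1 := TS_le h ((walkIn_append_iff _ _).2 ⟨(sub hP hcP).1, (sub hQ hcQ).2⟩)
  have h2 := TS_le h ((walkIn_append_iff _ _).2 ⟨(sub hQ hcQ).1, (sub hP hcP).2⟩)
  rw [plen_append] at h1 h2
  linarith

end Len

/-! ### Connectivity of strips -/

theorem adj_right (v : V) : grid.Adj v (v.1 + 1, v.2) := by simp [grid, Adj]

theorem adj_up (v : V) : grid.Adj v (v.1, v.2 + 1) := by simp [grid, Adj]

theorem step_right {k A B : ℤ} {v : V} (h1 : A ≤ lev k v) (h2 : lev k v + 1 ≤ B) :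
    ConnIn (Strip k A B) v (v.1 + 1, v.2) := by
  refine ⟨.cons (adj_right v) .nil, (walkIn_cons_iff _ _).2 ⟨(edge_mem_strip (adj_right v)).2 ?_, walkIn_nil⟩⟩
  simp only [lev] at *
  omega

/-- One step up along the lowest levels, by at most two edges. -/
theorem walk_up {k A B : ℤ} (hk : k = 0 ∨ k = 1) (hAB : A < B) {v : V} (hv : lev k v = A) :
    ∃ p : grid.Walk v (v.1 - k, v.2 + 1), WalkIn (Strip k A B) p ∧ p.length ≤ 2 := by
  rcases hk with rfl | rfl
  · refine ⟨(SimpleGraph.Walk.cons (adj_up v) .nil).copy rfl (by simp), ?_, by simp⟩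
    refine WalkIn.copy ((walkIn_cons_iff _ _).2 ⟨(edge_mem_strip (adj_up v)).2 ?_, walkIn_nil⟩) _ _
    simp only [lev] at *
    omega
  · have h1 : grid.Adj (v.1, v.2 + 1) (v.1 - 1, v.2 + 1) := by simp [grid, Adj]
    refine ⟨.cons (adj_up v) (.cons h1 .nil), ?_, by simp⟩
    refine (walkIn_cons_iff _ _).2 ⟨(edge_mem_strip (adj_up v)).2 ?_,
      (walkIn_cons_iff _ _).2 ⟨(edge_mem_strip h1).2 ?_, walkIn_nil⟩⟩ <;>
    · simp only [lev] at *
      omega

theorem walk_level {k A B : ℤ} (hk : k = 0 ∨ k = 1) (hAB : A < B) :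
    ∀ (m : ℕ) (v : V), lev k v = A →
      ∃ p : grid.Walk v (v.1 - k * m, v.2 + m), WalkIn (Strip k A B) p ∧ p.length ≤ 2 * m := by
  intro m
  induction m with
  | zero => exact fun v _ => ⟨(SimpleGraph.Walk.nil).copy rfl (by simp), WalkIn.copy walkIn_nil _ _, by simp⟩
  | succ m ih =>
    intro v hv
    obtain ⟨p, hp, hp'⟩ := walk_up hk hAB hv
    obtain ⟨q, hq, hq'⟩ := ih (v.1 - k, v.2 + 1) (by simp only [lev] at *; linarith)
    refine ⟨(p.append q).copy rfl (by push_cast; simp only [Prod.mk.injEq]; constructor <;> ring), ?_, ?_⟩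
    · exact WalkIn.copy ((walkIn_append_iff _ _).2 ⟨hp, hq⟩) _ _
    · simp only [SimpleGraph.Walk.length_copy, SimpleGraph.Walk.length_append]
      omega

theorem level_walk {k A B : ℤ} (hk : k = 0 ∨ k = 1) (hAB : A < B) {x y : V}
    (hx : lev k x = A) (hy : lev k y = A) :
    ∃ p : grid.Walk x y, WalkIn (Strip k A B) p ∧ p.length ≤ 2 * (y.2 - x.2).natAbs := by
  rcases le_total x.2 y.2 with h | h
  · obtain ⟨p, hp, hp'⟩ := walk_level hk hAB (y.2 - x.2).natAbs x hx
    have e : ((y.2 - x.2).natAbs : ℤ) = y.2 - x.2 := Int.natAbs_of_nonneg (by omega)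
    have he : (x.1 - k * ((y.2 - x.2).natAbs : ℤ), x.2 + ((y.2 - x.2).natAbs : ℤ)) = y := by
      rw [e]; simp only [lev] at *
      refine Prod.ext ?_ ?_ <;> simp only [] <;> linarith
    exact ⟨p.copy rfl he, hp.copy _ _, by simpa using hp'⟩
  · obtain ⟨p, hp, hp'⟩ := walk_level hk hAB (y.2 - x.2).natAbs y hy
    have e : ((y.2 - x.2).natAbs : ℤ) = x.2 - y.2 := by omega
    have he : (y.1 - k * ((y.2 - x.2).natAbs : ℤ), y.2 + ((y.2 - x.2).natAbs : ℤ)) = x := by
      rw [e]; simp only [lev] at *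
      refine Prod.ext ?_ ?_ <;> simp only [] <;> linarith
    exact ⟨(p.copy rfl he).reverse, (hp.copy _ _).reverse, by simpa using hp'⟩

/-- Strips of positive width are connected. -/
theorem connIn_strip {k A B : ℤ} (hk : k = 0 ∨ k = 1) (hAB : A < B) {x y : V}
    (hx : A ≤ lev k x) (hx' : lev k x ≤ B) (hy : A ≤ lev k y) (hy' : lev k y ≤ B) :
    ConnIn (Strip k A B) x y := by
  have down : ∀ (m : ℕ) (v : V), lev k v = A + m → A + m ≤ B →
      ∃ w, lev k w = A ∧ ConnIn (Strip k A B) w v := by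
    intro m
    induction m with
    | zero => exact fun v hv _ => ⟨v, by simpa using hv, ConnIn.refl v⟩
    | succ m ih =>
      intro v hv hB
      push_cast at hv hB
      have hl : lev k (v.1 - 1, v.2) = A + m := by simp only [lev] at *; linarith
      obtain ⟨w, hw, hc⟩ := ih (v.1 - 1, v.2) hl (by omega)
      refine ⟨w, hw, hc.trans ?_⟩
      simpa using step_right (k := k) (A := A) (B := B) (v := (v.1 - 1, v.2)) (by omega) (by omega)
  obtain ⟨x', hx1, hx2⟩ := down (lev k x - A).toNat x (by omega) (by omega)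
  obtain ⟨y', hy1, hy2⟩ := down (lev k y - A).toNat y (by omega) (by omega)
  obtain ⟨p, hp, -⟩ := level_walk hk hAB hx1 hy1
  exact hx2.symm.trans (ConnIn.trans ⟨p, hp⟩ hy2)

end Vale.Agent.P158.Straight
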