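import Vale.Agent.P158.MuShape
import Vale.Agent.P158.StraightWalk

/-!
Upper bound for the passage times inside strips between two levels, in probability.
-/

open MeasureTheory Filter Topology
open scoped ENNReal

namespace Vale.Agent.P158

variable {G : Measure ℝ} {M κ : ℝ}

/-- A walk that is short compared with the distance of its start to both boundary levels stays in
the strip. -/
lemma mem_strip_of_length {k A B : ℤ} (hk : k = 0 ∨ k = 1) {u v : V} (p : grid.Walk u v) :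
    A + p.length ≤ lev k u → lev k u + p.length ≤ B → WalkIn (rigE k A ∩ lefE k B) p := by
  induction p with
  | nil => intro _ _; exact walkIn_nil
  | @cons a b c h q ih =>
    intro h1 h2
    simp only [SimpleGraph.Walk.length_cons] at h1 h2
    push_cast at h1 h2
    have hab : |a.1 - b.1| + |a.2 - b.2| = 1 := h
    have hl : |lev k a - lev k b| ≤ 1 := by
      rcases abs_cases (a.1 - b.1) with h3 | h3 <;> rcases abs_cases (a.2 - b.2) with h4 | h4 <;>
        rcases hk with rfl | rfl <;> simp only [lev] <;> rw [abs_le] <;> constructor <;> omega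
    rw [abs_le] at hl
    refine (walkIn_cons_iff _ _).2 ⟨?_, ih (by omega) (by omega)⟩
    rcases ends_edgeOf h with ⟨e1, e2⟩ | ⟨e1, e2⟩ <;>
      simp only [rigE, lefE, Set.mem_inter_iff, Set.mem_ofPred_eq, e1, e2] <;> omega

/-- A horizontal walk to the right, inside the strip when it fits. -/
lemma exists_walk_right {k A B : ℤ} : ∀ (h : ℕ) (x : V), A ≤ lev k x → lev k x + h ≤ B →
    ∃ p : grid.Walk x (x.1 + h, x.2), p.length = h ∧ WalkIn (rigE k A ∩ lefE k B) p := by
  intro h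
  induction h with
  | zero => exact fun x _ _ => ⟨SimpleGraph.Walk.nil.copy rfl (by simp), by simp,
      walkIn_nil.copy _ _⟩
  | succ h ih =>
    intro x h1 h2
    push_cast at h2
    have hadj : Adj x (x.1 + 1, x.2) := by simp [Adj]
    obtain ⟨p, hp, hin⟩ := ih (x.1 + 1, x.2) (by simp only [lev] at *; omega)
      (by simp only [lev] at *; omega)
    refine ⟨(SimpleGraph.Walk.cons (show grid.Adj x (x.1 + 1, x.2) from hadj) p).copy rfl
      (by push_cast; ring_nf), by simp [hp], ((walkIn_cons_iff _ _).2 ⟨?_, hin⟩).copy _ _⟩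
    rcases ends_edgeOf hadj with ⟨e1, e2⟩ | ⟨e1, e2⟩ <;>
      simp only [rigE, lefE, Set.mem_inter_iff, Set.mem_ofPred_eq, e1, e2, lev] at * <;> omega

/-- Far from the boundary levels, the passage time inside a strip is the passage time. -/
lemma TS_strip_le_T {t : Conf} (ht : InRange M t) (hκ : 0 < κ) {k A B : ℤ} (hk : k = 0 ∨ k = 1)
    {u w : V} {m : ℕ} {d : ℝ} (hu : t ∉ ⋃ i : ℕ, shortSet κ u (m + i))
    (hd : r1 (toR w - toR u) ≤ d) {ℓ : ℕ} (hm : m ≤ ℓ) (hℓ : (M * d + 1) / κ ≤ ℓ)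
    (h1 : A + ℓ ≤ lev k u) (h2 : lev k u + ℓ ≤ B) :
    TS t (rigE k A ∩ lefE k B) u w ≤ T t u w + 1 ∧ ConnIn (rigE k A ∩ lefE k B) u w := by
  have hM : 0 ≤ M := (ht ((0, 0), true)).1.trans (ht ((0, 0), true)).2
  obtain ⟨p, hp⟩ : ∃ p : grid.Walk u w, plen t p < T t u w + 1 := by
    by_contra hcon
    push Not at hcon
    linarith [le_T hcon]
  have hb : plen t p.bypass < T t u w + 1 := (plen_bypass_le ht.nonneg p).trans_lt hp
  have hlen : p.bypass.length ≤ ℓ := by
    by_contra hcon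
    push Not at hcon
    obtain ⟨i, hi⟩ := Nat.exists_eq_add_of_le (show m ≤ p.bypass.length by omega)
    simp only [Set.mem_iUnion, not_exists, shortSet, Set.mem_ofPred_eq, not_and, not_lt] at hu
    have h3 := hu i w p.bypass p.bypass_isPath hi
    rw [← hi] at h3
    have h4 := T_le_l1 ht u w
    rw [show ((|u.1 - w.1| + |u.2 - w.2| : ℤ) : ℝ) = r1 (toR w - toR u) by
      rw [← r1_neg]; simp [r1, toR]] at h4
    have h5 := mul_le_mul_of_nonneg_left hd hM
    rw [div_le_iff₀ hκ] at hℓ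
    have h6 : (ℓ : ℝ) + 1 ≤ p.bypass.length := by exact_mod_cast hcon
    nlinarith
  have hin : WalkIn (rigE k A ∩ lefE k B) p.bypass :=
    mem_strip_of_length hk p.bypass (by omega) (by omega)
  exact ⟨(TS_le ht.nonneg hin).trans hb.le, ⟨_, hin⟩⟩

/-- The deterministic part of the strip bound: the direct route is cut into `K` short pieces. -/
lemma strip_det (hG : LawOK G M) {t : Conf} (ht : InRange M t) (hκ : 0 < κ) {k : ℤ}
    (hk : k = 0 ∨ k = 1) {C n K h m : ℕ} (hK : 0 < K) {ε' : ℝ} (hn : 2 ≤ n) (hhn : h ≤ n)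
    (hm : m + 2 ≤ h) (hℓ : (M * (4 * (C + 1) * n / K + 4) + 1) / κ + 2 ≤ h)
    (hshape : ∀ x y : V, InBox ((C + 2) * n) x → InBox ((C + 2) * n) y →
      |T t x y - mu G (toR y - toR x)| ≤ ε' * n)
    (hlong : ∀ u : V, InBox ((C + 2) * n) u → t ∉ ⋃ i : ℕ, shortSet κ u (m + i))
    {x y : V} (hx : InBox (C * n) x) (hy : InBox (C * n) y)
    (hxy : 2 * (h : ℤ) ≤ lev k y - lev k x) :
    TS t (rigE k (lev k x) ∩ lefE k (lev k y)) x y ≤
      mu G (toR y - toR x) + 4 * M * h + K * (ε' * n + 4 * M + 1) := by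
  have hM := hG.M_nonneg
  set A := lev k x with hA
  set B := lev k y with hB
  set S := rigE k A ∩ lefE k B with hS
  set x' : V := (x.1 + h, x.2) with hx'
  set y' : V := (y.1 - h, y.2) with hy'
  have hK' : (0 : ℝ) < K := by exact_mod_cast hK
  obtain ⟨p₁, hp₁, hp₁S⟩ := exists_walk_right (A := A) (B := B) h x le_rfl (by omega)
  obtain ⟨p₂, hp₂, hp₂S⟩ := exists_walk_right (k := k) (A := A) (B := B) h y'
    (by simp only [hA, hB, hy', lev] at *; omega) (by simp only [hB, hy', lev]; omega)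
  have hend₂ : ((y'.1 + h, y'.2) : V) = y := by simp [hy']
  set q : ℝ × ℝ := (1 / (K : ℝ)) • (toR y' - toR x') with hq
  set z : ℕ → V := fun i => x' + flr i q with hz
  have hz0 : z 0 = x' := by simp [hz, flr]
  have hzK : z K = y' := by
    have e : ∀ a b : ℤ, (K : ℝ) * (1 / K * ((a : ℝ) - b)) = ((a - b : ℤ) : ℝ) := fun a b => by
      push_cast; field_simp
    refine Prod.ext ?_ ?_ <;>
      simp only [hz, hq, flr, toR, Prod.fst_add, Prod.snd_add, Prod.smul_fst, Prod.smul_snd,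
        Prod.fst_sub, Prod.snd_sub, smul_eq_mul, e, Int.floor_intCast] <;> ring
  have hbox' : InBox ((C + 1) * n) x' ∧ InBox ((C + 1) * n) y' := by
    simp only [InBox, abs_le, hx', hy'] at *
    push_cast at *
    refine ⟨⟨⟨?_, ?_⟩, ⟨?_, ?_⟩⟩, ⟨⟨?_, ?_⟩, ⟨?_, ?_⟩⟩⟩ <;> linarith [hx.1, hx.2, hy.1, hy.2]
  have hconv : ∀ i ≤ K, ∀ a b : ℤ,
      (min a b : ℝ) - 1 ≤ ((a + ⌊(i : ℝ) * (1 / K * ((b : ℝ) - a))⌋ : ℤ) : ℝ) ∧
      ((a + ⌊(i : ℝ) * (1 / K * ((b : ℝ) - a))⌋ : ℤ) : ℝ) ≤ (max a b : ℝ) := by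
    intro i hi a b
    have h1 := Int.floor_le ((i : ℝ) * (1 / K * ((b : ℝ) - a)))
    have h2 := Int.lt_floor_add_one ((i : ℝ) * (1 / K * ((b : ℝ) - a)))
    have hl0 : (0 : ℝ) ≤ (i : ℝ) / K := by positivity
    have hl1 : (i : ℝ) / K ≤ 1 := (div_le_one hK').2 (by exact_mod_cast hi)
    rw [show (i : ℝ) * (1 / K * ((b : ℝ) - a)) = (i : ℝ) / K * (b - a) by ring] at h1 h2 ⊢
    push_cast
    constructor
    · rcases le_total (a : ℝ) b with hab | hab
      · rw [min_eq_left hab]; nlinarith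
      · rw [min_eq_right hab]; nlinarith
    · rcases le_total (a : ℝ) b with hab | hab
      · rw [max_eq_right hab]; nlinarith
      · rw [max_eq_left hab]; nlinarith
  have hzbox : ∀ i ≤ K, InBox ((C + 2) * n) (z i) := by
    intro i hi
    have c1 := hconv i hi x'.1 y'.1
    have c2 := hconv i hi x'.2 y'.2
    have b := hbox'
    simp only [InBox, abs_le] at b ⊢
    have key : ∀ a c w : ℤ, -(((C + 1) * n : ℕ) : ℤ) ≤ a → a ≤ (((C + 1) * n : ℕ) : ℤ) →
        -(((C + 1) * n : ℕ) : ℤ) ≤ c → c ≤ (((C + 1) * n : ℕ) : ℤ) →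
        (min a c : ℝ) - 1 ≤ (w : ℝ) → (w : ℝ) ≤ (max a c : ℝ) →
        -(((C + 2) * n : ℕ) : ℤ) ≤ w ∧ w ≤ (((C + 2) * n : ℕ) : ℤ) := by
      intro a c w a1 a2 c1 c2 w1 w2
      have w1' : min a c - 1 ≤ w := by exact_mod_cast w1
      have w2' : w ≤ max a c := by exact_mod_cast w2
      have := min_le_iff.1 (le_refl (min a c))
      push_cast at *
      constructor
      · rcases min_choice a c with e | e <;> rw [e] at w1' <;> linarith
      · rcases max_choice a c with e | e <;> rw [e] at w2' <;> linarith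
    exact ⟨key _ _ _ b.1.1.1 b.1.1.2 b.2.1.1 b.2.1.2 c1.1 c1.2,
      key _ _ _ b.1.2.1 b.1.2.2 b.2.2.1 b.2.2.2 c2.1 c2.2⟩
  have hlev : ∀ i ≤ K, A + h - 2 ≤ lev k (z i) ∧ lev k (z i) ≤ B - h + 2 := by
    intro i hi
    have hl0 : (0 : ℝ) ≤ (i : ℝ) / K := by positivity
    have hl1 : (i : ℝ) / K ≤ 1 := (div_le_one hK').2 (by exact_mod_cast hi)
    have f1 := Int.floor_le ((i : ℝ) * q.1)
    have f2 := Int.lt_floor_add_one ((i : ℝ) * q.1)
    have f3 := Int.floor_le ((i : ℝ) * q.2)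
    have f4 := Int.lt_floor_add_one ((i : ℝ) * q.2)
    have e1 : (i : ℝ) * q.1 + k * ((i : ℝ) * q.2) = (i : ℝ) / K * ((B : ℝ) - A - 2 * h) := by
      simp [hq, toR, hA, hB, hx', hy', lev]; ring
    have hBA : (0 : ℝ) ≤ (B : ℝ) - A - 2 * h := by
      have : ((2 * (h : ℤ) : ℤ) : ℝ) ≤ ((B - A : ℤ) : ℝ) := Int.cast_le.2 hxy
      push_cast at this; linarith
    have u1 : 0 ≤ (i : ℝ) / K * ((B : ℝ) - A - 2 * h) := mul_nonneg hl0 hBA
    have u2 : (i : ℝ) / K * ((B : ℝ) - A - 2 * h) ≤ (B : ℝ) - A - 2 * h := by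
      nlinarith
    have e2 : (lev k (z i) : ℝ) = (A : ℝ) + h + (⌊(i : ℝ) * q.1⌋ + k * ⌊(i : ℝ) * q.2⌋) := by
      simp [hz, hA, hx', lev, flr]; ring
    constructor <;> rw [← Int.cast_le (R := ℝ)] <;> push_cast <;> rw [e2] <;>
      rcases hk with rfl | rfl <;> simp only [Int.cast_zero, Int.cast_one, zero_mul, one_mul,
        add_zero] at e1 ⊢ <;> linarith
  set d : ℝ := 4 * (C + 1) * n / K + 4 with hd
  have hqn : r1 q ≤ 4 * (C + 1) * n / K := by
    have hb : ∀ a b : ℤ, |a| ≤ (((C + 1) * n : ℕ) : ℤ) → |b| ≤ (((C + 1) * n : ℕ) : ℤ) →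
        |(b : ℝ) - a| ≤ 2 * (((C : ℝ) + 1) * n) := fun a b ha hb => by
      have ha' : |(a : ℝ)| ≤ ((C : ℝ) + 1) * n := by exact_mod_cast ha
      have hb' : |(b : ℝ)| ≤ ((C : ℝ) + 1) * n := by exact_mod_cast hb
      linarith [abs_sub (b : ℝ) a]
    rw [hq, r1_smul, abs_of_pos (by positivity : (0 : ℝ) < 1 / K), one_div_mul_eq_div]
    refine div_le_div_of_nonneg_right ?_ hK'.le
    have := hb _ _ hbox'.1.1 hbox'.2.1
    have := hb _ _ hbox'.1.2 hbox'.2.2
    simp only [r1, toR, Prod.fst_sub, Prod.snd_sub]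
    linarith
  have hstep : ∀ i < K, r1 (toR (z (i + 1)) - toR (z i) - q) ≤ 4 := by
    intro i _
    rw [hz]
    simp only [toR_add]
    rw [show toR x' + toR (flr ((i + 1 : ℕ) : ℝ) q) - (toR x' + toR (flr (i : ℕ) q)) - q =
      (toR (flr ((i + 1 : ℕ) : ℝ) q) - ((i + 1 : ℕ) : ℝ) • q) +
        -(toR (flr (i : ℕ) q) - (i : ℝ) • q) by push_cast; rw [add_smul, one_smul]; abel]
    refine (r1_add _ _).trans ?_
    rw [r1_neg]
    linarith [flr_close ((i + 1 : ℕ) : ℝ) q, flr_close ((i : ℕ) : ℝ) q]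
  set ℓ : ℕ := h - 2 with hℓdef
  have hpiece : ∀ i < K, TS t S (z i) (z (i + 1)) ≤ mu G q + 4 * M + ε' * n + 1 ∧
      ConnIn S (z i) (z (i + 1)) := by
    intro i hi
    have hdist : r1 (toR (z (i + 1)) - toR (z i)) ≤ d := by
      have := r1_add (toR (z (i + 1)) - toR (z i) - q) q
      rw [sub_add_cancel] at this
      linarith [hstep i hi]
    have hl := hlev i hi.le
    have hℓ' : (M * d + 1) / κ ≤ (ℓ : ℝ) := by
      rw [hℓdef, Nat.cast_sub (by omega : 2 ≤ h)]
      push_cast; linarith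
    obtain ⟨a1, a2⟩ := TS_strip_le_T ht hκ (A := A) (B := B) hk (hlong _ (hzbox i hi.le)) hdist
      (show m ≤ ℓ by omega) hℓ' (by omega) (by omega)
    refine ⟨a1.trans ?_, a2⟩
    have b1 := (abs_le.1 (hshape _ _ (hzbox i hi.le) (hzbox (i + 1) hi))).2
    have b2 := (abs_le.1 (mu_lip hG (toR (z (i + 1)) - toR (z i)) q)).2
    have b3 := mul_le_mul_of_nonneg_left (hstep i hi) hM
    linarith
  have hchain : ∀ i ≤ K, TS t S x' (z i) ≤ i * (mu G q + 4 * M + ε' * n + 1) ∧
      ConnIn S x' (z i) := by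
    intro i
    induction i with
    | zero => exact fun _ => ⟨by simp [hz0, TS_self ht.nonneg], hz0 ▸ ConnIn.refl _⟩
    | succ i ih =>
      intro hi
      obtain ⟨c1, c2⟩ := ih (by omega)
      obtain ⟨d1, d2⟩ := hpiece i (by omega)
      refine ⟨(TS_triangle ht.nonneg c2 d2).trans ?_, c2.trans d2⟩
      push_cast; linarith
  obtain ⟨m1, m2⟩ := hchain K le_rfl
  rw [hzK] at m1 m2
  have hKq : (K : ℝ) * mu G q = mu G (toR y' - toR x') := by
    rw [← mu_smul hG hK'.le, hq, smul_smul, mul_one_div, div_self hK'.ne', one_smul]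
  have hmu : mu G (toR y' - toR x') ≤ mu G (toR y - toR x) + 2 * M * h := by
    have := (abs_le.1 (mu_lip hG (toR y' - toR x') (toR y - toR x))).2
    have e : r1 (toR y' - toR x' - (toR y - toR x)) = 2 * h := by
      simp only [r1, toR, hx', hy', Prod.fst_sub, Prod.snd_sub]
      push_cast
      rw [show (y.1 : ℝ) - h - ((x.1 : ℝ) + h) - ((y.1 : ℝ) - x.1) = -(2 * h) by ring, abs_neg,
        abs_of_nonneg (by positivity), show (y.2 : ℝ) - x.2 - ((y.2 : ℝ) - x.2) = 0 by ring]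
      simp
    rw [e] at this; linarith
  have t1 : TS t S x x' ≤ M * h := by
    refine (TS_le ht.nonneg hp₁S).trans ((plen_le_of_range ht p₁).trans ?_)
    rw [hp₁]
  have t2 : TS t S y' y ≤ M * h := by
    refine (TS_le ht.nonneg (p := p₂.copy rfl hend₂) (hp₂S.copy _ _)).trans ?_
    rw [plen_copy]
    refine (plen_le_of_range ht p₂).trans ?_
    rw [hp₂]
  have c1 : ConnIn S x x' := ⟨p₁, hp₁S⟩
  have c2 : ConnIn S y' y := ⟨p₂.copy rfl hend₂, hp₂S.copy _ _⟩
  have q1 := TS_triangle ht.nonneg (c1.trans m2) c2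
  have q2 := TS_triangle ht.nonneg c1 m2
  linarith

/-- In probability, passage times inside strips of width at least `η n` are at most the norm. -/
theorem strip_upper (hG : LawOK G M) (hS : ShortBound G κ) {k : ℤ} (hk : k = 0 ∨ k = 1) (C : ℕ)
    {η ε δ : ℝ} (hη : 0 < η) (hε : 0 < ε) (hδ : 0 < δ) : ∀ᶠ n : ℕ in atTop,
    law G {t | ∃ x y : V, InBox (C * n) x ∧ InBox (C * n) y ∧
      η * n ≤ ((lev k y - lev k x : ℤ) : ℝ) ∧
      mu G (toR y - toR x) + ε * n < TS t (rigE k (lev k x) ∩ lefE k (lev k y)) x y}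
      ≤ ENNReal.ofReal δ := by
  have hM := hG.M_nonneg
  have hκ := hS.1
  set θ : ℝ := min (min (η / 2) 1) (ε / (16 * (M + 1))) with hθ
  have hθ0 : 0 < θ := lt_min (lt_min (by linarith) one_pos) (by positivity)
  have hθη : θ ≤ η / 2 := (min_le_left _ _).trans (min_le_left _ _)
  have hθ1 : θ ≤ 1 := (min_le_left _ _).trans (min_le_right _ _)
  have hθε : θ * (16 * (M + 1)) ≤ ε := (le_div_iff₀ (by positivity)).1 (min_le_right _ _)
  obtain ⟨K, hK⟩ := exists_nat_gt (16 * (M + 1) * (C + 1) / (θ * κ))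
  have hK0 : (0 : ℝ) < K := lt_trans (by positivity) hK
  set ε' : ℝ := ε / (4 * K) with hε'
  have hε'0 : 0 < ε' := by positivity
  set h : ℕ → ℕ := fun n => ⌊θ * (n : ℝ)⌋₊ with hh
  set m : ℕ → ℕ := fun n => ⌊θ / 2 * (n : ℝ)⌋₊ with hm
  have hmT : Tendsto m atTop atTop :=
    tendsto_nat_floor_atTop.comp (tendsto_natCast_atTop_atTop.const_mul_atTop (by positivity))
  set D : ℝ := 2 * ((C : ℝ) + 2) * (2 / θ) + 1 with hD
  have hsmall : Tendsto (fun j : ℕ => (D * (j + 1)) ^ 2 * (2 * (1 / 2 : ℝ) ^ j)) atTop (𝓝 0) := by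
    have h0 := tendsto_pow_const_mul_const_pow_of_abs_lt_one 2 (r := (1 / 2 : ℝ)) (by norm_num)
    have h1 := tendsto_pow_const_mul_const_pow_of_abs_lt_one 1 (r := (1 / 2 : ℝ)) (by norm_num)
    have h2 := tendsto_pow_const_mul_const_pow_of_abs_lt_one 0 (r := (1 / 2 : ℝ)) (by norm_num)
    have := ((h0.add (h1.const_mul 2)).add h2).const_mul (2 * D ^ 2)
    simp only [mul_zero, add_zero] at this
    exact this.congr fun j => by ring
  have hlarge : Tendsto (fun n : ℕ => (n : ℝ)) atTop atTop := tendsto_natCast_atTop_atTop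
  filter_upwards [shape_box hG hS (C + 2) hε'0 (half_pos hδ),
    (hsmall.comp hmT).eventually_le_const (half_pos hδ),
    hlarge.eventually_ge_atTop (8 * (4 * M + 1) / κ / θ + 32 / θ),
    hlarge.eventually_ge_atTop (4 * (K * (4 * M + 1)) / ε),
    eventually_ge_atTop 2] with n hshape hms hn1 hn2 hn3
  have hn' : (0 : ℝ) < n := by exact_mod_cast (show 0 < n by omega)
  have hh1 : (h n : ℝ) ≤ θ * n := Nat.floor_le (by positivity)
  have hh2 : θ * n < h n + 1 := Nat.lt_floor_add_one _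
  have hm1 : (m n : ℝ) ≤ θ / 2 * n := Nat.floor_le (by positivity)
  have hm2 : θ / 2 * n < m n + 1 := Nat.lt_floor_add_one _
  have hθn : 8 * (4 * M + 1) / κ + 32 ≤ θ * n := by
    have := mul_le_mul_of_nonneg_left hn1 hθ0.le
    rw [mul_add, mul_div_cancel₀ _ hθ0.ne', mul_div_cancel₀ _ hθ0.ne'] at this
    linarith
  set Bx : Finset V := Finset.Icc (-(((C + 2) * n : ℕ) : ℤ)) ((C + 2) * n : ℕ) ×ˢ
    Finset.Icc (-(((C + 2) * n : ℕ) : ℤ)) ((C + 2) * n : ℕ) with hBx
  set U : Set Conf := ⋃ u ∈ Bx, ⋃ i : ℕ, shortSet κ u (m n + i) with hU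
  have hbad : law G {t | ¬ InRange M t} = 0 := ae_iff.1 (ae_inRange hG)
  refine (measure_mono (t := {t | ∃ x y : V, InBox ((C + 2) * n) x ∧ InBox ((C + 2) * n) y ∧
      ε' * n < |T t x y - mu G (toR y - toR x)|} ∪ U ∪ {t | ¬ InRange M t}) ?_).trans ?_
  · rintro t ⟨x, y, hx, hy, hlv, hlt⟩
    by_contra hcon
    simp only [Set.mem_union, Set.mem_ofPred_eq, not_or, not_not, not_exists, not_and,
      not_lt] at hcon
    obtain ⟨⟨hsh, hnU⟩, ht⟩ := hcon
    have hlong : ∀ u : V, InBox ((C + 2) * n) u → t ∉ ⋃ i : ℕ, shortSet κ u (m n + i) :=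
      fun u hu hmem => hnU (Set.mem_biUnion (x := u)
        (Finset.mem_product.2 ⟨Finset.mem_Icc.2 (abs_le.1 hu.1), Finset.mem_Icc.2 (abs_le.1 hu.2)⟩)
        hmem)
    have hxy : 2 * (h n : ℤ) ≤ lev k y - lev k x := by
      rw [← Int.cast_le (R := ℝ)]
      have := mul_le_mul_of_nonneg_right hθη hn'.le
      push_cast at hlv ⊢; linarith
    have hℓ : (M * (4 * ((C : ℕ) + 1) * n / K + 4) + 1) / κ + 2 ≤ (h n : ℝ) := by
      have h1 : M * (4 * ((C : ℝ) + 1) * n / K) / κ ≤ θ / 4 * n := by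
        rw [div_lt_iff₀ (by positivity)] at hK
        rw [div_le_iff₀ hκ, ← mul_div_assoc, div_le_iff₀ hK0]
        have a0 : M * ((C : ℝ) + 1) ≤ (M + 1) * (C + 1) :=
          mul_le_mul_of_nonneg_right (by linarith) (by positivity)
        have := mul_le_mul_of_nonneg_right hK.le hn'.le
        have := mul_le_mul_of_nonneg_right a0 hn'.le
        linarith
      have h2 : (4 * M + 1) / κ ≤ θ / 8 * n := by
        rw [mul_div_assoc] at hθn
        linarith
      rw [show (M * (4 * ((C : ℕ) + 1) * (n : ℝ) / K + 4) + 1) / κ =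
        M * (4 * ((C : ℝ) + 1) * n / K) / κ + (4 * M + 1) / κ by ring]
      have : 0 ≤ (4 * M + 1) / κ := by positivity
      have : 0 ≤ 8 * (4 * M + 1) / κ := by positivity
      linarith
    have := strip_det hG ht hκ hk (C := C) (n := n) (K := K) (h := h n) (m := m n) (ε' := ε')
      (by exact_mod_cast hK0) hn3 (by
        rw [← Nat.cast_le (α := ℝ)]
        have := mul_le_mul_of_nonneg_right hθ1 hn'.le
        linarith) (by
        rw [← Nat.cast_le (α := ℝ)]
        have : (0 : ℝ) ≤ 8 * (4 * M + 1) / κ := by positivity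
        push_cast; linarith) hℓ hsh hlong hx hy hxy
    have e1 : 4 * M * (h n : ℝ) ≤ ε / 4 * n := by
      have := mul_le_mul_of_nonneg_right hθε hn'.le
      have := mul_le_mul_of_nonneg_left hh1 (show (0 : ℝ) ≤ 4 * M by linarith)
      have : 0 ≤ θ * n := by positivity
      linarith
    have e2 : (K : ℝ) * (ε' * n + 4 * M + 1) ≤ ε / 2 * n := by
      rw [div_le_iff₀ hε] at hn2
      rw [show (K : ℝ) * (ε' * n + 4 * M + 1) = ε / 4 * n + K * (4 * M + 1) by
        rw [hε']; field_simp; ring]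
      linarith
    have : 0 ≤ ε / 4 * (n : ℝ) := by positivity
    linarith
  · refine (measure_union_le _ _).trans ?_
    rw [hbad, add_zero]
    refine (measure_union_le _ _).trans ?_
    rw [show ENNReal.ofReal δ = ENNReal.ofReal (δ / 2) + ENNReal.ofReal (δ / 2) by
      rw [← ENNReal.ofReal_add (by linarith) (by linarith), add_halves]]
    refine add_le_add hshape ((measure_biUnion_finset_le _ _).trans
      ((Finset.sum_le_sum fun u _ => short_from_le hS u (m n)).trans ?_))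
    rw [Finset.sum_const, nsmul_eq_mul, ← ENNReal.ofReal_natCast,
      show (2 : ℝ≥0∞) * (1 / 2) ^ m n = ENNReal.ofReal (2 * (1 / 2 : ℝ) ^ m n) by
        rw [ENNReal.ofReal_mul (by norm_num), ENNReal.ofReal_pow (by norm_num),
          ENNReal.ofReal_div_of_pos (by norm_num)]
        simp,
      ← ENNReal.ofReal_mul (Nat.cast_nonneg _)]
    refine ENNReal.ofReal_le_ofReal (le_trans ?_ hms)
    simp only [Function.comp_apply]
    refine mul_le_mul_of_nonneg_right ?_ (by positivity)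
    have hcard : (Bx.card : ℝ) = (2 * ((C : ℝ) + 2) * n + 1) ^ 2 := by
      rw [hBx, Finset.card_product, Int.card_Icc,
        show (((C + 2) * n : ℕ) : ℤ) + 1 - -(((C + 2) * n : ℕ) : ℤ) =
          ((2 * ((C + 2) * n) + 1 : ℕ) : ℤ) by push_cast; ring, Int.toNat_natCast]
      push_cast; ring
    rw [hcard]
    refine pow_le_pow_left₀ (by positivity) ?_ 2
    have hnm : (n : ℝ) ≤ 2 / θ * (m n + 1) := by
      rw [div_mul_eq_mul_div, le_div_iff₀ hθ0]
      linarith
    have := mul_le_mul_of_nonneg_left hnm (show (0 : ℝ) ≤ 2 * (C + 2) by positivity)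
    rw [hD]
    linarith [(Nat.cast_nonneg (m n) : (0 : ℝ) ≤ _)]

/-- In probability, passage times inside half-planes are at most the norm. -/
theorem half_upper (hG : LawOK G M) (hS : ShortBound G κ) {k : ℤ} (hk : k = 0 ∨ k = 1) (C : ℕ)
    {ε δ : ℝ} (hε : 0 < ε) (hδ : 0 < δ) : ∀ᶠ n : ℕ in atTop,
    law G {t | ∃ (L : ℤ) (x y : V), InBox (C * n) x ∧ InBox (C * n) y ∧
      ((L ≤ lev k x ∧ L ≤ lev k y ∧
          mu G (toR y - toR x) + ε * n < TS t (rigE k L) x y) ∨
        (lev k x ≤ L ∧ lev k y ≤ L ∧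
          mu G (toR y - toR x) + ε * n < TS t (lefE k L) x y))}
      ≤ ENNReal.ofReal δ := by
  have hM := hG.M_nonneg
  set ζ : ℝ := min 1 (ε / (4 * (M + 1))) with hζ
  have hζ0 : 0 < ζ := lt_min one_pos (by positivity)
  have hζ1 : ζ ≤ 1 := min_le_left _ _
  have hζε : ζ * (4 * (M + 1)) ≤ ε := (le_div_iff₀ (by positivity)).1 (min_le_right _ _)
  filter_upwards [strip_upper hG hS hk (C + 1) (half_pos hζ0) (half_pos hε) hδ,
    tendsto_natCast_atTop_atTop.eventually_ge_atTop (4 / ζ)] with n hstrip hn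
  rw [div_le_iff₀ hζ0] at hn
  have hbad : law G {t | ¬ InRange M t} = 0 := ae_iff.1 (ae_inRange hG)
  refine le_trans (measure_mono (t := {t | ∃ x y : V, InBox ((C + 1) * n) x ∧
      InBox ((C + 1) * n) y ∧ ζ / 2 * n ≤ ((lev k y - lev k x : ℤ) : ℝ) ∧
      mu G (toR y - toR x) + ε / 2 * n < TS t (rigE k (lev k x) ∩ lefE k (lev k y)) x y} ∪
      {t | ¬ InRange M t}) ?_) ((measure_union_le _ _).trans (by rw [hbad, add_zero]; exact hstrip))
  rintro t ⟨L, x, y, hx, hy, hcase⟩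
  by_contra hcon
  simp only [Set.mem_union, Set.mem_ofPred_eq, not_or, not_not, not_exists, not_and, not_lt] at hcon
  obtain ⟨hst, ht⟩ := hcon
  set h : ℕ := ⌊ζ * n⌋₊ with hh
  have hh1 : (h : ℝ) ≤ ζ * n := Nat.floor_le (by positivity)
  have hh2 : ζ * n < h + 1 := Nat.lt_floor_add_one _
  have hhpos : 0 < h := Nat.floor_pos.2 (by linarith)
  have hcast : ∀ z : ℤ, (h : ℤ) ≤ z → ζ / 2 * n ≤ ((z : ℤ) : ℝ) := fun z hz => by
    have : (h : ℝ) ≤ z := by exact_mod_cast hz
    linarith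
  have hhn : (h : ℤ) ≤ n := by
    have : (h : ℝ) ≤ n := hh1.trans (by nlinarith [(Nat.cast_nonneg n : (0 : ℝ) ≤ n)])
    exact_mod_cast this
  have hbox : ∀ {z : V}, InBox (C * n) z → InBox ((C + 1) * n) z ∧
      InBox ((C + 1) * n) (z.1 + h, z.2) ∧ InBox ((C + 1) * n) (z.1 - h, z.2) := fun {z} hz => by
    simp only [InBox, abs_le] at *
    push_cast at *
    refine ⟨⟨⟨?_, ?_⟩, ⟨?_, ?_⟩⟩, ⟨⟨?_, ?_⟩, ⟨?_, ?_⟩⟩, ⟨⟨?_, ?_⟩, ⟨?_, ?_⟩⟩⟩ <;>
      linarith [hz.1, hz.2]
  -- both half-planes reduce to the strip bound from `u` to `w`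
  have right : ∀ u w : V, InBox (C * n) u → InBox (C * n) w → L ≤ lev k u → lev k u ≤ lev k w →
      TS t (rigE k L) u w ≤ mu G (toR w - toR u) + ε * n := by
    intro u w hu hw hLu huw
    set z : V := (w.1 + h, w.2) with hz
    have hlz : lev k u + h ≤ lev k z := by simp only [hz, lev] at *; omega
    have h1 := hst u z (hbox hu).1 (hbox hw).2.1 (hcast _ (by omega))
    obtain ⟨p, hp, hpS⟩ := exists_walk_right (k := k) (A := L) (B := lev k z) h w (by omega)
      (by simp only [hz, lev]; omega)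
    have hc : ConnIn (rigE k (lev k u) ∩ lefE k (lev k z)) u z :=
      Straight.connIn_strip hk (by omega) le_rfl (by omega) (by omega) le_rfl
    have hsub : rigE k (lev k u) ∩ lefE k (lev k z) ⊆ rigE k L :=
      fun e he => ⟨hLu.trans he.1.1, hLu.trans he.1.2⟩
    have hsub' : rigE k L ∩ lefE k (lev k z) ⊆ rigE k L := Set.inter_subset_left
    have a1 := TS_triangle ht.nonneg (hc.elim fun q hq => ⟨q, hq.mono hsub⟩ : ConnIn (rigE k L) u z)
      (ConnIn.symm ⟨p, hpS.mono hsub'⟩)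
    have a2 := TS_mono ht.nonneg hsub hc
    have a3 : TS t (rigE k L) z w ≤ M * h := by
      refine (TS_le ht.nonneg (hpS.mono hsub').reverse).trans ?_
      rw [plen_reverse]
      exact (plen_le_of_range ht p).trans (le_of_eq (by rw [hp]))
    have a4 := (abs_le.1 (mu_lip hG (toR z - toR u) (toR w - toR u))).2
    have e : r1 (toR z - toR u - (toR w - toR u)) = h := by simp [r1, toR, hz]
    rw [e] at a4
    have := mul_le_mul_of_nonneg_left hh1 hM
    have := mul_le_mul_of_nonneg_right hζε (Nat.cast_nonneg n)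
    have : 0 ≤ ζ * n := by positivity
    linarith
  have left : ∀ u w : V, InBox (C * n) u → InBox (C * n) w → lev k w ≤ L → lev k u ≤ lev k w →
      TS t (lefE k L) u w ≤ mu G (toR w - toR u) + ε * n := by
    intro u w hu hw hLw huw
    set z : V := (u.1 - h, u.2) with hz
    have hlz : lev k z + h ≤ lev k w := by simp only [hz, lev] at *; omega
    have h1 := hst z w (hbox hu).2.2 (hbox hw).1 (hcast _ (by omega))
    obtain ⟨p, hp, hpS⟩ := exists_walk_right (k := k) (A := lev k z) (B := L) h z le_rfl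
      (by omega)
    have hend : ((z.1 + h, z.2) : V) = u := by simp [hz]
    have hc : ConnIn (rigE k (lev k z) ∩ lefE k (lev k w)) z w :=
      Straight.connIn_strip hk (by omega) le_rfl (by omega) (by omega) le_rfl
    have hsub : rigE k (lev k z) ∩ lefE k (lev k w) ⊆ lefE k L :=
      fun e he => ⟨he.2.1.trans hLw, he.2.2.trans hLw⟩
    have hsub' : rigE k (lev k z) ∩ lefE k L ⊆ lefE k L := Set.inter_subset_right
    have hp' : WalkIn (lefE k L) (p.copy rfl hend).reverse := ((hpS.mono hsub').copy _ _).reverse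
    have a1 := TS_triangle ht.nonneg (⟨_, hp'⟩ : ConnIn (lefE k L) u z)
      (hc.elim fun q hq => ⟨q, hq.mono hsub⟩)
    have a2 := TS_mono ht.nonneg hsub hc
    have a3 : TS t (lefE k L) u z ≤ M * h := by
      refine (TS_le ht.nonneg hp').trans ?_
      rw [plen_reverse, plen_copy]
      exact (plen_le_of_range ht p).trans (le_of_eq (by rw [hp]))
    have a4 := (abs_le.1 (mu_lip hG (toR w - toR z) (toR w - toR u))).2
    have e : r1 (toR w - toR z - (toR w - toR u)) = h := by simp [r1, toR, hz]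
    rw [e] at a4
    have := mul_le_mul_of_nonneg_left hh1 hM
    have := mul_le_mul_of_nonneg_right hζε (Nat.cast_nonneg n)
    have : 0 ≤ ζ * n := by positivity
    linarith
  have hsymm : mu G (toR x - toR y) = mu G (toR y - toR x) := by rw [← mu_neg hG, neg_sub]
  rcases hcase with ⟨h1, h2, h3⟩ | ⟨h1, h2, h3⟩ <;> rcases le_total (lev k x) (lev k y) with hl | hl
  · linarith [right x y hx hy h1 hl]
  · rw [TS_comm] at h3; linarith [right y x hy hx h2 hl]
  · linarith [left x y hx hy h2 hl]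
  · rw [TS_comm] at h3; linarith [left y x hy hx h1 hl]

end Vale.Agent.P158
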