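import Vale.Agent.P158.Core

/-!
Planar meeting lemmas for walks in frame `k ∈ {0, 1}`.

The crossing parity of a walk `p` seen from a vertex `v` counts, modulo two, the steps of `p`
leaving level `lev k v` for the next level from a height above that of `v`. It is constant
along walks avoiding `p` and the levels of the ends of `p`. Hence two walks of a strip whose
ends on the two boundary lines are interleaved share a vertex.
-/

open SimpleGraph

namespace Vale.Agent.P158

namespace Planar

/-- One step, between levels `≤ c` and `> c`, whose low end is above height `s`. -/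
def crossStep (k c s : ℤ) (u u' : V) : ZMod 2 :=
  if (lev k u ≤ c ∧ c < lev k u' ∧ s < u.2) ∨ (lev k u' ≤ c ∧ c < lev k u ∧ s < u'.2) then 1
  else 0

/-- The crossing parity of a walk seen from `v`. -/
def crossPar (k : ℤ) {a b : V} (p : grid.Walk a b) (v : V) : ZMod 2 :=
  (p.darts.map fun d => crossStep k (lev k v) v.2 d.toProd.1 d.toProd.2).sum

/-- The correction between the parities at the lower and upper ends of an edge. -/
def endTerm (k : ℤ) (v w u : V) : ZMod 2 :=
  if lev k v ≠ lev k w ∧ lev k u = lev k w ∧ w.2 < u.2 then 1 else 0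

theorem adj_cases {x y : V} (h : Adj x y) :
    (y.1 = x.1 + 1 ∧ y.2 = x.2) ∨ (x.1 = y.1 + 1 ∧ x.2 = y.2) ∨
      (y.1 = x.1 ∧ y.2 = x.2 + 1) ∨ (x.1 = y.1 ∧ x.2 = y.2 + 1) := by
  unfold Adj at h
  rcases abs_cases (x.1 - y.1) with ⟨e, e1⟩ | ⟨e, e1⟩ <;>
    rcases abs_cases (x.2 - y.2) with ⟨e', e2⟩ | ⟨e', e2⟩ <;> omega

theorem ite_add_ite_eq {P Q R S : Prop} [Decidable P] [Decidable Q] [Decidable R] [Decidable S]
    (h : (P ↔ Q) ↔ (R ↔ S)) :
    ((if P then 1 else 0) + (if Q then 1 else 0) : ZMod 2) =
      (if R then 1 else 0) + (if S then 1 else 0) := by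
  by_cases hP : P <;> by_cases hQ : Q <;> by_cases hR : R <;> by_cases hS : S <;>
    simp [hP, hQ, hR, hS] at h ⊢ <;> decide

theorem crossStep_add {k : ℤ} (hk : k = 0 ∨ k = 1) {v w u u' : V}
    (hvw : (w.1 = v.1 + 1 ∧ w.2 = v.2) ∨ (w.1 = v.1 ∧ w.2 = v.2 + 1))
    (huu : Adj u u') (h1 : u ≠ v) (h2 : u' ≠ v) (h3 : u ≠ w) (h4 : u' ≠ w) :
    crossStep k (lev k v) v.2 u u' + crossStep k (lev k w) w.2 u u' =
      endTerm k v w u + endTerm k v w u' := by
  have hu := adj_cases huu
  simp only [ne_eq, Prod.ext_iff, not_and_or] at h1 h2 h3 h4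
  rcases hk with rfl | rfl <;>
    rcases hvw with ⟨e1, e2⟩ | ⟨e1, e2⟩ <;>
    rcases hu with ⟨f1, f2⟩ | ⟨f1, f2⟩ | ⟨f1, f2⟩ | ⟨f1, f2⟩ <;>
    simp only [crossStep, endTerm, lev, e1, e2, f1, f2, zero_mul, one_mul, add_zero] <;>
    refine ite_add_ite_eq ?_ <;> omega

theorem crossPar_add {k : ℤ} (hk : k = 0 ∨ k = 1) {v w : V}
    (hvw : (w.1 = v.1 + 1 ∧ w.2 = v.2) ∨ (w.1 = v.1 ∧ w.2 = v.2 + 1)) :
    ∀ {a b : V} (p : grid.Walk a b), v ∉ p.support → w ∉ p.support →
      crossPar k p v + crossPar k p w = endTerm k v w a + endTerm k v w b := by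
  intro a b p
  induction p with
  | nil => intro _ _; simp [crossPar, CharTwo.add_self_eq_zero]
  | @cons x y z hxy p ih =>
    intro hv hw
    simp only [Walk.support_cons, List.mem_cons, not_or] at hv hw
    have hy := p.start_mem_support
    have key := crossStep_add hk hvw hxy (Ne.symm hv.1) (fun h => hv.2 (h ▸ hy))
      (Ne.symm hw.1) (fun h => hw.2 (h ▸ hy))
    have hrec := ih hv.2 hw.2
    simp only [crossPar, Walk.darts_cons, List.map_cons, List.sum_cons] at hrec ⊢
    linear_combination key + hrec + (endTerm k v w y) * (CharTwo.two_eq_zero : (2 : ZMod 2) = 0)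

theorem crossPar_eq_of_adj {k : ℤ} (hk : k = 0 ∨ k = 1) {a b v w : V} (p : grid.Walk a b)
    (hvw : Adj v w) (hv : v ∉ p.support) (hw : w ∉ p.support)
    (hva : lev k a ≠ lev k v) (hvb : lev k b ≠ lev k v)
    (hwa : lev k a ≠ lev k w) (hwb : lev k b ≠ lev k w) :
    crossPar k p v = crossPar k p w := by
  have base : ∀ v w : V, ((w.1 = v.1 + 1 ∧ w.2 = v.2) ∨ (w.1 = v.1 ∧ w.2 = v.2 + 1)) →
      v ∉ p.support → w ∉ p.support → lev k a ≠ lev k w → lev k b ≠ lev k w →
      crossPar k p v = crossPar k p w := fun v w hstep hv hw ha hb => by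
    have h := crossPar_add hk hstep p hv hw
    rw [show endTerm k v w a = 0 from if_neg fun h => ha h.2.1,
      show endTerm k v w b = 0 from if_neg fun h => hb h.2.1, add_zero] at h
    exact CharTwo.add_eq_zero.1 h
  rcases adj_cases hvw with h | h | h | h
  · exact base v w (Or.inl h) hv hw hwa hwb
  · exact (base w v (Or.inl h) hw hv hva hvb).symm
  · exact base v w (Or.inr h) hv hw hwa hwb
  · exact (base w v (Or.inr h) hw hv hva hvb).symm

/-- The crossing parity is constant along a walk avoiding `p` and the levels of its ends. -/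
theorem crossPar_const {k : ℤ} (hk : k = 0 ∨ k = 1) {a b : V} (p : grid.Walk a b) :
    ∀ {c d : V} (q : grid.Walk c d),
      (∀ x ∈ q.support, x ∉ p.support ∧ lev k a ≠ lev k x ∧ lev k b ≠ lev k x) →
      crossPar k p c = crossPar k p d := by
  intro c d q
  induction q with
  | nil => intro _; rfl
  | @cons x y z hxy q ih =>
    intro h
    have hx := h x (by simp)
    have hy := h y (by simp)
    exact (crossPar_eq_of_adj hk p hxy hx.1 hy.1 hx.2.1 hx.2.2 hy.2.1 hy.2.2).trans
      (ih fun u hu => h u (List.mem_cons_of_mem _ hu))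

/-- Two walks meet when the parities at the ends of the second differ and the levels of the
ends of the first are not visited by the second. -/
theorem meet_of_crossPar_ne {k : ℤ} (hk : k = 0 ∨ k = 1) {a b c d : V} (p : grid.Walk a b)
    (q : grid.Walk c d) (hlev : ∀ x ∈ q.support, lev k a ≠ lev k x ∧ lev k b ≠ lev k x)
    (hne : crossPar k p c ≠ crossPar k p d) : ∃ x, x ∈ p.support ∧ x ∈ q.support := by
  by_contra hno
  exact hne (crossPar_const hk p q fun x hx => ⟨fun h => hno ⟨x, h, hx⟩, hlev x hx⟩)

/-- The unit step out of the strip at a boundary vertex. -/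
def outward (k A : ℤ) (v : V) : ℤ := if lev k v = A then -1 else 1

/-- The indicator that `a` lies on the same boundary line as `c`, above it. -/
def above (k : ℤ) (c a : V) : ZMod 2 := if lev k c = lev k a ∧ c.2 < a.2 then 1 else 0

end Planar

open Planar

/-- General meeting lemma in a strip: two walks in levels `[A, B]`, all four ends on the
boundary lines and interleaved (odd total number of ends of `p` above the ends of `q` on the
same line), share a vertex. -/
theorem meet_strip {k : ℤ} (hk : k = 0 ∨ k = 1) {A B : ℤ} {a b c d : V}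
    (p : grid.Walk a b) (q : grid.Walk c d)
    (hp : ∀ x ∈ p.support, A ≤ lev k x ∧ lev k x ≤ B)
    (hq : ∀ x ∈ q.support, A ≤ lev k x ∧ lev k x ≤ B)
    (ha : lev k a = A ∨ lev k a = B) (hb : lev k b = A ∨ lev k b = B)
    (hc : lev k c = A ∨ lev k c = B) (hd : lev k d = A ∨ lev k d = B)
    (hodd : above k c a + above k c b + above k d a + above k d b = 1) :
    ∃ x, x ∈ p.support ∧ x ∈ q.support := by
  by_contra hno
  -- the neighbours outside the strip
  set out : V → ℤ → V := fun v n => (v.1 + n * outward k A v, v.2) with hout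
  have hlout : ∀ v n, lev k (out v n) = lev k v + n * outward k A v := fun v n => by
    simp only [hout, lev]; ring
  have hout1 : ∀ v, out v 1 ≠ v ∧ Adj v (out v 1) ∧ Adj (out v 1) (out v 2) := fun v => by
    simp only [hout, Adj, outward, ne_eq, Prod.ext_iff]
    split_ifs <;> simp
  have hab : grid.Adj (out a 2) (out a 1) := grid.adj_symm (hout1 a).2.2
  have ha1 : grid.Adj (out a 1) a := grid.adj_symm (hout1 a).2.1
  have hb1 : grid.Adj b (out b 1) := (hout1 b).2.1
  have hb2 : grid.Adj (out b 1) (out b 2) := (hout1 b).2.2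
  have hc1 : grid.Adj (out c 1) c := grid.adj_symm (hout1 c).2.1
  have hd1 : grid.Adj d (out d 1) := (hout1 d).2.1
  let P := ((Walk.cons hab (Walk.cons ha1 p)).concat hb1).concat hb2
  let Q := (Walk.cons hc1 q).concat hd1
  have hside : ∀ v : V, lev k v = A ∨ lev k v = B →
      (lev k v = A ∧ outward k A v = -1) ∨ (lev k v = B ∧ A ≠ B ∧ outward k A v = 1) := fun v hv => by
    unfold outward
    split_ifs with h
    · exact Or.inl ⟨h, rfl⟩
    · have hB := hv.resolve_left h
      exact Or.inr ⟨hB, fun e => h (hB.trans e.symm), rfl⟩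
  have hAB : A ≤ B := (hp a p.start_mem_support).1.trans (hp a p.start_mem_support).2
  have sa := hside a ha
  have sb := hside b hb
  have sc := hside c hc
  have sd := hside d hd
  have hlevQ : ∀ x ∈ Q.support, A - 1 ≤ lev k x ∧ lev k x ≤ B + 1 := by
    intro x hx
    simp only [Q, Walk.support_concat, Walk.support_cons, List.mem_append,
      List.mem_cons, List.mem_nil_iff, or_false] at hx
    rcases hx with (rfl | hx) | rfl
    · rw [hlout]; omega
    · have := hq x hx; omega
    · rw [hlout]; omega
  -- away from the strip the extended walks only meet if the original ends coincide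
  have hend : ∀ u v : V, (lev k u = A ∨ lev k u = B) → (lev k v = A ∨ lev k v = B) →
      out u 1 = out v 1 → u = v := by
    intro u v hu hv h
    have su := hside u hu
    have sv := hside v hv
    have h2 : u.2 = v.2 := by simpa [hout] using congrArg Prod.snd h
    have h1 := congrArg (lev k) h
    rw [hlout, hlout] at h1
    refine Prod.ext ?_ h2
    have e : lev k u = lev k v := by omega
    simp only [lev, h2] at e
    omega
  have hdisj : ∀ x ∈ Q.support, x ∉ P.support := by
    intro x hxQ hxP
    simp only [P, Walk.support_concat, Walk.support_cons, List.mem_append,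
      List.mem_cons, List.mem_nil_iff, or_false] at hxP
    simp only [Q, Walk.support_concat, Walk.support_cons, List.mem_append,
      List.mem_cons, List.mem_nil_iff, or_false] at hxQ
    have far : ∀ u v, (lev k u = A ∨ lev k u = B) → (lev k v = A ∨ lev k v = B) →
        out u 2 ≠ out v 1 := fun u v hu hv h => by
      have su := hside u hu
      have sv := hside v hv
      have h1 := congrArg (lev k) h
      rw [hlout, hlout] at h1
      omega
    have nin : ∀ u (n : ℤ), 0 < n → (lev k u = A ∨ lev k u = B) →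
        ¬(A ≤ lev k (out u n) ∧ lev k (out u n) ≤ B) := fun u n hn hu => by
      rw [hlout]
      rcases hside u hu with ⟨h, e⟩ | ⟨h, -, e⟩ <;> rw [h, e] <;> omega
    rcases hxQ with (rfl | hxQ) | rfl
    · rcases hxP with (((h | h | h) | h) | h)
      · exact far a c ha hc h.symm
      · exact hno ⟨c, by rw [hend c a hc ha h]; exact p.start_mem_support, q.start_mem_support⟩
      · exact nin c 1 one_pos hc (hp _ h)
      · exact hno ⟨c, by rw [hend c b hc hb h]; exact p.end_mem_support, q.start_mem_support⟩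
      · exact far b c hb hc h.symm
    · have hx := hq x hxQ
      rcases hxP with (((h | h | h) | h) | h)
      · exact nin a 2 two_pos ha (h ▸ hx)
      · exact nin a 1 one_pos ha (h ▸ hx)
      · exact hno ⟨x, h, hxQ⟩
      · exact nin b 1 one_pos hb (h ▸ hx)
      · exact nin b 2 two_pos hb (h ▸ hx)
    · rcases hxP with (((h | h | h) | h) | h)
      · exact far a d ha hd h.symm
      · exact hno ⟨d, by rw [hend d a hd ha h]; exact p.start_mem_support, q.end_mem_support⟩
      · exact nin d 1 one_pos hd (hp _ h)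
      · exact hno ⟨d, by rw [hend d b hd hb h]; exact p.end_mem_support, q.end_mem_support⟩
      · exact far b d hb hd h.symm
  have hconst := crossPar_const hk P Q fun x hx => by
    refine ⟨hdisj x hx, ?_, ?_⟩ <;>
    · have := hlevQ x hx
      rw [hlout]
      omega
  -- the parity just outside an end of `q` counts the ends of `p` above it on its line
  have hval : ∀ u : V, (lev k u = A ∨ lev k u = B) → u ≠ a → u ≠ b →
      crossPar k P (out u 1) = above k u a + above k u b := by
    intro u hu hua hub
    have su := hside u hu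
    have hinner : (p.darts.map fun e =>
        crossStep k (lev k (out u 1)) (out u 1).2 e.toProd.1 e.toProd.2).sum = 0 := by
      refine List.sum_eq_zero fun z hz => ?_
      obtain ⟨e, he, rfl⟩ := List.mem_map.1 hz
      have h1 := hp _ (p.dart_fst_mem_support_of_mem_darts he)
      have h2 := hp _ (p.dart_snd_mem_support_of_mem_darts he)
      rw [crossStep, if_neg]
      rw [hlout]
      omega
    have hends : ∀ z : V, (lev k z = A ∨ lev k z = B) → u ≠ z →
        crossStep k (lev k (out u 1)) (out u 1).2 (out z 2) (out z 1) +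
          crossStep k (lev k (out u 1)) (out u 1).2 (out z 1) z = above k u z := by
      intro z hz huz
      have sz := hside z hz
      have huz' : lev k u = lev k z → u.2 ≠ z.2 := fun e e2 => huz (Prod.ext (by
        simp only [lev, e2] at e; omega) e2)
      have x1 : (out z 2).2 = z.2 := rfl
      have x2 : (out z 1).2 = z.2 := rfl
      have x3 : (out u 1).2 = u.2 := rfl
      simp only [crossStep, above, hlout, x1, x2, x3]
      split_ifs <;> first | rfl | decide | (exfalso; omega)
    have symm : ∀ x y : V, crossStep k (lev k (out u 1)) (out u 1).2 x y =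
        crossStep k (lev k (out u 1)) (out u 1).2 y x := fun x y => if_congr or_comm rfl rfl
    rw [← hends a ha hua, ← hends b hb hub, symm (out b 2), symm (out b 1) b]
    simp only [crossPar, P, Walk.darts_concat, Walk.darts_cons, List.concat_eq_append,
      List.map_append, List.map_cons, List.map_nil, List.sum_append, List.sum_cons, List.sum_nil,
      hinner]
    ring
  have hca : c ≠ a := fun h => hno ⟨c, h ▸ p.start_mem_support, q.start_mem_support⟩
  have hcb : c ≠ b := fun h => hno ⟨c, h ▸ p.end_mem_support, q.start_mem_support⟩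
  have hda : d ≠ a := fun h => hno ⟨d, h ▸ p.start_mem_support, q.end_mem_support⟩
  have hdb : d ≠ b := fun h => hno ⟨d, h ▸ p.end_mem_support, q.end_mem_support⟩
  rw [hval c hc hca hcb, hval d hd hda hdb] at hconst
  have hodd' : (above k c a + above k c b) + (above k d a + above k d b) = 1 := by
    rw [← hodd]; ring
  rw [hconst, CharTwo.add_self_eq_zero] at hodd'
  exact zero_ne_one hodd'

/-- The levels visited by a walk with all its edges in a strip, one end being in the strip. -/
theorem lev_mem_of_walkIn {k A B : ℤ} {a b : V} {p : grid.Walk a b}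
    (h : WalkIn (rigE k A ∩ lefE k B) p) (ha : A ≤ lev k a ∧ lev k a ≤ B) :
    ∀ x ∈ p.support, A ≤ lev k x ∧ lev k x ≤ B := by
  induction p with
  | nil => simpa using ha
  | @cons u v w huv p ih =>
    obtain ⟨h1, h2⟩ := h ⟨(u, v), huv⟩ (by simp)
    have hv : A ≤ lev k v ∧ lev k v ≤ B := by
      simp only [rigE, lefE, Set.mem_ofPred_eq, eFst, eSnd, edgeOf] at h1 h2
      rcases adj_cases huv with ⟨e1, e2⟩ | ⟨e1, e2⟩ | ⟨e1, e2⟩ | ⟨e1, e2⟩ <;>
        simp [e1, e2, lev] at h1 h2 ⊢ <;> omega
    intro x hx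
    rw [Walk.support_cons, List.mem_cons] at hx
    rcases hx with rfl | hx
    · exact ha
    · exact ih (fun d hd => h d (by rw [Walk.darts_cons]; exact List.mem_cons_of_mem _ hd)) hv x hx

theorem lev_le_of_walkIn {k B : ℤ} {a b : V} {p : grid.Walk a b} (h : WalkIn (lefE k B) p)
    (ha : lev k a ≤ B) : ∀ x ∈ p.support, lev k x ≤ B := by
  induction p with
  | nil => simpa using ha
  | @cons u v w huv p ih =>
    have h1 := h ⟨(u, v), huv⟩ (by simp)
    have hv : lev k v ≤ B := by
      simp only [lefE, Set.mem_ofPred_eq, eFst, eSnd, edgeOf] at h1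
      rcases adj_cases huv with ⟨e1, e2⟩ | ⟨e1, e2⟩ | ⟨e1, e2⟩ | ⟨e1, e2⟩ <;>
        simp [e1, e2, lev] at h1 ⊢ <;> omega
    intro x hx
    rw [Walk.support_cons, List.mem_cons] at hx
    rcases hx with rfl | hx
    · exact ha
    · exact ih (fun d hd => h d (by rw [Walk.darts_cons]; exact List.mem_cons_of_mem _ hd)) hv x hx

theorem le_lev_of_walkIn {k A : ℤ} {a b : V} {p : grid.Walk a b} (h : WalkIn (rigE k A) p)
    (ha : A ≤ lev k a) : ∀ x ∈ p.support, A ≤ lev k x := by
  induction p with
  | nil => simpa using ha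
  | @cons u v w huv p ih =>
    have h1 := h ⟨(u, v), huv⟩ (by simp)
    have hv : A ≤ lev k v := by
      simp only [rigE, Set.mem_ofPred_eq, eFst, eSnd, edgeOf] at h1
      rcases adj_cases huv with ⟨e1, e2⟩ | ⟨e1, e2⟩ | ⟨e1, e2⟩ | ⟨e1, e2⟩ <;>
        simp [e1, e2, lev] at h1 ⊢ <;> omega
    intro x hx
    rw [Walk.support_cons, List.mem_cons] at hx
    rcases hx with rfl | hx
    · exact ha
    · exact ih (fun d hd => h d (by rw [Walk.darts_cons]; exact List.mem_cons_of_mem _ hd)) hv x hx

/-- Two crossings of a strip whose orders are exchanged share a vertex. -/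
theorem meet_cross {k : ℤ} (hk : k = 0 ∨ k = 1) {A B : ℤ} (hAB : A < B) {a b c d : V}
    (p : grid.Walk a b) (q : grid.Walk c d)
    (hp : ∀ x ∈ p.support, A ≤ lev k x ∧ lev k x ≤ B)
    (hq : ∀ x ∈ q.support, A ≤ lev k x ∧ lev k x ≤ B)
    (ha : lev k a = A) (hb : lev k b = B) (hc : lev k c = A) (hd : lev k d = B)
    (hac : a.2 ≤ c.2) (hdb : d.2 ≤ b.2) : ∃ x, x ∈ p.support ∧ x ∈ q.support := by
  rcases hac.lt_or_eq with hac | hac
  · rcases hdb.lt_or_eq with hdb | hdb
    · refine meet_strip hk p q hp hq (Or.inl ha) (Or.inr hb) (Or.inl hc) (Or.inr hd) ?_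
      simp only [above, ha, hb, hc, hd, true_and]
      split_ifs <;> first | rfl | decide | (exfalso; omega)
    · have e : d = b := Prod.ext (by simp only [lev, hdb] at hb hd; omega) hdb
      exact ⟨b, p.end_mem_support, e ▸ q.end_mem_support⟩
  · have e : a = c := Prod.ext (by simp only [lev, hac] at ha hc; omega) hac
    exact ⟨a, p.start_mem_support, e ▸ q.start_mem_support⟩

/-- `meet_cross` for walks with all their edges in the strip. -/
theorem meet_cross_walkIn {k : ℤ} (hk : k = 0 ∨ k = 1) {A B : ℤ} (hAB : A < B) {a b c d : V}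
    (p : grid.Walk a b) (q : grid.Walk c d)
    (hp : WalkIn (rigE k A ∩ lefE k B) p) (hq : WalkIn (rigE k A ∩ lefE k B) q)
    (ha : lev k a = A) (hb : lev k b = B) (hc : lev k c = A) (hd : lev k d = B)
    (hac : a.2 ≤ c.2) (hdb : d.2 ≤ b.2) : ∃ x, x ∈ p.support ∧ x ∈ q.support :=
  meet_cross hk hAB p q (lev_mem_of_walkIn hp (by omega)) (lev_mem_of_walkIn hq (by omega))
    ha hb hc hd hac hdb

/-- Two walks on the left of a line with interleaved ends on it share a vertex. -/
theorem meet_left {k : ℤ} (hk : k = 0 ∨ k = 1) {L : ℤ} {a b c d : V}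
    (p : grid.Walk a b) (q : grid.Walk c d)
    (hp : ∀ x ∈ p.support, lev k x ≤ L) (hq : ∀ x ∈ q.support, lev k x ≤ L)
    (ha : lev k a = L) (hb : lev k b = L) (hc : lev k c = L) (hd : lev k d = L)
    (hac : a.2 ≤ c.2) (hcb : c.2 ≤ b.2) (hbd : b.2 ≤ d.2) :
    ∃ x, x ∈ p.support ∧ x ∈ q.support := by
  obtain ⟨A, hA⟩ : ∃ A, A < L ∧ ∀ x ∈ p.support ++ q.support, A ≤ lev k x := by
    obtain ⟨A, hA⟩ := (List.finite_toSet ((L - 1) :: (p.support ++ q.support).map (lev k))).bddBelow
    have h0 : A ≤ L - 1 := hA (by simp)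
    exact ⟨A, by omega, fun x hx => hA (List.mem_cons_of_mem _ (List.mem_map_of_mem hx))⟩
  by_cases hne : a.2 = c.2 ∨ c.2 = b.2 ∨ b.2 = d.2
  · have ext2 : ∀ u v : V, lev k u = L → lev k v = L → u.2 = v.2 → u = v := fun u v hu hv e =>
      Prod.ext (by simp only [lev, e] at hu hv; omega) e
    rcases hne with e | e | e
    · exact ⟨a, p.start_mem_support, ext2 a c ha hc e ▸ q.start_mem_support⟩
    · exact ⟨b, p.end_mem_support, ext2 c b hc hb e ▸ q.start_mem_support⟩
    · exact ⟨b, p.end_mem_support, ext2 b d hb hd e ▸ q.end_mem_support⟩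
  · refine meet_strip hk p q (fun x hx => ⟨hA.2 x (List.mem_append_left _ hx), hp x hx⟩)
      (fun x hx => ⟨hA.2 x (List.mem_append_right _ hx), hq x hx⟩)
      (Or.inr ha) (Or.inr hb) (Or.inr hc) (Or.inr hd) ?_
    simp only [above, ha, hb, hc, hd, true_and]
    split_ifs <;> first | rfl | decide | (exfalso; omega)

/-- Two walks on the right of a line with interleaved ends on it share a vertex. -/
theorem meet_right {k : ℤ} (hk : k = 0 ∨ k = 1) {L : ℤ} {a b c d : V}
    (p : grid.Walk a b) (q : grid.Walk c d)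
    (hp : ∀ x ∈ p.support, L ≤ lev k x) (hq : ∀ x ∈ q.support, L ≤ lev k x)
    (ha : lev k a = L) (hb : lev k b = L) (hc : lev k c = L) (hd : lev k d = L)
    (hac : a.2 ≤ c.2) (hcb : c.2 ≤ b.2) (hbd : b.2 ≤ d.2) :
    ∃ x, x ∈ p.support ∧ x ∈ q.support := by
  obtain ⟨B, hB⟩ : ∃ B, L < B ∧ ∀ x ∈ p.support ++ q.support, lev k x ≤ B := by
    obtain ⟨B, hB⟩ := (List.finite_toSet ((L + 1) :: (p.support ++ q.support).map (lev k))).bddAbove
    have h0 : L + 1 ≤ B := hB (by simp)
    exact ⟨B, by omega, fun x hx => hB (List.mem_cons_of_mem _ (List.mem_map_of_mem hx))⟩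
  by_cases hne : a.2 = c.2 ∨ c.2 = b.2 ∨ b.2 = d.2
  · have ext2 : ∀ u v : V, lev k u = L → lev k v = L → u.2 = v.2 → u = v := fun u v hu hv e =>
      Prod.ext (by simp only [lev, e] at hu hv; omega) e
    rcases hne with e | e | e
    · exact ⟨a, p.start_mem_support, ext2 a c ha hc e ▸ q.start_mem_support⟩
    · exact ⟨b, p.end_mem_support, ext2 c b hc hb e ▸ q.start_mem_support⟩
    · exact ⟨b, p.end_mem_support, ext2 b d hb hd e ▸ q.end_mem_support⟩
  · refine meet_strip hk p q (fun x hx => ⟨hp x hx, hB.2 x (List.mem_append_left _ hx)⟩)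
      (fun x hx => ⟨hq x hx, hB.2 x (List.mem_append_right _ hx)⟩)
      (Or.inl ha) (Or.inl hb) (Or.inl hc) (Or.inl hd) ?_
    simp only [above, ha, hb, hc, hd, true_and]
    split_ifs <;> first | rfl | decide | (exfalso; omega)

end Vale.Agent.P158
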