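import Vale.Agent.P158.StraightMain
import Vale.Agent.P158.MuStrip
import Vale.Agent.P158.Planar

/-!
Straightness of doubly directed bigeodesics for every admissible law.
-/

open MeasureTheory Filter Topology

namespace Vale.Agent.P158

namespace Straight

variable {G : Measure ℝ} {M κ : ℝ}

theorem meets {k : ℤ} (hk : k = 0 ∨ k = 1) : Meets k :=
  fun _ _ _ _ _ _ P Q hAB ha ha' hq hq' hs hs' hP hQ =>
    meet_cross_walkIn hk hAB P Q hP hQ ha hq' ha' hq hs hs'

theorem toReal_tendsto_zero {ν : Measure Conf} {s : ℕ → Set Conf}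
    (h : ∀ δ : ℝ, 0 < δ → ∀ᶠ n in atTop, ν (s n) ≤ ENNReal.ofReal δ) :
    Tendsto (fun n => (ν (s n)).toReal) atTop (𝓝 0) := by
  refine tendsto_order.2 ⟨fun a ha => Eventually.of_forall fun n => ha.trans_le ENNReal.toReal_nonneg,
    fun a ha => (h (a / 2) (half_pos ha)).mono fun n hn => ?_⟩
  have h1 := ENNReal.toReal_mono ENNReal.ofReal_ne_top hn
  rw [ENNReal.toReal_ofReal (half_pos ha).le] at h1
  linarith

theorem Scaled.inBox {x : ℕ → V} {p : ℝ × ℝ} (h : Scaled x p) {C : ℕ} (hC : r1 p < C) :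
    ∀ᶠ n in atTop, InBox (C * n) (x n) := by
  have hc : Continuous (r1 : ℝ × ℝ → ℝ) := by unfold r1; fun_prop
  filter_upwards [((hc.tendsto p).comp h).eventually_lt_const hC, eventually_gt_atTop 0]
    with n hn hn0
  have hn' : (0 : ℝ) < n := by exact_mod_cast hn0
  simp only [Function.comp_apply, r1_smul, abs_inv, Nat.abs_cast] at hn
  rw [inv_mul_lt_iff₀ hn'] at hn
  have h1 : (|(x n).1| : ℤ) + |(x n).2| < ((C * n : ℕ) : ℤ) := by
    rw [← Int.cast_lt (R := ℝ), ← r1_toR]; push_cast; linarith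
  exact ⟨by linarith [abs_nonneg (x n).2], by linarith [abs_nonneg (x n).1]⟩

theorem Scaled.mu_close (hG : LawOK G M) {x y : ℕ → V} {p q : ℝ × ℝ} (hx : Scaled x p)
    (hy : Scaled y q) {ε : ℝ} (hε : 0 < ε) :
    ∀ᶠ n : ℕ in atTop, |mu G (toR (y n) - toR (x n)) - n * mu G (q - p)| ≤ ε * n := by
  have hc : Continuous fun v : ℝ × ℝ => M * r1 (v - (q - p)) := by unfold r1; fun_prop
  have h0 : M * r1 (q - p - (q - p)) < ε := by simp [r1, hε]
  filter_upwards [((hc.tendsto _).comp (Tendsto.sub hy hx)).eventually_lt_const h0,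
    eventually_gt_atTop 0] with n hn hn0
  have hn' : (0 : ℝ) < n := by exact_mod_cast hn0
  simp only [Function.comp_apply, ← smul_sub] at hn
  rw [← mu_smul hG hn'.le]
  refine (mu_lip hG _ _).trans ?_
  · rw [show toR (y n) - toR (x n) - (n : ℝ) • (q - p) =
      (n : ℝ) • ((n : ℝ)⁻¹ • (toR (y n) - toR (x n)) - (q - p)) by
        conv_rhs => rw [smul_sub, smul_smul, mul_inv_cancel₀ hn'.ne', one_smul],
      r1_smul, abs_of_pos hn']
    nlinarith

theorem shape (hG : LawOK G M) (hS : ShortBound G κ) : Shape G M (mu G) where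
  pos v hv := mu_pos hG hS hv
  smul r v hr := mu_smul hG hr v
  add_le := mu_add_le hG
  lip := mu_lip hG
  neg := mu_neg hG
  rot a b := (mu_swap hG (a, -b)).trans (mu_flip hG (a, b))
  lower x y p q hx hy ε hε := by
    obtain ⟨C, hC⟩ := exists_nat_gt (max (r1 p) (r1 q))
    rw [max_lt_iff] at hC
    refine toReal_tendsto_zero fun δ hδ => ?_
    filter_upwards [shape_box hG hS C (half_pos hε) hδ, hx.inBox hC.1, hy.inBox hC.2,
      hx.mu_close hG hy (half_pos hε)] with n hn h1 h2 h3
    refine le_trans (measure_mono ?_) hn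
    intro t ht
    refine ⟨x n, y n, h1, h2, ?_⟩
    simp only [Set.mem_ofPred_eq] at ht
    rw [lt_abs]; right; linarith [(abs_le.1 h3).1]
  upper x y p q hx hy ε hε := by
    obtain ⟨C, hC⟩ := exists_nat_gt (max (r1 p) (r1 q))
    rw [max_lt_iff] at hC
    refine toReal_tendsto_zero fun δ hδ => ?_
    filter_upwards [shape_box hG hS C (half_pos hε) hδ, hx.inBox hC.1, hy.inBox hC.2,
      hx.mu_close hG hy (half_pos hε)] with n hn h1 h2 h3
    refine le_trans (measure_mono ?_) hn
    intro t ht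
    refine ⟨x n, y n, h1, h2, ?_⟩
    simp only [Set.mem_ofPred_eq] at ht
    rw [lt_abs]; left; linarith [(abs_le.1 h3).2]
  strip k hk x y p q hx hy hpq ε hε := by
    obtain ⟨C, hC⟩ := exists_nat_gt (max (r1 p) (r1 q))
    rw [max_lt_iff] at hC
    set gap := q.1 + k * q.2 - (p.1 + k * p.2)
    have hgap : 0 < gap := sub_pos.2 hpq
    have hc : Continuous fun v : ℝ × ℝ => v.1 + k * v.2 := by fun_prop
    have hlev : ∀ᶠ n : ℕ in atTop,
        gap / 2 * n ≤ ((lev k (y n) - lev k (x n) : ℤ) : ℝ) := by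
      filter_upwards [(((hc.tendsto _).comp hy).sub ((hc.tendsto _).comp hx)).eventually_const_le
        (half_lt_self hgap), eventually_gt_atTop 0] with n hn hn0
      have hn' : (0 : ℝ) < n := by exact_mod_cast hn0
      have e : ((lev k (y n) - lev k (x n) : ℤ) : ℝ) =
          ((((n : ℝ)⁻¹ • toR (y n)).1 + k * ((n : ℝ)⁻¹ • toR (y n)).2) -
            (((n : ℝ)⁻¹ • toR (x n)).1 + k * ((n : ℝ)⁻¹ • toR (x n)).2)) * n := by
        simp [lev, toR]; field_simp
      rw [e]
      exact mul_le_mul_of_nonneg_right hn hn'.le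
    refine toReal_tendsto_zero fun δ hδ => ?_
    filter_upwards [strip_upper hG hS hk C (half_pos hgap) (half_pos hε) hδ, hx.inBox hC.1,
      hy.inBox hC.2, hx.mu_close hG hy (half_pos hε), hlev] with n hn h1 h2 h3 h4
    refine le_trans (measure_mono ?_) hn
    intro t ht
    refine ⟨x n, y n, h1, h2, h4, ?_⟩
    simp only [Set.mem_ofPred_eq] at ht
    exact lt_of_le_of_lt (by linarith [(abs_le.1 h3).2]) ht

end Straight

/-- Doubly directed bigeodesics are straight, almost surely. -/
theorem straightProp {G : Measure ℝ} {M : ℝ} (hG : LawOK G M) : StraightProp G := by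
  obtain ⟨κ, hS⟩ := exists_shortBound hG
  exact Straight.straight_of_shape hG (Straight.shape hG hS) (Straight.meets (Or.inl rfl))
    (Straight.meets (Or.inr rfl))

end Vale.Agent.P158
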