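import Vale.Agent.P158.BlockCells

/-!
The block shape lemma: along every geodesic segment of length `O(n)` near the origin, the sum of
the norms of the displacements at scale `r` exceeds the passage time by at most `ε n`.
-/

open MeasureTheory Filter Topology
open scoped ENNReal

namespace Vale.Agent.P158

/-- The sum of the norms of the displacements of a walk after every `r` steps. -/
noncomputable def stepSum (G : Measure ℝ) (r : ℕ) {a b : V} (p : grid.Walk a b) : ℝ :=
  ∑ i ∈ Finset.range (p.length / r + 1),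
    mu G (toR (p.getVert ((i + 1) * r)) - toR (p.getVert (i * r)))

/-- Geodesic segments of length at most `C n` from the box of radius `C n` obey the block shape
bound at scale `r` with error `ε n`. -/
def BlockGood (G : Measure ℝ) (C r : ℕ) (ε : ℝ) (n : ℕ) (t : Conf) : Prop :=
  ∀ (a b : V) (p : grid.Walk a b), InBox (C * n) a → p.IsPath → p.length ≤ C * n →
    plen t p = T t a b → stepSum G r p ≤ T t a b + ε * n

section det
variable {t : Conf} {a b : V}

lemma plen_eq_rlen (t : Conf) (p : grid.Walk a b) : plen t p = rlen t p.getVert p.length := by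
  induction p with
  | nil => simp [rlen]
  | cons h q ih =>
    rw [plen_cons, ih, SimpleGraph.Walk.length_cons, rlen, rlen, Finset.sum_range_succ']
    simp only [SimpleGraph.Walk.getVert_cons_succ, SimpleGraph.Walk.getVert_zero]
    ring

lemma hitCount_eq_sum (B : Set ℝ) (t : Conf) (p : grid.Walk a b) :
    (hitCount B t p : ℝ) = ∑ m ∈ Finset.range p.length,
      B.indicator (fun _ => (1 : ℝ)) (wt t (p.getVert m) (p.getVert (m + 1))) := by
  induction p with
  | nil => simp [hitCount]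
  | @cons x y z h q ih =>
    rw [SimpleGraph.Walk.length_cons, Finset.sum_range_succ']
    simp only [SimpleGraph.Walk.getVert_cons_succ, SimpleGraph.Walk.getVert_zero]
    rw [← ih]
    simp only [hitCount, edgeList_cons, List.countP_cons, wt]
    push_cast
    by_cases he : t (edgeOf x y) ∈ B <;> simp [he]

lemma exists_seg (t : Conf) (p : grid.Walk a b) {i j : ℕ} (hij : i ≤ j) :
    ∃ q : grid.Walk (p.getVert i) (p.getVert j), q.length ≤ j - i ∧
      (j ≤ p.length → plen t q = rlen t p.getVert j - rlen t p.getVert i) := by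
  induction j, hij using Nat.le_induction with
  | base => exact ⟨.nil, Nat.zero_le _, fun _ => by rw [plen_nil, sub_self]⟩
  | succ j hij ih =>
    obtain ⟨q, hq, hw⟩ := ih
    rcases Nat.lt_or_ge j p.length with hj | hj
    · refine ⟨q.concat (p.adj_getVert_succ hj), by simp; omega, fun _ => ?_⟩
      rw [plen_concat, hw hj.le, rlen_succ]; ring
    · refine ⟨q.copy rfl ?_, (SimpleGraph.Walk.length_copy _ _ _).trans_le (by omega), fun h => by omega⟩
      rw [p.getVert_of_length_le hj, p.getVert_of_length_le (by omega)]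

lemma rlen_sub_eq_Ico {t : Conf} {v : ℕ → V} {i j : ℕ} (hij : i ≤ j) :
    rlen t v j - rlen t v i = ∑ m ∈ Finset.Ico i j, wt t (v m) (v (m + 1)) :=
  (Finset.sum_Ico_eq_sub _ hij).symm

/-- Segments of a geodesic are geodesics. -/
lemma geo_seg (h0 : ∀ e, 0 ≤ t e) {p : grid.Walk a b} (hgeo : plen t p = T t a b) {i j : ℕ}
    (hij : i ≤ j) (hj : j ≤ p.length) :
    rlen t p.getVert j - rlen t p.getVert i ≤ T t (p.getVert i) (p.getVert j) := by
  obtain ⟨q₁, -, h1⟩ := exists_seg t p (Nat.zero_le i)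
  obtain ⟨q₃, -, h3⟩ := exists_seg t p hj
  have e1 := T_le h0 q₁
  have e3 := T_le h0 q₃
  rw [h1 (hij.trans hj), rlen_zero, SimpleGraph.Walk.getVert_zero] at e1
  rw [h3 le_rfl, SimpleGraph.Walk.getVert_length, ← plen_eq_rlen] at e3
  have := T_triangle h0 a (p.getVert i) b
  have := T_triangle h0 (p.getVert i) (p.getVert j) b
  linarith

variable {G : Measure ℝ} {M : ℝ}

lemma mu_seg_le (hG : LawOK G M) (p : grid.Walk a b) {i j : ℕ} (hij : i ≤ j) :
    mu G (toR (p.getVert j) - toR (p.getVert i)) ≤ M * ((j - i : ℕ) : ℝ) := by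
  obtain ⟨q, hq, -⟩ := exists_seg (fun _ => (0 : ℝ)) p hij
  refine (mu_le hG _).trans (mul_le_mul_of_nonneg_left ((r1_le_length q).trans ?_) hG.M_nonneg)
  exact_mod_cast hq

lemma stepSum_le_length (hG : LawOK G M) {r : ℕ} (p : grid.Walk a b) :
    stepSum G r p ≤ M * (p.length + r) := by
  refine (Finset.sum_le_card_nsmul _ _ (M * r) fun i _ => ?_).trans ?_
  · refine (mu_seg_le hG p (Nat.mul_le_mul_right r (Nat.le_add_right i 1))).trans (le_of_eq ?_)
    rw [Nat.add_mul, one_mul, Nat.add_sub_cancel_left]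
  · rw [Finset.card_range, nsmul_eq_mul]
    have : ((p.length / r : ℕ) : ℝ) * r ≤ p.length := by
      exact_mod_cast Nat.div_mul_le_self p.length r
    have := mul_le_mul_of_nonneg_left this hG.M_nonneg
    push_cast; linarith

lemma cell_seg {r : ℕ} (hr : 0 < r) (p : grid.Walk a b) (i : ℕ) :
    CellNbr (cellOf r (p.getVert (i * r))) (cellOf r (p.getVert ((i + 1) * r))) := by
  obtain ⟨q, hq, -⟩ := exists_seg (fun _ => (0 : ℝ)) p (Nat.mul_le_mul_right r (Nat.le_add_right i 1))
  have e : (i + 1) * r - i * r = r := by rw [Nat.add_mul, one_mul, Nat.add_sub_cancel_left]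
  replace hq : q.length ≤ r := hq.trans e.le
  have h := l1_le_length q
  have := abs_nonneg ((p.getVert (i * r)).1 - (p.getVert ((i + 1) * r)).1)
  have := abs_nonneg ((p.getVert (i * r)).2 - (p.getVert ((i + 1) * r)).2)
  exact ⟨ediv_near hr (by rw [abs_sub_comm]; omega), ediv_near hr (by rw [abs_sub_comm]; omega)⟩

open scoped Classical in
/-- The deterministic part of the block shape lemma. -/
theorem block_det (hG : LawOK G M) {r : ℕ} (hr : 0 < r) {ε₁ r₀ β low : ℝ} (hr₀ : 0 < r₀)
    (hε₁ : 0 ≤ ε₁) (ht : InRange M t) {p : grid.Walk a b} (hgeo : plen t p = T t a b)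
    (hlow : (hitCount (Set.Iio r₀) t p : ℝ) ≤ low)
    (hbad : ∀ S ⊆ (Finset.range (p.length / r)).image fun i => cellOf r (p.getVert (i * r)),
      (∀ Q ∈ S, t ∈ BadCell G ε₁ r Q) → (S.card : ℝ) ≤ β) :
    stepSum G r p ≤ T t a b + ε₁ * p.length + M * (r * β + (2 * M * r * β / r₀ + low)) + M * r := by
  have hM := hG.M_nonneg
  set ℓ := p.length with hℓ
  set N := ℓ / r with hN
  set z : ℕ → V := fun i => p.getVert (i * r) with hz
  set c : ℕ → V := fun i => cellOf r (z i) with hc
  set w : ℕ → ℝ := fun i => rlen t p.getVert ((i + 1) * r) - rlen t p.getVert (i * r) with hw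
  have hle : ∀ i : ℕ, i ≤ N → i * r ≤ ℓ := fun i hi =>
    le_trans (Nat.mul_le_mul_right r hi) (Nat.div_mul_le_self ℓ r)
  have hw0 : ∀ i, 0 ≤ w i := fun i =>
    sub_nonneg.2 (rlen_mono ht.nonneg _ (Nat.mul_le_mul_right r (Nat.le_add_right i 1)))
  have hsumw : ∀ f g : ℕ, f ≤ g → ∑ i ∈ Finset.Ico f g, w i =
      rlen t p.getVert (g * r) - rlen t p.getVert (f * r) := fun f g hfg => by
    rw [Finset.sum_Ico_eq_sub _ hfg]
    simp only [hw, Finset.sum_range_sub (fun i => rlen t p.getVert (i * r))]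
    ring
  set Bset := (Finset.range N).filter fun i => t ∈ BadCell G ε₁ r (c i) with hB
  set S := Bset.image c with hS
  set I := Bset.filter fun i => ∃ j ∈ Bset, i < j ∧ c j = c i with hI
  have hSb : (S.card : ℝ) ≤ β := hbad S (Finset.image_subset_image (Finset.filter_subset _ _))
    fun Q hQ => by
      obtain ⟨i, hi, rfl⟩ := Finset.mem_image.1 hQ
      exact (Finset.mem_filter.1 hi).2
  have hcardB : Bset.card ≤ S.card + I.card := by
    have h1 : (Bset.filter fun i => ¬ ∃ j ∈ Bset, i < j ∧ c j = c i).card ≤ S.card := by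
      refine Finset.card_le_card_of_injOn c
        (fun i hi => Finset.mem_image.2 ⟨i, (Finset.mem_filter.1 hi).1, rfl⟩) ?_
      intro i hi j hj hij
      rw [Finset.mem_coe, Finset.mem_filter] at hi hj
      push Not at hi hj
      rcases lt_trichotomy i j with h | h | h
      · exact absurd hij.symm (hi.2 j hj.1 h)
      · exact h
      · exact absurd hij (hj.2 i hi.1 h)
    have h2 := Finset.card_filter_add_card_filter_not (s := Bset)
      (fun i => ∃ j ∈ Bset, i < j ∧ c j = c i)
    rw [← hI] at h2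
    omega
  have hIw : ∑ i ∈ I, w i ≤ 2 * M * r * S.card := by
    rw [← Finset.sum_fiberwise_of_maps_to (g := c) (t := S)
      (fun i hi => Finset.mem_image.2 ⟨i, (Finset.mem_filter.1 hi).1, rfl⟩)]
    refine (Finset.sum_le_card_nsmul _ _ (2 * M * r) fun Q hQ => ?_).trans
      (le_of_eq (by rw [nsmul_eq_mul]; ring))
    set F := Bset.filter fun i => c i = Q with hF
    have hFne : F.Nonempty := by
      obtain ⟨i, hi, hiQ⟩ := Finset.mem_image.1 hQ
      exact ⟨i, Finset.mem_filter.2 ⟨hi, hiQ⟩⟩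
    obtain ⟨hf1, hf2⟩ := Finset.mem_filter.1 (F.min'_mem hFne)
    obtain ⟨hg1, hg2⟩ := Finset.mem_filter.1 (F.max'_mem hFne)
    set f := F.min' hFne
    set g := F.max' hFne
    have hfg : f ≤ g := F.min'_le g (F.max'_mem hFne)
    have hsub : I.filter (fun i => c i = Q) ⊆ Finset.Ico f g := by
      intro i hi
      simp only [hI, Finset.mem_filter] at hi
      obtain ⟨⟨hiB, j, hjB, hij, hcj⟩, hiQ⟩ := hi
      exact Finset.mem_Ico.2 ⟨F.min'_le i (Finset.mem_filter.2 ⟨hiB, hiQ⟩),
        hij.trans_le (F.le_max' j (Finset.mem_filter.2 ⟨hjB, hcj.trans hiQ⟩))⟩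
    refine (Finset.sum_le_sum_of_subset_of_nonneg hsub fun i _ _ => hw0 i).trans ?_
    rw [hsumw f g hfg]
    have hg : g * r ≤ ℓ := hle g (Finset.mem_range.1 (Finset.mem_filter.1 hg1).1).le
    refine (geo_seg ht.nonneg hgeo (Nat.mul_le_mul_right r hfg) hg).trans ((T_le_l1 ht _ _).trans ?_)
    have hsame := hf2.trans hg2.symm
    simp only [hc, hz, cellOf, Prod.mk.injEq] at hsame
    obtain ⟨a1, a2⟩ := ediv_bounds hr (p.getVert (f * r)).1
    obtain ⟨b1, b2⟩ := ediv_bounds hr (p.getVert (f * r)).2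
    obtain ⟨a3, a4⟩ := ediv_bounds hr (p.getVert (g * r)).1
    obtain ⟨b3, b4⟩ := ediv_bounds hr (p.getVert (g * r)).2
    rw [hsame.1] at a1 a2
    rw [hsame.2] at b1 b2
    have e1 : |(p.getVert (f * r)).1 - (p.getVert (g * r)).1| ≤ (r : ℤ) :=
      abs_le.2 ⟨by omega, by omega⟩
    have e2 : |(p.getVert (f * r)).2 - (p.getVert (g * r)).2| ≤ (r : ℤ) :=
      abs_le.2 ⟨by omega, by omega⟩
    have e3 : ((|(p.getVert (f * r)).1 - (p.getVert (g * r)).1| +
        |(p.getVert (f * r)).2 - (p.getVert (g * r)).2| : ℤ) : ℝ) ≤ ((2 * r : ℤ) : ℝ) :=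
      Int.cast_le.2 (by omega)
    push_cast at e3 ⊢
    have := mul_le_mul_of_nonneg_left e3 hM
    linarith
  set cnt : ℕ → ℝ := fun m =>
    (Set.Iio r₀).indicator (fun _ => (1 : ℝ)) (wt t (p.getVert m) (p.getVert (m + 1))) with hcnt
  have hcnt0 : ∀ m, 0 ≤ cnt m := fun m => Set.indicator_nonneg (fun _ _ => zero_le_one) _
  have hcntsum : ∑ i ∈ I, ∑ m ∈ Finset.Ico (i * r) ((i + 1) * r), cnt m ≤ low := by
    have hI' : I ⊆ Finset.range N := (Finset.filter_subset _ _).trans (Finset.filter_subset _ _)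
    refine (Finset.sum_le_sum_of_subset_of_nonneg hI'
      fun i _ _ => Finset.sum_nonneg fun m _ => hcnt0 m).trans ?_
    refine le_trans (le_of_eq ?_) ((Finset.sum_le_sum_of_subset_of_nonneg
      (Finset.range_mono (hle N le_rfl)) fun m _ _ => hcnt0 m).trans
      ((hitCount_eq_sum _ t p).ge.trans hlow))
    calc ∑ i ∈ Finset.range N, ∑ m ∈ Finset.Ico (i * r) ((i + 1) * r), cnt m
        = ∑ i ∈ Finset.range N, ((∑ m ∈ Finset.range ((i + 1) * r), cnt m) -
            ∑ m ∈ Finset.range (i * r), cnt m) :=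
          Finset.sum_congr rfl fun i _ =>
            Finset.sum_Ico_eq_sub _ (Nat.mul_le_mul_right r (Nat.le_add_right i 1))
      _ = _ := by
          rw [Finset.sum_range_sub (fun i => ∑ m ∈ Finset.range (i * r), cnt m)]; simp
  have hIr : (I.card : ℝ) * r ≤ 2 * M * r * β / r₀ + low := by
    have h1 : ∀ i, r₀ * ((r : ℝ) - ∑ m ∈ Finset.Ico (i * r) ((i + 1) * r), cnt m) ≤ w i := by
      intro i
      simp only [hw, rlen_sub_eq_Ico (Nat.mul_le_mul_right r (Nat.le_add_right i 1))]
      have : (r : ℝ) = ∑ _m ∈ Finset.Ico (i * r) ((i + 1) * r), (1 : ℝ) := by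
        simp [Nat.add_mul]
      rw [this, ← Finset.sum_sub_distrib, Finset.mul_sum]
      refine Finset.sum_le_sum fun m _ => ?_
      simp only [hcnt, Set.indicator_apply, Set.mem_Iio]
      split_ifs with h
      · simpa [wt] using ht.nonneg _
      · rw [sub_zero, mul_one]; exact not_lt.1 h
    have h2 := (Finset.sum_le_sum (s := I) fun i _ => h1 i).trans hIw
    rw [← Finset.mul_sum, Finset.sum_sub_distrib, Finset.sum_const, nsmul_eq_mul] at h2
    have h3 := mul_le_mul_of_nonneg_left hSb (show (0 : ℝ) ≤ 2 * M * r by positivity)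
    have h4 := mul_le_mul_of_nonneg_left hcntsum hr₀.le
    rw [show 2 * M * r * β / r₀ + low = (2 * M * r * β + r₀ * low) / r₀ by field_simp,
      le_div_iff₀ hr₀]
    linarith
  have hpiece : ∀ i ∈ Finset.range N, mu G (toR (z (i + 1)) - toR (z i)) ≤
      w i + ε₁ * r + (if t ∈ BadCell G ε₁ r (c i) then M * r else 0) := by
    intro i hi
    have hεr : 0 ≤ ε₁ * (r : ℝ) := by positivity
    split_ifs with hbi
    · have := mu_seg_le hG p (Nat.mul_le_mul_right r (Nat.le_add_right i 1))
      rw [show (i + 1) * r - i * r = r by rw [Nat.add_mul, one_mul, Nat.add_sub_cancel_left]] at this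
      linarith [hw0 i]
    · obtain ⟨q, hq, hqw⟩ := exists_seg t p (Nat.mul_le_mul_right r (Nat.le_add_right i 1))
      replace hq : q.length ≤ r := hq.trans
        (show (i + 1) * r - i * r = r by rw [Nat.add_mul, one_mul, Nat.add_sub_cancel_left]).le
      simp only [BadCell, BadCellF, Set.mem_ofPred_eq, not_exists, not_and, not_lt] at hbi
      have h2 : mu G (toR (p.getVert ((i + 1) * r)) - toR (p.getVert (i * r))) - ε₁ * r ≤
          plen t q := hbi _ _ q rfl hq
      rw [hqw (hle (i + 1) (Finset.mem_range.1 hi))] at h2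
      simp only [hw, hz]
      linarith
  have hsum1 : ∑ i ∈ Finset.range N, mu G (toR (z (i + 1)) - toR (z i)) ≤
      rlen t p.getVert (N * r) + N * (ε₁ * r) + Bset.card * (M * r) := by
    refine (Finset.sum_le_sum hpiece).trans (le_of_eq ?_)
    rw [Finset.sum_add_distrib, Finset.sum_add_distrib, ← Finset.sum_filter, ← hB, Finset.sum_const,
      Finset.sum_const, Finset.card_range, nsmul_eq_mul, nsmul_eq_mul, Finset.range_eq_Ico,
      hsumw 0 N (Nat.zero_le _), Nat.zero_mul, rlen_zero, sub_zero]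
  have hlast : mu G (toR (z (N + 1)) - toR (z N)) ≤ M * r := by
    have := mu_seg_le hG p (Nat.mul_le_mul_right r (Nat.le_add_right N 1))
    rw [show (N + 1) * r - N * r = r by rw [Nat.add_mul, one_mul, Nat.add_sub_cancel_left]] at this
    exact this
  have hTT : rlen t p.getVert (N * r) ≤ T t a b := by
    rw [← hgeo, plen_eq_rlen]; exact rlen_mono ht.nonneg _ (hle N le_rfl)
  have hNr : (N : ℝ) * (ε₁ * r) ≤ ε₁ * ℓ := by
    have : (N : ℝ) * r ≤ ℓ := by exact_mod_cast hle N le_rfl
    have := mul_le_mul_of_nonneg_left this hε₁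
    linarith
  have hBc : (Bset.card : ℝ) * (M * r) ≤ M * (r * β + (2 * M * r * β / r₀ + low)) := by
    have h1 : (Bset.card : ℝ) ≤ S.card + I.card := by exact_mod_cast hcardB
    have h2 := mul_le_mul_of_nonneg_right h1 (show (0 : ℝ) ≤ M * r by positivity)
    have h3 := mul_le_mul_of_nonneg_left hIr hM
    have h4 := mul_le_mul_of_nonneg_left hSb (show (0 : ℝ) ≤ M * r by positivity)
    linarith
  calc stepSum G r p = ∑ i ∈ Finset.range N, mu G (toR (z (i + 1)) - toR (z i)) +
        mu G (toR (z (N + 1)) - toR (z N)) := by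
        simp only [stepSum, ← hℓ, ← hN, Finset.sum_range_succ, hz]
    _ ≤ _ := by linarith

end det

lemma half_pow_div {r : ℕ} (hr : 0 < r) :
    ∃ x : ℝ, 0 < x ∧ x < 1 ∧ ∀ n : ℕ, (1 / 2 : ℝ) ^ (n / r) ≤ 2 * x ^ n := by
  have hr' : (1 : ℝ) ≤ r := by exact_mod_cast hr
  refine ⟨1 - 1 / (2 * r), ?_, ?_, fun n => ?_⟩
  · rw [sub_pos, div_lt_one (by positivity)]; linarith
  · have : (0 : ℝ) < 1 / (2 * r) := by positivity
    linarith
  · set x : ℝ := 1 - 1 / (2 * r) with hx
    have hd : 1 / (2 * (r : ℝ)) ≤ 1 / 2 := by gcongr; linarith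
    have hd0 : (0 : ℝ) ≤ 1 / (2 * (r : ℝ)) := by positivity
    have hx0 : 0 ≤ x := by linarith
    have hx1 : x ≤ 1 := by linarith
    have hber : (1 / 2 : ℝ) ≤ x ^ r := by
      have := one_add_mul_le_pow (a := -(1 / (2 * (r : ℝ)))) (by linarith) r
      rw [← sub_eq_add_neg, ← hx] at this
      have e : (r : ℝ) * -(1 / (2 * r)) = -(1 / 2) := by field_simp
      linarith
    calc (1 / 2 : ℝ) ^ (n / r) ≤ (x ^ r) ^ (n / r) := pow_le_pow_left₀ (by norm_num) hber _
      _ = x ^ (r * (n / r)) := (pow_mul x r _).symm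
      _ ≤ 2 * x ^ n := by
        have h1 : x ^ n = x ^ (r * (n / r)) * x ^ (n % r) := by
          rw [← pow_add, Nat.div_add_mod]
        have h2 : (1 / 2 : ℝ) ≤ x ^ (n % r) :=
          hber.trans (pow_le_pow_of_le_one hx0 hx1 (Nat.mod_lt n hr).le)
        have := mul_le_mul_of_nonneg_left h2 (pow_nonneg hx0 (r * (n / r)))
        linarith

lemma summable_poly_half {r : ℕ} (hr : 0 < r) (k : ℕ) :
    Summable fun n : ℕ => ((n : ℝ) + 1) ^ k * (1 / 2 : ℝ) ^ (n / r) := by
  obtain ⟨x, hx0, hx1, hx⟩ := half_pow_div hr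
  have h := summable_pow_mul_geometric_of_norm_lt_one k (r := x)
    (by rw [Real.norm_eq_abs, abs_of_pos hx0]; exact hx1)
  have h2 : Summable fun n : ℕ => ((n : ℝ) + 1) ^ k * x ^ n := by
    refine (((summable_nat_add_iff 1).2 h).mul_right x⁻¹).congr fun n => ?_
    push_cast; rw [pow_succ]; field_simp
  refine Summable.of_nonneg_of_le (fun n => by positivity) (fun n => ?_) (h2.mul_left 2)
  have := mul_le_mul_of_nonneg_left (hx n) (show (0 : ℝ) ≤ ((n : ℝ) + 1) ^ k by positivity)
  linarith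

variable {G : Measure ℝ} {M : ℝ}

/-- The block shape lemma: for every large scale `r` the exceptional events have summable
probabilities. -/
theorem block_summable (hG : LawOK G M) (C : ℕ) {ε : ℝ} (hε : 0 < ε) :
    ∀ᶠ r : ℕ in atTop, ∑' n : ℕ, law G {t | ¬ BlockGood G C r ε n t} ≠ ∞ := by
  classical
  have := hG.prob
  have := law_isProb hG
  have hM := hG.M_nonneg
  set ε₁ : ℝ := ε / (4 * (C + 1)) with hε₁
  set θ : ℝ := ε / (4 * (M + 1) * (C + 1)) with hθ
  obtain ⟨δ₀, hδ₀, hhit⟩ := hitCount_prob hG (show 0 < θ by positivity)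
  obtain ⟨r₀, hr₀, -, hr₀G⟩ := exists_small_low hG hδ₀
  obtain ⟨m₀, hm₀⟩ := exists_nat_gt (4 * (M + 1) / ε)
  have hm₀' : (0 : ℝ) < m₀ := lt_trans (by positivity) hm₀
  have hm₀n : 0 < m₀ := by exact_mod_cast hm₀'
  set β : ℝ := ε / (4 * (M + 1) * (1 + 2 * M / r₀)) with hβ
  have hβ0 : 0 < β := by positivity
  obtain ⟨M₀, hM₀⟩ := exists_nat_gt (16 / β)
  rw [div_lt_iff₀ hβ0] at hM₀
  set ρ : ℝ := 1 / (2 * 18 ^ C) with hρ
  have hρ0 : 0 < ρ := by positivity
  have hρ1 : ρ ≤ 1 := by
    rw [hρ, div_le_one (by positivity)]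
    linarith [one_le_pow₀ (show (1 : ℝ) ≤ 18 by norm_num) (n := C)]
  filter_upwards [badCell_prob hG (show 0 < ε₁ by positivity) (show (0 : ℝ) < ρ ^ M₀ by positivity),
    eventually_gt_atTop 0] with r hQ hr
  have hr' : (0 : ℝ) < r := by exact_mod_cast hr
  obtain ⟨n₁, hn₁⟩ := exists_nat_gt (4 * M * r / ε)
  rw [div_lt_iff₀ hε] at hn₁
  set g : ℕ → ℝ := fun n => ((2 * C + 1 : ℕ) : ℝ) ^ 2 *
    (18 ^ C * (((n : ℝ) + 1) ^ 2 * (1 / 2) ^ (n / r)) +
      ((C : ℝ) + 1) * (((n : ℝ) + 1) ^ 3 * (1 / 2) ^ (n / m₀))) +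
    (if n < n₁ then 1 else 0) with hg
  have hgs : Summable g := by
    refine ((((summable_poly_half hr 2).mul_left _).add
      ((summable_poly_half hm₀n 3).mul_left _)).mul_left _).add ?_
    exact summable_of_ne_finset_zero (s := Finset.range n₁) fun n hn => by
      rw [Finset.mem_range] at hn; exact if_neg hn
  have hg0 : ∀ n, 0 ≤ g n := fun n => by simp only [hg]; split_ifs <;> positivity
  refine ne_top_of_le_ne_top ENNReal.ofReal_ne_top
    ((ENNReal.tsum_le_tsum fun n => ?_).trans_eq (ENNReal.ofReal_tsum_of_nonneg hg0 hgs).symm)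
  by_cases hn : n < n₁
  · refine prob_le_one.trans (ENNReal.one_le_ofReal.2 ?_)
    simp only [hg, if_pos hn]
    exact le_add_of_nonneg_left (by positivity)
  have hn' : (n₁ : ℝ) ≤ n := by exact_mod_cast (not_lt.1 hn)
  have hnε : 4 * M * r ≤ ε * n := by
    have := mul_le_mul_of_nonneg_left hn' hε.le
    linarith
  set Bx : Finset V := Finset.Icc (-((C * n : ℕ) : ℤ)) (C * n : ℕ) ×ˢ
    Finset.Icc (-((C * n : ℕ) : ℤ)) (C * n : ℕ) with hBx
  set m : ℕ := ⌈β * n / (16 * r)⌉₊ with hm
  set Many : V → Set Conf := fun a => {t | ∃ c : ℕ → V, c 0 = cellOf r a ∧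
    (∀ i, CellNbr (c i) (c (i + 1))) ∧ ∃ S ⊆ (Finset.range (C * (n / r + 1))).image c,
      β * n / r < S.card ∧ ∀ Q ∈ S, t ∈ BadCell G ε₁ r Q} with hMany
  set Hit : V → ℕ → Set Conf := fun a ℓ => {t | ∃ y, ∃ p : grid.Walk a y, p.IsPath ∧ p.length = ℓ ∧
    θ * ℓ < hitCount (Set.Iio r₀) t p} with hHit
  have hbadR : law G {t | ¬ InRange M t} = 0 := ae_iff.1 (ae_inRange hG)
  refine (measure_mono (t := (⋃ a ∈ Bx, Many a ∪ ⋃ ℓ ∈ Finset.Icc (n / m₀) (C * n), Hit a ℓ) ∪
    {t | ¬ InRange M t}) ?_).trans ?_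
  · intro t ht
    simp only [Set.mem_ofPred_eq, BlockGood] at ht
    push Not at ht
    obtain ⟨a, b, p, ha, hp, hlen, hgeo, hlt⟩ := ht
    by_contra hcon
    simp only [Set.mem_union, Set.mem_iUnion, not_or, not_exists, Set.mem_ofPred_eq,
      not_not] at hcon
    obtain ⟨hcon, hR⟩ := hcon
    have haB : a ∈ Bx := Finset.mem_product.2
      ⟨Finset.mem_Icc.2 (abs_le.1 ha.1), Finset.mem_Icc.2 (abs_le.1 ha.2)⟩
    obtain ⟨hnMany, hnHit⟩ := hcon a haB
    have hT0 := T_nonneg hR.nonneg a b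
    have hlenR : (p.length : ℝ) ≤ (C : ℝ) * n := by exact_mod_cast hlen
    by_cases hsmall : p.length < n / m₀
    · have h1 : (p.length : ℝ) * m₀ ≤ n := by
        have : p.length * m₀ ≤ n :=
          (Nat.mul_le_mul_right _ hsmall.le).trans (Nat.div_mul_le_self n m₀)
        exact_mod_cast this
      have h2 := stepSum_le_length hG (r := r) p
      rw [div_lt_iff₀ hε] at hm₀
      have h3 : M * (p.length : ℝ) ≤ ε / 4 * n := by
        have a1 := mul_le_mul_of_nonneg_left h1 hε.le
        have a2 := mul_le_mul_of_nonneg_right hm₀.le (Nat.cast_nonneg p.length)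
        have : (0 : ℝ) ≤ p.length := Nat.cast_nonneg _
        linarith
      have : 0 ≤ ε * (n : ℝ) := by positivity
      linarith
    have hlow : (hitCount (Set.Iio r₀) t p : ℝ) ≤ θ * p.length := by
      by_contra hc
      exact hnHit p.length (Finset.mem_Icc.2 ⟨not_lt.1 hsmall, hlen⟩)
        ⟨b, p, hp, rfl, not_le.1 hc⟩
    have hSb : ∀ S ⊆ (Finset.range (p.length / r)).image fun i => cellOf r (p.getVert (i * r)),
        (∀ Q ∈ S, t ∈ BadCell G ε₁ r Q) → (S.card : ℝ) ≤ β * n / r := by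
      intro S hSub hS
      by_contra hc
      refine hnMany ⟨fun i => cellOf r (p.getVert (i * r)), by simp, fun i => cell_seg hr p i, S,
        hSub.trans (Finset.image_subset_image (Finset.range_mono ?_)), not_le.1 hc, hS⟩
      rw [Nat.div_le_iff_le_mul_add_pred hr]
      have := Nat.mul_le_mul_left C (Nat.lt_mul_div_succ n hr).le
      rw [mul_left_comm] at this
      omega
    have hdet := block_det hG hr hr₀ (show (0 : ℝ) ≤ ε₁ by positivity) hR hgeo hlow hSb
    have e1 : ε₁ * (p.length : ℝ) ≤ ε / 4 * n := by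
      have a1 := mul_le_mul_of_nonneg_left hlenR (show (0 : ℝ) ≤ ε₁ by positivity)
      have a2 : ε₁ * ((C : ℝ) + 1) = ε / 4 := by rw [hε₁]; field_simp
      have a3 : 0 ≤ ε₁ * (n : ℝ) := by positivity
      have a4 : ε₁ * ((C : ℝ) + 1) * n = ε / 4 * n := by rw [a2]
      linarith
    have e2 : M * (r * (β * n / r) + (2 * M * r * (β * n / r) / r₀ + θ * p.length)) ≤ ε / 2 * n := by
      rw [show (r : ℝ) * (β * n / r) = β * n by field_simp,
        show 2 * M * (r : ℝ) * (β * n / r) / r₀ = 2 * M / r₀ * (β * n) by field_simp]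
      have a1 : (M + 1) * (1 + 2 * M / r₀) * β = ε / 4 := by rw [hβ]; field_simp
      have a2 : (M + 1) * θ * ((C : ℝ) + 1) = ε / 4 := by rw [hθ]; field_simp
      have a3 := mul_le_mul_of_nonneg_left hlenR (show (0 : ℝ) ≤ M * θ by positivity)
      have a4 : 0 ≤ (1 + 2 * M / r₀) * (β * n) := by positivity
      have a5 : 0 ≤ θ * ((C : ℝ) + 1) * n := by positivity
      have a6 : 0 ≤ M * θ * (n : ℝ) := by positivity
      have a7 : (M + 1) * (1 + 2 * M / r₀) * β * n = ε / 4 * n := by rw [a1]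
      have a8 : (M + 1) * θ * ((C : ℝ) + 1) * n = ε / 4 * n := by rw [a2]
      linarith
    linarith
  · refine (measure_union_le _ _).trans ?_
    rw [hbadR, add_zero]
    refine (measure_biUnion_finset_le _ _).trans ((Finset.sum_le_card_nsmul _ _
      (ENNReal.ofReal (18 ^ C * (1 / 2) ^ (n / r) +
        ((C : ℝ) + 1) * ((n : ℝ) + 1) * (1 / 2) ^ (n / m₀))) fun a _ => ?_).trans ?_)
    · refine (measure_union_le _ _).trans ?_
      rw [ENNReal.ofReal_add (by positivity) (by positivity)]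
      refine add_le_add ?_ ?_
      · refine (many_bad hG.prob (pow_le_one₀ hρ0.le hρ1) hr hQ (cellOf r a) _ (m := m)
          (fun k hk => ?_)).trans ?_
        · have h1 : (m : ℝ) < β * n / (16 * r) + 1 := Nat.ceil_lt_add_one (by positivity)
          rw [show β * n / (16 * (r : ℝ)) = β * n / r / 16 by ring] at h1
          have h2 : ((16 * m : ℕ) : ℝ) < ((k + 16 : ℕ) : ℝ) := by push_cast; linarith
          have h3 : 16 * m < k + 16 := by exact_mod_cast h2
          omega
        · have hmq : n / r ≤ M₀ * m := by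
            have h1 : β * n / (16 * r) ≤ m := Nat.le_ceil _
            have h2 : ((n / r : ℕ) : ℝ) ≤ (n : ℝ) / r := Nat.cast_div_le
            have h3 : (n : ℝ) / r ≤ (M₀ : ℝ) * m := by
              refine le_trans ?_ (mul_le_mul_of_nonneg_left h1 (Nat.cast_nonneg M₀))
              rw [← mul_div_assoc, div_le_div_iff₀ hr' (by positivity)]
              have := mul_le_mul_of_nonneg_right hM₀.le (show (0 : ℝ) ≤ (n : ℝ) * r by positivity)
              linarith
            exact_mod_cast h2.trans h3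
          rw [← ENNReal.ofReal_pow (by positivity), show (18 : ℝ≥0∞) = ENNReal.ofReal 18 by simp,
            ← ENNReal.ofReal_pow (by norm_num), ← ENNReal.ofReal_mul (by positivity), ← pow_mul]
          refine ENNReal.ofReal_le_ofReal ((mul_le_mul_of_nonneg_left
            (pow_le_pow_of_le_one hρ0.le hρ1 hmq) (by positivity)).trans (le_of_eq ?_))
          rw [Nat.mul_succ, pow_add, pow_mul, hρ, one_div, mul_inv, mul_pow, inv_pow (18 ^ C : ℝ)]
          field_simp
      · refine (measure_biUnion_finset_le _ _).trans ((Finset.sum_le_card_nsmul _ _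
          (ENNReal.ofReal ((1 / 2) ^ (n / m₀))) fun ℓ hℓ =>
            (hhit _ measurableSet_Iio hr₀G a ℓ).trans (ENNReal.ofReal_le_ofReal
              (pow_le_pow_of_le_one (by norm_num) (by norm_num) (Finset.mem_Icc.1 hℓ).1))).trans ?_)
        rw [nsmul_eq_mul, ← ENNReal.ofReal_natCast, ← ENNReal.ofReal_mul (Nat.cast_nonneg _)]
        refine ENNReal.ofReal_le_ofReal (mul_le_mul_of_nonneg_right ?_ (by positivity))
        have : (Finset.Icc (n / m₀) (C * n)).card ≤ C * n + 1 := by
          rw [Nat.card_Icc]; exact Nat.sub_le _ _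
        have : ((Finset.Icc (n / m₀) (C * n)).card : ℝ) ≤ ((C * n + 1 : ℕ) : ℝ) := Nat.cast_le.2 this
        push_cast at this
        have : (0 : ℝ) ≤ (C : ℝ) + n := by positivity
        linarith
    · rw [nsmul_eq_mul, ← ENNReal.ofReal_natCast, ← ENNReal.ofReal_mul (Nat.cast_nonneg _)]
      refine ENNReal.ofReal_le_ofReal ?_
      simp only [hg, if_neg hn, add_zero]
      have hcard : (Bx.card : ℝ) ≤ ((2 * C + 1 : ℕ) : ℝ) ^ 2 * ((n : ℝ) + 1) ^ 2 := by
        rw [hBx, Finset.card_product, Int.card_Icc,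
          show ((C * n : ℕ) : ℤ) + 1 - -((C * n : ℕ) : ℤ) = ((2 * (C * n) + 1 : ℕ) : ℤ) by
            push_cast; ring, Int.toNat_natCast, Nat.cast_mul, ← sq, ← mul_pow]
        refine pow_le_pow_left₀ (by positivity) ?_ 2
        push_cast
        have : (0 : ℝ) ≤ 2 * (C : ℝ) + n := by positivity
        linarith
      refine (mul_le_mul_of_nonneg_right hcard (by positivity)).trans (le_of_eq ?_)
      ring

/-- Almost surely the block shape bound holds for all large `n`. -/
theorem block_ae (hG : LawOK G M) (C : ℕ) {ε : ℝ} (hε : 0 < ε) :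
    ∀ᶠ r : ℕ in atTop, ∀ᵐ t ∂law G, ∀ᶠ n : ℕ in atTop, BlockGood G C r ε n t :=
  (block_summable hG C hε).mono fun r hr =>
    (ae_eventually_notMem hr).mono fun t ht => ht.mono fun n hn => not_not.1 hn

/-- The block shape bound holds with probability close to one. -/
theorem block_prob (hG : LawOK G M) (C : ℕ) {ε δ : ℝ} (hε : 0 < ε) (hδ : 0 < δ) :
    ∀ᶠ r : ℕ in atTop, ∀ᶠ n : ℕ in atTop,
      law G {t | ¬ BlockGood G C r ε n t} ≤ ENNReal.ofReal δ :=
  (block_summable hG C hε).mono fun r hr =>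
    (ENNReal.tendsto_atTop_zero_of_tsum_ne_top hr).eventually_le_const (ENNReal.ofReal_pos.2 hδ)

/-- Along a geodesic whose ends almost realise a linear minorant `p'` of the norm, the
displacements at scale `r` almost realise it as well. -/
theorem block_slope {C r : ℕ} {ε : ℝ} {n : ℕ} {t : Conf} (h : BlockGood G C r ε n t)
    (hr : 0 < r) {a b : V} {p : grid.Walk a b} (ha : InBox (C * n) a) (hp : p.IsPath)
    (hlen : p.length ≤ C * n) (hgeo : plen t p = T t a b)
    (hup : T t a b ≤ mu G (toR b - toR a) + ε * n) (φ : ℝ × ℝ →ₗ[ℝ] ℝ)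
    (hφ : mu G (toR b - toR a) ≤ φ (toR b - toR a) + ε * n) :
    ∑ i ∈ Finset.range (p.length / r + 1),
      (mu G (toR (p.getVert ((i + 1) * r)) - toR (p.getVert (i * r))) -
        φ (toR (p.getVert ((i + 1) * r)) - toR (p.getVert (i * r)))) ≤ 3 * ε * n := by
  have h1 := h a b p ha hp hlen hgeo
  have h2 : ∑ i ∈ Finset.range (p.length / r + 1),
      φ (toR (p.getVert ((i + 1) * r)) - toR (p.getVert (i * r))) = φ (toR b - toR a) := by
    simp only [map_sub]
    rw [Finset.sum_range_sub (fun i => φ (toR (p.getVert (i * r))))]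
    simp [p.getVert_of_length_le (show p.length ≤ (p.length / r + 1) * r from
      (Nat.lt_mul_div_succ p.length hr).le.trans (Nat.mul_comm _ _).le)]
  rw [Finset.sum_sub_distrib, h2]
  simp only [stepSum] at h1
  linarith

end Vale.Agent.P158
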