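import Vale.Agent.P158.RaysBase
import Vale.Agent.P158.Gen.Law

/-!
Busemann functions of geodesic rays: basic properties, the bigeodesic of a Busemann pair, and
finite modifications of the weights.
-/

open MeasureTheory Filter Topology

namespace Vale.Agent.P158.Rays

variable {t t' : Conf} {S : Set Edge} {r : ℕ → V} {κ : ℝ}

theorem _root_.Vale.Agent.P158.GoodG.exists_geodesic (h : GoodG κ t) (hκ : 0 < κ) {x y : V}
    (hc : ConnIn S x y) : ∃ p : grid.Walk x y, p.IsPath ∧ WalkIn S p ∧ plen t p = TS t S x y :=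
  exists_geodesic_of_lenBound h.nonneg hκ h.lenBound hc

theorem _root_.Vale.Agent.P158.GoodG.exists_geodesic_univ (h : GoodG κ t) (hκ : 0 < κ) (x y : V) :
    ∃ p : grid.Walk x y, p.IsPath ∧ plen t p = T t x y := by
  obtain ⟨p, h1, -, h3⟩ := h.exists_geodesic hκ (connIn_univ x y)
  exact ⟨p, h1, h3.trans (T_eq_TS t x y).symm⟩

theorem _root_.Vale.Agent.P158.GoodG.unique (h : GoodG κ t) {x y : V} {p q : grid.Walk x y}
    (hp : WalkIn S p) (hq : WalkIn S q) (h1 : plen t p = TS t S x y) (h2 : plen t q = TS t S x y) :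
    p = q :=
  geodesic_unique h.pos h.tieFree hp hq h1.le h2.le

/-- The tail of a one-sided path. -/
def tail (N : ℕ) (r : ℕ → V) : ℕ → V := fun n => r (N + n)

theorem rlen_succ (t : Conf) (r : ℕ → V) (n : ℕ) :
    rlen t r (n + 1) = rlen t r n + wt t (r n) (r (n + 1)) := Finset.sum_range_succ _ _

theorem rlen_tail (t : Conf) (r : ℕ → V) (N n : ℕ) :
    rlen t (tail N r) n = rlen t r (N + n) - rlen t r N := by
  simp [rlen, tail, Finset.sum_range_add, Nat.add_assoc]

theorem rlen_mono (h0 : ∀ e, 0 ≤ t e) : Monotone (rlen t r) :=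
  monotone_nat_of_le_succ fun n => by
    rw [rlen_succ]; linarith [h0 (edgeOf (r n) (r (n + 1))),
      show wt t (r n) (r (n + 1)) = t (edgeOf (r n) (r (n + 1))) from rfl]

theorem connIn_path (hadj : ∀ i, Adj (r i) (r (i + 1)))
    (hmem : ∀ i, edgeOf (r i) (r (i + 1)) ∈ S) (i j : ℕ) : ConnIn S (r i) (r j) := by
  have h0 : ∀ n, ConnIn S (r 0) (r n) := fun n => by
    induction n with
    | zero => exact ConnIn.refl _
    | succ n ih => exact ConnIn.trans ih (connIn_adj (hadj n) (hmem n))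
  exact ConnIn.trans (ConnIn.symm (h0 i)) (h0 j)

theorem _root_.Vale.Agent.P158.IsRayIn.conn (hr : IsRayIn t S r) (i j : ℕ) : ConnIn S (r i) (r j) :=
  connIn_path hr.adj hr.mem i j

theorem TS_path_le (h0 : ∀ e, 0 ≤ t e) (hadj : ∀ i, Adj (r i) (r (i + 1)))
    (hmem : ∀ i, edgeOf (r i) (r (i + 1)) ∈ S) {i j : ℕ} (hij : i ≤ j) :
    TS t S (r i) (r j) ≤ rlen t r j - rlen t r i := by
  induction j, hij using Nat.le_induction with
  | base => rw [TS_self h0]; simp
  | succ j hij ih =>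
    rw [rlen_succ]
    linarith [TS_triangle h0 (connIn_path hadj hmem i j) (connIn_adj (hadj j) (hmem j)),
      TS_adj_le h0 (hadj j) (hmem j)]

theorem _root_.Vale.Agent.P158.IsRayIn.geo' (hr : IsRayIn t S r) {i j : ℕ} (h : i ≤ j) :
    TS t S (r j) (r i) = rlen t r j - rlen t r i := by
  rw [TS_comm, hr.geo i j h]

theorem isRayIn_tail (hr : IsRayIn t S r) (N : ℕ) : IsRayIn t S (tail N r) where
  inj a b h := Nat.add_left_cancel (hr.inj h)
  adj i := hr.adj (N + i)
  mem i := hr.mem (N + i)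
  geo i j hij := by
    rw [rlen_tail, rlen_tail, show Rays.tail N r i = r (N + i) from rfl,
      show Rays.tail N r j = r (N + j) from rfl, ← hr.geo (N + i) (N + j) (by omega)]
    ring

theorem _root_.Vale.Agent.P158.IsRayIn.mono_set (h0 : ∀ e, 0 ≤ t e) (hr : IsRayIn t Set.univ r)
    (hS : ∀ i, edgeOf (r i) (r (i + 1)) ∈ S) : IsRayIn t S r where
  inj := hr.inj
  adj := hr.adj
  mem := hS
  geo i j hij := le_antisymm
    (by rw [hr.geo i j hij]; exact TS_mono h0 (Set.subset_univ _) (connIn_path hr.adj hS i j))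
    (TS_path_le h0 hr.adj hS hij)

/-! ### Busemann functions -/

variable {x y z : V}

theorem bus_seq_antitone (h0 : ∀ e, 0 ≤ t e) (hr : IsRayIn t S r) (hz : ConnIn S (r 0) z) :
    Antitone fun n => TS t S (r n) z - rlen t r n :=
  antitone_nat_of_succ_le fun n => by
    have h1 := TS_triangle h0 (hr.conn (n + 1) n) (ConnIn.trans (hr.conn n 0) hz)
    rw [hr.geo' (Nat.le_succ n)] at h1
    linarith

theorem bus_seq_bdd (h0 : ∀ e, 0 ≤ t e) (hr : IsRayIn t S r) (hz : ConnIn S (r 0) z) (n : ℕ) :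
    -TS t S z (r 0) ≤ TS t S (r n) z - rlen t r n := by
  have h1 := TS_triangle h0 (ConnIn.trans (hr.conn n 0) hz) (ConnIn.symm hz)
  rw [hr.geo' (Nat.zero_le n)] at h1
  simp only [rlen, Finset.range_zero, Finset.sum_empty, sub_zero] at h1
  simp only [rlen]
  linarith

theorem bus_le (h0 : ∀ e, 0 ≤ t e) (hr : IsRayIn t S r) (hz : ConnIn S (r 0) z) (n : ℕ) :
    bus t S r z ≤ TS t S (r n) z - rlen t r n :=
  ciInf_le ⟨-TS t S z (r 0), by rintro _ ⟨m, rfl⟩; exact bus_seq_bdd h0 hr hz m⟩ n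

theorem le_bus {c : ℝ} (h : ∀ n, c ≤ TS t S (r n) z - rlen t r n) : c ≤ bus t S r z := le_ciInf h

theorem neg_TS_le_bus (h0 : ∀ e, 0 ≤ t e) (hr : IsRayIn t S r) (hz : ConnIn S (r 0) z) :
    -TS t S z (r 0) ≤ bus t S r z := le_bus (bus_seq_bdd h0 hr hz)

theorem tendsto_bus (h0 : ∀ e, 0 ≤ t e) (hr : IsRayIn t S r) (hz : ConnIn S (r 0) z) :
    Tendsto (fun n => TS t S (r n) z - rlen t r n) atTop (𝓝 (bus t S r z)) :=
  tendsto_atTop_ciInf (bus_seq_antitone h0 hr hz)
    ⟨-TS t S z (r 0), by rintro _ ⟨m, rfl⟩; exact bus_seq_bdd h0 hr hz m⟩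

theorem bus_lip (h0 : ∀ e, 0 ≤ t e) (hr : IsRayIn t S r) (hx : ConnIn S (r 0) x)
    (hxy : ConnIn S x y) : |bus t S r x - bus t S r y| ≤ TS t S x y := by
  have hy := ConnIn.trans hx hxy
  refine le_of_tendsto ((tendsto_bus h0 hr hx).sub (tendsto_bus h0 hr hy)).abs
    (Eventually.of_forall fun n => ?_)
  have h1 := TS_triangle h0 (ConnIn.trans (hr.conn n 0) hx) hxy
  have h2 := TS_triangle h0 (ConnIn.trans (hr.conn n 0) hy) (ConnIn.symm hxy)
  rw [TS_comm (t := t) S y x] at h2
  rw [abs_le]; constructor <;> linarith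

theorem bus_ray (h0 : ∀ e, 0 ≤ t e) (hr : IsRayIn t S r) (j : ℕ) :
    bus t S r (r j) = -rlen t r j := by
  refine tendsto_nhds_unique (tendsto_bus h0 hr (hr.conn 0 j))
    (tendsto_atTop_of_eventually_const (i₀ := j) fun n hn => ?_)
  rw [hr.geo' hn]; ring

theorem bus_zero (h0 : ∀ e, 0 ≤ t e) (hr : IsRayIn t S r) : bus t S r (r 0) = 0 := by
  simp [bus_ray h0 hr, rlen]

theorem bus_tail (h0 : ∀ e, 0 ≤ t e) (hr : IsRayIn t S r) (hz : ConnIn S (r 0) z) (N : ℕ) :
    bus t S (tail N r) z = bus t S r z + rlen t r N := by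
  have hz' : ConnIn S (tail N r 0) z := ConnIn.trans (hr.conn (N + 0) 0) hz
  refine tendsto_nhds_unique (tendsto_bus h0 (isRayIn_tail hr N) hz') ?_
  refine (((tendsto_bus h0 hr hz).comp (tendsto_add_atTop_nat N)).add_const
    (rlen t r N)).congr fun n => ?_
  simp [rlen_tail, Rays.tail, Nat.add_comm N n]
  ring

theorem bus_step (h0 : ∀ e, 0 ≤ t e) (hr : IsRayIn t S r) (hx : ConnIn S (r 0) x) :
    ∃ y, Adj x y ∧ edgeOf x y ∈ S ∧ bus t S r x = bus t S r y + wt t x y := by
  classical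
  have hev : ∀ᶠ n in atTop, ∃ y ∈ nbrs x, Adj x y ∧ edgeOf x y ∈ S ∧ ConnIn S (r 0) y ∧
      TS t S (r n) x = TS t S (r n) y + wt t x y := by
    have : ∀ᶠ n in atTop, x ≠ r n := by
      by_cases h : ∃ m, x = r m
      · obtain ⟨m, rfl⟩ := h
        exact (eventually_gt_atTop m).mono fun n hn heq => (ne_of_lt hn) (hr.inj heq)
      · exact Eventually.of_forall fun n hn => h ⟨n, hn⟩
    refine this.mono fun n hn => ?_
    obtain ⟨y, hy, ha, hS, hc, he⟩ :=
      TS_step h0 (ConnIn.trans (ConnIn.symm hx) (hr.conn 0 n)) hn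
    refine ⟨y, hy, ha, hS, ConnIn.trans (hr.conn 0 n) (ConnIn.symm hc), ?_⟩
    rw [TS_comm, he, TS_comm (t := t) S y]; ring
  have hfr : ∃ y ∈ nbrs x, ∃ᶠ n in atTop, Adj x y ∧ edgeOf x y ∈ S ∧ ConnIn S (r 0) y ∧
      TS t S (r n) x = TS t S (r n) y + wt t x y := by
    by_contra hcon
    push Not at hcon
    have hall := (eventually_all_finset (nbrs x)).2 hcon
    obtain ⟨n, ⟨y, hy, h1, h2, h3, h4⟩, hn⟩ := (hev.and hall).exists
    exact hn y hy h1 h2 h3 h4
  obtain ⟨y, -, hfr⟩ := hfr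
  obtain ⟨-, ha, hS, hc, -⟩ := hfr.exists
  refine ⟨y, ha, hS, ?_⟩
  have hlim := (tendsto_bus h0 hr hx).sub (tendsto_bus h0 hr hc)
  have := tendsto_nhds_unique_of_frequently_eq hlim (tendsto_const_nhds (x := wt t x y))
    (hfr.mono fun n hn => by rw [hn.2.2.2]; ring)
  linarith

theorem isBus_bus (h0 : ∀ e, 0 ≤ t e) (hr : IsRayIn t Set.univ r) :
    IsBus t (bus t Set.univ r) where
  lip x y := by
    rw [← TS_univ]; exact bus_lip h0 hr (connIn_univ _ _) (connIn_univ _ _)
  step x := by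
    obtain ⟨y, h1, -, h2⟩ := bus_step h0 hr (connIn_univ _ x)
    exact ⟨y, h1, h2⟩

/-! ### Bigeodesics -/

/-- Weights along a doubly infinite path on `[i, j)`. -/
noncomputable def seg (t : Conf) (γ : ℤ → V) (i j : ℤ) : ℝ := ∑ k ∈ Finset.Ico i j, wt t (γ k) (γ (k + 1))

theorem seg_succ {γ : ℤ → V} {i j : ℤ} (h : i ≤ j) :
    seg t γ i (j + 1) = seg t γ i j + wt t (γ j) (γ (j + 1)) := by
  have : Finset.Ico i (j + 1) = insert j (Finset.Ico i j) := by
    ext k; simp only [Finset.mem_Ico, Finset.mem_insert]; omega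
  rw [seg, seg, this, Finset.sum_insert (by simp)]
  ring

theorem seg_add {γ : ℤ → V} {i j k : ℤ} (hij : i ≤ j) (hjk : j ≤ k) :
    seg t γ i k = seg t γ i j + seg t γ j k := by
  rw [seg, seg, seg, ← Finset.Ico_union_Ico_eq_Ico hij hjk,
    Finset.sum_union (Finset.Ico_disjoint_Ico_consecutive i j k)]

theorem rlen_fwd (t : Conf) (γ : ℤ → V) (i : ℤ) (n : ℕ) :
    rlen t (fwd γ i) n = seg t γ i (i + n) := by
  induction n with
  | zero => simp [rlen, seg]
  | succ n ih =>
    rw [rlen_succ, ih, Nat.cast_succ, ← add_assoc, seg_succ (by omega)]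
    simp [fwd, add_assoc]

theorem rlen_bwd (t : Conf) (γ : ℤ → V) (i : ℤ) (n : ℕ) :
    rlen t (bwd γ i) n = seg t γ (i - n) i := by
  induction n with
  | zero => simp [rlen, seg]
  | succ n ih =>
    rw [rlen_succ, ih, seg_add (t := t) (γ := γ) (show i - ↑(n + 1) ≤ i - ↑n by omega)
      (show i - (n : ℤ) ≤ i by omega)]
    have : seg t γ (i - ↑(n + 1)) (i - ↑n) =
        wt t (γ (i - ↑(n + 1))) (γ (i - ↑(n + 1) + 1)) := by
      have h := seg_succ (t := t) (γ := γ) (le_refl (i - ↑(n + 1)))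
      rw [show i - ↑(n + 1) + 1 = i - (n : ℤ) by omega] at h ⊢
      rw [h]; simp [seg]
    rw [this, show i - ↑(n + 1) + 1 = i - (n : ℤ) by omega, wt_comm]
    simp [bwd]; ring

theorem bigeo_T {γ : ℤ → V} (hγ : IsBigeodesic t γ) (h0 : ∀ e, 0 ≤ t e) {i j : ℤ} (h : i ≤ j) :
    T t (γ i) (γ j) = seg t γ i j := by
  rcases h.eq_or_lt with rfl | h
  · simp [seg, ← TS_univ, TS_self h0]
  · exact (hγ.geo i j h).symm

theorem isRayIn_fwd {γ : ℤ → V} (hγ : IsBigeodesic t γ) (h0 : ∀ e, 0 ≤ t e) (i : ℤ) :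
    IsRayIn t Set.univ (fwd γ i) where
  inj a b h := by have := hγ.inj h; omega
  adj n := by simpa [fwd, add_assoc] using hγ.adj (i + n)
  mem _ := trivial
  geo a b hab := by
    rw [TS_univ, rlen_fwd, rlen_fwd]
    simp only [fwd]
    rw [bigeo_T hγ h0 (by omega), seg_add (show i ≤ i + a by omega) (show i + a ≤ i + b by omega)]
    ring

theorem isRayIn_bwd {γ : ℤ → V} (hγ : IsBigeodesic t γ) (h0 : ∀ e, 0 ≤ t e) (i : ℤ) :
    IsRayIn t Set.univ (bwd γ i) where
  inj a b h := by have := hγ.inj h; omega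
  adj n := by
    have := Adj.symm (hγ.adj (i - ↑(n + 1)))
    rwa [show i - ↑(n + 1) + 1 = i - (n : ℤ) by omega] at this
  mem _ := trivial
  geo a b hab := by
    rw [TS_comm, TS_univ, rlen_bwd, rlen_bwd]
    simp only [bwd]
    rw [bigeo_T hγ h0 (by omega), seg_add (show i - b ≤ i - a by omega) (show i - a ≤ i by omega)]
    ring

theorem bus_line_nonneg {γ : ℤ → V} (hγ : IsBigeodesic t γ) (h0 : ∀ e, 0 ≤ t e) (i : ℤ) (z : V) :
    0 ≤ bus t Set.univ (fwd γ i) z + bus t Set.univ (bwd γ i) z := by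
  refine ge_of_tendsto ((tendsto_bus h0 (isRayIn_fwd hγ h0 i) (connIn_univ _ z)).add
    (tendsto_bus h0 (isRayIn_bwd hγ h0 i) (connIn_univ _ z))) (Eventually.of_forall fun n => ?_)
  have h := TS_triangle (t := t) h0 (connIn_univ (γ (i - n)) z) (connIn_univ z (γ (i + n)))
  rw [TS_univ t (γ (i - n)) (γ (i + n)), bigeo_T hγ h0 (by omega),
    seg_add (show i - n ≤ i by omega) (show i ≤ i + n by omega),
    TS_comm (t := t) _ z (γ (i + n))] at h
  rw [rlen_fwd, rlen_bwd]
  simp only [fwd, bwd]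
  linarith

theorem bus_fwd_on {γ : ℤ → V} (hγ : IsBigeodesic t γ) (h0 : ∀ e, 0 ≤ t e) (i j : ℤ) :
    bus t Set.univ (fwd γ i) (γ j) =
      if i ≤ j then -seg t γ i j else seg t γ j i := by
  have hr := isRayIn_fwd hγ h0 i
  refine tendsto_nhds_unique (tendsto_bus h0 hr (connIn_univ _ _))
    (tendsto_atTop_of_eventually_const (i₀ := (j - i).toNat) fun n hn => ?_)
  simp only [fwd]
  rw [TS_comm, TS_univ, bigeo_T hγ h0 (by omega), rlen_fwd]
  split_ifs with h
  · rw [seg_add h (show j ≤ i + n by omega)]; ring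
  · rw [seg_add (show j ≤ i by omega) (show i ≤ i + n by omega)]; ring

theorem bus_bwd_on {γ : ℤ → V} (hγ : IsBigeodesic t γ) (h0 : ∀ e, 0 ≤ t e) (i j : ℤ) :
    bus t Set.univ (bwd γ i) (γ j) =
      if i ≤ j then seg t γ i j else -seg t γ j i := by
  have hr := isRayIn_bwd hγ h0 i
  refine tendsto_nhds_unique (tendsto_bus h0 hr (connIn_univ _ _))
    (tendsto_atTop_of_eventually_const (i₀ := (i - j).toNat) fun n hn => ?_)
  simp only [bwd]
  rw [TS_univ, bigeo_T hγ h0 (by omega), rlen_bwd]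
  split_ifs with h
  · rw [seg_add (show i - n ≤ i by omega) h]; ring
  · rw [seg_add (show i - n ≤ j by omega) (show j ≤ i by omega)]; ring

theorem bus_line_zero {γ : ℤ → V} (hγ : IsBigeodesic t γ) (h0 : ∀ e, 0 ≤ t e) (i j : ℤ) :
    bus t Set.univ (fwd γ i) (γ j) + bus t Set.univ (bwd γ i) (γ j) = 0 := by
  rw [bus_fwd_on hγ h0, bus_bwd_on hγ h0]
  split_ifs <;> ring

/-- A descending path of a function, from any vertex. -/
theorem exists_descent {A : V → ℝ} (hA : IsBus t A) (z : V) :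
    ∃ u : ℕ → V, u 0 = z ∧ ∀ n, Adj (u n) (u (n + 1)) ∧
      A (u n) = A (u (n + 1)) + wt t (u n) (u (n + 1)) := by
  choose f hf1 hf2 using hA.step
  exact ⟨fun n => f^[n] z, rfl, fun n => by
    simp only [Function.iterate_succ_apply']; exact ⟨hf1 _, hf2 _⟩⟩

theorem descent_eq {A : V → ℝ} {u : ℕ → V}
    (hu : ∀ n, A (u n) = A (u (n + 1)) + wt t (u n) (u (n + 1))) (n : ℕ) :
    A (u n) = A (u 0) - rlen t u n := by
  induction n with
  | zero => simp [rlen]
  | succ n ih => rw [rlen_succ]; linarith [hu n]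

theorem rlen_strictMono (hpos : ∀ e, 0 < t e) : StrictMono (rlen t r) :=
  strictMono_nat_of_lt_succ fun n => by
    rw [rlen_succ]; linarith [hpos (edgeOf (r n) (r (n + 1))),
      show wt t (r n) (r (n + 1)) = t (edgeOf (r n) (r (n + 1))) from rfl]

/-- A descending path of a Busemann function is a geodesic ray. -/
theorem isRayIn_descent (hpos : ∀ e, 0 < t e) {A : V → ℝ} (hA : IsBus t A) {u : ℕ → V}
    (hadj : ∀ n, Adj (u n) (u (n + 1)))
    (hu : ∀ n, A (u n) = A (u (n + 1)) + wt t (u n) (u (n + 1))) :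
    IsRayIn t Set.univ u where
  inj a b h := (rlen_strictMono hpos).injective (by
    have := congrArg A h; rw [descent_eq hu a, descent_eq hu b] at this; linarith)
  adj := hadj
  mem _ := trivial
  geo i j hij := le_antisymm (by
      have := (abs_le.1 (hA.lip (u i) (u j))).2
      rw [descent_eq hu i, descent_eq hu j] at this
      rw [TS_univ]; linarith)
    (TS_path_le (fun e => (hpos e).le) hadj (fun _ => Set.mem_univ _) hij)

/-- Descending paths of a pair with minimal sum at their common start join to a bigeodesic. -/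
theorem bigeodesic_concat (hpos : ∀ e, 0 < t e) {A B : V → ℝ} (hA : IsBus t A) (hB : IsBus t B)
    (hmin : ∀ w, 0 ≤ A w + B w) {u v : ℕ → V} (h00 : u 0 = v 0) (hz : A (u 0) + B (u 0) = 0)
    (hau : ∀ n, Adj (u n) (u (n + 1)))
    (hu : ∀ n, A (u n) = A (u (n + 1)) + wt t (u n) (u (n + 1)))
    (hav : ∀ n, Adj (v n) (v (n + 1)))
    (hv : ∀ n, B (v n) = B (v (n + 1)) + wt t (v n) (v (n + 1))) :
    ∃ γ : ℤ → V, IsBigeodesic t γ ∧ bwd γ 0 = u ∧ fwd γ 0 = v ∧
      (∀ i, A (γ i) + B (γ i) = 0) := by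
  have h0 : ∀ e, 0 ≤ t e := fun e => (hpos e).le
  set γ : ℤ → V := fun i => if 0 ≤ i then v i.toNat else u (-i).toNat with hγ
  have hb : bwd γ 0 = u := funext fun n => by
    rcases Nat.eq_zero_or_pos n with rfl | hn
    · simp [bwd, hγ, h00]
    · simp only [bwd, hγ]; rw [if_neg (by omega)]; congr 1; omega
  have hf : fwd γ 0 = v := funext fun n => by simp [fwd, hγ]
  have hadj : ∀ i, Adj (γ i) (γ (i + 1)) := by
    intro i
    rcases lt_or_ge i 0 with hi | hi
    · obtain ⟨n, hn⟩ : ∃ n : ℕ, i = -((n : ℤ) + 1) := ⟨(-i - 1).toNat, by omega⟩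
      have h := Adj.symm (hau n)
      rw [← hb] at h
      simpa [bwd, hn] using h
    · obtain ⟨n, rfl⟩ : ∃ n : ℕ, i = n := ⟨i.toNat, by omega⟩
      have h := hav n
      rw [← hf] at h
      simpa [fwd] using h
  -- `A` increases and `B` decreases along `γ` by exactly the traversed weights
  have step : ∀ i, (0 ≤ i → B (γ i) = B (γ (i + 1)) + wt t (γ i) (γ (i + 1))) ∧
      (i < 0 → A (γ (i + 1)) = A (γ i) + wt t (γ i) (γ (i + 1))) := by
    refine fun i => ⟨fun hi => ?_, fun hi => ?_⟩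
    · obtain ⟨n, rfl⟩ : ∃ n : ℕ, i = n := ⟨i.toNat, by omega⟩
      have h := hv n
      rw [← hf] at h
      simpa [fwd] using h
    · obtain ⟨n, hn⟩ : ∃ n : ℕ, i = -((n : ℤ) + 1) := ⟨(-i - 1).toNat, by omega⟩
      have h := hu n
      rw [← hb, wt_comm] at h
      simpa [bwd, hn] using h
  have hBf : ∀ j, 0 ≤ j → B (γ j) = B (γ 0) - seg t γ 0 j := by
    intro j hj
    induction j, hj using Int.leInduction with
    | base => simp [seg]
    | succ j hj ih => rw [seg_succ hj]; linarith [(step j).1 hj]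
  have hAb : ∀ i, i ≤ 0 → A (γ i) = A (γ 0) - seg t γ i 0 := by
    intro i hi
    induction i, hi using Int.leInductionDown with
    | base => simp [seg]
    | pred i hi ih =>
      rw [seg_add (show i - 1 ≤ i by omega) hi,
        show seg t γ (i - 1) i = wt t (γ (i - 1)) (γ (i - 1 + 1)) by
          have h := seg_succ (t := t) (γ := γ) (le_refl (i - 1))
          rw [sub_add_cancel] at h ⊢; rw [h]; simp [seg]]
      have := (step (i - 1)).2 (by omega)
      rw [sub_add_cancel] at this ⊢; linarith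
  have hlen : ∀ i j, i ≤ j → TS t Set.univ (γ i) (γ j) ≤ seg t γ i j := by
    intro i j hij
    induction j, hij using Int.leInduction with
    | base => simp [TS_self h0, seg]
    | succ j hj ih =>
      rw [seg_succ hj]
      linarith [TS_triangle (t := t) h0 (connIn_univ (γ i) (γ j)) (connIn_univ (γ j) (γ (j + 1))),
        TS_adj_le (t := t) (S := Set.univ) h0 (hadj j) trivial]
  have hzero : A (γ 0) + B (γ 0) = 0 := by
    have : γ 0 = u 0 := by simp [hγ, h00]
    rw [this]; exact hz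
  have hgeo : ∀ i j, i ≤ j → T t (γ i) (γ j) = seg t γ i j := by
    intro i j hij
    rw [← TS_univ]
    refine le_antisymm (hlen i j hij) ?_
    set a := min i 0
    set b := max j 0
    have hab : seg t γ a b ≤ TS t Set.univ (γ a) (γ b) := by
      rw [TS_univ, seg_add (show a ≤ 0 from min_le_right _ _) (show 0 ≤ b from le_max_right _ _)]
      have h1 := (abs_le.1 (hA.lip (γ b) (γ a))).2
      rw [show T t (γ b) (γ a) = T t (γ a) (γ b) by
        rw [← TS_univ, TS_comm, TS_univ]] at h1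
      linarith [hmin (γ b), hBf b (le_max_right _ _), hAb a (min_le_right _ _), hzero]
    have hai : a ≤ i := min_le_left _ _
    have hjb : j ≤ b := le_max_left _ _
    rw [seg_add hai (hij.trans hjb), seg_add hij hjb] at hab
    linarith [hlen a i hai, hlen j b hjb,
      TS_triangle (t := t) h0 (connIn_univ (γ a) (γ i)) (connIn_univ (γ i) (γ b)),
      TS_triangle (t := t) h0 (connIn_univ (γ i) (γ j)) (connIn_univ (γ j) (γ b))]
  refine ⟨γ, ⟨?_, hadj, fun i j hij => (hgeo i j hij.le).symm⟩, hb, hf, ?_⟩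
  · intro i j h
    by_contra hne
    wlog hlt : i < j generalizing i j
    · exact this h.symm (Ne.symm hne) (by omega)
    have h1 := hgeo i j hlt.le
    rw [h, ← TS_univ, TS_self h0, seg_add (show i ≤ i + 1 by omega) (show i + 1 ≤ j by omega),
      seg_succ (le_refl i)] at h1
    have h2 : 0 ≤ seg t γ (i + 1) j := Finset.sum_nonneg fun k _ => h0 _
    have h3 : seg t γ i i = 0 := by simp [seg]
    linarith [hpos (edgeOf (γ i) (γ (i + 1))),
      show wt t (γ i) (γ (i + 1)) = t (edgeOf (γ i) (γ (i + 1))) from rfl]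
  · intro i
    rcases le_total i 0 with hi | hi
    · have h1 := (abs_le.1 (hB.lip (γ i) (γ 0))).2
      rw [hgeo i 0 hi] at h1
      linarith [hmin (γ i), hAb i hi]
    · have h1 := (abs_le.1 (hA.lip (γ i) (γ 0))).2
      rw [show T t (γ i) (γ 0) = T t (γ 0) (γ i) by rw [← TS_univ, TS_comm, TS_univ],
        hgeo 0 i hi] at h1
      linarith [hmin (γ i), hBf i hi]

/-- A pair of Busemann functions with sum bounded below by `0` and zero at `z` has a bigeodesic
through `z` on which the sum vanishes. -/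
theorem line_of_pair (hpos : ∀ e, 0 < t e) {A B : V → ℝ} (hA : IsBus t A) (hB : IsBus t B)
    (hmin : ∀ w, 0 ≤ A w + B w) {z : V} (hz : A z + B z = 0) :
    ∃ γ : ℤ → V, IsBigeodesic t γ ∧ γ 0 = z ∧
      (∀ n, A (bwd γ 0 n) = A z - rlen t (bwd γ 0) n) ∧
      (∀ n, B (fwd γ 0 n) = B z - rlen t (fwd γ 0) n) ∧ ∀ i, A (γ i) + B (γ i) = 0 := by
  obtain ⟨u, hu0, hu⟩ := exists_descent hA z
  obtain ⟨v, hv0, hv⟩ := exists_descent hB z
  obtain ⟨γ, h1, h2, h3, h4⟩ := bigeodesic_concat hpos hA hB hmin (hu0.trans hv0.symm)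
    (by rw [hu0]; exact hz) (fun n => (hu n).1) (fun n => (hu n).2) (fun n => (hv n).1)
    (fun n => (hv n).2)
  refine ⟨γ, h1, ?_, fun n => ?_, fun n => ?_, h4⟩
  · have := congrFun h3 0; rw [hv0] at this; simpa [fwd] using this
  · rw [h2, descent_eq (fun n => (hu n).2), hu0]
  · rw [h3, descent_eq (fun n => (hv n).2), hv0]

theorem isBus_add_const {A : V → ℝ} (hA : IsBus t A) (c : ℝ) : IsBus t fun x => A x + c where
  lip x y := by simpa using hA.lip x y
  step x := by
    obtain ⟨y, h1, h2⟩ := hA.step x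
    exact ⟨y, h1, by rw [h2]; ring⟩

/-! ### Finite modifications -/

theorem tendsto_rlen (h : GoodG κ t) (hκ : 0 < κ) (hinj : Function.Injective r)
    (hadj : ∀ i, Adj (r i) (r (i + 1))) : Tendsto (rlen t r) atTop atTop := by
  have hwalk : ∀ n, ∃ p : grid.Walk (r 0) (r n), p.length = n ∧ plen t p = rlen t r n ∧
      p.support = (List.range (n + 1)).map r := by
    intro n
    induction n with
    | zero => exact ⟨.nil, rfl, by simp [rlen], by simp⟩
    | succ n ih =>
      obtain ⟨p, h1, h2, h3⟩ := ih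
      refine ⟨p.concat (show grid.Adj _ _ from hadj n), by simp [h1], ?_, ?_⟩
      · rw [rlen_succ, SimpleGraph.Walk.concat_eq_append, plen_append, h2]; simp
      · rw [SimpleGraph.Walk.support_concat, h3, List.range_succ (n := n + 1)]
        simp
  refine tendsto_atTop_mono' atTop ?_ (tendsto_natCast_atTop_atTop.const_mul_atTop hκ)
  filter_upwards [h.lenBound (r 0)] with n hn
  obtain ⟨p, h1, h2, h3⟩ := hwalk n
  refine h2 ▸ hn _ p ?_ h1
  rw [SimpleGraph.Walk.isPath_def, h3]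
  exact List.nodup_range.map hinj

/-- Only finitely many steps of an injective path use edges of a finite set. -/
theorem eventually_avoid (hinj : Function.Injective r) (hadj : ∀ i, Adj (r i) (r (i + 1)))
    (F : Finset Edge) : ∀ᶠ i in atTop, edgeOf (r i) (r (i + 1)) ∉ F := by
  have hi : Function.Injective fun i => edgeOf (r i) (r (i + 1)) := by
    intro a b h
    rcases edgeOf_inj (hadj a) (hadj b) h with ⟨h1, -⟩ | ⟨h1, h2⟩
    · exact hinj h1
    · have := hinj h1; have := hinj h2; omega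
  rw [← Nat.cofinite_eq_atTop, eventually_cofinite]
  simp only [not_not]
  exact F.finite_toSet.preimage hi.injOn

theorem rlen_congr {F : Finset Edge} (hoff : ∀ e, e ∉ F → t' e = t e)
    (hav : ∀ i, edgeOf (r i) (r (i + 1)) ∉ F) (n : ℕ) : rlen t' r n = rlen t r n :=
  Finset.sum_congr rfl fun i _ => hoff _ (hav i)

/-- After a finite modification every sufficiently deep tail of a geodesic ray is still a
geodesic ray, and it avoids the modified edges. -/
theorem exists_tail (h0 : ∀ e, 0 ≤ t e) (h0' : ∀ e, 0 ≤ t' e) {F : Finset Edge}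
    (hoff : ∀ e, e ∉ F → t' e = t e) (hr : IsRayIn t S r)
    (hlim : Tendsto (rlen t r) atTop atTop) :
    ∃ N, ∀ m, N ≤ m → IsRayIn t' S (tail m r) ∧
      ∀ i, edgeOf (tail m r i) (tail m r (i + 1)) ∉ F := by
  obtain ⟨C, hC⟩ : ∃ C, ∀ u ∈ ends F, TS t S (r 0) u ≤ C :=
    ⟨∑ u ∈ ends F, TS t S (r 0) u, fun u hu =>
      Finset.single_le_sum (f := fun v => TS t S (r 0) v) (fun v _ => TS_nonneg h0 _ _ _) hu⟩
  obtain ⟨N, hN⟩ := eventually_atTop.1
    ((eventually_avoid hr.inj hr.adj F).and (hlim.eventually_ge_atTop C))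
  refine ⟨N, fun m hm => ?_⟩
  have hav : ∀ i, edgeOf (tail m r i) (tail m r (i + 1)) ∉ F := fun i =>
    (hN (m + i) (by omega)).1
  have hm' := isRayIn_tail hr m
  refine ⟨⟨hm'.inj, hm'.adj, hm'.mem, fun i j hij => ?_⟩, hav⟩
  rw [rlen_congr hoff hav, rlen_congr hoff hav]
  refine le_antisymm (le_TS (hm'.conn i j) fun p hp => ?_) ?_
  · rcases split_first F p hp with hp' | ⟨u, hu, p1, p2, hp1, hp2, hspl⟩
    · rw [plen_congr hp' fun e he => hoff e he.2, hm'.geo i j hij]
      exact TS_le' h0 p ((WalkIn.mono hp' Set.sdiff_subset))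
    rcases split_first F p2.reverse ((WalkIn.reverse hp2)) with hq | ⟨w, hw, q1, q2, hq1, -, hspl'⟩
    · -- the remaining piece avoids `F`
      rw [hspl t', plen_congr hp1 fun e he => hoff e he.2,
        ← plen_reverse (t := t') p2, plen_congr hq fun e he => hoff e he.2, plen_reverse, ← hspl t,
        hm'.geo i j hij]
      exact TS_le' h0 p hp
    · rw [hspl t', ← plen_reverse (t := t') p2, hspl' t', plen_congr hp1 fun e he => hoff e he.2,
        plen_congr hq1 fun e he => hoff e he.2]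
      have a1 := TS_le' h0 p1 ((WalkIn.mono hp1 Set.sdiff_subset))
      have a2 := TS_le' h0 q1 ((WalkIn.mono hq1 Set.sdiff_subset))
      have hcu : ConnIn S (tail m r i) u := ⟨p1, (WalkIn.mono hp1 Set.sdiff_subset)⟩
      have hcw : ConnIn S (tail m r j) w := ⟨q1, (WalkIn.mono hq1 Set.sdiff_subset)⟩
      have hc0 : ∀ k, ConnIn S (r 0) (tail m r k) := fun k => hr.conn 0 (m + k)
      have b1 := TS_triangle h0 (ConnIn.trans (hc0 i) hcu) (ConnIn.symm hcu)
      have b2 := TS_triangle h0 (ConnIn.trans (hc0 j) hcw) (ConnIn.symm hcw)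
      rw [show TS t S (r 0) (tail m r i) = rlen t r (m + i) - rlen t r 0 from
        (hr.geo 0 (m + i) (by omega)).symm, TS_comm (t := t) S u] at b1
      rw [show TS t S (r 0) (tail m r j) = rlen t r (m + j) - rlen t r 0 from
        (hr.geo 0 (m + j) (by omega)).symm, TS_comm (t := t) S w] at b2
      have z : rlen t r 0 = 0 := by simp [rlen]
      rw [rlen_tail, rlen_tail]
      linarith [hC u hu, hC w hw, plen_nonneg h0' q2, (hN (m + i) (by omega)).2]
  · have := TS_path_le h0' hm'.adj hm'.mem hij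
    rwa [rlen_congr hoff hav, rlen_congr hoff hav] at this

/-- A finite modification changes a Busemann function by a bounded amount. -/
theorem bus_change (h0 : ∀ e, 0 ≤ t e) (h0' : ∀ e, 0 ≤ t' e) {F : Finset Edge}
    (hoff : ∀ e, e ∉ F → t' e = t e) (hr : IsRayIn t S r) (hr' : IsRayIn t' S r)
    (hav : ∀ i, edgeOf (r i) (r (i + 1)) ∉ F) {z : V} (hz : ConnIn S (r 0) z) :
    |bus t' S r z - bus t S r z| ≤ ∑ e ∈ F, |t' e - t e| := by
  refine le_of_tendsto ((tendsto_bus h0' hr' hz).sub (tendsto_bus h0 hr hz)).abs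
    (Eventually.of_forall fun n => ?_)
  have hc := ConnIn.trans (hr.conn n 0) hz
  have h1 := TS_change h0 h0' hoff hc
  have h2 := TS_change h0' h0 (fun e he => (hoff e he).symm) hc
  have e1 : ∑ e ∈ F, max (t' e - t e) 0 ≤ ∑ e ∈ F, |t' e - t e| :=
    Finset.sum_le_sum fun e _ => max_le (le_abs_self _) (abs_nonneg _)
  have e2 : ∑ e ∈ F, max (t e - t' e) 0 ≤ ∑ e ∈ F, |t' e - t e| :=
    Finset.sum_le_sum fun e _ => max_le (abs_sub_comm (t' e) (t e) ▸ le_abs_self _) (abs_nonneg _)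
  rw [rlen_congr hoff hav, abs_le]
  constructor <;> linarith

theorem TS_anti (h0' : ∀ e, 0 ≤ t' e) (hle : ∀ e, t' e ≤ t e) {x y : V} (hc : ConnIn S x y) :
    TS t' S x y ≤ TS t S x y :=
  le_TS hc fun p hp => (TS_le' h0' p hp).trans (List.sum_le_sum fun d _ => hle _)

/-- Lowering finitely many weights: the new Busemann function is at most the old one, at most
every route through the modified edges, and equal to one of them. -/
theorem bus_lower (h0 : ∀ e, 0 ≤ t e) (h0' : ∀ e, 0 ≤ t' e) {F : Finset Edge}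
    (hoff : ∀ e, e ∉ F → t' e = t e) (hle : ∀ e, t' e ≤ t e) (hr : IsRayIn t S r)
    (hr' : IsRayIn t' S r) (hav : ∀ i, edgeOf (r i) (r (i + 1)) ∉ F) {z : V}
    (hz : ConnIn S (r 0) z) :
    bus t' S r z ≤ bus t S r z ∧
      (∀ u, ConnIn S (r 0) u → bus t' S r z ≤ bus t S r u + TS t' S u z) ∧
      (bus t' S r z = bus t S r z ∨ ∃ u ∈ ends F, ConnIn S (r 0) u ∧
        bus t' S r z = bus t S r u + TS t' S u z) := by
  classical
  have hlen : ∀ n, rlen t' r n = rlen t r n := rlen_congr hoff hav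
  have key1 : ∀ w, ConnIn S (r 0) w → bus t' S r w ≤ bus t S r w := fun w hw =>
    le_of_tendsto_of_tendsto' (tendsto_bus h0' hr' hw) (tendsto_bus h0 hr hw) fun n => by
      rw [hlen]
      linarith [TS_anti h0' hle (ConnIn.trans (hr.conn n 0) hw)]
  have key2 : ∀ u, ConnIn S (r 0) u → bus t' S r z ≤ bus t S r u + TS t' S u z := fun u hu => by
    have h := bus_lip h0' hr' hz (ConnIn.trans (ConnIn.symm hz) hu)
    rw [TS_comm (t := t') S z u] at h
    linarith [(abs_le.1 h).2, key1 u hu]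
  refine ⟨key1 z hz, key2, ?_⟩
  by_contra hcon
  push Not at hcon
  obtain ⟨hne, hcon⟩ := hcon
  set U := (ends F).filter fun u => ConnIn S (r 0) u
  -- all candidates are strictly above the new value
  obtain ⟨δ, hδ, hδz, hδu⟩ : ∃ δ > 0, bus t' S r z + δ ≤ bus t S r z ∧
      ∀ u ∈ U, bus t' S r z + δ ≤ bus t S r u + TS t' S u z := by
    set c := insert (bus t S r z) (U.image fun u => bus t S r u + TS t' S u z)
    have hc : c.Nonempty := Finset.insert_nonempty _ _
    refine ⟨c.min' hc - bus t' S r z, ?_, ?_, fun u hu => ?_⟩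
    · suffices bus t' S r z < c.min' hc by linarith
      rw [Finset.lt_min'_iff]
      intro a ha
      rcases Finset.mem_insert.1 ha with rfl | ha
      · exact lt_of_le_of_ne (key1 z hz) hne
      · obtain ⟨u, hu, rfl⟩ := Finset.mem_image.1 ha
        obtain ⟨hu1, hu2⟩ := Finset.mem_filter.1 hu
        exact lt_of_le_of_ne (key2 u hu2) (hcon u hu1 hu2)
    · linarith [c.min'_le _ (Finset.mem_insert_self (bus t S r z) _)]
    · linarith [c.min'_le _ (Finset.mem_insert_of_mem
        (Finset.mem_image.2 ⟨u, hu, rfl⟩) : bus t S r u + TS t' S u z ∈ c)]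
  suffices h : bus t' S r z + δ ≤ bus t' S r z by linarith
  refine ge_of_tendsto (tendsto_bus h0' hr' hz) (Eventually.of_forall fun n => ?_)
  have hc := ConnIn.trans (hr.conn n 0) hz
  suffices h : bus t' S r z + δ + rlen t r n ≤ TS t' S (r n) z by rw [hlen]; linarith
  refine le_TS hc fun p hp => ?_
  rcases split_first F p hp with hp' | ⟨u, hu, p1, p2, hp1, hp2, hspl⟩
  · rw [plen_congr hp' fun e he => hoff e he.2]
    linarith [TS_le' h0 p ((WalkIn.mono hp' Set.sdiff_subset)), bus_le h0 hr hz n]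
  · have hu0 : ConnIn S (r 0) u :=
      ConnIn.trans (hr.conn 0 n) ⟨p1, (WalkIn.mono hp1 Set.sdiff_subset)⟩
    rw [hspl t', plen_congr hp1 fun e he => hoff e he.2]
    linarith [TS_le' h0 p1 ((WalkIn.mono hp1 Set.sdiff_subset)), bus_le h0 hr hu0 n,
      TS_le' h0' p2 hp2, hδu u (Finset.mem_filter.2 ⟨hu, hu0⟩)]

/-- Lowering weights on a bigeodesic keeps it a bigeodesic. -/
theorem bigeodesic_lower {γ : ℤ → V} (hγ : IsBigeodesic t γ) (h0 : ∀ e, 0 ≤ t e)
    (h0' : ∀ e, 0 ≤ t' e) {F : Finset Edge} (hoff : ∀ e, e ∉ F → t' e = t e)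
    (hle : ∀ e, t' e ≤ t e) (hon : ∀ e ∈ F, ∃ i, e = edgeOf (γ i) (γ (i + 1))) :
    IsBigeodesic t' γ := by
  classical
  refine ⟨hγ.inj, hγ.adj, fun i j hij => ?_⟩
  choose g hg using hon
  set a := min i (F.attach.fold min i fun e => g e.1 e.2) with ha
  set b := max j (F.attach.fold max j fun e => g e.1 e.2 + 1) with hb
  have hga : ∀ e (he : e ∈ F), F.attach.fold min i (fun e => g e.1 e.2) ≤ g e he := fun e he =>
    (Finset.fold_min_le (s := F.attach) (f := fun e => g e.1 e.2) (b := i) _).2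
      (.inr ⟨⟨e, he⟩, F.mem_attach _, le_rfl⟩)
  have hgb : ∀ e (he : e ∈ F), g e he + 1 ≤ F.attach.fold max j (fun e => g e.1 e.2 + 1) :=
    fun e he =>
    (Finset.le_fold_max (s := F.attach) (f := fun e => g e.1 e.2 + 1) (b := j) _).2
      (.inr ⟨⟨e, he⟩, F.mem_attach _, le_rfl⟩)
  have hai : a ≤ i := min_le_left _ _
  have hjb : j ≤ b := le_max_left _ _
  have hgab : ∀ e (he : e ∈ F), a ≤ g e he ∧ g e he < b := fun e he =>
    ⟨(min_le_right _ _).trans (hga e he),
      lt_of_lt_of_le (lt_add_one _) ((hgb e he).trans (le_max_right _ _))⟩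
  have hs : ∀ k l, k ≤ l → T t' (γ k) (γ l) ≤ seg t' γ k l := fun k l hkl => by
    rw [← TS_univ]
    induction l, hkl using Int.leInduction with
    | base => simp [TS_self h0', seg]
    | succ l hl ih =>
      rw [seg_succ hl]
      linarith [TS_triangle (t := t') h0' (connIn_univ (γ k) (γ l))
        (connIn_univ (γ l) (γ (l + 1))),
        TS_adj_le (t := t') (S := Set.univ) h0' (hγ.adj l) trivial]
  have hab : seg t' γ a b ≤ T t' (γ a) (γ b) := by
    rw [← TS_univ]
    refine le_TS (connIn_univ _ _) fun p _ => ?_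
    have h1 := plen_change (fun e he => (hoff e he).symm) p.bypass_isPath
    have h2 := plen_bypass_le h0' p
    have h3 := TS_le' (S := Set.univ) h0 p.bypass (walkIn_univ _)
    rw [TS_univ, bigeo_T hγ h0 (by omega)] at h3
    have hinj : Set.InjOn (fun k => edgeOf (γ k) (γ (k + 1))) (Finset.Ico a b : Set ℤ) := by
      intro k _ l _ h
      rcases edgeOf_inj (hγ.adj k) (hγ.adj l) h with ⟨h1, -⟩ | ⟨h1, h2⟩
      · exact hγ.inj h1
      · have := hγ.inj h1; have := hγ.inj h2; omega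
    have h4 : ∑ e ∈ F, max (t e - t' e) 0 ≤ seg t γ a b - seg t' γ a b := by
      rw [seg, seg, ← Finset.sum_sub_distrib]
      simp only [wt]
      rw [← Finset.sum_image (f := fun e => t e - t' e) hinj]
      refine (Finset.sum_congr rfl fun e _ => max_eq_left (sub_nonneg.2 (hle e))).trans_le
        (Finset.sum_le_sum_of_subset_of_nonneg (fun e he => ?_) fun e _ _ => sub_nonneg.2 (hle e))
      exact Finset.mem_image.2 ⟨g e he, Finset.mem_Ico.2 (hgab e he), (hg e he).symm⟩
    linarith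
  show seg t' γ i j = T t' (γ i) (γ j)
  refine le_antisymm ?_ (hs i j hij.le)
  rw [seg_add hai (hij.le.trans hjb), seg_add hij.le hjb] at hab
  have h := TS_triangle (t := t') h0' (connIn_univ (γ a) (γ i)) (connIn_univ (γ i) (γ b))
  have h' := TS_triangle (t := t') h0' (connIn_univ (γ i) (γ j)) (connIn_univ (γ j) (γ b))
  simp only [TS_univ] at h h'
  linarith [hs a i hai, hs j b hjb]

theorem rayDir_tail {θ : ℂ} (h : RayDir r θ) (N : ℕ) : RayDir (tail N r) θ := by
  refine (h.comp (tendsto_add_atTop_nat N)).congr fun n => ?_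
  simp [Rays.tail, Nat.add_comm N n]

end Vale.Agent.P158.Rays
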