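import Vale.Agent.P158.MainDefs
import Vale.Agent.P158.Rays
import Vale.Agent.P158.Meas
import Vale.Agent.P158.StraightWalk

/-!
Classes of rigid lines: two rigid lines through different entrance sites have unbounded jumps.
-/

open MeasureTheory Filter Topology

namespace Vale.Agent.P158

open Rays

variable {M κ : ℝ} {t : Conf}

/-- Two rays with Busemann functions at bounded distance. -/
def Bd (t : Conf) (r r' : ℕ → V) : Prop :=
  ∃ C : ℝ, ∀ z, |bus t Set.univ r z - bus t Set.univ r' z| ≤ C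

/-- The doubly infinite path traversed backwards. -/
def revLine (γ : ℤ → V) : ℤ → V := fun i => γ (-i)

/-- The doubly infinite path re-indexed. -/
def reLine (γ : ℤ → V) (m : ℤ) : ℤ → V := fun i => γ (i + m)

theorem fwd_revLine (γ : ℤ → V) (i : ℤ) : fwd (revLine γ) i = bwd γ (-i) := by
  funext n; simp only [fwd, bwd, revLine]; congr 1; ring

theorem bwd_revLine (γ : ℤ → V) (i : ℤ) : bwd (revLine γ) i = fwd γ (-i) := by
  funext n; simp only [fwd, bwd, revLine]; congr 1; ring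

theorem seg_revLine (t : Conf) (γ : ℤ → V) {i j : ℤ} (h : i ≤ j) :
    seg t (revLine γ) i j = seg t γ (-j) (-i) := by
  have h1 := rlen_fwd t (revLine γ) i (j - i).toNat
  rw [fwd_revLine, rlen_bwd] at h1
  rw [show i + ((j - i).toNat : ℤ) = j by omega,
    show -i - ((j - i).toNat : ℤ) = -j by omega] at h1
  exact h1.symm

theorem IsBigeodesic.rev {γ : ℤ → V} (h : IsBigeodesic t γ) : IsBigeodesic t (revLine γ) := by
  refine ⟨fun a b e => neg_injective (h.inj e), fun i => ?_, fun i j hij => ?_⟩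
  · have := (h.adj (-(i + 1))).symm
    rwa [show -(i + 1) + 1 = -i by ring] at this
  · have h1 := h.geo (-j) (-i) (by omega)
    show seg t (revLine γ) i j = T t (γ (-i)) (γ (-j))
    rw [seg_revLine t γ hij.le, T_eq_TS, TS_comm, ← T_eq_TS]
    exact h1

/-! ### Directions -/

theorem rayDir_congr {r r' : ℕ → V} {θ : ℂ} (m m' : ℕ) (h : ∀ n, r (m + n) = r' (m' + n))
    (hr : RayDir r θ) : RayDir r' θ := by
  have h1 := rayDir_tail hr m
  rw [show Rays.tail m r = Rays.tail m' r' from funext h] at h1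
  exact (tendsto_add_atTop_iff_nat m').1 (h1.congr fun n => by simp [Rays.tail, Nat.add_comm n m'])

theorem hasDirections_rev {γ : ℤ → V} (h : HasDirections γ) : HasDirections (revLine γ) := by
  rw [hasDirections_iff] at h ⊢
  rw [fwd_revLine, bwd_revLine, neg_zero]
  exact ⟨h.2, h.1⟩

theorem rayDir_fwd {γ : ℤ → V} (h : HasDirections γ) (i : ℤ) : ∃ θ, RayDir (fwd γ i) θ := by
  obtain ⟨θ, hθ⟩ := ((hasDirections_iff γ).1 h).1
  refine ⟨θ, rayDir_congr (i.toNat) ((-i).toNat) (fun n => ?_) hθ⟩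
  simp only [fwd]; congr 1; push_cast; omega

theorem rayDir_bwd {γ : ℤ → V} (h : HasDirections γ) (i : ℤ) : ∃ θ, RayDir (bwd γ i) θ := by
  obtain ⟨θ, hθ⟩ := rayDir_fwd (hasDirections_rev h) (-i)
  exact ⟨θ, by rwa [fwd_revLine, neg_neg] at hθ⟩

theorem hasDirections_reLine {γ : ℤ → V} (h : HasDirections γ) (m : ℤ) :
    HasDirections (reLine γ m) := by
  have h1 : fwd (reLine γ m) 0 = fwd γ m := by
    funext n; simp only [fwd, reLine]; congr 1; ring
  have h2 : bwd (reLine γ m) 0 = bwd γ m := by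
    funext n; simp only [bwd, reLine]; congr 1; ring
  rw [hasDirections_iff, h1, h2]
  exact ⟨rayDir_fwd h m, rayDir_bwd h m⟩

/-! ### Agreement -/

/-- Directed lines which agree on a forward ray agree everywhere. -/
theorem agree_fwd (hN : Nice M κ t) {η γ : ℤ → V} (hη : IsBigeodesic t η) (hηd : HasDirections η)
    (hγ : IsBigeodesic t γ) (hγd : HasDirections γ) (a b : ℤ)
    (h : ∀ n : ℕ, η (a + n) = γ (b + n)) (i : ℤ) : η (a + i) = γ (b + i) := by
  suffices key : ∀ m : ℕ, ∀ n : ℕ, η (a - m + n) = γ (b - m + n) by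
    rcases le_total 0 i with hi | hi
    · simpa [Int.toNat_of_nonneg hi] using h i.toNat
    · simpa [show ((-i).toNat : ℤ) = -i by omega] using key (-i).toNat 0
  intro m
  induction m with
  | zero => simpa using h
  | succ m ih =>
    intro n
    rcases n with _ | n
    · by_contra hne
      refine hN.fork ⟨reLine η (a - m), reLine γ (b - m), hη.reindex _,
        hasDirections_reLine hηd _, hγ.reindex _, hasDirections_reLine hγd _, fun j => ?_, ?_⟩
      · simpa [reLine, add_comm (j : ℤ)] using ih j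
      · simp only [reLine]
        intro he; apply hne
        push_cast
        rw [show a - ((m : ℤ) + 1) + 0 = -1 + (a - m) by ring,
          show b - ((m : ℤ) + 1) + 0 = -1 + (b - m) by ring]
        exact he
    · have := ih n
      rw [show a - ((m + 1 : ℕ) : ℤ) + ((n + 1 : ℕ) : ℤ) = a - m + n by push_cast; ring,
        show b - ((m + 1 : ℕ) : ℤ) + ((n + 1 : ℕ) : ℤ) = b - m + n by push_cast; ring]
      exact this

/-! ### Matching -/

theorem bd_of_crossed (hN : Nice M κ t) {γ : ℤ → V} {r : ℕ → V} (hγ : IsBigeodesic t γ)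
    (hd : HasDirections γ) (hr : IsRayIn t Set.univ r) (hθ : ∃ θ, RayDir r θ)
    (hC : ∃ C : ℝ, ∀ z, -C ≤ bus t Set.univ r z + bus t Set.univ (fwd γ 0) z) :
    Bd t r (bwd γ 0) := by
  obtain ⟨c, hc⟩ := hN.matched γ hγ hd r hr hθ hC
  exact ⟨|c|, fun z => by rw [hc z]⟩

theorem bd_of_crossed_fwd (hN : Nice M κ t) {γ : ℤ → V} {r : ℕ → V} (hγ : IsBigeodesic t γ)
    (hd : HasDirections γ) (hr : IsRayIn t Set.univ r) (hθ : ∃ θ, RayDir r θ)
    (hC : ∃ C : ℝ, ∀ z, -C ≤ bus t Set.univ r z + bus t Set.univ (bwd γ 0) z) :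
    Bd t r (fwd γ 0) := by
  have := bd_of_crossed hN hγ.rev (hasDirections_rev hd) hr hθ
    (by simpa [fwd_revLine] using hC)
  simpa [bwd_revLine] using this

/-! ### The zero set of a matched pair -/

theorem edge_split (t : Conf) (e : Edge) {x z : V} (p : grid.Walk x z)
    (hp : ¬ WalkIn {e}ᶜ p) : ∃ (u v : V) (p1 : grid.Walk x u) (p2 : grid.Walk v z),
      edgeOf u v = e ∧ Adj u v ∧ plen t p = plen t p1 + t e + plen t p2 := by
  induction p with
  | nil => exact absurd walkIn_nil hp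
  | @cons a b c h q ih =>
    by_cases he : edgeOf a b = e
    · exact ⟨a, b, .nil, q, he, h, by simp [wt, he]⟩
    · obtain ⟨u, v, p1, p2, h1, h2, h3⟩ := ih fun hq => hp
        ((walkIn_cons_iff _ _).2 ⟨he, hq⟩)
      exact ⟨u, v, .cons h p1, p2, h1, h2, by simp [h3]; ring⟩

/-- If the sum of the two Busemann functions of a rigid line vanishes at `w`, then the
geodesic from one of the two ends to `w` passes the entrance edge forwards. -/
theorem zero_set (hN : Nice M κ t) (hκ : 0 < κ) {δ : ℝ} (hδ : 0 < δ) {γ : ℤ → V}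
    (hγ : IsBigeodesic t γ) (hR : RigidAt t δ γ) {w : V}
    (hw : bus t Set.univ (bwd γ 0) w + bus t Set.univ (fwd γ 0) w = 0) :
    bus t Set.univ (bwd γ 0) w = T t (γ 0) w ∨
      bus t Set.univ (fwd γ 0) w = wt t (γ (-1)) (γ 0) + T t (γ (-1)) w := by
  classical
  have h0 := hN.good.nonneg
  set A := bus t Set.univ (bwd γ 0)
  set B := bus t Set.univ (fwd γ 0)
  set e := edgeOf (γ (-1)) (γ 0)
  have hwe : 0 < wt t (γ (-1)) (γ 0) := hN.good.pos _
  have hA : Tendsto (fun n : ℕ => T t (γ (-((n : ℤ) + 1))) w - seg t γ (-((n : ℤ) + 1)) 0) atTop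
      (𝓝 (A w)) := by
    refine ((tendsto_bus h0 (isRayIn_bwd hγ h0 0) (connIn_univ _ w)).comp
      (tendsto_add_atTop_nat 1)).congr fun n => ?_
    simp [rlen_bwd, bwd, ← T_eq_TS]
  have hB : Tendsto (fun n : ℕ => T t w (γ n) - seg t γ 0 n) atTop (𝓝 (B w)) := by
    refine (tendsto_bus h0 (isRayIn_fwd hγ h0 0) (connIn_univ _ w)).congr fun n => ?_
    simp [rlen_fwd, fwd, ← T_eq_TS, T_comm t w]
  have hsum := hA.add hB
  rw [hw] at hsum
  -- eventually one of the two geodesics uses the entrance edge in the forward direction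
  have hev : ∀ᶠ n : ℕ in atTop,
      T t (γ (-((n : ℤ) + 1))) w - seg t γ (-((n : ℤ) + 1)) 0 = T t (γ 0) w ∨
        T t w (γ n) - seg t γ 0 n = wt t (γ (-1)) (γ 0) + T t (γ (-1)) w := by
    filter_upwards [hsum.eventually (gt_mem_nhds (lt_min hδ hwe))] with n hn
    set x := γ (-((n : ℤ) + 1))
    set z := γ n
    obtain ⟨p, -, hp⟩ := hN.good.exists_geodesic_univ hκ x w
    obtain ⟨q, -, hq⟩ := hN.good.exists_geodesic_univ hκ w z
    have hx1 : T t x (γ (-1)) = seg t γ (-((n : ℤ) + 1)) (-1) := bigeo_T hγ h0 (by omega)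
    have hz0 : T t (γ 0) z = seg t γ 0 n := bigeo_T hγ h0 (by omega)
    have hz1 : T t (γ (-1)) z = wt t (γ (-1)) (γ 0) + seg t γ 0 n := by
      have h1 : seg t γ (-1) 0 = wt t (γ (-1)) (γ 0) := by
        have := seg_succ (t := t) (γ := γ) (le_refl (-1 : ℤ))
        simpa [seg] using this
      rw [bigeo_T hγ h0 (show (-1 : ℤ) ≤ (n : ℤ) by omega),
        seg_add (show (-1 : ℤ) ≤ 0 by omega) (show (0 : ℤ) ≤ n by omega), h1]
    have hx00 : T t x (γ 0) = seg t γ (-((n : ℤ) + 1)) 0 := bigeo_T hγ h0 (by omega)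
    have hxz : T t x z = seg t γ (-((n : ℤ) + 1)) 0 + seg t γ 0 n := by
      rw [bigeo_T hγ h0 (show -((n : ℤ) + 1) ≤ (n : ℤ) by omega),
        seg_add (show -((n : ℤ) + 1) ≤ 0 by omega) (show (0 : ℤ) ≤ n by omega)]
    have hx0 : seg t γ (-((n : ℤ) + 1)) 0 =
        seg t γ (-((n : ℤ) + 1)) (-1) + wt t (γ (-1)) (γ 0) := by
      have := seg_succ (t := t) (γ := γ) (show -((n : ℤ) + 1) ≤ -1 by omega)
      simpa using this
    have hlt : plen t (p.append q) < T t x z + min δ (wt t (γ (-1)) (γ 0)) := by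
      rw [plen_append, hp, hq, hxz]; linarith
    have huse : ¬ WalkIn {e}ᶜ p ∨ ¬ WalkIn {e}ᶜ q := by
      by_contra hcon
      rw [not_or, not_not, not_not] at hcon
      have := hR n n x z (p.append q) rfl rfl ((walkIn_append_iff _ _).2 hcon)
      linarith [min_le_left δ (wt t (γ (-1)) (γ 0))]
    have hm := min_le_right δ (wt t (γ (-1)) (γ 0))
    rw [plen_append, hp, hq] at hlt
    have hte : t e = wt t (γ (-1)) (γ 0) := rfl
    have hadj : Adj (γ (-1)) (γ 0) := by simpa using hγ.adj (-1)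
    rcases huse with hu | hu
    · obtain ⟨u, v, p1, p2, he, ha, hsp⟩ := edge_split t e p hu
      rw [hp, hte] at hsp
      rcases (edgeOf_eq_iff ha hadj).1 he with ⟨rfl, rfl⟩ | ⟨rfl, rfl⟩
      · refine .inl (le_antisymm ?_ ?_)
        · have := T_triangle h0 x (γ 0) w
          rw [hx00] at this
          linarith
        · linarith [T_le h0 p1, T_le h0 p2, hx1]
      · -- backwards use is too expensive
        have h1 := T_le h0 p1
        rw [hx00] at h1
        linarith [T_le h0 p2, T_triangle h0 (γ (-1)) w z,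
          hz1]
    · obtain ⟨u, v, p1, p2, he, ha, hsp⟩ := edge_split t e q hu
      rw [hq, hte] at hsp
      rcases (edgeOf_eq_iff ha hadj).1 he with ⟨rfl, rfl⟩ | ⟨rfl, rfl⟩
      · refine .inr (le_antisymm ?_ ?_)
        · have h1 := T_triangle h0 w (γ (-1)) z
          rw [hz1, T_comm t w (γ (-1))] at h1
          linarith
        · have h1 := T_le h0 p1
          rw [T_comm t w (γ (-1))] at h1
          linarith [T_le h0 p2, hz0]
      · have h2 := T_le h0 p2
        rw [hz1] at h2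
        linarith [T_le h0 p1, T_triangle h0 x w (γ 0),
          hx00]
  rcases frequently_or_distrib.1 hev.frequently with h | h
  · exact .inl (tendsto_nhds_unique_of_frequently_eq hA tendsto_const_nhds h)
  · exact .inr (tendsto_nhds_unique_of_frequently_eq hB tendsto_const_nhds h)

/-- A walk realising the decrease of a Busemann function, followed by a descending path, is a
descending path. -/
theorem descend_walk (h0 : ∀ e, 0 ≤ t e) {B : V → ℝ} (hB : IsBus t B) {x w : V}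
    (p : grid.Walk x w) (hp : plen t p ≤ B x - B w) (v0 : ℕ → V) (h00 : v0 0 = w)
    (hadj : ∀ n, Adj (v0 n) (v0 (n + 1)))
    (hd : ∀ n, B (v0 n) = B (v0 (n + 1)) + wt t (v0 n) (v0 (n + 1))) :
    ∃ v : ℕ → V, v 0 = x ∧
      (∀ n, Adj (v n) (v (n + 1)) ∧ B (v n) = B (v (n + 1)) + wt t (v n) (v (n + 1))) ∧
      ∃ l : ℕ, ∀ n, v (l + n) = v0 n := by
  induction p with
  | nil => exact ⟨v0, h00, fun n => ⟨hadj n, hd n⟩, 0, fun n => by simp⟩
  | @cons a b c h q ih =>
    rw [plen_cons] at hp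
    have h1 := (abs_le.1 (hB.lip a b)).2.trans (T_le_wt h0 h)
    have h2 := (abs_le.1 (hB.lip b c)).2.trans (T_le h0 q)
    obtain ⟨v, hv0, hv, l, hl⟩ := ih (by linarith) h00
    refine ⟨fun n => if n = 0 then a else v (n - 1), rfl, fun n => ?_, l + 1, fun n => ?_⟩
    · rcases n with _ | n
      · simp only [if_pos, if_neg (Nat.succ_ne_zero 0), hv0]
        exact ⟨h, by linarith⟩
      · simpa using hv n
    · simp [Nat.add_right_comm l 1 n, hl n]

/-- Mixture: the backward end of `γ`, a geodesic to `w`, and the forward end of `γ'` from `w`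
form a directed line, which by agreement is `γ'`. -/
theorem mixture (hN : Nice M κ t) (hκ : 0 < κ) {γ γ' : ℤ → V} (hγ : IsBigeodesic t γ)
    (hγd : HasDirections γ) (hγ' : IsBigeodesic t γ') (hγ'd : HasDirections γ') {c : ℝ}
    (hB : ∀ z, bus t Set.univ (fwd γ' 0) z - bus t Set.univ (fwd γ 0) z = c) (k : ℤ)
    (hA : bus t Set.univ (bwd γ 0) (γ' k) = T t (γ 0) (γ' k))
    (hsum : bus t Set.univ (bwd γ 0) (γ' k) + bus t Set.univ (fwd γ 0) (γ' k) = 0) :
    ∃ j : ℤ, ∀ i : ℤ, i ≤ 0 → γ' (j + i) = γ i := by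
  classical
  have h0 := hN.good.nonneg
  set A := bus t Set.univ (bwd γ 0) with hAdef
  set B := bus t Set.univ (fwd γ 0) with hBdef
  have hA0 : A (γ 0) = 0 := by
    have := bus_zero h0 (isRayIn_bwd hγ h0 0); simpa [bwd] using this
  have hB0 : B (γ 0) = 0 := by
    have := bus_zero h0 (isRayIn_fwd hγ h0 0); simpa [fwd] using this
  obtain ⟨p, -, hp⟩ := hN.good.exists_geodesic_univ hκ (γ 0) (γ' k)
  have hBw : plen t p ≤ B (γ 0) - B (γ' k) := by rw [hp]; linarith
  have hBbus : IsBus t B := isBus_bus h0 (isRayIn_fwd hγ h0 0)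
  have hdesc : ∀ n, B (fwd γ' k n) =
      B (fwd γ' k (n + 1)) + wt t (fwd γ' k n) (fwd γ' k (n + 1)) := by
    intro n
    have e := fun m => bus_fwd_on hγ' h0 0 m
    have h1 : B (fwd γ' k n) - B (fwd γ' k (n + 1)) =
        bus t Set.univ (fwd γ' 0) (fwd γ' k n) - bus t Set.univ (fwd γ' 0) (fwd γ' k (n + 1)) := by
      linarith [hB (fwd γ' k n), hB (fwd γ' k (n + 1))]
    have h2 : ∀ m : ℤ, bus t Set.univ (fwd γ' 0) (γ' m) - bus t Set.univ (fwd γ' 0) (γ' (m + 1)) =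
        wt t (γ' m) (γ' (m + 1)) := by
      intro m
      rw [e, e]
      rcases lt_trichotomy m (-1) with hm | rfl | hm
      · rw [if_neg (by omega), if_neg (by omega),
          seg_add (show m ≤ m + 1 by omega) (show m + 1 ≤ 0 by omega)]
        have := seg_succ (t := t) (γ := γ') (le_refl m)
        simp [seg] at this ⊢
        linarith
      · have := seg_succ (t := t) (γ := γ') (le_refl (-1 : ℤ))
        simp [seg] at this ⊢
        exact this
      · rw [if_pos (by omega), if_pos (by omega), seg_succ (show (0 : ℤ) ≤ m by omega)]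
        ring
    have h3 := h2 (k + n)
    simp only [fwd, Nat.cast_succ, ← add_assoc] at h1 ⊢
    linarith
  obtain ⟨v, hv0, hv, l, hvl⟩ := descend_walk h0 hBbus p hBw (fwd γ' k) (by simp [fwd])
    (fun n => by simpa [fwd, add_assoc] using hγ'.adj (k + n)) hdesc
  have hu : ∀ n, Adj (bwd γ 0 n) (bwd γ 0 (n + 1)) ∧
      A (bwd γ 0 n) = A (bwd γ 0 (n + 1)) + wt t (bwd γ 0 n) (bwd γ 0 (n + 1)) := fun n => by
    have hr := isRayIn_bwd hγ h0 0
    refine ⟨hr.adj n, ?_⟩
    rw [hAdef, bus_ray h0 hr, bus_ray h0 hr, rlen_succ]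
    ring
  obtain ⟨η, hη, hηb, hηf, -⟩ := bigeodesic_concat hN.good.pos
    (isBus_bus h0 (isRayIn_bwd hγ h0 0)) hBbus
    (fun z => by linarith [bus_line_nonneg hγ h0 0 z]) (u := bwd γ 0) (v := v)
    (by rw [hv0]; simp [bwd]) (by simp only [bwd, Nat.cast_zero, sub_zero]; linarith)
    (fun n => (hu n).1) (fun n => (hu n).2) (fun n => (hv n).1) (fun n => (hv n).2)
  have hηd : HasDirections η := by
    rw [hasDirections_iff, hηb, hηf]
    refine ⟨?_, rayDir_bwd hγd 0⟩
    obtain ⟨θ, hθ⟩ := rayDir_fwd hγ'd k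
    exact ⟨θ, rayDir_congr 0 l (fun n => by simpa [fwd] using (hvl n).symm) hθ⟩
  have hagree := agree_fwd hN hη hηd hγ' hγ'd l k fun n => by
    have := congrFun hηf (l + n)
    simp only [fwd, zero_add, Nat.cast_add] at this
    rw [this, hvl n]; rfl
  refine ⟨k - l, fun i hi => ?_⟩
  have h1 := hagree (i - l)
  have h2 := congrFun hηb (-i).toNat
  simp only [bwd, zero_sub] at h2
  rw [show -((-i).toNat : ℤ) = i by omega] at h2
  rw [show (l : ℤ) + (i - l) = i by ring, h2, show k + (i - l) = k - l + i by ring] at h1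
  exact h1.symm

/-- Rigid lines in one class enter at the same height. -/
theorem same_site (hN : Nice M κ t) (hκ : 0 < κ) {R R' : ℕ} {a b a' b' δ δ' : ℝ} {y y' : ℤ}
    {γ γ' : ℤ → V} (hδ : 0 < δ) (h : SiteLine t R a b δ y γ)
    (h' : SiteLine t R' a' b' δ' y' γ') (hb : Bd t (bwd γ' 0) (bwd γ 0))
    (hf : Bd t (fwd γ' 0) (fwd γ 0)) : y = y' := by
  obtain ⟨⟨hγ, -, -⟩, hd, ⟨he0, -, helt⟩, hR⟩ := h
  obtain ⟨⟨hγ', -, -⟩, hd', ⟨he0', -, helt'⟩, -⟩ := h'
  have h0 := hN.good.nonneg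
  have hnn := bus_line_nonneg hγ h0 0
  obtain ⟨C1, hC1⟩ := hb
  obtain ⟨C2, hC2⟩ := hf
  obtain ⟨c1, hc1⟩ := hN.matched γ hγ hd _ (isRayIn_bwd hγ' h0 0) (rayDir_bwd hd' 0)
    ⟨C1, fun z => by linarith [hnn z, (abs_le.1 (hC1 z)).1]⟩
  obtain ⟨c2, hc2⟩ := hN.matched (revLine γ) hγ.rev (hasDirections_rev hd) _
    (isRayIn_fwd hγ' h0 0) (rayDir_fwd hd' 0)
    ⟨C2, fun z => by rw [fwd_revLine, neg_zero]; linarith [hnn z, (abs_le.1 (hC2 z)).1]⟩
  simp only [bwd_revLine, neg_zero] at hc2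
  have hc : c1 + c2 = 0 := by
    linarith [hc1 (γ' 0), hc2 (γ' 0), hnn (γ' 0), bus_line_zero hγ' h0 0 0,
      hc1 (γ 0), hc2 (γ 0), bus_line_zero hγ h0 0 0, bus_line_nonneg hγ' h0 0 (γ 0)]
  have hw : bus t Set.univ (bwd γ 0) (γ' 0) + bus t Set.univ (fwd γ 0) (γ' 0) = 0 := by
    linarith [hc1 (γ' 0), hc2 (γ' 0), bus_line_zero hγ' h0 0 0]
  suffices key : ∃ j : ℤ, ∀ i, γ' (j + i) = γ i by
    obtain ⟨j, hj⟩ := key
    rcases lt_trichotomy j 0 with hlt | rfl | hgt
    · have h1 := helt' j hlt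
      have h2 := hj 0
      rw [add_zero] at h2
      simp [h2, he0] at h1
    · have h2 := hj 0
      simp only [add_zero, he0, he0', Prod.mk.injEq] at h2
      exact h2.2.symm
    · have h1 := helt (-j) (by omega)
      have h2 := hj (-j)
      rw [add_neg_cancel, he0'] at h2
      simp [← h2] at h1
  rcases zero_set hN hκ hδ hγ hR hw with hA | hB
  · obtain ⟨j, hj⟩ := mixture hN hκ hγ hd hγ' hd' hc2 0 hA hw
    -- agreement on a backward ray
    have hback := agree_fwd hN hγ'.rev (hasDirections_rev hd') hγ.rev (hasDirections_rev hd)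
      (-j) 0 fun n => by simpa [revLine, sub_eq_add_neg, add_comm, neg_add_rev] using hj (-n) (by omega)
    exact ⟨j, fun i => by simpa [revLine, add_comm, neg_add_rev] using hback (-i)⟩
  · -- the reversed lines, re-indexed at the entrance edge
    set ρ := reLine (revLine γ) 1 with hρ
    have hρl : IsBigeodesic t ρ := hγ.rev.reindex 1
    have e1 : fwd ρ 0 = bwd γ (-1) := by funext n; simp [hρ, fwd, bwd, reLine, revLine]; congr 1
    have e2 : bwd ρ 0 = fwd γ (-1) := by funext n; simp [hρ, fwd, bwd, reLine, revLine]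
    have e3 : ρ 0 = γ (-1) := by simp [hρ, reLine, revLine]
    have hw1 : seg t γ (-1) 0 = wt t (γ (-1)) (γ 0) := by
      have := seg_succ (t := t) (γ := γ) (le_refl (-1 : ℤ))
      simpa [seg] using this
    have sA : ∀ z, bus t Set.univ (bwd γ (-1)) z = bus t Set.univ (bwd γ 0) z + seg t γ (-1) 0 := by
      intro z
      have := bus_tail h0 (isRayIn_bwd hγ h0 0) (connIn_univ _ z) 1
      rw [rlen_bwd] at this
      convert this using 2
      · funext n; simp [Rays.tail, bwd]; congr 1; ring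
      · simp
    have sB : ∀ z, bus t Set.univ (fwd γ (-1)) z = bus t Set.univ (fwd γ 0) z - seg t γ (-1) 0 := by
      intro z
      have := bus_tail h0 (isRayIn_fwd hγ h0 (-1)) (connIn_univ _ z) 1
      rw [rlen_fwd] at this
      have e : Rays.tail 1 (fwd γ (-1)) = fwd γ 0 := by funext n; simp [Rays.tail, fwd]
      rw [e] at this
      simp at this
      linarith
    obtain ⟨j, hj⟩ := mixture hN hκ hρl (hasDirections_reLine (hasDirections_rev hd) 1) hγ'.rev
      (hasDirections_rev hd') (c := c1 - seg t γ (-1) 0)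
      (fun z => by rw [e1, fwd_revLine, neg_zero, sA]; linarith [hc1 z]) 0
      (by rw [e2, e3, sB]; simp only [revLine, neg_zero]; linarith)
      (by rw [e1, e2, sA, sB]; simp only [revLine, neg_zero]; linarith)
    have hfor := agree_fwd hN hγ' hd' hγ hd (-j) (-1) fun n => by
      have := hj (-(n : ℤ)) (by omega)
      simp only [hρ, revLine, reLine] at this
      convert this using 2 <;> ring
    exact ⟨-j + 1, fun i => by
      have := hfor (i + 1)
      convert this using 2 <;> ring⟩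

/-! ### Bounded jumps give one class -/

theorem connIn_lefE0 {K : ℤ} {x y : V} (hx : x.1 ≤ K) (hy : y.1 ≤ K) :
    ConnIn (lefE 0 K) x y := by
  obtain ⟨p, hp⟩ := Straight.connIn_strip (k := 0) (A := min x.1 y.1 - 1) (B := K) (.inl rfl)
    (by omega) (x := x) (y := y) (by simp [lev]) (by simpa [lev]) (by simp [lev])
    (by simpa [lev])
  exact ⟨p, hp.mono Set.inter_subset_right⟩

theorem mem_lefE0 {K : ℤ} {x y : V} (h : Adj x y) :
    edgeOf x y ∈ lefE 0 K ↔ x.1 ≤ K ∧ y.1 ≤ K := by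
  rcases ends_edgeOf h with ⟨h1, h2⟩ | ⟨h1, h2⟩ <;>
    simp [lefE, lev, h1, h2, and_comm]

theorem mem_rigE0 {K : ℤ} {x y : V} (h : Adj x y) :
    edgeOf x y ∈ rigE 0 K ↔ K ≤ x.1 ∧ K ≤ y.1 := by
  rcases ends_edgeOf h with ⟨h1, h2⟩ | ⟨h1, h2⟩ <;>
    simp [rigE, lev, h1, h2, and_comm]

theorem connIn_rigE0 {K : ℤ} {x y : V} (hx : K ≤ x.1) (hy : K ≤ y.1) :
    ConnIn (rigE 0 K) x y := by
  obtain ⟨p, hp⟩ := Straight.connIn_strip (k := 0) (A := K) (B := max x.1 y.1 + 1) (.inl rfl)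
    (by omega) (x := x) (y := y) (by simpa [lev]) (by simp [lev]; omega) (by simpa [lev])
    (by simp [lev]; omega)
  exact ⟨p, hp.mono Set.inter_subset_left⟩

theorem adj_fst {x y : V} (h : Adj x y) : x.1 ≤ y.1 + 1 ∧ y.1 ≤ x.1 + 1 := by
  rcases adj_iff.1 h with ⟨h1, -⟩ | ⟨-, h1 | h1⟩ <;> omega

/-- A walk from the left of a column to its right has a first visit of the column. -/
theorem split_left (t : Conf) {K : ℤ} {x z : V} (p : grid.Walk x z) (hx : x.1 ≤ K)
    (hz : K ≤ z.1) : ∃ (a : V) (p1 : grid.Walk x a) (p2 : grid.Walk a z),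
      a.1 = K ∧ WalkIn (lefE 0 K) p1 ∧ plen t p = plen t p1 + plen t p2 := by
  induction p with
  | nil => exact ⟨_, .nil, .nil, le_antisymm hx hz, walkIn_nil, by simp⟩
  | @cons a b c h q ih =>
    by_cases ha : a.1 = K
    · exact ⟨a, .nil, .cons h q, ha, walkIn_nil, by simp⟩
    · have hb : b.1 ≤ K := by
        have := adj_fst h; omega
      obtain ⟨w, p1, p2, h1, h2, h3⟩ := ih hb hz
      exact ⟨w, .cons h p1, p2, h1, (walkIn_cons_iff _ _).2 ⟨(mem_lefE0 h).2 ⟨hx, hb⟩, h2⟩,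
        by simp [h3]; ring⟩

/-- A walk from the right of a column to its left has a first visit of the column. -/
theorem split_right (t : Conf) {K : ℤ} {x z : V} (p : grid.Walk x z) (hx : K ≤ x.1)
    (hz : z.1 ≤ K) : ∃ (a : V) (p1 : grid.Walk x a) (p2 : grid.Walk a z),
      a.1 = K ∧ WalkIn (rigE 0 K) p1 ∧ plen t p = plen t p1 + plen t p2 := by
  induction p with
  | nil => exact ⟨_, .nil, .nil, le_antisymm hz hx, walkIn_nil, by simp⟩
  | @cons a b c h q ih =>
    by_cases ha : a.1 = K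
    · exact ⟨a, .nil, .cons h q, ha, walkIn_nil, by simp⟩
    · have hb : K ≤ b.1 := by
        have := adj_fst h; omega
      obtain ⟨w, p1, p2, h1, h2, h3⟩ := ih hb hz
      exact ⟨w, .cons h p1, p2, h1, (walkIn_cons_iff _ _).2 ⟨(mem_rigE0 h).2 ⟨hx, hb⟩, h2⟩,
        by simp [h3]; ring⟩

theorem eventually_far {r : ℕ → V} (hinj : Function.Injective r) {a b : ℝ} {σ : ℤ} {R : ℕ}
    (hσ : σ = 1 ∨ σ = -1) (hc : InCone 0 σ a b R r) (hr0 : (r 0).1 = 0) (K : ℤ) :
    ∀ᶠ n in atTop, K < σ * (r n).1 := by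
  obtain ⟨N, hN⟩ : ∃ N : ℕ, max |a| |b| * K ≤ N := exists_nat_ge _
  have hfin : {x : V | |x.1| ≤ K ∧ |x.2 - (r 0).2| ≤ N}.Finite := by
    refine (Set.finite_Icc ((-K, (r 0).2 - N) : V) (K, (r 0).2 + N)).subset fun x hx => ?_
    obtain ⟨h1, h2⟩ := hx
    rw [abs_le] at h1 h2
    exact ⟨⟨h1.1, by show (r 0).2 - (N : ℤ) ≤ x.2; omega⟩,
      ⟨h1.2, by show x.2 ≤ (r 0).2 + (N : ℤ); omega⟩⟩
  have := (hfin.preimage hinj.injOn).eventually_cofinite_notMem
  rw [Nat.cofinite_eq_atTop] at this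
  filter_upwards [this, eventually_ge_atTop R] with n hn hnR
  obtain ⟨h1, h2, h3⟩ := hc n hnR
  simp only [lev, zero_mul, add_zero, hr0, sub_zero] at h1 h2 h3
  by_contra hcon
  rw [not_lt] at hcon
  refine hn ⟨by rcases hσ with rfl | rfl <;> rw [abs_le] <;> omega, ?_⟩
  have hcR : ((σ * (r n).1 : ℤ) : ℝ) ≤ K := by exact_mod_cast hcon
  have hc0 : (0 : ℝ) < ((σ * (r n).1 : ℤ) : ℝ) := by exact_mod_cast h1
  have hK : |((σ * ((r n).2 - (r 0).2) : ℤ) : ℝ)| ≤ max |a| |b| * K := by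
    refine le_trans ?_ (mul_le_mul_of_nonneg_left hcR (le_trans (abs_nonneg a) (le_max_left _ _)))
    rw [abs_le]
    constructor
    · nlinarith [neg_abs_le a, le_max_left |a| |b|]
    · nlinarith [le_abs_self b, le_max_right |a| |b|]
  have hZ : |σ * ((r n).2 - (r 0).2)| ≤ (N : ℤ) := by exact_mod_cast hK.trans hN
  rcases hσ with rfl | rfl <;> simpa [abs_neg, abs_sub_comm] using hZ

theorem lftIdx_spec {γ : ℤ → V} {a b : ℝ} {R : ℕ} (h : ConeLine t 0 a b R γ)
    (h00 : (γ 0).1 = 0) {L : ℤ} (hL : 0 ≤ L) :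
    lftIdx L γ ≤ 0 ∧ (γ (lftIdx L γ)).1 = -L ∧ ∀ i, i ≤ lftIdx L γ → (γ i).1 ≤ -L := by
  obtain ⟨hγ, -, hb⟩ := h
  have hev := eventually_far (injective_bwd hγ.inj 0) (.inr rfl) hb (by simpa [bwd] using h00) L
  obtain ⟨N, hN⟩ := eventually_atTop.1 hev
  have hbdd : BddBelow {i | -L ≤ (γ i).1} := ⟨-(N : ℤ), fun i hi => by
    by_contra hcon
    have := hN (-i).toNat (by omega)
    simp only [bwd, zero_sub] at this
    rw [show -((-i).toNat : ℤ) = i by omega] at this
    simp only [Set.mem_ofPred_eq] at hi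
    omega⟩
  have hne : {i | -L ≤ (γ i).1}.Nonempty := ⟨0, by simp [h00, hL]⟩
  have hmem : -L ≤ (γ (lftIdx L γ)).1 := Int.csInf_mem hne hbdd
  have hlow : ∀ i, i < lftIdx L γ → (γ i).1 < -L := fun i hi => not_le.1 fun hc =>
    (not_lt.2 (csInf_le hbdd hc)) hi
  refine ⟨csInf_le hbdd (by simp [h00, hL]), ?_, fun i hi => ?_⟩
  · have h1 := hlow (lftIdx L γ - 1) (by omega)
    have h2 := hγ.adj (lftIdx L γ - 1)
    rw [sub_add_cancel] at h2
    have := adj_fst h2
    omega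
  · rcases hi.eq_or_lt with rfl | hi
    · have h1 := hlow (lftIdx L γ - 1) (by omega)
      have h2 := hγ.adj (lftIdx L γ - 1)
      rw [sub_add_cancel] at h2
      have := adj_fst h2
      omega
    · exact (hlow i hi).le

theorem rgtIdx_spec {γ : ℤ → V} {a b : ℝ} {R : ℕ} (h : ConeLine t 0 a b R γ)
    (h00 : (γ 0).1 = 0) {L : ℤ} (hL : 0 ≤ L) :
    0 ≤ rgtIdx L γ ∧ (γ (rgtIdx L γ)).1 = L ∧ ∀ i, rgtIdx L γ ≤ i → L ≤ (γ i).1 := by
  obtain ⟨hγ, hf, -⟩ := h
  have hev := eventually_far (injective_fwd hγ.inj 0) (.inl rfl) hf (by simpa [fwd] using h00) L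
  obtain ⟨N, hN⟩ := eventually_atTop.1 hev
  have hbdd : BddAbove {i | (γ i).1 ≤ L} := ⟨(N : ℤ), fun i hi => by
    by_contra hcon
    have := hN i.toNat (by omega)
    simp only [fwd, zero_add, one_mul] at this
    rw [show (i.toNat : ℤ) = i by omega] at this
    simp only [Set.mem_ofPred_eq] at hi
    omega⟩
  have hne : {i | (γ i).1 ≤ L}.Nonempty := ⟨0, by simp [h00, hL]⟩
  have hmem : (γ (rgtIdx L γ)).1 ≤ L := Int.csSup_mem hne hbdd
  have hhigh : ∀ i, rgtIdx L γ < i → L < (γ i).1 := fun i hi => not_le.1 fun hc =>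
    (not_lt.2 (le_csSup hbdd hc)) hi
  have heq : (γ (rgtIdx L γ)).1 = L := by
    have h1 := hhigh (rgtIdx L γ + 1) (by omega)
    have := adj_fst (hγ.adj (rgtIdx L γ))
    omega
  refine ⟨le_csSup hbdd (by simp [h00, hL]), heq, fun i hi => ?_⟩
  rcases hi.eq_or_lt with rfl | hi
  · exact heq.ge
  · exact (hhigh i hi).le

theorem isRayIn_lTail (h0 : ∀ e, 0 ≤ t e) {γ : ℤ → V} {a b : ℝ} {R : ℕ}
    (h : ConeLine t 0 a b R γ) (h00 : (γ 0).1 = 0) {L : ℤ} (hL : 0 ≤ L) :
    IsRayIn t (lefE 0 (-L)) (lTail L γ) := by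
  obtain ⟨-, -, hle⟩ := lftIdx_spec h h00 hL
  refine IsRayIn.mono_set h0 (isRayIn_bwd h.1 h0 _) fun i => ?_
  exact (mem_lefE0 ((isRayIn_bwd h.1 h0 _).adj i)).2
    ⟨hle _ (by omega), hle _ (by omega)⟩

theorem isRayIn_rTail (h0 : ∀ e, 0 ≤ t e) {γ : ℤ → V} {a b : ℝ} {R : ℕ}
    (h : ConeLine t 0 a b R γ) (h00 : (γ 0).1 = 0) {L : ℤ} (hL : 0 ≤ L) :
    IsRayIn t (rigE 0 L) (rTail L γ) := by
  obtain ⟨-, -, hle⟩ := rgtIdx_spec h h00 hL
  refine IsRayIn.mono_set h0 (isRayIn_fwd h.1 h0 _) fun i => ?_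
  exact (mem_rigE0 ((isRayIn_fwd h.1 h0 _).adj i)).2
    ⟨hle _ (by omega), hle _ (by omega)⟩

theorem bus_univ_le (h0 : ∀ e, 0 ≤ t e) {S : Set Edge} {r : ℕ → V} (hr : IsRayIn t S r)
    (hr' : IsRayIn t Set.univ r) {z : V} (hz : ConnIn S (r 0) z) :
    bus t Set.univ r z ≤ bus t S r z :=
  le_bus fun n => (bus_le h0 hr' (connIn_univ _ z) n).trans
    (by linarith [TS_mono h0 (Set.subset_univ S) (ConnIn.trans (hr.conn n 0) hz)])

theorem crossed_of_bounded (h0 : ∀ e, 0 ≤ t e) {γ γ' : ℤ → V} {a b a' b' : ℝ} {R R' : ℕ}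
    (h : ConeLine t 0 a b R γ) (h' : ConeLine t 0 a' b' R' γ') (h00 : (γ 0).1 = 0)
    (h00' : (γ' 0).1 = 0) {L : ℤ} (hL : 0 ≤ L) {D : ℝ}
    (hD : ∀ s : ℤ, |bus t (lefE 0 (-L)) (lTail L γ) (-L, s)
      - bus t (lefE 0 (-L)) (lTail L γ') (-L, s)| ≤ D) :
    ∃ C : ℝ, ∀ z, -C ≤ bus t Set.univ (bwd γ' 0) z + bus t Set.univ (fwd γ 0) z := by
  obtain ⟨hl0, hlc, hlle⟩ := lftIdx_spec h h00 hL
  obtain ⟨hl0', hlc', hlle'⟩ := lftIdx_spec h' h00' hL
  obtain ⟨hr0, hrc, hrle⟩ := rgtIdx_spec h h00 hL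
  have hA := isRayIn_bwd h.1 h0 0
  have hA' := isRayIn_bwd h'.1 h0 0
  have hB := isRayIn_fwd h.1 h0 0
  have hAl := isRayIn_lTail h0 h h00 hL
  have hAl' := isRayIn_lTail h0 h' h00' hL
  have hBr := isRayIn_rTail h0 h h00 hL
  obtain ⟨l, hl⟩ : ∃ l : ℕ, lftIdx L γ = -(l : ℤ) := ⟨(-lftIdx L γ).toNat, by omega⟩
  obtain ⟨l', hl'⟩ : ∃ l' : ℕ, lftIdx L γ' = -(l' : ℤ) := ⟨(-lftIdx L γ').toNat, by omega⟩
  obtain ⟨r, hr⟩ : ∃ r : ℕ, rgtIdx L γ = (r : ℤ) := ⟨(rgtIdx L γ).toNat, by omega⟩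
  have el : lTail L γ = Rays.tail l (bwd γ 0) := by
    funext n; simp only [lTail, Rays.tail, bwd, hl]; congr 1; push_cast; ring
  have el' : lTail L γ' = Rays.tail l' (bwd γ' 0) := by
    funext n; simp only [lTail, Rays.tail, bwd, hl']; congr 1; push_cast; ring
  have er : rTail L γ = Rays.tail r (fwd γ 0) := by
    funext n; simp only [rTail, Rays.tail, fwd, hr]; congr 1; push_cast; ring
  refine ⟨D + rlen t (bwd γ' 0) l' + rlen t (bwd γ 0) l + 2 * rlen t (fwd γ 0) r, fun w => ?_⟩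
  -- in the limit along the two tails
  have hlim := (tendsto_bus h0 (isRayIn_tail hA' l') (connIn_univ _ w)).add
    (tendsto_bus h0 (isRayIn_tail hB r) (connIn_univ _ w))
  rw [bus_tail h0 hA' (connIn_univ _ w), bus_tail h0 hB (connIn_univ _ w)] at hlim
  have hK : -(D + rlen t (bwd γ 0) l + rlen t (fwd γ 0) r) ≤
      bus t Set.univ (bwd γ' 0) w + rlen t (bwd γ' 0) l' +
        (bus t Set.univ (fwd γ 0) w + rlen t (fwd γ 0) r) := by
    refine ge_of_tendsto hlim (Eventually.of_forall fun n => ?_)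
    set x := Rays.tail l' (bwd γ' 0) n with hx
    set z := Rays.tail r (fwd γ 0) n with hz
    have hxl : x = lTail L γ' n := by rw [el']
    have hzr : z = rTail L γ n := by rw [er]
    have hxc : x.1 ≤ -L := by
      rw [hxl]; exact hlle' _ (by omega)
    have hzc : L ≤ z.1 := by
      rw [hzr]; exact hrle _ (by omega)
    suffices hp : rlen t (lTail L γ') n + rlen t (rTail L γ) n -
        (D + rlen t (bwd γ 0) l + rlen t (fwd γ 0) r) ≤ T t x z by
      rw [el', er] at hp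
      have h3 := T_triangle h0 x w z
      simp only [← T_eq_TS]
      rw [T_comm t z w]
      linarith
    refine le_T fun p => ?_
    obtain ⟨u, p1, p2, hu, hp1, hs⟩ := split_left t p hxc (by omega : -L ≤ z.1)
    obtain ⟨v, q1, q2, hv, hq1, hs'⟩ := split_right t p2.reverse hzc (by omega : u.1 ≤ L)
    rw [plen_reverse] at hs'
    have hcu' : ConnIn (lefE 0 (-L)) (lTail L γ' 0) u :=
      connIn_lefE0 (hlle' _ (by simp)) hu.le
    have hcu : ConnIn (lefE 0 (-L)) (lTail L γ 0) u :=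
      connIn_lefE0 (hlle _ (by simp)) hu.le
    have hcv : ConnIn (rigE 0 L) (rTail L γ 0) v :=
      connIn_rigE0 (hrle _ (by simp)) hv.ge
    have b1 : bus t (lefE 0 (-L)) (lTail L γ') u + rlen t (lTail L γ') n ≤ plen t p1 := by
      have := bus_le h0 hAl' hcu' n
      rw [← hxl] at this
      linarith [TS_le h0 hp1]
    have b2 : bus t (rigE 0 L) (rTail L γ) v + rlen t (rTail L γ) n ≤ plen t q1 := by
      have := bus_le h0 hBr hcv n
      rw [← hzr] at this
      linarith [TS_le h0 hq1]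
    have b3 : bus t (lefE 0 (-L)) (lTail L γ) u - D ≤ bus t (lefE 0 (-L)) (lTail L γ') u := by
      have := (abs_le.1 (hD u.2)).2
      rw [show ((-L, u.2) : V) = u from Prod.ext hu.symm rfl] at this
      linarith
    have b4 : bus t Set.univ (bwd γ 0) u + rlen t (bwd γ 0) l ≤
        bus t (lefE 0 (-L)) (lTail L γ) u := by
      rw [← bus_tail h0 hA (connIn_univ _ u), ← el]
      exact bus_univ_le h0 hAl (el ▸ isRayIn_tail hA l) hcu
    have b5 : bus t Set.univ (fwd γ 0) v + rlen t (fwd γ 0) r ≤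
        bus t (rigE 0 L) (rTail L γ) v := by
      rw [← bus_tail h0 hB (connIn_univ _ v), ← er]
      exact bus_univ_le h0 hBr (er ▸ isRayIn_tail hB r) hcv
    have b6 : bus t Set.univ (fwd γ 0) u - plen t q2 ≤ bus t Set.univ (fwd γ 0) v := by
      have := (abs_le.1 ((isBus_bus h0 hB).lip u v)).2
      rw [T_comm t u v] at this
      linarith [T_le h0 q2]
    linarith [bus_line_nonneg h.1 h0 0 u, rlen_mono (r := bwd γ 0) h0 (Nat.zero_le l),
      rlen_mono (r := fwd γ 0) h0 (Nat.zero_le r),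
      show rlen t (bwd γ 0) 0 = 0 by simp [rlen], show rlen t (fwd γ 0) 0 = 0 by simp [rlen]]
  linarith

theorem crossed_of_bounded_right (h0 : ∀ e, 0 ≤ t e) {γ γ' : ℤ → V} {a b a' b' : ℝ} {R R' : ℕ}
    (h : ConeLine t 0 a b R γ) (h' : ConeLine t 0 a' b' R' γ') (h00 : (γ 0).1 = 0)
    (h00' : (γ' 0).1 = 0) {L : ℤ} (hL : 0 ≤ L) {D : ℝ}
    (hD : ∀ s : ℤ, |bus t (lefE 0 (-L)) (lTail L γ) (-L, s)
      - bus t (lefE 0 (-L)) (lTail L γ') (-L, s)| ≤ D) :
    ∃ C : ℝ, ∀ z, -C ≤ bus t Set.univ (fwd γ' 0) z + bus t Set.univ (bwd γ 0) z := by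
  obtain ⟨C, hC⟩ := crossed_of_bounded h0 h' h h00' h00 hL (D := D)
    (fun s => by rw [abs_sub_comm]; exact hD s)
  exact ⟨C, fun z => by linarith [hC z]⟩

theorem jumpAt_mono {L : ℤ} {g : ℝ} {z₀ : ℤ} {W W' : ℕ} {γ γ' : ℤ → V} (hW : W ≤ W')
    (h : JumpAt t L g z₀ W γ γ') : JumpAt t L g z₀ W' γ γ' := by
  obtain ⟨z, z', h1, h2, h3, h4⟩ := h
  exact ⟨z, z', by omega, h2, by omega, h4⟩

/-- Rigid lines through different sites have arbitrarily large jumps. -/
theorem exists_jump (hN : Nice M κ t) (hκ : 0 < κ) {R R' : ℕ} {a b a' b' δ δ' : ℝ} {y y' : ℤ}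
    {γ γ' : ℤ → V} (hδ : 0 < δ) {L : ℤ} (hL : 0 ≤ L) (h : SiteLine t R a b δ y γ)
    (h' : SiteLine t R' a' b' δ' y' γ') (hne : y ≠ y') (g : ℝ) (z₀ : ℤ) :
    ∃ W : ℕ, JumpAt t L g z₀ W γ γ' := by
  by_contra hcon
  rw [not_exists] at hcon
  have h0 := hN.good.nonneg
  have hall : ∀ z z' : ℤ, z ≤ z' →
      |lInc t L γ z z' - lInc t L γ' z z'| + |rInc t L γ z z' - rInc t L γ' z z'| < g := by
    intro z z' hz
    by_contra hge
    rw [not_lt] at hge
    exact hcon ((z₀ - z).toNat + (z' - z₀).toNat) ⟨z, z', by omega, hz, by omega, hge⟩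
  set D := fun s : ℤ => bus t (lefE 0 (-L)) (lTail L γ) (-L, s)
      - bus t (lefE 0 (-L)) (lTail L γ') (-L, s) with hDdef
  have hD : ∀ s, |D s| ≤ |D 0| + g := by
    intro s
    have key : |D s - D 0| ≤ g := by
      rcases le_total 0 s with hs | hs
      · have := hall 0 s hs
        have e : lInc t L γ 0 s - lInc t L γ' 0 s = D s - D 0 := by
          simp only [lInc, hDdef]; ring
        rw [e] at this
        linarith [abs_nonneg (rInc t L γ 0 s - rInc t L γ' 0 s)]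
      · have := hall s 0 hs
        have e : lInc t L γ s 0 - lInc t L γ' s 0 = D 0 - D s := by
          simp only [lInc, hDdef]; ring
        rw [e, abs_sub_comm] at this
        linarith [abs_nonneg (rInc t L γ s 0 - rInc t L γ' s 0)]
    linarith [abs_sub_abs_le_abs_sub (D s) (D 0)]
  have h00 : (γ 0).1 = 0 := by rw [h.2.2.1.1]
  have h00' : (γ' 0).1 = 0 := by rw [h'.2.2.1.1]
  exact hne (same_site hN hκ hδ h h'
    (bd_of_crossed hN h.1.1 h.2.1 (isRayIn_bwd h'.1.1 h0 0) (rayDir_bwd h'.2.1 0)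
      (crossed_of_bounded h0 h.1 h'.1 h00 h00' hL hD))
    (bd_of_crossed_fwd hN h.1.1 h.2.1 (isRayIn_fwd h'.1.1 h0 0) (rayDir_fwd h'.2.1 0)
      (crossed_of_bounded_right h0 h.1 h'.1 h00 h00' hL hD)))

end Vale.Agent.P158
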