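import Vale.Agent.P158.Spec4
import Vale.Agent.P158.MainClass
import Vale.Agent.P158.Gen.Law

/-!
Classes of bigeodesics without direction hypotheses: matching, uniqueness, rigidity, invariance
under finite modifications and witnesses.
-/

open MeasureTheory Filter Topology

namespace Vale.Agent.P158

open Rays

variable {M κ : ℝ} {t t' X Y : Conf}

/-- A nice configuration is nice without an upper bound. -/
theorem Nice2.gen {M κ : ℝ} {t : Conf} (h : Nice2 M κ t) : NiceG κ t :=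
  ⟨h.good.gen, h.fork, h.matched⟩

/-- Two paths whose backward ends, and whose forward ends, have Busemann functions at bounded
distance. -/
def Bd2 (t : Conf) (γ γ' : ℤ → V) : Prop :=
  Bd t (bwd γ' 0) (bwd γ 0) ∧ Bd t (fwd γ' 0) (fwd γ 0)

/-- The two paths lie in one class, in one of the two orientations. -/
def SameClass (t : Conf) (γ γ' : ℤ → V) : Prop := Bd2 t γ γ' ∨ Bd2 t γ (revLine γ')

theorem bd_refl (t : Conf) (r : ℕ → V) : Bd t r r := ⟨0, fun z => by simp⟩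

theorem bd_symm {r r' : ℕ → V} (h : Bd t r r') : Bd t r' r :=
  let ⟨C, hC⟩ := h; ⟨C, fun z => by rw [abs_sub_comm]; exact hC z⟩

theorem bd_trans {r r' r'' : ℕ → V} (h : Bd t r r') (h' : Bd t r' r'') : Bd t r r'' :=
  let ⟨C, hC⟩ := h; let ⟨C', hC'⟩ := h'
  ⟨C + C', fun z => (abs_sub_le _ _ _).trans (add_le_add (hC z) (hC' z))⟩

theorem bd2_refl (t : Conf) (γ : ℤ → V) : Bd2 t γ γ := ⟨bd_refl t _, bd_refl t _⟩

theorem bd2_symm {γ γ' : ℤ → V} (h : Bd2 t γ γ') : Bd2 t γ' γ := ⟨bd_symm h.1, bd_symm h.2⟩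

theorem bd2_trans {γ γ' γ'' : ℤ → V} (h : Bd2 t γ γ') (h' : Bd2 t γ' γ'') : Bd2 t γ γ'' :=
  ⟨bd_trans h'.1 h.1, bd_trans h'.2 h.2⟩

theorem revLine_revLine (γ : ℤ → V) : revLine (revLine γ) = γ := by
  funext i; simp [revLine]

theorem bd2_rev {γ γ' : ℤ → V} (h : Bd2 t γ γ') : Bd2 t (revLine γ) (revLine γ') := by
  refine ⟨?_, ?_⟩
  · rw [bwd_revLine, bwd_revLine, neg_zero]; exact h.2
  · rw [fwd_revLine, fwd_revLine, neg_zero]; exact h.1

theorem sameClass_refl (t : Conf) (γ : ℤ → V) : SameClass t γ γ := .inl (bd2_refl t γ)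

theorem sameClass_symm {γ γ' : ℤ → V} (h : SameClass t γ γ') : SameClass t γ' γ := by
  rcases h with h | h
  · exact .inl (bd2_symm h)
  · have := bd2_rev (bd2_symm h)
    rw [revLine_revLine] at this
    exact .inr this

theorem sameClass_trans {γ γ' γ'' : ℤ → V} (h : SameClass t γ γ') (h' : SameClass t γ' γ'') :
    SameClass t γ γ'' := by
  rcases h with h | h <;> rcases h' with h' | h'
  · exact .inl (bd2_trans h h')
  · exact .inr (bd2_trans h h')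
  · exact .inr (bd2_trans h (bd2_rev h'))
  · have := bd2_rev h'
    rw [revLine_revLine] at this
    exact .inl (bd2_trans h this)

theorem bd_fwd_shift {γ : ℤ → V} (hγ : IsBigeodesic t γ) (h0 : ∀ e, 0 ≤ t e) (i j : ℤ) :
    Bd t (fwd γ i) (fwd γ j) := by
  suffices key : ∀ i j : ℤ, i ≤ j → Bd t (fwd γ i) (fwd γ j) by
    rcases le_total i j with h | h
    · exact key i j h
    · exact bd_symm (key j i h)
  intro i j hij
  refine ⟨|rlen t (fwd γ i) (j - i).toNat|, fun z => ?_⟩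
  have h := bus_tail h0 (isRayIn_fwd hγ h0 i) (connIn_univ _ z) (j - i).toNat
  rw [show Rays.tail (j - i).toNat (fwd γ i) = fwd γ j by
    funext n; simp only [Rays.tail, fwd]; congr 1; omega] at h
  rw [h, sub_add_cancel_left, abs_neg]

theorem bd_bwd_shift {γ : ℤ → V} (hγ : IsBigeodesic t γ) (h0 : ∀ e, 0 ≤ t e) (i j : ℤ) :
    Bd t (bwd γ i) (bwd γ j) := by
  have := bd_fwd_shift hγ.rev h0 (-i) (-j)
  rwa [fwd_revLine, fwd_revLine, neg_neg, neg_neg] at this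

theorem bd2_reLine {γ : ℤ → V} (hγ : IsBigeodesic t γ) (h0 : ∀ e, 0 ≤ t e) (m : ℤ) :
    Bd2 t γ (reLine γ m) := by
  have h1 : fwd (reLine γ m) 0 = fwd γ m := by
    funext n; simp only [fwd, reLine]; congr 1; ring
  have h2 : bwd (reLine γ m) 0 = bwd γ m := by
    funext n; simp only [bwd, reLine]; congr 1; ring
  rw [Bd2, h1, h2]
  exact ⟨bd_bwd_shift hγ h0 m 0, bd_fwd_shift hγ h0 m 0⟩

/-! ### Agreement and matching -/

theorem agree_fwd2 (hN : NiceG κ t) {η γ : ℤ → V} (hη : IsBigeodesic t η)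
    (hγ : IsBigeodesic t γ) (a b : ℤ) (h : ∀ n : ℕ, η (a + n) = γ (b + n)) (i : ℤ) :
    η (a + i) = γ (b + i) := by
  suffices key : ∀ m : ℕ, ∀ n : ℕ, η (a - m + n) = γ (b - m + n) by
    rcases le_total 0 i with hi | hi
    · simpa [Int.toNat_of_nonneg hi] using h i.toNat
    · simpa [show ((-i).toNat : ℤ) = -i by omega] using key (-i).toNat 0
  intro m
  induction m with
  | zero => simpa using h
  | succ m ih =>
    intro n
    rcases n with _ | n
    · by_contra hne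
      refine hN.fork ⟨reLine η (a - m), reLine γ (b - m), hη.reindex _, hγ.reindex _,
        fun j => ?_, ?_⟩
      · simpa [reLine, add_comm (j : ℤ)] using ih j
      · simp only [reLine]
        intro he; apply hne
        push_cast
        rw [show a - ((m : ℤ) + 1) + 0 = -1 + (a - m) by ring,
          show b - ((m : ℤ) + 1) + 0 = -1 + (b - m) by ring]
        exact he
    · have := ih n
      rw [show a - ((m + 1 : ℕ) : ℤ) + ((n + 1 : ℕ) : ℤ) = a - m + n by push_cast; ring,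
        show b - ((m + 1 : ℕ) : ℤ) + ((n + 1 : ℕ) : ℤ) = b - m + n by push_cast; ring]
      exact this

theorem match_bwd (hN : NiceG κ t) {γ : ℤ → V} {r : ℕ → V} (hγ : IsBigeodesic t γ)
    (hr : IsRayIn t Set.univ r)
    (hC : ∃ C : ℝ, ∀ z, -C ≤ bus t Set.univ r z + bus t Set.univ (fwd γ 0) z) :
    ∃ c : ℝ, ∀ z, bus t Set.univ r z - bus t Set.univ (bwd γ 0) z = c :=
  hN.matched γ hγ r hr hC

theorem match_fwd (hN : NiceG κ t) {γ : ℤ → V} {r : ℕ → V} (hγ : IsBigeodesic t γ)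
    (hr : IsRayIn t Set.univ r)
    (hC : ∃ C : ℝ, ∀ z, -C ≤ bus t Set.univ r z + bus t Set.univ (bwd γ 0) z) :
    ∃ c : ℝ, ∀ z, bus t Set.univ r z - bus t Set.univ (fwd γ 0) z = c := by
  obtain ⟨c, hc⟩ := hN.matched (revLine γ) hγ.rev r hr (by simpa [fwd_revLine] using hC)
  exact ⟨c, fun z => by simpa [bwd_revLine] using hc z⟩

theorem bd2_exact (hN : NiceG κ t) {γ γ' : ℤ → V} (hγ : IsBigeodesic t γ)
    (hγ' : IsBigeodesic t γ') (h : Bd2 t γ γ') :
    ∃ c : ℝ, (∀ z, bus t Set.univ (bwd γ' 0) z - bus t Set.univ (bwd γ 0) z = c) ∧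
      ∀ z, bus t Set.univ (fwd γ' 0) z - bus t Set.univ (fwd γ 0) z = -c := by
  have h0 := hN.good.nonneg
  obtain ⟨⟨C1, hC1⟩, C2, hC2⟩ := h
  have hnn := bus_line_nonneg hγ h0 0
  obtain ⟨c, hc⟩ := match_bwd hN hγ (isRayIn_bwd hγ' h0 0)
    ⟨C1, fun z => by linarith [hnn z, (abs_le.1 (hC1 z)).1]⟩
  obtain ⟨c', hc'⟩ := match_fwd hN hγ (isRayIn_fwd hγ' h0 0)
    ⟨C2, fun z => by linarith [hnn z, (abs_le.1 (hC2 z)).1]⟩
  refine ⟨c, hc, fun z => ?_⟩
  linarith [hc' z, hc (γ 0), hc' (γ 0), hc (γ' 0), hc' (γ' 0), bus_line_zero hγ h0 0 0,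
    bus_line_zero hγ' h0 0 0, hnn (γ' 0), bus_line_nonneg hγ' h0 0 (γ 0)]

/-! ### Descending paths -/

/-- Any two vertices are joined by a geodesic. -/
theorem exists_geo (hG : GoodG κ t) (hκ : 0 < κ) (x y : V) :
    ∃ p : grid.Walk x y, p.IsPath ∧ plen t p = T t x y := by
  obtain ⟨p, h1, -, h3⟩ :=
    exists_geodesic_of_lenBound hG.nonneg hκ hG.lenBound (connIn_univ x y) (S := Set.univ)
  exact ⟨p, h1, h3.trans (T_eq_TS t x y).symm⟩

theorem descend_fwd {γ : ℤ → V} (hγ : IsBigeodesic t γ) (h0 : ∀ e, 0 ≤ t e) (i : ℤ) (n : ℕ) :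
    bus t Set.univ (fwd γ 0) (fwd γ i n) =
      bus t Set.univ (fwd γ 0) (fwd γ i (n + 1)) + wt t (fwd γ i n) (fwd γ i (n + 1)) := by
  have e := fun m => bus_fwd_on hγ h0 0 m
  simp only [fwd, Nat.cast_succ, ← add_assoc]
  generalize i + (n : ℤ) = m
  show bus t Set.univ (fwd γ 0) (γ m) = bus t Set.univ (fwd γ 0) (γ (m + 1)) + _
  rw [e, e]
  rcases lt_trichotomy m (-1) with hm | rfl | hm
  · rw [if_neg (by omega), if_neg (by omega),
      seg_add (show m ≤ m + 1 by omega) (show m + 1 ≤ 0 by omega)]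
    have := seg_succ (t := t) (γ := γ) (le_refl m)
    simp [seg] at this ⊢
    linarith
  · have := seg_succ (t := t) (γ := γ) (le_refl (-1 : ℤ))
    simp [seg] at this ⊢
    exact this
  · rw [if_pos (by omega), if_pos (by omega), seg_succ (show (0 : ℤ) ≤ m by omega)]
    ring

theorem descend_bwd {γ : ℤ → V} (hγ : IsBigeodesic t γ) (h0 : ∀ e, 0 ≤ t e) (i : ℤ) (n : ℕ) :
    bus t Set.univ (bwd γ 0) (bwd γ i n) =
      bus t Set.univ (bwd γ 0) (bwd γ i (n + 1)) + wt t (bwd γ i n) (bwd γ i (n + 1)) := by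
  have := descend_fwd hγ.rev h0 (-i) n
  simpa [fwd_revLine] using this

/-- Lines of one class sharing a vertex are equal up to re-indexing. -/
theorem line_unique (hN : NiceG κ t) {γ γ' : ℤ → V} (hγ : IsBigeodesic t γ)
    (hγ' : IsBigeodesic t γ') (h : Bd2 t γ γ') {a b : ℤ} (hab : γ a = γ' b) (i : ℤ) :
    γ' (b + i) = γ (a + i) := by
  have h0 := hN.good.nonneg
  obtain ⟨c, -, hc⟩ := bd2_exact hN hγ hγ' h
  obtain ⟨η, hη, hb, hf, -⟩ := bigeodesic_concat hN.good.pos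
    (isBus_bus h0 (isRayIn_bwd hγ h0 0)) (isBus_bus h0 (isRayIn_fwd hγ h0 0))
    (fun z => by linarith [bus_line_nonneg hγ h0 0 z]) (u := bwd γ a) (v := fwd γ' b)
    (by simp [bwd, fwd, hab])
    (by simp only [bwd, Nat.cast_zero, sub_zero]; linarith [bus_line_zero hγ h0 0 a])
    (isRayIn_bwd hγ h0 a).adj (descend_bwd hγ h0 a) (isRayIn_fwd hγ' h0 b).adj
    (fun n => by linarith [descend_fwd hγ' h0 b n, hc (fwd γ' b n), hc (fwd γ' b (n + 1))])
  have h1 : ∀ j, η j = γ' (b + j) := fun j => by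
    have := agree_fwd2 hN hη hγ' 0 b (fun n => by simpa [fwd] using congrFun hf n) j
    simpa using this
  -- the backward rays agree, hence the whole lines
  have h2 : ∀ n : ℕ, revLine γ' (-b + n) = revLine γ (-a + n) := fun n => by
    have h3 := congrFun hb n
    simp only [bwd, zero_sub] at h3
    rw [h1] at h3
    simp only [revLine]
    rw [show -(-b + (n : ℤ)) = b + -(n : ℤ) by ring, h3]
    congr 1; ring
  have := agree_fwd2 hN hγ'.rev hγ.rev (-b) (-a) h2 (-i)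
  simpa [revLine, neg_add_rev, add_comm] using this

/-- If the sum of the two Busemann functions of a rigid line vanishes at `w`, then the
geodesic from one of the two ends to `w` passes the entrance edge forwards. -/
theorem zero_set2 (hG : GoodG κ t) (hκ : 0 < κ) {δ : ℝ} (hδ : 0 < δ) {γ : ℤ → V}
    (hγ : IsBigeodesic t γ) (hR : RigidEdge t δ γ) {w : V}
    (hw : bus t Set.univ (bwd γ 0) w + bus t Set.univ (fwd γ 0) w = 0) :
    bus t Set.univ (bwd γ 0) w = T t (γ 0) w ∨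
      bus t Set.univ (fwd γ 0) w = wt t (γ (-1)) (γ 0) + T t (γ (-1)) w := by
  classical
  have h0 := hG.nonneg
  set A := bus t Set.univ (bwd γ 0)
  set B := bus t Set.univ (fwd γ 0)
  set e := edgeOf (γ (-1)) (γ 0)
  have hwe : 0 < wt t (γ (-1)) (γ 0) := hG.pos _
  have hA : Tendsto (fun n : ℕ => T t (γ (-((n : ℤ) + 1))) w - seg t γ (-((n : ℤ) + 1)) 0) atTop
      (𝓝 (A w)) := by
    refine ((tendsto_bus h0 (isRayIn_bwd hγ h0 0) (connIn_univ _ w)).comp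
      (tendsto_add_atTop_nat 1)).congr fun n => ?_
    simp [rlen_bwd, bwd, ← T_eq_TS]
  have hB : Tendsto (fun n : ℕ => T t w (γ n) - seg t γ 0 n) atTop (𝓝 (B w)) := by
    refine (tendsto_bus h0 (isRayIn_fwd hγ h0 0) (connIn_univ _ w)).congr fun n => ?_
    simp [rlen_fwd, fwd, ← T_eq_TS, T_comm t w]
  have hsum := hA.add hB
  rw [hw] at hsum
  -- eventually one of the two geodesics uses the entrance edge in the forward direction
  have hev : ∀ᶠ n : ℕ in atTop,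
      T t (γ (-((n : ℤ) + 1))) w - seg t γ (-((n : ℤ) + 1)) 0 = T t (γ 0) w ∨
        T t w (γ n) - seg t γ 0 n = wt t (γ (-1)) (γ 0) + T t (γ (-1)) w := by
    filter_upwards [hsum.eventually (gt_mem_nhds (lt_min hδ hwe))] with n hn
    set x := γ (-((n : ℤ) + 1))
    set z := γ n
    obtain ⟨p, -, hp⟩ := exists_geo hG hκ x w
    obtain ⟨q, -, hq⟩ := exists_geo hG hκ w z
    have hx1 : T t x (γ (-1)) = seg t γ (-((n : ℤ) + 1)) (-1) := bigeo_T hγ h0 (by omega)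
    have hz0 : T t (γ 0) z = seg t γ 0 n := bigeo_T hγ h0 (by omega)
    have hz1 : T t (γ (-1)) z = wt t (γ (-1)) (γ 0) + seg t γ 0 n := by
      have h1 : seg t γ (-1) 0 = wt t (γ (-1)) (γ 0) := by
        have := seg_succ (t := t) (γ := γ) (le_refl (-1 : ℤ))
        simpa [seg] using this
      rw [bigeo_T hγ h0 (show (-1 : ℤ) ≤ (n : ℤ) by omega),
        seg_add (show (-1 : ℤ) ≤ 0 by omega) (show (0 : ℤ) ≤ n by omega), h1]
    have hx00 : T t x (γ 0) = seg t γ (-((n : ℤ) + 1)) 0 := bigeo_T hγ h0 (by omega)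
    have hxz : T t x z = seg t γ (-((n : ℤ) + 1)) 0 + seg t γ 0 n := by
      rw [bigeo_T hγ h0 (show -((n : ℤ) + 1) ≤ (n : ℤ) by omega),
        seg_add (show -((n : ℤ) + 1) ≤ 0 by omega) (show (0 : ℤ) ≤ n by omega)]
    have hx0 : seg t γ (-((n : ℤ) + 1)) 0 =
        seg t γ (-((n : ℤ) + 1)) (-1) + wt t (γ (-1)) (γ 0) := by
      have := seg_succ (t := t) (γ := γ) (show -((n : ℤ) + 1) ≤ -1 by omega)
      simpa using this
    have hlt : plen t (p.append q) < T t x z + min δ (wt t (γ (-1)) (γ 0)) := by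
      rw [plen_append, hp, hq, hxz]; linarith
    have huse : ¬ WalkIn {e}ᶜ p ∨ ¬ WalkIn {e}ᶜ q := by
      by_contra hcon
      rw [not_or, not_not, not_not] at hcon
      have := hR n n x z (p.append q) rfl rfl ((walkIn_append_iff _ _).2 hcon)
      linarith [min_le_left δ (wt t (γ (-1)) (γ 0))]
    have hm := min_le_right δ (wt t (γ (-1)) (γ 0))
    rw [plen_append, hp, hq] at hlt
    have hte : t e = wt t (γ (-1)) (γ 0) := rfl
    have hadj : Adj (γ (-1)) (γ 0) := by simpa using hγ.adj (-1)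
    rcases huse with hu | hu
    · obtain ⟨u, v, p1, p2, he, ha, hsp⟩ := edge_split t e p hu
      rw [hp, hte] at hsp
      rcases (edgeOf_eq_iff ha hadj).1 he with ⟨rfl, rfl⟩ | ⟨rfl, rfl⟩
      · refine .inl (le_antisymm ?_ ?_)
        · have := T_triangle h0 x (γ 0) w
          rw [hx00] at this
          linarith
        · linarith [T_le h0 p1, T_le h0 p2, hx1]
      · -- backwards use is too expensive
        have h1 := T_le h0 p1
        rw [hx00] at h1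
        linarith [T_le h0 p2, T_triangle h0 (γ (-1)) w z,
          hz1]
    · obtain ⟨u, v, p1, p2, he, ha, hsp⟩ := edge_split t e q hu
      rw [hq, hte] at hsp
      rcases (edgeOf_eq_iff ha hadj).1 he with ⟨rfl, rfl⟩ | ⟨rfl, rfl⟩
      · refine .inr (le_antisymm ?_ ?_)
        · have h1 := T_triangle h0 w (γ (-1)) z
          rw [hz1, T_comm t w (γ (-1))] at h1
          linarith
        · have h1 := T_le h0 p1
          rw [T_comm t w (γ (-1))] at h1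
          linarith [T_le h0 p2, hz0]
      · have h2 := T_le h0 p2
        rw [hz1] at h2
        linarith [T_le h0 p1, T_triangle h0 x w (γ 0),
          hx00]
  rcases frequently_or_distrib.1 hev.frequently with h | h
  · exact .inl (tendsto_nhds_unique_of_frequently_eq hA tendsto_const_nhds h)
  · exact .inr (tendsto_nhds_unique_of_frequently_eq hB tendsto_const_nhds h)

/-- A rigid line and a line avoiding its edge lie in different classes. -/
theorem rigid_class (hN : NiceG κ t) (hκ : 0 < κ) {δ : ℝ} (hδ : 0 < δ) {γ γ' : ℤ → V}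
    (hγ : IsBigeodesic t γ) (hγ' : IsBigeodesic t γ') (hR : RigidEdge t δ γ)
    (hav : ∀ i, edgeOf (γ' i) (γ' (i + 1)) ≠ edgeOf (γ (-1)) (γ 0)) :
    ¬ SameClass t γ γ' := by
  suffices key : ∀ γ' : ℤ → V, IsBigeodesic t γ' →
      (∀ i, edgeOf (γ' i) (γ' (i + 1)) ≠ edgeOf (γ (-1)) (γ 0)) → ¬ Bd2 t γ γ' by
    rintro (h | h)
    · exact key γ' hγ' hav h
    · refine key _ hγ'.rev (fun i => ?_) h
      have := hav (-(i + 1))
      rw [show -(i + 1) + 1 = -i by ring, edgeOf_comm] at this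
      exact this
  intro γ' hγ' hav h
  have h0 := hN.good.nonneg
  obtain ⟨c, hcA, hc⟩ := bd2_exact hN hγ hγ' h
  have share : ∀ a b, γ a ≠ γ' b := fun a b hab => by
    have h1 := line_unique hN hγ hγ' h hab (-1 - a)
    have h2 := line_unique hN hγ hγ' h hab (-1 - a + 1)
    rw [show a + (-1 - a) = -1 by ring] at h1
    rw [show a + (-1 - a + 1) = 0 by ring, show b + (-1 - a + 1) = b + (-1 - a) + 1 by ring] at h2
    exact hav _ (by rw [h1, h2])
  have hw : bus t Set.univ (bwd γ 0) (γ' 0) + bus t Set.univ (fwd γ 0) (γ' 0) = 0 := by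
    linarith [bus_line_zero hγ' h0 0 0, hcA (γ' 0), hc (γ' 0)]
  rcases zero_set2 hN.good hκ hδ hγ hR hw with hA | hB
  · obtain ⟨p, -, hp⟩ := exists_geo hN.good hκ (γ 0) (γ' 0)
    have hz0 : bus t Set.univ (fwd γ 0) (γ 0) = 0 := by
      simpa [fwd] using bus_zero h0 (isRayIn_fwd hγ h0 0)
    obtain ⟨v, hv0, hv, l, hl⟩ := descend_walk h0 (isBus_bus h0 (isRayIn_fwd hγ h0 0)) p
      (by rw [hp, hz0]; linarith) (fwd γ' 0) (by simp [fwd]) (isRayIn_fwd hγ' h0 0).adj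
      (fun n => by linarith [descend_fwd hγ' h0 0 n, hc (fwd γ' 0 n), hc (fwd γ' 0 (n + 1))])
    obtain ⟨η, hη, hb, hf, -⟩ := bigeodesic_concat hN.good.pos
      (isBus_bus h0 (isRayIn_bwd hγ h0 0)) (isBus_bus h0 (isRayIn_fwd hγ h0 0))
      (fun z => by linarith [bus_line_nonneg hγ h0 0 z]) (u := bwd γ 0) (v := v)
      (by rw [hv0]; simp [bwd])
      (by simp only [bwd, Nat.cast_zero, sub_zero]; linarith [bus_line_zero hγ h0 0 0])
      (isRayIn_bwd hγ h0 0).adj (descend_bwd hγ h0 0) (fun n => (hv n).1) (fun n => (hv n).2)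
    have hag := agree_fwd2 hN hη hγ' l 0 (fun n => by
      have := congrFun hf (l + n)
      simp only [fwd, zero_add, Nat.cast_add] at this
      rw [this, hl n]; simp [fwd]) (-l)
    refine share 0 (0 + -(l : ℤ)) ?_
    rw [← hag, add_neg_cancel]
    have := congrFun hb 0
    simpa [bwd] using this.symm
  · -- the backward end of `γ'` continued to `γ (-1)` and then along `γ`
    obtain ⟨p, -, hp⟩ := exists_geo hN.good hκ (γ (-1)) (γ' 0)
    have hz1 : bus t Set.univ (bwd γ 0) (γ (-1)) = -wt t (γ (-1)) (γ 0) := by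
      rw [bus_bwd_on hγ h0, if_neg (by omega)]
      have := seg_succ (t := t) (γ := γ) (le_refl (-1 : ℤ))
      simp [seg] at this ⊢
      linarith
    obtain ⟨v, hv0, hv, l, hl⟩ := descend_walk h0 (isBus_bus h0 (isRayIn_bwd hγ h0 0)) p
      (by rw [hp, hz1]; linarith) (bwd γ' 0) (by simp [bwd]) (isRayIn_bwd hγ' h0 0).adj
      (fun n => by linarith [descend_bwd hγ' h0 0 n, hcA (bwd γ' 0 n), hcA (bwd γ' 0 (n + 1))])
    obtain ⟨η, hη, hb, hf, -⟩ := bigeodesic_concat hN.good.pos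
      (isBus_bus h0 (isRayIn_fwd hγ h0 0)) (isBus_bus h0 (isRayIn_bwd hγ h0 0))
      (fun z => bus_line_nonneg hγ h0 0 z) (u := fwd γ (-1)) (v := v)
      (by rw [hv0]; simp [fwd])
      (by simp only [fwd, Nat.cast_zero, add_zero]; exact bus_line_zero hγ h0 0 (-1))
      (isRayIn_fwd hγ h0 (-1)).adj (descend_fwd hγ h0 (-1)) (fun n => (hv n).1)
      (fun n => (hv n).2)
    have hag := agree_fwd2 hN hη hγ'.rev l 0 (fun n => by
      have := congrFun hf (l + n)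
      simp only [fwd, zero_add, Nat.cast_add] at this
      rw [this, hl n]; simp [bwd, revLine]) (-l)
    refine share (-1) (-(0 + -(l : ℤ))) ?_
    show γ (-1) = revLine γ' (0 + -(l : ℤ))
    rw [← hag, add_neg_cancel]
    have := congrFun hb 0
    simpa [fwd, bwd] using this.symm

/-! ### Finite modifications -/

theorem bd_transfer (h0 : ∀ e, 0 ≤ t e) (h0' : ∀ e, 0 ≤ t' e) {F : Finset Edge}
    (hoff : ∀ e, e ∉ F → t' e = t e) {r r' : ℕ → V} (hr : IsRayIn t Set.univ r)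
    (hr2 : IsRayIn t Set.univ r') (hrt : IsRayIn t' Set.univ r) (hrt2 : IsRayIn t' Set.univ r')
    (hav : ∀ i, edgeOf (r i) (r (i + 1)) ∉ F) (hav2 : ∀ i, edgeOf (r' i) (r' (i + 1)) ∉ F)
    (h : Bd t r r') : Bd t' r r' := by
  obtain ⟨C, hC⟩ := h
  refine ⟨C + 2 * ∑ e ∈ F, |t' e - t e|, fun z => ?_⟩
  have h1 := abs_le.1 (bus_change h0 h0' hoff hr hrt hav (connIn_univ _ z))
  have h2 := abs_le.1 (bus_change h0 h0' hoff hr2 hrt2 hav2 (connIn_univ _ z))
  have h3 := abs_le.1 (hC z)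
  rw [abs_le]
  constructor <;> linarith

theorem bus_far (h0 : ∀ e, 0 ≤ t e) (h0' : ∀ e, 0 ≤ t' e) {F : Finset Edge}
    (hoff : ∀ e, e ∉ F → t' e = t e) {r r' : ℕ → V} (hr : IsRayIn t Set.univ r)
    (hlim : Tendsto (rlen t r) atTop atTop) (hr2 : IsRayIn t Set.univ r')
    (hrt2 : IsRayIn t' Set.univ r') (hav2 : ∀ i, edgeOf (r' i) (r' (i + 1)) ∉ F) {c : ℝ}
    (hc : ∀ z, bus t Set.univ r z - bus t Set.univ r' z = c) :
    ∀ᶠ n in atTop, bus t Set.univ r' (r n) ≤ bus t' Set.univ r' (r n) := by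
  obtain ⟨C, hC⟩ : ∃ C, ∀ u ∈ ends F,
      T t (r 0) u - bus t' Set.univ r' u ≤ C :=
    ⟨∑ u ∈ ends F, |T t (r 0) u - bus t' Set.univ r' u|, fun u hu => (le_abs_self _).trans
      (Finset.single_le_sum (f := fun v => |T t (r 0) v - bus t' Set.univ r' v|)
        (fun v _ => abs_nonneg _) hu)⟩
  filter_upwards [hlim.eventually_ge_atTop ((C - c) / 2)] with n hn
  have hrn : bus t Set.univ r' (r n) = -rlen t r n - c := by
    linarith [hc (r n), bus_ray h0 hr n]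
  refine le_bus fun m => ?_
  rw [rlen_congr hoff hav2]
  rw [le_sub_iff_add_le]
  refine le_TS (connIn_univ _ _) fun p _ => ?_
  rcases split_first F p.reverse (walkIn_univ _) with hq | ⟨u, hu, p1, p2, hp1, -, hs⟩
  · have h1 : plen t' p = plen t p := by
      rw [← plen_reverse, plen_congr hq fun e he => hoff e he.2, plen_reverse]
    rw [h1]
    linarith [bus_le h0 hr2 (connIn_univ _ (r n)) m, TS_le h0 (walkIn_univ p)]
  · have h1 := hs t'
    rw [plen_reverse, plen_congr hp1 fun e he => hoff e he.2] at h1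
    rw [h1]
    have a1 := T_le h0 p1
    have a2 := TS_le h0' (S := Set.univ) (walkIn_univ p2.reverse)
    rw [plen_reverse] at a2
    have a3 := bus_le h0' hrt2 (connIn_univ _ u) m
    rw [rlen_congr hoff hav2] at a3
    have a4 := T_triangle h0 (r 0) u (r n)
    rw [show T t (r 0) (r n) = rlen t r n by
      rw [T_eq_TS, ← hr.geo 0 n (Nat.zero_le n)]; simp [rlen], T_comm t u (r n)] at a4
    linarith [hC u hu]

theorem const_transfer (h0 : ∀ e, 0 ≤ t e) (h0' : ∀ e, 0 ≤ t' e) {F : Finset Edge}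
    (hoff : ∀ e, e ∉ F → t' e = t e) {r r' : ℕ → V} (hr : IsRayIn t Set.univ r)
    (hr2 : IsRayIn t Set.univ r') (hrt : IsRayIn t' Set.univ r) (hrt2 : IsRayIn t' Set.univ r')
    (hlim : Tendsto (rlen t r) atTop atTop)
    (hav : ∀ i, edgeOf (r i) (r (i + 1)) ∉ F) (hav2 : ∀ i, edgeOf (r' i) (r' (i + 1)) ∉ F)
    {c c' : ℝ} (hc : ∀ z, bus t Set.univ r z - bus t Set.univ r' z = c)
    (hc' : ∀ z, bus t' Set.univ r z - bus t' Set.univ r' z = c') : c = c' := by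
  have hlim' : Tendsto (rlen t' r) atTop atTop := hlim.congr fun n => (rlen_congr hoff hav n).symm
  obtain ⟨n, h1, h2⟩ := ((bus_far h0 h0' hoff hr hlim hr2 hrt2 hav2 hc).and
    (bus_far h0' h0 (fun e he => (hoff e he).symm) hrt hlim' hrt2 hr2 hav2 hc')).exists
  linarith [hc (r n), hc' (r n), bus_ray h0 hr n, bus_ray h0' hrt n, rlen_congr hoff hav n]

/-- Deep tails of a line are rays of a finite modification. -/
theorem line_tails (hG : Good M κ X) (hκ : 0 < κ) (h0 : ∀ e, 0 ≤ Y e) {F : Finset Edge}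
    (hoff : ∀ e, e ∉ F → Y e = X e) {γ : ℤ → V} (hγ : IsBigeodesic X γ) :
    ∃ n₀ : ℕ, ∀ n, n₀ ≤ n →
      (IsRayIn Y Set.univ (fwd γ n) ∧ IsRayIn Y Set.univ (bwd γ (-(n : ℤ)))) ∧
      (∀ i, edgeOf (fwd γ n i) (fwd γ n (i + 1)) ∉ F) ∧
      ∀ i, edgeOf (bwd γ (-(n : ℤ)) i) (bwd γ (-(n : ℤ)) (i + 1)) ∉ F := by
  have hX := hG.nonneg
  have hf := isRayIn_fwd hγ hX 0
  have hb := isRayIn_bwd hγ hX 0
  obtain ⟨N1, h1⟩ := exists_tail hX h0 hoff hf (tendsto_rlen hG hκ hf.inj hf.adj)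
  obtain ⟨N2, h2⟩ := exists_tail hX h0 hoff hb (tendsto_rlen hG hκ hb.inj hb.adj)
  refine ⟨max N1 N2, fun n hn => ?_⟩
  have e1 : Rays.tail n (fwd γ 0) = fwd γ n := by
    funext i; simp [Rays.tail, fwd]
  have e2 : Rays.tail n (bwd γ 0) = bwd γ (-(n : ℤ)) := by
    funext i; simp [Rays.tail, bwd]; congr 1; ring
  obtain ⟨a1, a2⟩ := h1 n ((le_max_left _ _).trans hn)
  obtain ⟨b1, b2⟩ := h2 n ((le_max_right _ _).trans hn)
  rw [e1] at a1 a2
  rw [e2] at b1 b2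
  exact ⟨⟨a1, b1⟩, a2, b2⟩

theorem gain_extend {γ : ℤ → V} (hle : ∀ i, wt Y (γ i) (γ (i + 1)) ≤ wt X (γ i) (γ (i + 1)))
    {a b N : ℤ} (hout : ∀ i, i < -N ∨ N ≤ i → wt Y (γ i) (γ (i + 1)) = wt X (γ i) (γ (i + 1))) :
    ∑ i ∈ Finset.Ico a b, (wt X (γ i) (γ (i + 1)) - wt Y (γ i) (γ (i + 1))) ≤
      seg X γ (-N) N - seg Y γ (-N) N := by
  rw [seg, seg, ← Finset.sum_sub_distrib]
  calc ∑ i ∈ Finset.Ico a b, (wt X (γ i) (γ (i + 1)) - wt Y (γ i) (γ (i + 1)))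
      = ∑ i ∈ (Finset.Ico a b).filter (fun i => i ∈ Finset.Ico (-N) N),
          (wt X (γ i) (γ (i + 1)) - wt Y (γ i) (γ (i + 1))) := by
        refine (Finset.sum_filter_of_ne fun i _ hne => ?_).symm
        by_contra hi
        rw [Finset.mem_Ico, not_and_or, not_le, not_lt] at hi
        exact hne (by rw [hout i hi, sub_self])
    _ ≤ _ := Finset.sum_le_sum_of_subset_of_nonneg (fun i hi => (Finset.mem_filter.1 hi).2)
        fun i _ _ => sub_nonneg.2 (hle i)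

theorem mutual_aux (hX : Nice2 M κ X) (hY : Nice2 M κ Y) (hκ : 0 < κ) {g : ℝ} (hg : 0 < g)
    {F : Finset Edge} (hoff : ∀ e, e ∉ F → Y e = X e) {γ γ' : ℤ → V}
    (hγ : IsBigeodesic X γ) (hγ' : IsBigeodesic Y γ')
    (hle : ∀ i, wt Y (γ i) (γ (i + 1)) ≤ wt X (γ i) (γ (i + 1)))
    (hle' : ∀ i, wt X (γ' i) (γ' (i + 1)) ≤ wt Y (γ' i) (γ' (i + 1)))
    (hgain : ∃ a b, g ≤ ∑ i ∈ Finset.Ico a b,
      (wt X (γ i) (γ (i + 1)) - wt Y (γ i) (γ (i + 1))))
    (hgain' : ∃ a b, g ≤ ∑ i ∈ Finset.Ico a b,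
      (wt Y (γ' i) (γ' (i + 1)) - wt X (γ' i) (γ' (i + 1))))
    {n n' : ℕ}
    (hn : (IsRayIn Y Set.univ (fwd γ n) ∧ IsRayIn Y Set.univ (bwd γ (-(n : ℤ)))) ∧
      (∀ i, edgeOf (fwd γ n i) (fwd γ n (i + 1)) ∉ F) ∧
      ∀ i, edgeOf (bwd γ (-(n : ℤ)) i) (bwd γ (-(n : ℤ)) (i + 1)) ∉ F)
    (hn' : (IsRayIn X Set.univ (fwd γ' n') ∧ IsRayIn X Set.univ (bwd γ' (-(n' : ℤ)))) ∧
      (∀ i, edgeOf (fwd γ' n' i) (fwd γ' n' (i + 1)) ∉ F) ∧
      ∀ i, edgeOf (bwd γ' (-(n' : ℤ)) i) (bwd γ' (-(n' : ℤ)) (i + 1)) ∉ F) :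
    ¬ (Bd X (bwd γ' (-(n' : ℤ))) (bwd γ (-(n : ℤ))) ∧ Bd X (fwd γ' n') (fwd γ n)) := by
  rintro ⟨hb, hf⟩
  have x0 := hX.good.nonneg
  have y0 := hY.good.nonneg
  obtain ⟨⟨pfY, pbY⟩, pfav, pbav⟩ := hn
  obtain ⟨⟨qfX, qbX⟩, qfav, qbav⟩ := hn'
  have pfX := isRayIn_fwd hγ x0 n
  have pbX := isRayIn_bwd hγ x0 (-(n : ℤ))
  have qfY := isRayIn_fwd hγ' y0 n'
  have qbY := isRayIn_bwd hγ' y0 (-(n' : ℤ))
  have hbY : Bd Y (bwd γ' (-(n' : ℤ))) (bwd γ (-(n : ℤ))) :=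
    bd_transfer x0 y0 hoff qbX pbX qbY pbY qbav pbav hb
  have hfY : Bd Y (fwd γ' n') (fwd γ n) :=
    bd_transfer x0 y0 hoff qfX pfX qfY pfY qfav pfav hf
  -- the lines re-based at their deep tails
  set m := seg X γ (-(n : ℤ)) n
  set m' := seg Y γ' (-(n' : ℤ)) n'
  have key : ∀ {Z : Conf} {γ : ℤ → V} (_ : IsBigeodesic Z γ) (_ : ∀ e, 0 ≤ Z e) (n : ℕ) (z : V),
      bus Z Set.univ (bwd γ (-(n : ℤ))) z + bus Z Set.univ (fwd γ n) z =
        bus Z Set.univ (bwd γ 0) z + bus Z Set.univ (fwd γ 0) z + seg Z γ (-(n : ℤ)) n := by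
    intro Z γ hγ h0 n z
    have h1 := bus_tail h0 (isRayIn_fwd hγ h0 0) (connIn_univ _ z) n
    have h2 := bus_tail h0 (isRayIn_bwd hγ h0 0) (connIn_univ _ z) n
    rw [show Rays.tail n (fwd γ 0) = fwd γ n by funext i; simp [Rays.tail, fwd],
      rlen_fwd, zero_add] at h1
    rw [show Rays.tail n (bwd γ 0) = bwd γ (-(n : ℤ)) by
      funext i; simp [Rays.tail, bwd]; congr 1; ring, rlen_bwd, zero_sub] at h2
    rw [h1, h2, seg_add (show -(n : ℤ) ≤ 0 by omega) (show (0 : ℤ) ≤ n by omega)]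
    ring
  -- exact constants in both configurations
  obtain ⟨c1, hc1⟩ : ∃ c, ∀ z, bus X Set.univ (bwd γ' (-(n' : ℤ))) z -
      bus X Set.univ (bwd γ (-(n : ℤ))) z = c := by
    obtain ⟨C, hC⟩ := bd_trans hb (bd_bwd_shift hγ x0 (-(n : ℤ)) 0)
    obtain ⟨c, hc⟩ := match_bwd hX.gen hγ qbX
      ⟨C, fun z => by linarith [bus_line_nonneg hγ x0 0 z, (abs_le.1 (hC z)).1]⟩
    refine ⟨c - rlen X (bwd γ 0) n, fun z => ?_⟩
    have h := bus_tail x0 (isRayIn_bwd hγ x0 0) (connIn_univ _ z) n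
    rw [show Rays.tail n (bwd γ 0) = bwd γ (-(n : ℤ)) by
      funext i; simp [Rays.tail, bwd]; congr 1; ring] at h
    linarith [hc z]
  obtain ⟨c2, hc2⟩ : ∃ c, ∀ z, bus X Set.univ (fwd γ' n') z -
      bus X Set.univ (fwd γ n) z = c := by
    obtain ⟨C, hC⟩ := bd_trans hf (bd_fwd_shift hγ x0 n 0)
    obtain ⟨c, hc⟩ := match_fwd hX.gen hγ qfX
      ⟨C, fun z => by linarith [bus_line_nonneg hγ x0 0 z, (abs_le.1 (hC z)).1]⟩
    refine ⟨c - rlen X (fwd γ 0) n, fun z => ?_⟩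
    have h := bus_tail x0 (isRayIn_fwd hγ x0 0) (connIn_univ _ z) n
    rw [show Rays.tail n (fwd γ 0) = fwd γ n by funext i; simp [Rays.tail, fwd]] at h
    linarith [hc z]
  obtain ⟨d1, hd1⟩ : ∃ c, ∀ z, bus Y Set.univ (bwd γ' (-(n' : ℤ))) z -
      bus Y Set.univ (bwd γ (-(n : ℤ))) z = c := by
    obtain ⟨C, hC⟩ := bd_trans (bd_symm hbY) (bd_bwd_shift hγ' y0 (-(n' : ℤ)) 0)
    obtain ⟨c, hc⟩ := match_bwd hY.gen hγ' pbY
      ⟨C, fun z => by linarith [bus_line_nonneg hγ' y0 0 z, (abs_le.1 (hC z)).1]⟩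
    refine ⟨rlen Y (bwd γ' 0) n' - c, fun z => ?_⟩
    have h := bus_tail y0 (isRayIn_bwd hγ' y0 0) (connIn_univ _ z) n'
    rw [show Rays.tail n' (bwd γ' 0) = bwd γ' (-(n' : ℤ)) by
      funext i; simp [Rays.tail, bwd]; congr 1; ring] at h
    linarith [hc z]
  obtain ⟨d2, hd2⟩ : ∃ c, ∀ z, bus Y Set.univ (fwd γ' n') z -
      bus Y Set.univ (fwd γ n) z = c := by
    obtain ⟨C, hC⟩ := bd_trans (bd_symm hfY) (bd_fwd_shift hγ' y0 n' 0)
    obtain ⟨c, hc⟩ := match_fwd hY.gen hγ' pfY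
      ⟨C, fun z => by linarith [bus_line_nonneg hγ' y0 0 z, (abs_le.1 (hC z)).1]⟩
    refine ⟨rlen Y (fwd γ' 0) n' - c, fun z => ?_⟩
    have h := bus_tail y0 (isRayIn_fwd hγ' y0 0) (connIn_univ _ z) n'
    rw [show Rays.tail n' (fwd γ' 0) = fwd γ' n' by funext i; simp [Rays.tail, fwd]] at h
    linarith [hc z]
  -- deep tails avoid the changed edges, so the constants agree
  have hlim : ∀ (a : ℤ), Tendsto (rlen Y (bwd γ' a)) atTop atTop ∧
      Tendsto (rlen Y (fwd γ' a)) atTop atTop := fun a =>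
    ⟨tendsto_rlen hY.good hκ (isRayIn_bwd hγ' y0 a).inj (isRayIn_bwd hγ' y0 a).adj,
      tendsto_rlen hY.good hκ (isRayIn_fwd hγ' y0 a).inj (isRayIn_fwd hγ' y0 a).adj⟩
  have e1 : c1 = d1 := const_transfer x0 y0 hoff qbX pbX qbY pbY
    ((hlim _).1.congr fun i => rlen_congr hoff qbav i) qbav pbav hc1 hd1
  have e2 : c2 = d2 := const_transfer x0 y0 hoff qfX pfX qfY pfY
    ((hlim _).2.congr fun i => rlen_congr hoff qfav i) qfav pfav hc2 hd2
  subst e1 e2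
  -- mutual gain
  have out : ∀ (η : ℤ → V) (N : ℕ), (∀ i, edgeOf (fwd η N i) (fwd η N (i + 1)) ∉ F) →
      (∀ i, edgeOf (bwd η (-(N : ℤ)) i) (bwd η (-(N : ℤ)) (i + 1)) ∉ F) →
      ∀ i, i < -(N : ℤ) ∨ (N : ℤ) ≤ i → wt Y (η i) (η (i + 1)) = wt X (η i) (η (i + 1)) := by
    intro η N hf hb i hi
    refine hoff _ ?_
    rcases hi with hi | hi
    · have h := hb (-(N : ℤ) - i - 1).toNat
      simp only [bwd, Nat.cast_succ] at h
      rw [edgeOf_comm, show -(N : ℤ) - (((-(N : ℤ) - i - 1).toNat : ℤ) + 1) = i by omega,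
        show -(N : ℤ) - ((-(N : ℤ) - i - 1).toNat : ℤ) = i + 1 by omega] at h
      exact h
    · have h := hf (i - N).toNat
      simp only [fwd, Nat.cast_succ] at h
      rwa [show (N : ℤ) + ((i - N).toNat : ℤ) = i by omega,
        show (N : ℤ) + (((i - N).toNat : ℤ) + 1) = i + 1 by omega] at h
  obtain ⟨a, b, hab⟩ := hgain
  obtain ⟨a', b', hab'⟩ := hgain'
  have g1 := hab.trans (gain_extend hle (out γ n pfav pbav))
  have g2 := hab'.trans (gain_extend (X := Y) (Y := X) hle'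
    (fun i hi => (out γ' n' qfav qbav i hi).symm))
  -- evaluate at the bases of the backward tails
  have up : ∀ {Z : Conf} {η : ℤ → V} (_ : ∀ e, 0 ≤ Z e) (N : ℕ), (∀ i, Adj (η i) (η (i + 1))) →
      IsRayIn Z Set.univ (bwd η (-(N : ℤ))) → IsRayIn Z Set.univ (fwd η N) →
      bus Z Set.univ (bwd η (-(N : ℤ))) (η (-(N : ℤ))) +
        bus Z Set.univ (fwd η N) (η (-(N : ℤ))) ≤ seg Z η (-(N : ℤ)) N := by
    intro Z η h0 N hadj hb hf
    have h1 := bus_zero h0 hb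
    have h2 := bus_le h0 hf (connIn_univ _ (η (-(N : ℤ)))) 0
    simp only [bwd, Nat.cast_zero, sub_zero] at h1
    simp only [fwd, Nat.cast_zero, add_zero, rlen, Finset.range_zero, Finset.sum_empty,
      sub_zero] at h2
    have h3 : ∀ j : ℕ, T Z (η (-(N : ℤ))) (η (-(N : ℤ) + j)) ≤ seg Z η (-(N : ℤ)) (-(N : ℤ) + j) := by
      intro j
      induction j with
      | zero => simp [seg, T_self h0]
      | succ j ih =>
        rw [Nat.cast_succ, ← add_assoc, seg_succ (by omega)]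
        linarith [T_triangle h0 (η (-(N : ℤ))) (η (-(N : ℤ) + j)) (η (-(N : ℤ) + j + 1)),
          T_le_wt h0 (hadj (-(N : ℤ) + j))]
    have h4 := h3 (2 * N)
    rw [show -(N : ℤ) + ((2 * N : ℕ) : ℤ) = N by push_cast; ring] at h4
    rw [← T_eq_TS, T_comm] at h2
    linarith
  have u1 := up y0 n hγ.adj pbY pfY
  have u2 := up x0 n' hγ'.adj qbX qfX
  have k1 := key hγ x0 n (γ' (-(n' : ℤ)))
  have k2 := key hγ' y0 n' (γ (-(n : ℤ)))
  linarith [bus_line_nonneg hγ x0 0 (γ' (-(n' : ℤ))), bus_line_nonneg hγ' y0 0 (γ (-(n : ℤ))),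
    hc1 (γ' (-(n' : ℤ))), hc2 (γ' (-(n' : ℤ))), hd1 (γ (-(n : ℤ))), hd2 (γ (-(n : ℤ)))]

/-- Two lines of two configurations, each cheaper in the other's configuration, are in different
classes, in both orientations. -/
theorem mutual_not_same (hX : Nice2 M κ X) (hY : Nice2 M κ Y) (hκ : 0 < κ) {g : ℝ} (hg : 0 < g)
    {F : Finset Edge} (hoff : ∀ e, e ∉ F → Y e = X e) {γ γ' : ℤ → V}
    (hγ : IsBigeodesic X γ) (hγ' : IsBigeodesic Y γ')
    (hle : ∀ i, wt Y (γ i) (γ (i + 1)) ≤ wt X (γ i) (γ (i + 1)))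
    (hle' : ∀ i, wt X (γ' i) (γ' (i + 1)) ≤ wt Y (γ' i) (γ' (i + 1)))
    (hgain : ∃ a b, g ≤ ∑ i ∈ Finset.Ico a b,
      (wt X (γ i) (γ (i + 1)) - wt Y (γ i) (γ (i + 1))))
    (hgain' : ∃ a b, g ≤ ∑ i ∈ Finset.Ico a b,
      (wt Y (γ' i) (γ' (i + 1)) - wt X (γ' i) (γ' (i + 1))))
    {n n' : ℕ}
    (hn : (IsRayIn Y Set.univ (fwd γ n) ∧ IsRayIn Y Set.univ (bwd γ (-(n : ℤ)))) ∧
      (∀ i, edgeOf (fwd γ n i) (fwd γ n (i + 1)) ∉ F) ∧
      ∀ i, edgeOf (bwd γ (-(n : ℤ)) i) (bwd γ (-(n : ℤ)) (i + 1)) ∉ F)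
    (hn' : (IsRayIn X Set.univ (fwd γ' n') ∧ IsRayIn X Set.univ (bwd γ' (-(n' : ℤ)))) ∧
      (∀ i, edgeOf (fwd γ' n' i) (fwd γ' n' (i + 1)) ∉ F) ∧
      ∀ i, edgeOf (bwd γ' (-(n' : ℤ)) i) (bwd γ' (-(n' : ℤ)) (i + 1)) ∉ F) :
    ¬ (Bd X (bwd γ' (-(n' : ℤ))) (bwd γ (-(n : ℤ))) ∧ Bd X (fwd γ' n') (fwd γ n)) ∧
    ¬ (Bd X (fwd γ' n') (bwd γ (-(n : ℤ))) ∧ Bd X (bwd γ' (-(n' : ℤ))) (fwd γ n)) := by
  refine ⟨mutual_aux hX hY hκ hg hoff hγ hγ' hle hle' hgain hgain' hn hn', ?_⟩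
  have hr : ∀ i, wt X (revLine γ' i) (revLine γ' (i + 1)) =
      wt X (γ' (-(i + 1))) (γ' (-(i + 1) + 1)) ∧
      wt Y (revLine γ' i) (revLine γ' (i + 1)) = wt Y (γ' (-(i + 1))) (γ' (-(i + 1) + 1)) := by
    intro i
    simp only [revLine, show -(i + 1) + 1 = -i by ring]
    exact ⟨wt_comm _ _ _, wt_comm _ _ _⟩
  have e1 : fwd (revLine γ') n' = bwd γ' (-(n' : ℤ)) := fwd_revLine γ' n'
  have e2 : bwd (revLine γ') (-(n' : ℤ)) = fwd γ' n' := by rw [bwd_revLine, neg_neg]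
  have := mutual_aux hX hY hκ hg hoff hγ hγ'.rev hle
    (fun i => by rw [(hr i).1, (hr i).2]; exact hle' _) hgain (by
      obtain ⟨a, b, hab⟩ := hgain'
      refine ⟨-b, -a, ?_⟩
      rcases le_or_gt a b with h | h
      · have h1 := seg_revLine Y γ' (show -b ≤ -a by omega)
        have h2 := seg_revLine X γ' (show -b ≤ -a by omega)
        simp only [neg_neg, seg] at h1 h2
        rw [Finset.sum_sub_distrib] at hab ⊢
        linarith
      · rw [Finset.Ico_eq_empty (by omega), Finset.sum_empty] at hab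
        linarith) hn (n' := n') (by rw [e1, e2]; exact ⟨⟨hn'.1.2, hn'.1.1⟩, hn'.2.2, hn'.2.1⟩)
  rw [e1, e2] at this
  exact this

/-! ### Witnesses -/

theorem wit_mono {W W' : ℤ} {G₀ : ℝ} {r s : ℕ → V} (hW : W ≤ W') (h : Wit t W G₀ r s) :
    Wit t W' G₀ r s := by
  obtain ⟨z, hz, h⟩ := h
  exact ⟨z, by simp only [InSq] at hz ⊢; omega, h⟩

theorem wit4_mono {W W' : ℤ} {G₀ : ℝ} {γ γ' : ℤ → V} (hW : W ≤ W') (h : Wit4 t W G₀ γ γ') :
    Wit4 t W' G₀ γ γ' :=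
  ⟨wit_mono hW h.1, wit_mono hW h.2.1, wit_mono hW h.2.2.1, wit_mono hW h.2.2.2⟩

theorem bd2_of_crossed (hN : NiceG κ t) {γ γ' : ℤ → V} (hγ : IsBigeodesic t γ)
    (hγ' : IsBigeodesic t γ') {C : ℝ}
    (hC : ∀ z, -C ≤ bus t Set.univ (bwd γ 0) z + bus t Set.univ (fwd γ' 0) z) :
    Bd2 t γ γ' := by
  have h0 := hN.good.nonneg
  obtain ⟨c, hc⟩ := match_bwd hN hγ' (isRayIn_bwd hγ h0 0) ⟨C, hC⟩
  obtain ⟨c', hc'⟩ := match_fwd hN hγ (isRayIn_fwd hγ' h0 0)
    ⟨C, fun z => by linarith [hC z]⟩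
  exact ⟨⟨|c|, fun z => by rw [abs_sub_comm, hc z]⟩, ⟨|c'|, fun z => by rw [hc' z]⟩⟩

theorem wit_eventually_one {r s : ℕ → V} {G₀ : ℝ}
    (h : ¬ ∀ z, -G₀ ≤ bus t Set.univ r z + bus t Set.univ s z) :
    ∀ᶠ W : ℕ in atTop, Wit t W G₀ r s := by
  rw [not_forall] at h
  obtain ⟨z, hz⟩ := h
  rw [eventually_atTop]
  refine ⟨(|z.1| + |z.2|).toNat, fun W hW => ⟨z, ?_, not_le.1 hz⟩⟩
  have := abs_le.1 (le_refl |z.1|)
  have := abs_le.1 (le_refl |z.2|)
  simp only [InSq]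
  omega

/-- Lines of different classes have witnesses in all large boxes. -/
theorem wit_eventually (hN : NiceG κ t) {γ γ' : ℤ → V} (hγ : IsBigeodesic t γ)
    (hγ' : IsBigeodesic t γ') (h : ¬ SameClass t γ γ') (G₀ : ℝ) :
    ∀ᶠ W : ℕ in atTop, Wit4 t W G₀ γ γ' := by
  refine (wit_eventually_one fun hC => h (.inl (bd2_of_crossed hN hγ hγ' hC))).and
    ((wit_eventually_one fun hC => h (.inl ?_)).and
      ((wit_eventually_one fun hC => h (.inr ?_)).and (wit_eventually_one fun hC => h (.inr ?_))))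
  · exact bd2_symm (bd2_of_crossed hN hγ' hγ fun z => by linarith [hC z])
  · exact bd2_of_crossed hN hγ hγ'.rev (C := G₀)
      fun z => by rw [fwd_revLine, neg_zero]; exact hC z
  · refine bd2_symm (bd2_of_crossed hN hγ'.rev hγ (C := G₀) fun z => ?_)
    rw [bwd_revLine, neg_zero]; linarith [hC z]

end Vale.Agent.P158
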