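import Vale.Agent.P158.Core

/-!
The tilt: on a finite edge set each weight is, with probability `η`, replaced by its minimum with
an independent fresh copy. The tilted law is comparable with the original one.
-/

open MeasureTheory Filter Topology ProbabilityTheory
open scoped ENNReal

namespace Vale.Agent.P158

/-- The extra randomness of the tilt at one edge: a mark and a fresh weight. -/
noncomputable def markLaw (G : Measure ℝ) (η : ℝ) : Measure (Bool × ℝ) :=
  (ENNReal.ofReal (1 - η) • Measure.dirac false + ENNReal.ofReal η • Measure.dirac true).prod G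

/-- The extra randomness of the tilt. -/
noncomputable def markField (G : Measure ℝ) (η : ℝ) : Measure (Edge → Bool × ℝ) :=
  Measure.infinitePi fun _ : Edge => markLaw G η

/-- The new weight at one edge. -/
def tiltVal (x : ℝ) (z : Bool × ℝ) : ℝ := if z.1 then min x z.2 else x

/-- The tilted configuration. -/
def tiltMap (S : Finset Edge) (p : Conf × (Edge → Bool × ℝ)) : Conf :=
  fun e => if e ∈ S then tiltVal (p.1 e) (p.2 e) else p.1 e

/-- The density of the tilted law at one edge. -/
noncomputable def tiltRho (G : Measure ℝ) (η : ℝ) (x : ℝ) : ℝ :=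
  1 + η * (2 * G.real (Set.Ici x) - 1)

lemma measurable_tiltVal : Measurable fun p : ℝ × (Bool × ℝ) => tiltVal p.1 p.2 :=
  Measurable.ite
    (measurable_snd.fst (MeasurableSet.singleton true) : MeasurableSet {p : ℝ × (Bool × ℝ) | p.2.1 = true})
    (measurable_fst.min measurable_snd.snd) measurable_fst

lemma measurable_tiltMap (S : Finset Edge) : Measurable (tiltMap S) := by
  refine measurable_pi_iff.2 fun e => ?_
  unfold tiltMap
  by_cases h : e ∈ S
  · simp only [h, if_true]
    exact Measurable.comp (f := fun p : Conf × (Edge → Bool × ℝ) => (p.1 e, p.2 e))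
      measurable_tiltVal
      (((measurable_pi_apply e).comp measurable_fst).prodMk ((measurable_pi_apply e).comp measurable_snd))
  · simp only [h, if_false]
    exact (measurable_pi_apply e).comp measurable_fst

variable {G : Measure ℝ} [IsProbabilityMeasure G] {η : ℝ}

lemma markLaw_prob (h0 : 0 ≤ η) (h1 : η ≤ 1) : IsProbabilityMeasure (markLaw G η) := by
  have : IsProbabilityMeasure
      (ENNReal.ofReal (1 - η) • Measure.dirac false + ENNReal.ofReal η • Measure.dirac true) := by
    constructor
    simp only [Measure.add_apply, Measure.smul_apply, measure_univ, smul_eq_mul, mul_one]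
    rw [← ENNReal.ofReal_add (by linarith) h0]; simp
  unfold markLaw; infer_instance

omit [IsProbabilityMeasure G] in
lemma lintegral_prod_coord (μ : Edge → Measure ℝ) [∀ e, IsProbabilityMeasure (μ e)]
    (s : Finset Edge) (g : Edge → ℝ → ℝ≥0∞) (hg : ∀ e, Measurable (g e)) :
    ∫⁻ t, ∏ e ∈ s, g e (t e) ∂Measure.infinitePi μ = ∏ e ∈ s, ∫⁻ x, g e x ∂μ e := by
  rw [lintegral_prod_eq_prod_lintegral_of_indepFun s (fun e (t : Conf) => g e (t e))
    (iIndepFun_infinitePi hg) fun e => (hg e).comp (measurable_pi_apply e)]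
  refine Finset.prod_congr rfl fun e _ => ?_
  rw [← Measure.infinitePi_map_eval μ e, lintegral_map (hg e) (measurable_pi_apply e)]

lemma measurable_Ici_real : Measurable fun x => G.real (Set.Ici x) := by
  have : Antitone fun x => G.real (Set.Ici x) := fun a b h =>
    measureReal_mono (Set.Ici_subset_Ici.2 h)
  exact this.measurable

lemma measurable_tiltRho : Measurable (tiltRho G η) := by
  unfold tiltRho
  exact ((((measurable_Ici_real (G := G)).const_mul 2).sub_const 1).const_mul η).const_add 1

lemma tiltRho_nonneg (h0 : 0 ≤ η) (h1 : η ≤ 1) (x : ℝ) : 0 ≤ tiltRho G η x := by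
  unfold tiltRho
  have : 0 ≤ G.real (Set.Ici x) := measureReal_nonneg
  nlinarith

lemma integral_Ici_real (hat : ∀ x, G {x} = 0) : ∫ x, G.real (Set.Ici x) ∂G = 1 / 2 := by
  have hU : MeasurableSet {p : ℝ × ℝ | p.1 ≤ p.2} := measurableSet_le measurable_fst measurable_snd
  have h1 : ∫ x, G.real (Set.Ici x) ∂G = (G.prod G).real {p : ℝ × ℝ | p.1 ≤ p.2} := by
    rw [measureReal_def, Measure.prod_apply hU, ← integral_toReal]
    · rfl
    · exact (measurable_measure_prodMk_left hU).aemeasurable
    · exact ae_of_all _ fun x => (prob_le_one.trans_lt ENNReal.one_lt_top)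
  set U := {p : ℝ × ℝ | p.1 ≤ p.2}
  have hswap : (G.prod G) (Prod.swap ⁻¹' U) = (G.prod G) U := by
    rw [← Measure.map_apply measurable_swap hU, Measure.prod_swap]
  have hnull : (G.prod G) (U ∩ Prod.swap ⁻¹' U) = 0 := by
    rw [Measure.prod_apply (hU.inter (measurable_swap hU))]
    refine lintegral_eq_zero_of_ae_eq_zero (ae_of_all _ fun x => ?_)
    refine measure_mono_null (fun y hy => ?_) (hat x)
    have hy1 : x ≤ y := hy.1
    have hy2 : y ≤ x := hy.2
    exact le_antisymm hy2 hy1
  have huniv : U ∪ Prod.swap ⁻¹' U = Set.univ := by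
    ext p
    simp only [Set.mem_union, Set.mem_preimage, U, Set.mem_univ, iff_true]
    exact le_total p.1 p.2
  have h2 := measure_union_add_inter (μ := G.prod G) U (measurable_swap hU)
  rw [huniv, measure_univ, hnull, add_zero, hswap] at h2
  have h3 := congrArg ENNReal.toReal h2
  rw [ENNReal.toReal_one, ENNReal.toReal_add (measure_ne_top _ _) (measure_ne_top _ _)] at h3
  rw [h1, measureReal_def]
  linarith

lemma integrable_Ici_real : Integrable (fun x => G.real (Set.Ici x)) G :=
  Integrable.of_bound (measurable_Ici_real (G := G)).aestronglyMeasurable 1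
    (ae_of_all _ fun x => by
      rw [Real.norm_eq_abs, abs_of_nonneg measureReal_nonneg]; exact measureReal_le_one)

lemma integrable_tiltRho : Integrable (tiltRho G η) G := by
  unfold tiltRho
  exact (integrable_const 1).add (((integrable_Ici_real.const_mul 2).sub (integrable_const 1)).const_mul η)

lemma lintegral_tiltRho (hat : ∀ x, G {x} = 0) (h0 : 0 ≤ η) (h1 : η ≤ 1) :
    ∫⁻ x, ENNReal.ofReal (tiltRho G η x) ∂G = 1 := by
  rw [← ofReal_integral_eq_lintegral_ofReal integrable_tiltRho
    (ae_of_all _ (tiltRho_nonneg h0 h1))]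
  unfold tiltRho
  rw [integral_add (integrable_const 1)
      (((integrable_Ici_real.const_mul 2).sub' (integrable_const 1)).const_mul η),
    integral_const_mul, integral_sub (integrable_Ici_real.const_mul 2) (integrable_const 1),
    integral_const_mul, integral_Ici_real hat]
  simp

lemma lintegral_tiltRho_sq (hat : ∀ x, G {x} = 0) (h0 : 0 ≤ η) (h1 : η ≤ 1) :
    ∫⁻ x, ENNReal.ofReal (tiltRho G η x) * ENNReal.ofReal (tiltRho G η x) ∂G ≤
      ENNReal.ofReal (1 + η ^ 2) := by
  have hb : ∀ x, tiltRho G η x * tiltRho G η x ≤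
      1 + η ^ 2 + 2 * η * (2 * G.real (Set.Ici x) - 1) := fun x => by
    have hx : G.real (Set.Ici x) ≤ 1 := measureReal_le_one
    have hx0 : 0 ≤ G.real (Set.Ici x) := measureReal_nonneg
    unfold tiltRho
    nlinarith [mul_nonneg (sq_nonneg η) (mul_nonneg hx0 (sub_nonneg.2 hx))]
  have hi : Integrable (fun x => 1 + η ^ 2 + 2 * η * (2 * G.real (Set.Ici x) - 1)) G :=
    (integrable_const _).add (((integrable_Ici_real.const_mul 2).sub (integrable_const 1)).const_mul _)
  simp_rw [← ENNReal.ofReal_mul (tiltRho_nonneg (G := G) h0 h1 _)]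
  calc ∫⁻ x, ENNReal.ofReal (tiltRho G η x * tiltRho G η x) ∂G
      ≤ ∫⁻ x, ENNReal.ofReal (1 + η ^ 2 + 2 * η * (2 * G.real (Set.Ici x) - 1)) ∂G :=
        lintegral_mono fun x => ENNReal.ofReal_le_ofReal (hb x)
    _ = ENNReal.ofReal (∫ x, (1 + η ^ 2 + 2 * η * (2 * G.real (Set.Ici x) - 1)) ∂G) :=
        (ofReal_integral_eq_lintegral_ofReal hi (ae_of_all _ fun x => by
          simp only [Pi.zero_apply]
          nlinarith [hb x, mul_self_nonneg (tiltRho G η x)])).symm
    _ = _ := by
        congr 1
        rw [integral_add (integrable_const _)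
          (((integrable_Ici_real.const_mul 2).sub' (integrable_const 1)).const_mul _),
          integral_const_mul, integral_sub (integrable_Ici_real.const_mul 2) (integrable_const 1),
          integral_const_mul, integral_Ici_real hat]
        simp

/-- The tilted law at one edge has density `tiltRho`. -/
lemma tiltVal_law (hat : ∀ x, G {x} = 0) (h0 : 0 ≤ η) (h1 : η ≤ 1) :
    (G.prod (markLaw G η)).map (fun p => tiltVal p.1 p.2) =
      G.withDensity fun x => ENNReal.ofReal (tiltRho G η x) := by
  haveI := markLaw_prob (G := G) h0 h1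
  haveI : IsProbabilityMeasure ((G.prod (markLaw G η)).map fun p => tiltVal p.1 p.2) :=
    Measure.isProbabilityMeasure_map measurable_tiltVal.aemeasurable
  haveI : IsProbabilityMeasure (G.withDensity fun x => ENNReal.ofReal (tiltRho G η x)) :=
    ⟨by rw [withDensity_apply _ MeasurableSet.univ, setLIntegral_univ, lintegral_tiltRho hat h0 h1]⟩
  refine Measure.eq_of_le_of_measure_univ_eq ?_ (by simp)
  refine Measure.le_iff.2 fun A hA => ?_
  rw [Measure.map_apply measurable_tiltVal hA, withDensity_apply _ hA]
  have hpre : (fun p : ℝ × (Bool × ℝ) => tiltVal p.1 p.2) ⁻¹' A ⊆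
      (A ×ˢ ({false} ×ˢ Set.univ)) ∪ {p | p.1 ∈ A ∧ p.2 ∈ {true} ×ˢ Set.Ici p.1} ∪
        {p | p.2.1 = true ∧ p.2.2 ∈ A ∧ p.2.2 ≤ p.1} := by
    rintro ⟨x, b, y⟩ hp
    cases b
    · left; left; simpa [tiltVal] using hp
    · rcases le_total x y with h | h
      · left; right
        refine ⟨by simpa [tiltVal, min_eq_left h] using hp, rfl, h⟩
      · right
        exact ⟨rfl, by simpa [tiltVal, min_eq_right h] using hp, h⟩
  have hbt : markLaw G η ({false} ×ˢ Set.univ) = ENNReal.ofReal (1 - η) := by
    simp [markLaw, Measure.prod_prod]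
  have htr : ∀ B : Set ℝ, markLaw G η ({true} ×ˢ B) = ENNReal.ofReal η * G B := fun B => by
    simp [markLaw, Measure.prod_prod]
  have hP1 : (G.prod (markLaw G η)) (A ×ˢ ({false} ×ˢ Set.univ)) =
      ∫⁻ _x in A, ENNReal.ofReal (1 - η) ∂G := by
    rw [Measure.prod_prod, hbt, setLIntegral_const, mul_comm]
  have hm2 : MeasurableSet {p : ℝ × (Bool × ℝ) | p.1 ∈ A ∧ p.2 ∈ {true} ×ˢ Set.Ici p.1} :=
    (measurable_fst hA).inter ((measurable_snd.fst (MeasurableSet.singleton true)).inter
      (measurableSet_le measurable_fst measurable_snd.snd))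
  have hP2 : (G.prod (markLaw G η)) {p | p.1 ∈ A ∧ p.2 ∈ {true} ×ˢ Set.Ici p.1} =
      ∫⁻ x in A, ENNReal.ofReal η * G (Set.Ici x) ∂G := by
    rw [Measure.prod_apply hm2, ← lintegral_indicator hA]
    refine lintegral_congr fun x => ?_
    by_cases hx : x ∈ A
    · rw [Set.indicator_of_mem hx, ← htr]
      congr 1; ext z; simp [hx]
    · rw [Set.indicator_of_notMem hx]
      convert measure_empty (μ := markLaw G η) using 2
      ext z; simp [hx]
  have hm3 : MeasurableSet {p : ℝ × (Bool × ℝ) | p.2.1 = true ∧ p.2.2 ∈ A ∧ p.2.2 ≤ p.1} :=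
    (measurable_snd.fst (MeasurableSet.singleton true)).inter
      ((measurable_snd.snd hA).inter (measurableSet_le measurable_snd.snd measurable_fst))
  have hP3 : (G.prod (markLaw G η)) {p | p.2.1 = true ∧ p.2.2 ∈ A ∧ p.2.2 ≤ p.1} =
      ∫⁻ x in A, ENNReal.ofReal η * G (Set.Ici x) ∂G := by
    rw [Measure.prod_apply_symm hm3, markLaw, lintegral_prod _
      ((measurable_measure_prodMk_right hm3).aemeasurable)]
    rw [lintegral_add_measure, lintegral_smul_measure, lintegral_smul_measure, lintegral_dirac,
      lintegral_dirac]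
    have hz : ∫⁻ y, G ((fun x => (x, (false, y))) ⁻¹'
        {p : ℝ × (Bool × ℝ) | p.2.1 = true ∧ p.2.2 ∈ A ∧ p.2.2 ≤ p.1}) ∂G = 0 := by
      simp
    rw [hz, smul_zero, zero_add, smul_eq_mul, lintegral_const_mul' _ _ ENNReal.ofReal_ne_top,
      ← lintegral_indicator hA]
    congr 1
    refine lintegral_congr fun y => ?_
    by_cases hy : y ∈ A
    · rw [Set.indicator_of_mem hy]
      congr 1; ext x; simp [hy]
    · rw [Set.indicator_of_notMem hy]
      convert measure_empty (μ := G) using 2
      ext x; simp [hy]
  calc (G.prod (markLaw G η)) _ ≤ _ :=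
        (measure_mono hpre).trans ((measure_union_le _ _).trans (add_le_add_left (measure_union_le _ _) _))
    _ = ∫⁻ x in A, ENNReal.ofReal (tiltRho G η x) ∂G := by
        have hmI : Measurable fun x => ENNReal.ofReal η * G (Set.Ici x) :=
          (Antitone.measurable fun a b h => measure_mono (Set.Ici_subset_Ici.2 h)).const_mul _
        rw [hP1, hP2, hP3, ← lintegral_add_left measurable_const, ← lintegral_add_right _ hmI]
        refine lintegral_congr fun x => ?_
        rw [← ofReal_measureReal (measure_ne_top G (Set.Ici x)),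
          ← ENNReal.ofReal_mul h0, ← ENNReal.ofReal_add (by linarith) (by positivity),
          ← ENNReal.ofReal_add (by
            have : 0 ≤ η * G.real (Set.Ici x) := by positivity
            linarith) (by positivity)]
        unfold tiltRho
        congr 1; ring

/-- The product of the densities over `S`. -/
noncomputable def tiltDens (G : Measure ℝ) (η : ℝ) (S : Finset Edge) (t : Conf) : ℝ≥0∞ :=
  ∏ e ∈ S, ENNReal.ofReal (tiltRho G η (t e))

lemma measurable_tiltDens (S : Finset Edge) : Measurable (tiltDens G η S) :=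
  Finset.measurable_fun_prod _ fun e _ => ((measurable_tiltRho (G := G)).comp
    (measurable_pi_apply e)).ennreal_ofReal

/-- The tilted law has density `tiltDens`. -/
lemma tiltMap_law (hat : ∀ x, G {x} = 0) (h0 : 0 ≤ η) (h1 : η ≤ 1) (S : Finset Edge) :
    ((law G).prod (markField G η)).map (tiltMap S) = (law G).withDensity (tiltDens G η S) := by
  haveI := markLaw_prob (G := G) h0 h1
  haveI : IsProbabilityMeasure (law G) := by unfold law; infer_instance
  haveI : IsProbabilityMeasure (markField G η) := by unfold markField; infer_instance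
  set ρ : ℝ → ℝ≥0∞ := fun x => ENNReal.ofReal (tiltRho G η x)
  have hρm : Measurable ρ := (measurable_tiltRho (G := G)).ennreal_ofReal
  let μ : Edge → Measure ℝ := fun e => if e ∈ S then G.withDensity ρ else G
  haveI : ∀ e, IsProbabilityMeasure (μ e) := fun e => by
    simp only [μ]; split_ifs
    · exact ⟨by rw [withDensity_apply _ MeasurableSet.univ, setLIntegral_univ,
        lintegral_tiltRho hat h0 h1]⟩
    · infer_instance
  have hA : ((law G).prod (markField G η)).map (tiltMap S) = Measure.infinitePi μ := by
    refine Measure.eq_infinitePi _ fun s A hA => ?_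
    have hbox : MeasurableSet ((s : Set Edge).pi A) := .pi s.countable_toSet fun i _ => hA i
    rw [Measure.map_apply (measurable_tiltMap S) hbox,
      Measure.prod_apply (measurable_tiltMap S hbox)]
    set f : Edge → ℝ → (Bool × ℝ) → ℝ := fun e x z => if e ∈ S then tiltVal x z else x with hf
    have hfm : ∀ e, Measurable fun p : ℝ × (Bool × ℝ) => f e p.1 p.2 := fun e => by
      simp only [hf]; split_ifs
      exacts [measurable_tiltVal, measurable_fst]
    have hsl : ∀ t : Conf, markField G η (Prod.mk t ⁻¹' (tiltMap S ⁻¹' ((s : Set Edge).pi A))) =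
        ∏ e ∈ s, markLaw G η {z | f e (t e) z ∈ A e} := fun t => by
      unfold markField
      rw [← Measure.infinitePi_pi (μ := fun _ : Edge => markLaw G η) (s := s)
        (t := fun e => {z | f e (t e) z ∈ A e})
        (fun e _ => ((hfm e).comp measurable_prodMk_left) (hA e))]
      rfl
    simp only [hsl]
    unfold law
    rw [lintegral_prod_coord (fun _ : Edge => G) s (fun e x => markLaw G η {z | f e x z ∈ A e})
      (fun e => measurable_measure_prodMk_left ((hfm e) (hA e)))]
    refine Finset.prod_congr rfl fun e _ => ?_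
    have := Measure.prod_apply (μ := G) (ν := markLaw G η) ((hfm e) (hA e))
    rw [show (fun x => markLaw G η {z | f e x z ∈ A e}) =
      fun x => markLaw G η (Prod.mk x ⁻¹' ((fun p : ℝ × (Bool × ℝ) => f e p.1 p.2) ⁻¹' A e)) from rfl,
      ← this, ← Measure.map_apply (hfm e) (hA e)]
    by_cases he : e ∈ S
    · simp only [μ, he, if_true, hf]
      rw [tiltVal_law hat h0 h1]
    · simp only [μ, he, if_false, hf]
      rw [Measure.map_fst_prod, measure_univ, one_smul]
  rw [hA]
  refine (Measure.eq_infinitePi _ fun s A hA' => ?_).symm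
  have hbox : MeasurableSet ((s : Set Edge).pi A) := .pi s.countable_toSet fun i _ => hA' i
  rw [withDensity_apply _ hbox, ← lintegral_indicator hbox]
  have hprod : ∀ t : Conf, ((s : Set Edge).pi A).indicator (tiltDens G η S) t =
      ∏ e ∈ s ∪ S, (if e ∈ s then (A e).indicator (fun _ => (1 : ℝ≥0∞)) (t e) else 1) *
        (if e ∈ S then ρ (t e) else 1) := fun t => by
    rw [Finset.prod_mul_distrib, Finset.prod_ite_mem, Finset.prod_ite_mem,
      Finset.inter_eq_right.2 Finset.subset_union_left,
      Finset.inter_eq_right.2 Finset.subset_union_right]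
    by_cases ht : t ∈ (s : Set Edge).pi A
    · rw [Set.indicator_of_mem ht, Finset.prod_eq_one fun e he =>
        Set.indicator_of_mem (ht e he) _, one_mul]
      rfl
    · rw [Set.indicator_of_notMem ht]
      simp only [Set.mem_pi, Finset.mem_coe, not_forall] at ht
      obtain ⟨e, he, hte⟩ := ht
      rw [Finset.prod_eq_zero he (Set.indicator_of_notMem hte _), zero_mul]
  simp only [hprod]
  unfold law
  rw [lintegral_prod_coord (fun _ : Edge => G) (s ∪ S) (fun e x =>
    (if e ∈ s then (A e).indicator (fun _ => (1 : ℝ≥0∞)) x else 1) * (if e ∈ S then ρ x else 1))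
    (fun e => by
      refine Measurable.mul ?_ ?_ <;> split_ifs
      exacts [measurable_const.indicator (hA' e), measurable_const, hρm, measurable_const])]
  have hfac : ∀ e, ∫⁻ x, (if e ∈ s then (A e).indicator (fun _ => (1 : ℝ≥0∞)) x else 1) *
      (if e ∈ S then ρ x else 1) ∂G = if e ∈ s then μ e (A e) else 1 := fun e => by
    by_cases hs : e ∈ s <;> by_cases hS : e ∈ S <;> simp only [hs, hS, if_true, if_false, μ, mul_one,
      one_mul]
    · rw [withDensity_apply _ (hA' e), ← lintegral_indicator (hA' e)]
      refine lintegral_congr fun x => ?_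
      by_cases hx : x ∈ A e <;> simp [hx]
    · rw [lintegral_indicator_const (hA' e), one_mul]
    · exact lintegral_tiltRho hat h0 h1
    · simp
  simp only [hfac]
  rw [Finset.prod_ite_mem, Finset.inter_eq_right.2 Finset.subset_union_left]

/-- Events likely under the tilt are not too unlikely under the original law. -/
theorem tilt_compare (hat : ∀ x, G {x} = 0) (h0 : 0 ≤ η) (h1 : η ≤ 1) (S : Finset Edge)
    {K : ℝ} (hK : (1 + η ^ 2) ^ S.card ≤ K) {A : Set Conf} (hA : MeasurableSet A) :
    (((law G).prod (markField G η)) (tiltMap S ⁻¹' A)) ≤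
      ENNReal.ofReal (2 * K) * law G A + ENNReal.ofReal (1 / 8) := by
  haveI : IsProbabilityMeasure (law G) := by unfold law; infer_instance
  have hK1 : 1 ≤ K := le_trans (one_le_pow₀ (by nlinarith)) hK
  rw [← Measure.map_apply (measurable_tiltMap S) hA, tiltMap_law hat h0 h1,
    withDensity_apply _ hA, ← lintegral_indicator hA]
  have hpt : ∀ t, A.indicator (tiltDens G η S) t ≤
      ENNReal.ofReal (2 * K) * A.indicator (fun _ => 1) t +
        ENNReal.ofReal (1 / (8 * K)) * (tiltDens G η S t * tiltDens G η S t) := fun t => by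
    by_cases ht : t ∈ A
    · rw [Set.indicator_of_mem ht, Set.indicator_of_mem ht, mul_one]
      have hD : tiltDens G η S t = ENNReal.ofReal (∏ e ∈ S, tiltRho G η (t e)) := by
        rw [tiltDens, ENNReal.ofReal_prod_of_nonneg fun e _ => tiltRho_nonneg h0 h1 _]
      rw [hD]
      set d := ∏ e ∈ S, tiltRho G η (t e)
      have hd : 0 ≤ d := Finset.prod_nonneg fun e _ => tiltRho_nonneg h0 h1 _
      rw [← ENNReal.ofReal_mul hd, ← ENNReal.ofReal_mul (by positivity),
        ← ENNReal.ofReal_add (by positivity) (by positivity)]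
      refine ENNReal.ofReal_le_ofReal ?_
      have : 0 ≤ (d - 4 * K) ^ 2 / (8 * K) := by positivity
      have h2 : (d - 4 * K) ^ 2 / (8 * K) = 1 / (8 * K) * (d * d) - d + 2 * K := by
        field_simp; ring
      linarith
    · rw [Set.indicator_of_notMem ht]; exact zero_le
  refine (lintegral_mono hpt).trans ?_
  rw [lintegral_add_left ((measurable_const.indicator hA).const_mul _),
    lintegral_const_mul' _ _ ENNReal.ofReal_ne_top,
    lintegral_const_mul' _ _ ENNReal.ofReal_ne_top, lintegral_indicator_const hA, one_mul]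
  refine add_le_add le_rfl ?_
  have hsq : ∫⁻ t, tiltDens G η S t * tiltDens G η S t ∂law G ≤ ENNReal.ofReal K := by
    simp only [tiltDens, ← Finset.prod_mul_distrib]
    unfold law
    rw [lintegral_prod_coord (fun _ : Edge => G) S
      (fun _ x => ENNReal.ofReal (tiltRho G η x) * ENNReal.ofReal (tiltRho G η x))
      (fun _ => ((measurable_tiltRho (G := G)).ennreal_ofReal).mul
        ((measurable_tiltRho (G := G)).ennreal_ofReal))]
    refine (Finset.prod_le_prod' fun _ _ => lintegral_tiltRho_sq hat h0 h1).trans ?_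
    rw [Finset.prod_const, ← ENNReal.ofReal_pow (by positivity)]
    exact ENNReal.ofReal_le_ofReal hK
  refine (mul_le_mul_of_nonneg_left hsq zero_le).trans ?_
  rw [← ENNReal.ofReal_mul (by positivity)]
  refine ENNReal.ofReal_le_ofReal (le_of_eq ?_)
  field_simp

end Vale.Agent.P158
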