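import Vale.Agent.P158.MainDefs
import Vale.Agent.P158.BasicLaw
import Vale.Agent.P158.Tilt

/-!
The probability of the certificate of one block: tilting the weights in the block's region makes
at least half of the good sites gain, with probability bounded below.
-/

open MeasureTheory ProbabilityTheory Filter Topology
open scoped ENNReal

namespace Vale.Agent.P158

/-- A fresh marked weight below `r₀`. -/
def hitSet (r₀ : ℝ) : Set (Bool × ℝ) := {true} ×ˢ Set.Iio r₀

lemma measurableSet_hitSet (r₀ : ℝ) : MeasurableSet (hitSet r₀) :=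
  (MeasurableSet.singleton true).prod measurableSet_Iio

/-- Two rigid lines at different heights have jumps in every large window. -/
def HasJumps (GS : Set Conf) (R L : ℕ) (δ a b g : ℝ) : Prop :=
  ∀ t ∈ GS, ∀ (h y y' : ℤ) (γ γ' : ℤ → V), SiteLine t R a b δ y γ →
    SiteLine t R a b δ y' γ' → y ≠ y' → ∃ W, JumpAt t L g h W γ γ'

lemma JumpAt.mono {t : Conf} {L : ℤ} {g : ℝ} {h : ℤ} {W W' : ℕ} {γ γ' : ℤ → V}
    (hj : JumpAt t L g h W γ γ') (hW : W ≤ W') : JumpAt t L g h W' γ γ' := by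
  obtain ⟨z, z', h1, h2, h3, h4⟩ := hj
  exact ⟨z, z', by omega, h2, by omega, h4⟩

lemma Cert.mono_window {GS : Set Conf} {R L d W W' : ℕ} {δ g a b : ℝ} {h : ℤ} {k : ℕ}
    {pre t : Conf} (hc : Cert ⟨R, L, d, W, δ, g⟩ GS a b h k pre t) (hW : W ≤ W') :
    Cert ⟨R, L, d, W', δ, g⟩ GS a b h k pre t := by
  obtain ⟨h1, h2, h3, h4, ys, γ, h5, h6, h7⟩ := hc
  exact ⟨h1, h2, h3, h4, ys, γ, h5, h6, fun i j hij => (h7 i j hij).mono hW⟩

section few
variable {G : Measure ℝ} [IsProbabilityMeasure G] {η r₀ : ℝ}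

lemma markField_few_hits (h0 : 0 ≤ η) (h1 : η ≤ 1) (E : Finset Edge) (c : ℝ) :
    markField G η {ω | open Classical in
        ((E.filter fun e => ω e ∈ hitSet r₀).card : ℝ) < c}
      ≤ ENNReal.ofReal (Real.exp (c - η * G.real (Set.Iio r₀) * E.card / 2)) := by
  classical
  haveI := markLaw_prob (G := G) h0 h1
  haveI : IsProbabilityMeasure (markField G η) := by unfold markField; infer_instance
  set q := η * G.real (Set.Iio r₀) with hq
  have hq0 : 0 ≤ q := mul_nonneg h0 measureReal_nonneg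
  have hq1 : q ≤ 1 := mul_le_one₀ h1 measureReal_nonneg measureReal_le_one
  set f : Bool × ℝ → ℝ≥0∞ := fun z => if z ∈ hitSet r₀ then ENNReal.ofReal (1 / 2) else 1 with hf
  have hfm : Measurable f :=
    Measurable.ite (measurableSet_hitSet r₀) measurable_const measurable_const
  have hhit : markLaw G η (hitSet r₀) = ENNReal.ofReal q := by
    rw [hq, ENNReal.ofReal_mul h0, ofReal_measureReal (measure_ne_top _ _)]
    simp [markLaw, hitSet, Measure.prod_prod]
  have hone : ∫⁻ z, f z ∂markLaw G η = ENNReal.ofReal (1 - q / 2) := by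
    rw [← lintegral_add_compl f (measurableSet_hitSet r₀),
      setLIntegral_congr_fun (measurableSet_hitSet r₀) (fun z hz => if_pos hz),
      setLIntegral_congr_fun (measurableSet_hitSet r₀).compl
        (fun z (hz : z ∉ hitSet r₀) => if_neg hz),
      setLIntegral_const, setLIntegral_const, hhit, one_mul,
      measure_compl (measurableSet_hitSet r₀) (measure_ne_top _ _), measure_univ, hhit,
      ← ENNReal.ofReal_one, ← ENNReal.ofReal_sub _ hq0, ← ENNReal.ofReal_mul (by norm_num),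
      ← ENNReal.ofReal_add (by positivity) (by linarith)]
    congr 1; ring
  have hint : ∫⁻ ω, ∏ e ∈ E, f (ω e) ∂markField G η = ENNReal.ofReal ((1 - q / 2) ^ E.card) := by
    unfold markField
    rw [lintegral_prod_eq_prod_lintegral_of_indepFun E (fun e (ω : Edge → Bool × ℝ) => f (ω e))
      (iIndepFun_infinitePi fun _ => hfm) fun e => hfm.comp (measurable_pi_apply e),
      ENNReal.ofReal_pow (by linarith), ← Finset.prod_const]
    refine Finset.prod_congr rfl fun e _ => ?_
    rw [← hone, ← Measure.infinitePi_map_eval (fun _ : Edge => markLaw G η) e,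
      lintegral_map hfm (measurable_pi_apply e), Measure.infinitePi_map_eval]
  have hsub : {ω : Edge → Bool × ℝ | ((E.filter fun e => ω e ∈ hitSet r₀).card : ℝ) < c} ⊆
      {ω | ENNReal.ofReal (Real.exp (-c)) ≤ ∏ e ∈ E, f (ω e)} := by
    intro ω hω
    simp only [Set.mem_setOf_eq, hf] at hω ⊢
    rw [Finset.prod_ite, Finset.prod_const, Finset.prod_const_one, mul_one,
      ← ENNReal.ofReal_pow (by norm_num)]
    refine ENNReal.ofReal_le_ofReal ?_
    set X := (E.filter fun e => ω e ∈ hitSet r₀).card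
    calc Real.exp (-c) ≤ Real.exp ((X : ℕ) * (-1 : ℝ)) := Real.exp_le_exp.2 (by linarith)
      _ = Real.exp (-1) ^ X := Real.exp_nat_mul _ _
      _ ≤ (1 / 2) ^ X := by
          refine pow_le_pow_left₀ (Real.exp_pos _).le ?_ _
          rw [Real.exp_neg, ← one_div]
          exact one_div_le_one_div_of_le two_pos (by linarith [Real.exp_one_gt_d9])
  refine (measure_mono hsub).trans ((meas_ge_le_lintegral_div ?_ ?_ ENNReal.ofReal_ne_top).trans ?_)
  · exact (Finset.measurable_fun_prod _ fun e _ => hfm.comp (measurable_pi_apply e)).aemeasurable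
  · simp [Real.exp_pos]
  · rw [hint, ← ENNReal.ofReal_div_of_pos (Real.exp_pos _)]
    refine ENNReal.ofReal_le_ofReal ?_
    rw [div_le_iff₀ (Real.exp_pos _), ← Real.exp_add]
    calc (1 - q / 2) ^ E.card ≤ Real.exp (-(q / 2)) ^ E.card :=
          pow_le_pow_left₀ (by linarith) (Real.one_sub_le_exp_neg _) _
      _ = Real.exp ((E.card : ℕ) * -(q / 2)) := (Real.exp_nat_mul _ _).symm
      _ ≤ _ := Real.exp_le_exp.2 (by linarith)

lemma markField_half (h0 : 0 ≤ η) (h1 : η ≤ 1) (Y : Finset ℤ) (E : ℤ → Finset Edge) (c : ℝ)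
    (hE : ∀ y ∈ Y, Real.exp (c - η * G.real (Set.Iio r₀) * (E y).card / 2) ≤ 1 / 8) :
    ENNReal.ofReal (1 / 2) ≤ markField G η {ω | open Classical in
      Y.card / 2 ≤ (Y.filter fun y => c ≤ (((E y).filter fun e => ω e ∈ hitSet r₀).card : ℝ)).card} := by
  classical
  haveI := markLaw_prob (G := G) h0 h1
  haveI : IsProbabilityMeasure (markField G η) := by unfold markField; infer_instance
  have hm : ∀ y, MeasurableSet {ω : Edge → Bool × ℝ |
      (((E y).filter fun e => ω e ∈ hitSet r₀).card : ℝ) < c} := fun y => by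
    have e : (fun ω : Edge → Bool × ℝ => (((E y).filter fun e => ω e ∈ hitSet r₀).card : ℝ))
        = fun ω => ∑ e ∈ E y, if ω e ∈ hitSet r₀ then (1 : ℝ) else 0 := by
      funext ω; simp [Finset.sum_boole]
    refine measurableSet_lt ?_ measurable_const
    rw [e]
    exact Finset.measurable_fun_sum _ fun e _ => Measurable.ite
      ((measurable_pi_apply e) (measurableSet_hitSet r₀)) measurable_const measurable_const
  set F : (Edge → Bool × ℝ) → ℝ≥0∞ := fun ω => ∑ y ∈ Y,
    {ω : Edge → Bool × ℝ | (((E y).filter fun e => ω e ∈ hitSet r₀).card : ℝ) < c}.indicator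
      (fun _ => (1 : ℝ≥0∞)) ω with hF
  have hFm : Measurable F :=
    Finset.measurable_fun_sum _ fun y _ => measurable_const.indicator (hm y)
  have hint : ∫⁻ ω, F ω ∂markField G η ≤ (Y.card : ℝ≥0∞) * ENNReal.ofReal (1 / 8) := by
    simp only [hF]
    rw [lintegral_finsetSum _ fun y _ => measurable_const.indicator (hm y), ← nsmul_eq_mul]
    refine Finset.sum_le_card_nsmul _ _ _ fun y hy => ?_
    rw [lintegral_indicator_const (hm y), one_mul]
    exact (markField_few_hits h0 h1 _ c).trans (ENNReal.ofReal_le_ofReal (hE y hy))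
  set Good' : Set (Edge → Bool × ℝ) := {ω |
      Y.card / 2 ≤ (Y.filter fun y => c ≤ (((E y).filter fun e => ω e ∈ hitSet r₀).card : ℝ)).card}
  set T := ((Y.card + 1) / 2 : ℕ)
  have hcount : ∀ ω, ω ∉ Good' → (T : ℝ≥0∞) ≤ F ω := by
    intro ω hω
    simp only [Good', Set.mem_setOf_eq, not_le] at hω
    simp only [hF, Set.indicator_apply, Set.mem_setOf_eq, Finset.sum_boole]
    have hsplit := Finset.card_filter_add_card_filter_not (s := Y)
      (fun y => c ≤ (((E y).filter fun e => ω e ∈ hitSet r₀).card : ℝ))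
    simp only [not_le] at hsplit
    exact_mod_cast (by omega : T ≤ _)
  rcases Nat.eq_zero_or_pos Y.card with hY | hY
  · have : Good' = Set.univ := Set.eq_univ_of_forall fun ω => by simp [Good', hY]
    rw [this, measure_univ]
    exact ENNReal.ofReal_le_one.2 (by norm_num)
  have hT : 1 ≤ T := by omega
  have hbad : markField G η Good'ᶜ ≤ ENNReal.ofReal (1 / 4) := by
    refine (measure_mono (fun ω hω => hcount ω hω :
      Good'ᶜ ⊆ {ω | (T : ℝ≥0∞) ≤ F ω})).trans ?_
    refine (meas_ge_le_lintegral_div hFm.aemeasurable (by simp; omega) (by simp)).trans ?_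
    refine (ENNReal.div_le_div_right hint _).trans ?_
    rw [← ENNReal.ofReal_natCast, ← ENNReal.ofReal_natCast T,
      ← ENNReal.ofReal_mul (Nat.cast_nonneg _), ← ENNReal.ofReal_div_of_pos (by exact_mod_cast hT)]
    refine ENNReal.ofReal_le_ofReal ?_
    rw [div_le_iff₀ (by exact_mod_cast hT)]
    have : (Y.card : ℝ) ≤ 2 * (T : ℝ) := by exact_mod_cast (by omega : Y.card ≤ 2 * T)
    linarith
  have h2 := measure_union_le (μ := markField G η) Good' Good'ᶜ
  rw [Set.union_compl_self, measure_univ] at h2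
  by_contra hlt
  rw [not_le] at hlt
  have h3 := h2.trans_lt (ENNReal.add_lt_add_of_lt_of_le
    (ne_top_of_le_ne_top ENNReal.ofReal_ne_top hbad) hlt hbad)
  rw [← ENNReal.ofReal_add (by norm_num) (by norm_num)] at h3
  exact absurd h3 (not_lt.2 (ENNReal.ofReal_le_one.2 (by norm_num)))

end few

section visits
variable {t : Conf} {R L : ℕ} {a b δ : ℝ} {y : ℤ} {γ : ℤ → V}

lemma fst_step_le {u v : V} (h : Adj u v) : |v.1 - u.1| ≤ 1 ∧ |v.2 - u.2| ≤ 1 := by
  obtain ⟨a, b⟩ := u
  obtain ⟨c, d⟩ := v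
  rw [adj_iff] at h
  simp only [abs_le] at *
  omega

lemma abs_path_le {r : ℕ → V} (hadj : ∀ i, Adj (r i) (r (i + 1))) (n : ℕ) :
    |(r n).1 - (r 0).1| ≤ n ∧ |(r n).2 - (r 0).2| ≤ n := by
  induction n with
  | zero => simp
  | succ n ih =>
    have := fst_step_le (hadj n)
    push_cast
    simp only [abs_le] at *
    omega

/-- A cone path cannot stay in a bounded set of columns. -/
lemma exists_col_ge {r : ℕ → V} (hinj : Function.Injective r) {σ : ℤ}
    (hr : InCone 0 σ a b R r) (C : ℤ) :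
    ∀ᶠ n in atTop, C < σ * ((r n).1 - (r 0).1) := by
  set B : ℤ := max C 0
  set H : ℤ := ⌈(|a| + |b|) * B⌉
  have hfin : {n : ℕ | R ≤ n ∧ σ * ((r n).1 - (r 0).1) ≤ C}.Finite := by
    have hinj' : Function.Injective fun n : ℕ =>
        (σ * ((r n).1 - (r 0).1), σ * ((r n).2 - (r 0).2), σ) := by
      intro n m h
      simp only [Prod.mk.injEq, and_true] at h
      by_cases hσ : σ = 0
      · exfalso
        have := (hr R le_rfl).1
        simp [hσ] at this
      · exact hinj (Prod.ext (by linarith [mul_left_cancel₀ hσ h.1])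
          (by linarith [mul_left_cancel₀ hσ h.2]))
    refine (((Set.finite_Icc (0 : ℤ) B).prod ((Set.finite_Icc (-H) H).prod
      (Set.finite_singleton σ))).preimage hinj'.injOn).subset ?_
    rintro n ⟨hn, hC⟩
    obtain ⟨h1, h2, h3⟩ := hr n hn
    simp only [lev, zero_mul, add_zero] at h1 h2 h3
    have hX : σ * ((r n).1 - (r 0).1) ≤ B := hC.trans (le_max_left _ _)
    refine ⟨⟨h1.le, hX⟩, ⟨?_, ?_⟩, rfl⟩
    · have hXR : ((σ * ((r n).1 - (r 0).1) : ℤ) : ℝ) ≤ B := by exact_mod_cast hX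
      have hX0 : (0 : ℝ) ≤ ((σ * ((r n).1 - (r 0).1) : ℤ) : ℝ) := by exact_mod_cast h1.le
      have h4 : -((|a| + |b|) * B) ≤ ((σ * ((r n).2 - (r 0).2) : ℤ) : ℝ) := by
        have := mul_le_mul_of_nonneg_right (neg_abs_le a) hX0
        have := mul_le_mul_of_nonneg_left hXR (abs_nonneg a)
        have : 0 ≤ |b| * (B : ℝ) := mul_nonneg (abs_nonneg b) (hX0.trans hXR)
        linarith
      have h5 : -(H : ℝ) ≤ ((σ * ((r n).2 - (r 0).2) : ℤ) : ℝ) :=
        (neg_le_neg (Int.le_ceil _)).trans h4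
      exact_mod_cast h5
    · have hXR : ((σ * ((r n).1 - (r 0).1) : ℤ) : ℝ) ≤ B := by exact_mod_cast hX
      have hX0 : (0 : ℝ) ≤ ((σ * ((r n).1 - (r 0).1) : ℤ) : ℝ) := by exact_mod_cast h1.le
      have h4 : ((σ * ((r n).2 - (r 0).2) : ℤ) : ℝ) ≤ (|a| + |b|) * B := by
        have := mul_le_mul_of_nonneg_right (le_abs_self b) hX0
        have := mul_le_mul_of_nonneg_left hXR (abs_nonneg b)
        have : 0 ≤ |a| * (B : ℝ) := mul_nonneg (abs_nonneg a) (hX0.trans hXR)
        linarith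
      have h5 : ((σ * ((r n).2 - (r 0).2) : ℤ) : ℝ) ≤ (H : ℝ) := h4.trans (Int.le_ceil _)
      exact_mod_cast h5
  obtain ⟨N, hN⟩ := hfin.bddAbove
  refine eventually_atTop.2 ⟨max R (N + 1), fun n hn => not_le.1 fun hC => ?_⟩
  have := hN ⟨le_trans (le_max_left _ _) hn, hC⟩
  omega

/-- The edges of a one-sided path up to an index. -/
lemma exists_walk_edges {r : ℕ → V} (hadj : ∀ i, Adj (r i) (r (i + 1)))
    (hinj : Function.Injective r) (n : ℕ) :
    ∃ p : grid.Walk (r 0) (r n), p.IsPath ∧ p.length = n ∧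
      (edgeList p).toFinset = (Finset.range n).image fun i => edgeOf (r i) (r (i + 1)) := by
  classical
  obtain ⟨p, hl, -, -, hp, hS⟩ := exists_segment (t := fun _ => 0) hadj (Nat.zero_le n)
  refine ⟨p, hp hinj, by simpa using hl, Finset.eq_of_subset_of_card_le ?_ ?_⟩
  · intro e he
    simp only [List.mem_toFinset, edgeList, List.mem_map] at he
    obtain ⟨d, hd, rfl⟩ := he
    exact hS {e | e ∈ (Finset.range n).image fun i => edgeOf (r i) (r (i + 1))}
      (fun m _ hm => Finset.mem_image_of_mem (fun i => edgeOf (r i) (r (i + 1)))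
        (Finset.mem_range.2 hm)) d hd
  · rw [List.toFinset_card_of_nodup (edgeList_nodup (hp hinj)), length_edgeList, hl, Nat.sub_zero]
    exact Finset.card_image_le.trans_eq (Finset.card_range n)

lemma site_edges {r : ℝ} {L₀ : ℕ} {h : ℤ} {d : ℕ} (h8 : -8 ≤ a ∧ a ≤ b ∧ b ≤ 8) (hRL : R < L)
    (hL0 : L₀ ≤ L) (hline : SiteLine t R a b δ y γ) (hlow : FewLow r L₀ (0, y) t)
    (hy : h ≤ y ∧ y < h + d) :
    ∃ E : Finset Edge, 3 * L ≤ 4 * E.card ∧ E ⊆ midEdges L γ ∧
      (∀ e ∈ E, e ∈ regSet L R a b h d) ∧ ∀ e ∈ E, r ≤ t e := by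
  classical
  obtain ⟨⟨hgeo, hf, hb⟩, -, ⟨h0, -, -⟩, -⟩ := hline
  have hev := exists_col_ge (fwd_injective hgeo 0) hf (L : ℤ)
  have hevb := exists_col_ge (bwd_injective hgeo 0) hb (L : ℤ)
  obtain ⟨NF, hNF⟩ := eventually_atTop.1 hev
  obtain ⟨NB, hNB⟩ := eventually_atTop.1 hevb
  simp only [fwd, bwd, Nat.cast_zero, add_zero, sub_zero, zero_add, zero_sub, h0, one_mul,
    neg_mul, neg_sub] at hNF hNB
  have hex : ∃ m : ℕ, (L : ℤ) ≤ (γ m).1 := ⟨NF, (hNF NF le_rfl).le⟩
  set n := Nat.find hex with hn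
  have hn1 : (L : ℤ) ≤ (γ n).1 := Nat.find_spec hex
  have hn2 : ∀ i : ℕ, i < n → (γ i).1 < (L : ℤ) := fun i hi => not_le.1 (Nat.find_min hex hi)
  set r' := fwd γ 0 with hr'
  have hadj : ∀ i, Adj (r' i) (r' (i + 1)) := fwd_adj hgeo 0
  have hinj : Function.Injective r' := fwd_injective hgeo 0
  have hr0 : r' 0 = (0, y) := by simp [hr', fwd, h0]
  have hre : ∀ i : ℕ, r' i = γ (i : ℤ) := fun i => by simp [hr', fwd]
  have hdist : ∀ i : ℕ, |(γ i).1| ≤ i ∧ |(γ i).2 - y| ≤ i := fun i => by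
    have := abs_path_le hadj i
    rw [hr0, hre] at this
    simpa using this
  have hnL : L ≤ n := by
    have := (hdist n).1
    have := le_abs_self (γ n).1
    omega
  have hcone : ∀ i : ℕ, R ≤ i → 0 < (γ i).1 ∧ a * ((γ i).1 : ℝ) ≤ ((γ i).2 : ℝ) - y ∧
      ((γ i).2 : ℝ) - y ≤ b * ((γ i).1 : ℝ) := fun i hi => by
    obtain ⟨q1, q2, q3⟩ := hf i hi
    simp only [lev, hre i, hr0, add_zero, zero_mul, one_mul, sub_zero] at q1 q2 q3
    exact ⟨q1, by exact_mod_cast q2, by exact_mod_cast q3⟩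
  have hin : ∀ i : ℕ, i ≤ n → InTube L R a b h d (γ i) ∧ (i < n → |(γ i).1| < (L : ℤ)) := by
    intro i hi
    have hup : (γ i).1 ≤ L := by
      rcases hi.eq_or_lt with rfl | h'
      · obtain ⟨m, hm⟩ : ∃ m, n = m + 1 := ⟨n - 1, by omega⟩
        have h1 := hn2 m (by omega)
        have h2 := (fst_step_le (hadj m)).1
        rw [hre, hre, ← hm] at h2
        rw [abs_le] at h2
        omega
      · exact (hn2 i h').le
    have hy1 : (h : ℝ) ≤ y := by exact_mod_cast hy.1
    have hy2 : (y : ℝ) ≤ h + d := by exact_mod_cast hy.2.le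
    rcases le_or_gt R i with hR | hR
    · obtain ⟨q1, q2, q3⟩ := hcone i hR
      refine ⟨⟨abs_le.2 ⟨by omega, hup⟩, ?_, ?_⟩, fun h' => abs_lt.2 ⟨by omega, hn2 i h'⟩⟩
      · have := min_le_left (a * ((γ i).1 : ℝ)) (b * (γ i).1)
        have : (0 : ℝ) ≤ R := Nat.cast_nonneg R
        linarith
      · have := le_max_right (a * ((γ i).1 : ℝ)) (b * (γ i).1)
        have : (0 : ℝ) ≤ R := Nat.cast_nonneg R
        linarith
    · obtain ⟨d1, d2⟩ := hdist i
      have hiL : (i : ℤ) < L := by omega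
      refine ⟨⟨d1.trans hiL.le, ?_, ?_⟩, fun _ => d1.trans_lt hiL⟩
      all_goals
        have d2' : |((γ i).2 : ℝ) - y| ≤ R := by
          have : |(γ i).2 - y| ≤ (R : ℤ) := d2.trans (by omega)
          exact_mod_cast this
        have d1' : |((γ i).1 : ℝ)| ≤ R := by
          have : |(γ i).1| ≤ (R : ℤ) := d1.trans (by omega)
          exact_mod_cast this
        have ha : |a * ((γ i).1 : ℝ)| ≤ 8 * R := by
          rw [abs_mul]; exact mul_le_mul (abs_le.2 ⟨h8.1, h8.2.1.trans h8.2.2⟩) d1'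
            (abs_nonneg _) (by norm_num)
        rw [abs_le] at d2' ha
      · have := min_le_left (a * ((γ i).1 : ℝ)) (b * (γ i).1); linarith
      · have := le_max_left (a * ((γ i).1 : ℝ)) (b * (γ i).1); linarith
  obtain ⟨p, hp, hpl, hpe⟩ := exists_walk_edges hadj hinj n
  refine ⟨((Finset.range n).image fun i => edgeOf (r' i) (r' (i + 1))).filter fun e => r ≤ t e,
    ?_, ?_, ?_, fun e he => (Finset.mem_filter.1 he).2⟩
  · have hlo := hlow (r' n) (p.copy hr0 rfl) (by simpa using hp) (by simp [hpl]; omega)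
    have e1 : ((p.copy hr0 rfl).darts.filter fun d =>
        decide (wt t d.toProd.1 d.toProd.2 < r)).length
        = ((edgeList p).toFinset.filter fun e => t e < r).card := by
      rw [SimpleGraph.Walk.darts_copy,
        show (edgeList p).toFinset.filter (fun e => t e < r)
          = ((edgeList p).filter fun e => decide (t e < r)).toFinset by ext; simp,
        List.toFinset_card_of_nodup ((edgeList_nodup hp).filter _), edgeList, List.filter_map,
        List.length_map]
      rfl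
    rw [e1, SimpleGraph.Walk.length_copy, hpl] at hlo
    rw [← hpe]
    have htot := Finset.card_filter_add_card_filter_not (s := (edgeList p).toFinset)
      (fun e => t e < r)
    rw [List.toFinset_card_of_nodup (edgeList_nodup hp), length_edgeList, hpl] at htot
    simp only [not_lt] at htot
    omega
  · intro e he
    obtain ⟨he, -⟩ := Finset.mem_filter.1 he
    obtain ⟨i, hi, rfl⟩ := Finset.mem_image.1 he
    rw [Finset.mem_range] at hi
    rw [hre, hre, show ((i + 1 : ℕ) : ℤ) = (i : ℤ) + 1 by push_cast; ring]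
    refine Finset.mem_image_of_mem (fun i : ℤ => edgeOf (γ i) (γ (i + 1)))
      (Finset.mem_Ico.2 ⟨?_, ?_⟩)
    · refine le_trans ?_ (Int.natCast_nonneg i)
      refine csInf_le ⟨-(NB : ℤ), fun j (hj : -(L : ℤ) ≤ (γ j).1) => ?_⟩ (by simp [h0])
      by_contra hlt
      obtain ⟨m, rfl⟩ : ∃ m : ℕ, j = -(m : ℤ) := ⟨(-j).toNat, by omega⟩
      have := hNB m (by omega)
      omega
    · have hle : (n : ℤ) ≤ rgtIdx L γ := by
        refine le_csSup ⟨(NF : ℤ), fun j (hj : (γ j).1 ≤ (L : ℤ)) => ?_⟩ ?_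
        · by_contra hlt
          obtain ⟨m, rfl⟩ : ∃ m : ℕ, j = (m : ℤ) := ⟨j.toNat, by omega⟩
          have := hNF m (by omega)
          omega
        · exact le_of_abs_le (hin n le_rfl).1.1
      exact lt_of_lt_of_le (by exact_mod_cast hi) hle
  · intro e he
    obtain ⟨he, -⟩ := Finset.mem_filter.1 he
    obtain ⟨i, hi, rfl⟩ := Finset.mem_image.1 he
    rw [Finset.mem_range] at hi
    obtain ⟨a1, a2⟩ := hin i hi.le
    obtain ⟨b1, -⟩ := hin (i + 1) (by omega)
    rw [← hre] at a1 a2 b1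
    rcases ends_edgeOf (hadj i) with ⟨e1, e2⟩ | ⟨e1, e2⟩ <;>
      simp only [regSet, Set.mem_setOf_eq, e1, e2]
    exacts [⟨a1, b1, Or.inl (a2 hi)⟩, ⟨b1, a1, Or.inr (a2 hi)⟩]

lemma gain_le_sum {r r₀ : ℝ} {S E : Finset Edge} {D : Finset Edge} (hrr : r₀ ≤ r) (hES : E ⊆ S)
    (hED : E ⊆ D) (hr : ∀ e ∈ E, r ≤ t e) (ω : Edge → Bool × ℝ) :
    open Classical in
    (r - r₀) * ((E.filter fun e => ω e ∈ hitSet r₀).card : ℝ)
      ≤ ∑ e ∈ D, (t e - tiltMap S (t, ω) e) := by
  classical
  have hnn : ∀ e, 0 ≤ t e - tiltMap S (t, ω) e := fun e => by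
    simp only [tiltMap, tiltVal]
    split_ifs <;> simp
  calc (r - r₀) * ((E.filter fun e => ω e ∈ hitSet r₀).card : ℝ)
      = ∑ _e ∈ E.filter (fun e => ω e ∈ hitSet r₀), (r - r₀) := by
        rw [Finset.sum_const, nsmul_eq_mul, mul_comm]
    _ ≤ ∑ e ∈ E.filter (fun e => ω e ∈ hitSet r₀), (t e - tiltMap S (t, ω) e) := by
        refine Finset.sum_le_sum fun e he => ?_
        obtain ⟨he, hh⟩ := Finset.mem_filter.1 he
        obtain ⟨h1, h2⟩ := hh
        simp only [Set.mem_singleton_iff] at h1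
        simp only [tiltMap, hES he, if_true, tiltVal, h1]
        have : min (t e) (ω e).2 ≤ (ω e).2 := min_le_right _ _
        linarith [hr e he, Set.mem_Iio.1 h2]
    _ ≤ _ := Finset.sum_le_sum_of_subset_of_nonneg ((Finset.filter_subset _ _).trans hED)
        fun e _ _ => hnn e

end visits

/-- The probability of the certificate of one block. -/
theorem block_prob_of_jumps {G : Measure ℝ} {M : ℝ} (hG : LawOK G M) {GS : Set Conf}
    (hGSm : MeasurableSet GS) (hGS : ∀ᵐ t ∂law G, t ∈ GS) {R L L₀ d k : ℕ}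
    {a b δ g r r₀ η K : ℝ} {h : ℤ} (hjump : HasJumps GS R L δ a b g) (hRL : R < L) (hL0 : L₀ ≤ L)
    (h8 : -8 ≤ a ∧ a ≤ b ∧ b ≤ 8) (hrr : r₀ < r) (h0 : 0 ≤ η) (h1 : η ≤ 1) {S : Finset Edge}
    (hS : (↑S : Set Edge) = regSet L R a b h d) (hK : (1 + η ^ 2) ^ S.card ≤ K)
    (hbig : 64 ≤ η * G.real (Set.Iio r₀) * L)
    (hg : g ≤ (r - r₀) * η * G.real (Set.Iio r₀) * L / 4)
    (hsites : ENNReal.ofReal (3 / 4) ≤ law G {t | ∃ Y : Finset ℤ, k ≤ Y.card ∧
      ∀ y ∈ Y, h ≤ y ∧ y < h + d ∧ t ∈ siteEvent R L₀ a b δ r y}) :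
    ∀ᶠ W in atTop, ENNReal.ofReal (1 / (64 * K))
      ≤ law G (blockEvent ⟨R, L, d, W, δ, g⟩ GS a b h (k / 2)) := by
  classical
  have := hG.prob
  haveI := markLaw_prob (G := G) h0 h1
  haveI : IsProbabilityMeasure (markField G η) := by unfold markField; infer_instance
  haveI := law_isProb hG
  set P := (law G).prod (markField G η) with hP
  set c := η * G.real (Set.Iio r₀) * (L : ℝ) / 4 with hc
  set A := {t : Conf | (∃ Y : Finset ℤ, k ≤ Y.card ∧
      ∀ y ∈ Y, h ≤ y ∧ y < h + d ∧ t ∈ siteEvent R L₀ a b δ r y) ∧ t ∈ GS} with hA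
  have hAle : ENNReal.ofReal (3 / 4) ≤ law G A := by
    refine hsites.trans (measure_mono_ae ?_)
    filter_upwards [hGS] with t ht hY
    exact ⟨hY, ht⟩
  set C : ℕ → Set (Conf × (Edge → Bool × ℝ)) := fun W =>
    {q | Cert ⟨R, L, d, W, δ, g⟩ GS a b h (k / 2) q.1 (tiltMap S q)} with hC
  -- the tilted configuration is again nice
  have hnew : ∀ᵐ q ∂P, tiltMap S q ∈ GS := by
    refine ae_of_ae_map (measurable_tiltMap S).aemeasurable ?_
    rw [hP, tiltMap_law hG.noAtoms h0 h1]
    exact (withDensity_absolutelyContinuous _ _).ae_le hGS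
  -- for a configuration with many good sites, most marks give a certificate
  have hslice : ∀ t ∈ A, ENNReal.ofReal (1 / 2) ≤
      markField G η {ω | tiltMap S (t, ω) ∈ GS → (t, ω) ∈ ⋃ W, C W} := by
    rintro t ⟨⟨Y, hYk, hY⟩, ht⟩
    have hsel : ∀ y ∈ Y, ∃ (γ : ℤ → V) (E : Finset Edge), SiteLine t R a b δ y γ ∧
        3 * L ≤ 4 * E.card ∧ E ⊆ midEdges L γ ∧ E ⊆ S ∧ ∀ e ∈ E, r ≤ t e := fun y hy => by
      obtain ⟨hy1, hy2, hlow, γ, hγ⟩ := hY y hy
      obtain ⟨E, e1, e2, e3, e4⟩ := site_edges h8 hRL hL0 hγ hlow ⟨hy1, hy2⟩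
      exact ⟨γ, E, hγ, e1, e2, fun e he => by rw [← Finset.mem_coe, hS]; exact e3 e he, e4⟩
    choose! γ E hline hcard hmid hES hge using hsel
    have hhalf := markField_half (G := G) (r₀ := r₀) h0 h1 Y E c fun y hy => by
      have h3 : 3 * (L : ℝ) ≤ 4 * ((E y).card : ℝ) := by exact_mod_cast hcard y hy
      have h4 := mul_le_mul_of_nonneg_left h3 (mul_nonneg h0 (measureReal_nonneg (μ := G)
        (s := Set.Iio r₀)))
      calc Real.exp (c - η * G.real (Set.Iio r₀) * (E y).card / 2)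
          ≤ Real.exp (-8) := Real.exp_le_exp.2 (by rw [hc]; linarith)
        _ ≤ 1 / 8 := by
          rw [Real.exp_neg, ← one_div]
          exact one_div_le_one_div_of_le (by norm_num) (by linarith [Real.add_one_le_exp (8 : ℝ)])
    refine hhalf.trans (measure_mono fun ω hω hnewω => ?_)
    simp only [Set.mem_setOf_eq] at hω
    obtain ⟨T, hTsub, hTcard⟩ := Finset.exists_subset_card_eq
      (le_trans (Nat.div_le_div_right hYk) hω)
    set eqv := (Finset.equivFinOfCardEq hTcard).symm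
    set ys : Fin (k / 2) → ℤ := fun i => (eqv i : ℤ) with hys
    have hysinj : Function.Injective ys := fun i j hij => eqv.injective (Subtype.ext hij)
    have hmem : ∀ i, ys i ∈ Y ∧ c ≤ (((E (ys i)).filter fun e => ω e ∈ hitSet r₀).card : ℝ) :=
      fun i => Finset.mem_filter.1 (hTsub (eqv i).2)
    have hev : ∀ᶠ W in atTop, ∀ i j, i ≠ j → JumpAt t L g h W (γ (ys i)) (γ (ys j)) := by
      simp only [eventually_all]
      intro i j hij
      obtain ⟨W, hW⟩ := hjump t ht h _ _ _ _ (hline _ (hmem i).1) (hline _ (hmem j).1)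
        (hysinj.ne hij)
      exact eventually_atTop.2 ⟨W, fun W' hW' => hW.mono hW'⟩
    obtain ⟨W, hW⟩ := hev.exists
    refine Set.mem_iUnion.2 ⟨W, ht, hnewω, fun e => ?_, fun e he => ?_, ys, fun i => γ (ys i),
      hysinj, fun i => ?_, hW⟩
    · simp only [tiltMap, tiltVal]; split_ifs <;> simp
    · simp only at he ⊢
      rw [tiltMap, if_neg]
      rwa [← Finset.mem_coe, hS]
    · obtain ⟨hy, hcy⟩ := hmem i
      refine ⟨(hY _ hy).1, (hY _ hy).2.1, hline _ hy, ?_⟩
      refine le_trans ?_ (gain_le_sum hrr.le (hES _ hy) (hmid _ hy) (hge _ hy) ω)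
      exact le_trans (hg.trans_eq (by rw [hc]; ring))
        (mul_le_mul_of_nonneg_left hcy (by linarith))
  -- the union over windows has probability at least 3/8
  have hCU : ENNReal.ofReal (3 / 8) ≤ P (⋃ W, C W) := by
    set X := toMeasurable P (⋃ W, C W) ∪ toMeasurable P {q | tiltMap S q ∉ GS} with hX
    have hXm : MeasurableSet X :=
      (measurableSet_toMeasurable _ _).union (measurableSet_toMeasurable _ _)
    have hsub : A ⊆ {t | ENNReal.ofReal (1 / 2) ≤ markField G η (Prod.mk t ⁻¹' X)} := fun t ht =>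
      (hslice t ht).trans (measure_mono fun ω hω => by
        by_cases hn : tiltMap S (t, ω) ∈ GS
        · exact Or.inl (subset_toMeasurable _ _ (hω hn))
        · exact Or.inr (subset_toMeasurable _ _ hn))
    have hPX : P X ≤ P (⋃ W, C W) := by
      refine (measure_union_le _ _).trans ?_
      rw [measure_toMeasurable, measure_toMeasurable,
        (show P {q | tiltMap S q ∉ GS} = 0 from ae_iff.1 hnew), add_zero]
    refine le_trans ?_ hPX
    rw [hP, Measure.prod_apply hXm]
    refine le_trans ?_ (mul_meas_ge_le_lintegral (measurable_measure_prodMk_left hXm)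
      (ENNReal.ofReal (1 / 2)))
    calc ENNReal.ofReal (3 / 8) = ENNReal.ofReal (1 / 2) * ENNReal.ofReal (3 / 4) := by
          rw [← ENNReal.ofReal_mul (by norm_num)]; norm_num
      _ ≤ _ := by gcongr; exact hAle.trans (measure_mono hsub)
  have hmono : Monotone C := fun W W' hW q hq => Cert.mono_window hq hW
  have hlim := (tendsto_measure_iUnion_atTop (μ := P) hmono).eventually_const_le
    (lt_of_lt_of_le (ENNReal.ofReal_lt_ofReal_iff (by norm_num) |>.2
      (by norm_num : (1 / 4 : ℝ) < 3 / 8)) hCU)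
  filter_upwards [hlim] with W hW
  have hK0 : 1 ≤ K := le_trans (one_le_pow₀ (by nlinarith)) hK
  set B := toMeasurable (law G) (blockEvent ⟨R, L, d, W, δ, g⟩ GS a b h (k / 2)) with hB
  have hsubB : C W ⊆ tiltMap S ⁻¹' B := fun q hq => subset_toMeasurable _ _ ⟨q.1, hq⟩
  have hcmp := (hW.trans (measure_mono hsubB)).trans
    (tilt_compare hG.noAtoms h0 h1 S hK (measurableSet_toMeasurable _ _))
  rw [measure_toMeasurable] at hcmp
  by_contra hlt
  rw [not_le] at hlt
  have h2 : ENNReal.ofReal (2 * K) * law G (blockEvent ⟨R, L, d, W, δ, g⟩ GS a b h (k / 2))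
      ≤ ENNReal.ofReal (2 * K) * ENNReal.ofReal (1 / (64 * K)) := by gcongr
  have h3 := hcmp.trans (add_le_add_left h2 _)
  rw [← ENNReal.ofReal_mul (by positivity), ← ENNReal.ofReal_add (by positivity) (by norm_num),
    ENNReal.ofReal_le_ofReal_iff (by positivity),
    show 2 * K * (1 / (64 * K)) = 1 / 32 by field_simp; ring] at h3
  linarith

end Vale.Agent.P158
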