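import Mathlib

/-!
P158, order module: a finite sequence without alternations low-high-low-high (in either phase)
consists of at most three monotone pieces, so its total variation is at most three times its
range, and the oscillations over disjoint windows add up to no more than that.
-/

namespace Vale.Agent.P158

open Finset

/-- No four increasingly placed values alternate. -/
def NoAlt {n : ℕ} (f : Fin n → ℝ) : Prop :=
  ∀ a b c d : Fin n, a < b → b < c → c < d →
    min (f b) (f d) ≤ max (f a) (f c) ∧ min (f a) (f c) ≤ max (f b) (f d)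

/-- The total variation of a sequence on the indices `a, a + 1, …, b`. -/
noncomputable def tvOn (g : ℕ → ℝ) (a b : ℕ) : ℝ := ∑ i ∈ Ico a b, |g (i + 1) - g i|

lemma tvOn_split (g : ℕ → ℝ) {a b c : ℕ} (hab : a ≤ b) (hbc : b ≤ c) :
    tvOn g a c = tvOn g a b + tvOn g b c := (sum_Ico_consecutive _ hab hbc).symm

lemma tvOn_nonneg (g : ℕ → ℝ) (a b : ℕ) : 0 ≤ tvOn g a b :=
  sum_nonneg fun _ _ => abs_nonneg _

lemma tvOn_mono (g : ℕ → ℝ) {a b : ℕ} (hab : a ≤ b)
    (h : ∀ i, a ≤ i → i < b → g i ≤ g (i + 1)) : tvOn g a b = g b - g a := by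
  rw [tvOn, ← sum_Ico_sub g hab]
  exact sum_congr rfl fun i hi =>
    abs_of_nonneg (by have := mem_Ico.1 hi; linarith [h i this.1 this.2])

lemma tvOn_anti (g : ℕ → ℝ) {a b : ℕ} (hab : a ≤ b)
    (h : ∀ i, a ≤ i → i < b → g (i + 1) ≤ g i) : tvOn g a b = g a - g b := by
  rw [tvOn, ← neg_sub (g b), ← sum_Ico_sub g hab, ← sum_neg_distrib]
  exact sum_congr rfl fun i hi =>
    abs_of_nonpos (by have := mem_Ico.1 hi; linarith [h i this.1 this.2])

lemma abs_le_tvOn (g : ℕ → ℝ) {a b : ℕ} (hab : a ≤ b) : |g b - g a| ≤ tvOn g a b := by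
  rw [← sum_Ico_sub g hab]
  exact abs_sum_le_sum_abs _ _

/-- Three monotone pieces: total variation at most three times the range. -/
theorem tvOn_le_of_noAlt (g : ℕ → ℝ) (N : ℕ)
    (h : NoAlt fun i : Fin (N + 1) => g i) (lo hi : ℝ)
    (hlo : ∀ i ≤ N, lo ≤ g i) (hhi : ∀ i ≤ N, g i ≤ hi) :
    tvOn g 0 N ≤ 3 * (hi - lo) := by
  have alt : ∀ a b c d : ℕ, a < b → b < c → c < d → d ≤ N →
      min (g b) (g d) ≤ max (g a) (g c) ∧ min (g a) (g c) ≤ max (g b) (g d) :=
    fun a b c d hab hbc hcd hd =>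
      h ⟨a, by omega⟩ ⟨b, by omega⟩ ⟨c, by omega⟩ ⟨d, by omega⟩ hab hbc hcd
  suffices main : ∀ f : ℕ → ℝ, (∀ a b c d : ℕ, a < b → b < c → c < d → d ≤ N →
      min (f b) (f d) ≤ max (f a) (f c) ∧ min (f a) (f c) ≤ max (f b) (f d)) →
      ∀ M m : ℕ, M ≤ m → m ≤ N → (∀ i ≤ N, f i ≤ f M) → (∀ i ≤ N, f m ≤ f i) →
      tvOn f 0 N ≤ 3 * (f M - f m) by
    obtain ⟨M, hM, hmax⟩ := (range (N + 1)).exists_max_image g ⟨0, by simp⟩
    obtain ⟨m, hm, hmin⟩ := (range (N + 1)).exists_min_image g ⟨0, by simp⟩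
    rw [mem_range, Nat.lt_succ_iff] at hM hm
    have hmax' : ∀ i ≤ N, g i ≤ g M := fun i hi => hmax i (mem_range.2 (Nat.lt_succ_iff.2 hi))
    have hmin' : ∀ i ≤ N, g m ≤ g i := fun i hi => hmin i (mem_range.2 (Nat.lt_succ_iff.2 hi))
    rcases le_total M m with hle | hle
    · linarith [main g alt M m hle hm hmax' hmin', hhi M hM, hlo m hm]
    · have h2 := main (fun i => -g i) (fun a b c d hab hbc hcd hd => by
          obtain ⟨h1, h2⟩ := alt a b c d hab hbc hcd hd
          simp only [min_neg_neg, max_neg_neg, neg_le_neg_iff]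
          exact ⟨h2, h1⟩) m M hle hM (fun i hi => neg_le_neg (hmin' i hi))
          (fun i hi => neg_le_neg (hmax' i hi))
      have h3 : tvOn (fun i => -g i) 0 N = tvOn g 0 N :=
        sum_congr rfl fun i _ => by rw [neg_sub_neg, abs_sub_comm]
      rw [h3] at h2
      linarith [hhi M hM, hlo m hm]
  intro f hf M m hMm hm hmax hmin
  have e1 : tvOn f 0 M = f M - f 0 := by
    refine tvOn_mono f (Nat.zero_le _) fun i _ hi => ?_
    by_contra hlt
    push Not at hlt
    have hi1 : i + 1 < M := by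
      rcases (Nat.succ_le_of_lt hi).lt_or_eq with h' | h'
      · exact h'
      · have := hmax i (by omega)
        rw [Nat.succ_eq_add_one] at h'
        rw [h'] at hlt
        linarith
    rcases hMm.lt_or_eq with hMm' | rfl
    · obtain ⟨-, h2⟩ := hf i (i + 1) M m (by omega) hi1 hMm' hm
      linarith [le_max_left (f (i + 1)) (f m), max_le (le_refl (f (i + 1))) (hmin (i + 1) (by omega)),
        le_min (le_refl (f i)) (hmax i (by omega))]
    · linarith [hmax i (by omega), hmin (i + 1) (by omega)]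
  have e2 : tvOn f M m = f M - f m := by
    refine tvOn_anti f hMm fun i hMi him => ?_
    by_contra hlt
    push Not at hlt
    have hMi' : M < i := by
      rcases hMi.lt_or_eq with h' | h'
      · exact h'
      · subst h'; linarith [hmax (M + 1) (by omega)]
    have him' : i + 1 < m := by
      rcases (Nat.succ_le_of_lt him).lt_or_eq with h' | h'
      · exact h'
      · have := hmin i (by omega)
        rw [Nat.succ_eq_add_one] at h'
        rw [h'] at hlt
        linarith
    obtain ⟨-, h2⟩ := hf M i (i + 1) m hMi' (by omega) him' hm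
    linarith [max_le (le_refl (f i)) (hmin i (by omega)),
      le_min (hmax (i + 1) (by omega)) (le_refl (f (i + 1)))]
  have e3 : tvOn f m N = f N - f m := by
    refine tvOn_mono f hm fun i hi hiN => ?_
    by_contra hlt
    push Not at hlt
    have hmi : m < i := by
      rcases hi.lt_or_eq with h' | h'
      · exact h'
      · subst h'; linarith [hmin (m + 1) (by omega)]
    rcases hMm.lt_or_eq with hMm' | rfl
    · obtain ⟨-, h2⟩ := hf M m i (i + 1) hMm' hmi (by omega) (by omega)
      linarith [max_le (hmin (i + 1) (by omega)) (le_refl (f (i + 1))),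
        le_min (hmax i (by omega)) (le_refl (f i))]
    · linarith [hmax i (by omega), hmin (i + 1) (by omega)]
  rw [tvOn_split f (Nat.zero_le M) (le_trans hMm hm), tvOn_split f hMm hm, e1, e2, e3]
  linarith [hmin 0 (Nat.zero_le N), hmax N le_rfl]

/-- Disjoint windows: the differences inside them add up to at most three times the range. -/
theorem windows_le_of_noAlt {n m : ℕ} (f : Fin n → ℝ) (h : NoAlt f) (lo hi : ℝ)
    (hlh : lo ≤ hi) (hlo : ∀ i, lo ≤ f i) (hhi : ∀ i, f i ≤ hi) (U : Finset (Fin m))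
    (p q : Fin m → Fin n)
    (hsep : ∀ u ∈ U, ∀ v ∈ U, u < v → max (p u) (q u) ≤ min (p v) (q v)) :
    ∑ u ∈ U, |f (p u) - f (q u)| ≤ 3 * (hi - lo) := by
  rcases n with _ | N
  · rcases U.eq_empty_or_nonempty with rfl | ⟨u, _⟩
    · simp only [sum_empty]; linarith
    · exact (p u).elim0
  obtain ⟨g, hg⟩ : ∃ g : ℕ → ℝ, ∀ i : Fin (N + 1), g i = f i :=
    ⟨fun i => f ⟨min i N, by omega⟩, fun i => by simp [min_eq_left i.is_le]⟩
  obtain ⟨a, ha⟩ : ∃ a : Fin m → ℕ, a = fun u => min ((p u : ℕ)) (q u) := ⟨_, rfl⟩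
  obtain ⟨b, hb⟩ : ∃ b : Fin m → ℕ, b = fun u => max ((p u : ℕ)) (q u) := ⟨_, rfl⟩
  have hab : ∀ u, a u ≤ b u := fun u => by rw [ha, hb]; exact min_le_max
  have hbN : ∀ u, b u ≤ N := fun u => by rw [hb]; exact max_le (by omega) (by omega)
  have step : ∀ u ∈ U, |f (p u) - f (q u)| ≤ tvOn g (a u) (b u) := fun u _ => by
    rw [← hg, ← hg, ha, hb]
    rcases le_total (p u : ℕ) (q u) with h' | h'
    · simp only [min_eq_left h', max_eq_right h']; rw [abs_sub_comm]; exact abs_le_tvOn g h'
    · simp only [min_eq_right h', max_eq_left h']; exact abs_le_tvOn g h'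
  refine (sum_le_sum step).trans (le_trans ?_ (tvOn_le_of_noAlt g N (fun i j k l => by
    simp only [hg]; exact h i j k l) lo hi
    (fun i hi' => by
      have := hg ⟨i, by omega⟩
      simp only at this
      rw [this]; exact hlo _)
    (fun i hi' => by
      have := hg ⟨i, by omega⟩
      simp only at this
      rw [this]; exact hhi _)))
  unfold tvOn
  rw [← sum_biUnion]
  · refine sum_le_sum_of_subset_of_nonneg (fun i hi' => ?_) fun i _ _ => abs_nonneg _
    simp only [mem_biUnion, mem_Ico] at hi' ⊢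
    obtain ⟨u, -, h1, h2⟩ := hi'
    exact ⟨Nat.zero_le i, lt_of_lt_of_le h2 (hbN u)⟩
  · intro u hu v hv huv
    simp only [Function.onFun, disjoint_left, mem_Ico]
    intro i hiu hiv
    rcases lt_or_gt_of_ne huv with hl | hl
    · have := hsep u hu v hv hl
      rw [Fin.le_def, Fin.coe_max, Fin.coe_min] at this
      simp only [ha, hb] at hiu hiv
      omega
    · have := hsep v hv u hu hl
      rw [Fin.le_def, Fin.coe_max, Fin.coe_min] at this
      simp only [ha, hb] at hiu hiv
      omega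

end Vale.Agent.P158
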