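import Vale.Agent.P158.Rays
import Vale.Agent.P158.OrderAlg

/-!
P158, order module: planar comparisons of Busemann functions of rays inside an edge set `S`.

The side is coded by `σ = ±1`: a ray going to the side is one with `σ * lev → -∞`, and a far
level `D` means the line `σ * lev = D`. Everything follows from two meeting facts about walks
(`MeetHalf`, `MeetStrip`) and one splicing inequality (`bus_quad`).
-/

open Filter Topology

namespace Vale.Agent.P158

/-- Walks on one side of a level with interleaved ends on it share a vertex. -/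
def MeetHalf (k : ℤ) : Prop :=
  ∀ (σ D : ℤ) (a b c d : V) (p : grid.Walk a c) (q : grid.Walk b d), (σ = 1 ∨ σ = -1) →
    σ * lev k a = D → σ * lev k b = D → σ * lev k c = D → σ * lev k d = D →
    a.2 ≤ b.2 → b.2 ≤ c.2 → c.2 ≤ d.2 →
    (∀ v ∈ p.support, D ≤ σ * lev k v) → (∀ v ∈ q.support, D ≤ σ * lev k v) →
    ∃ v, v ∈ p.support ∧ v ∈ q.support

/-- Walks across a strip whose ends are in opposite orders share a vertex. -/
def MeetStrip (k : ℤ) : Prop :=
  ∀ (σ D D' : ℤ) (a b c d : V) (p : grid.Walk a c) (q : grid.Walk b d), (σ = 1 ∨ σ = -1) →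
    D < D' → σ * lev k a = D → σ * lev k b = D → σ * lev k c = D' → σ * lev k d = D' →
    a.2 ≤ b.2 → d.2 ≤ c.2 →
    (∀ v ∈ p.support, D ≤ σ * lev k v ∧ σ * lev k v ≤ D') →
    (∀ v ∈ q.support, D ≤ σ * lev k v ∧ σ * lev k v ≤ D') →
    ∃ v, v ∈ p.support ∧ v ∈ q.support

variable {t : Conf} {S : Set Edge} {k σ : ℤ}

/-! ### Approximate minimisers -/

lemma ord_TS_approx {x y : V} (hc : ConnIn S x y) {ε : ℝ} (hε : 0 < ε) :
    ∃ p : grid.Walk x y, WalkIn S p ∧ plen t p < TS t S x y + ε := by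
  obtain ⟨p, hp⟩ := hc
  obtain ⟨_, ⟨q, hq, rfl⟩, hlt⟩ := exists_lt_of_csInf_lt
    (s := plen t '' {p : grid.Walk x y | WalkIn S p}) ⟨_, p, hp, rfl⟩
    (show TS t S x y < TS t S x y + ε by linarith)
  exact ⟨q, hq, hlt⟩

lemma ord_ray_seg {r : ℕ → V} (hr : IsRayIn t S r) {n i : ℕ} (hni : n ≤ i) :
    ∃ w : grid.Walk (r i) (r n), WalkIn S w ∧ plen t w = rlen t r i - rlen t r n ∧
      ∀ v ∈ w.support, ∃ j, n ≤ j ∧ j ≤ i ∧ v = r j := by
  induction i, hni using Nat.le_induction with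
  | base => exact ⟨.nil, walkIn_nil, by simp [plen], fun v hv => ⟨n, le_rfl, le_rfl, by
      simpa using hv⟩⟩
  | succ i hi ih =>
    obtain ⟨w, hw, hl, hs⟩ := ih
    refine ⟨w.cons (show grid.Adj (r i) (r (i + 1)) from hr.adj i).symm, ?_, ?_, ?_⟩
    · rw [Rays.walkIn_cons, edgeOf_comm]; exact ⟨hr.mem i, hw⟩
    · rw [Rays.plen_cons, hl, wt_comm, Rays.rlen_succ]; ring
    · intro v hv
      rw [SimpleGraph.Walk.support_cons, List.mem_cons] at hv
      rcases hv with rfl | hv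
      · exact ⟨i + 1, by omega, le_rfl, rfl⟩
      · obtain ⟨j, h1, h2, h3⟩ := hs v hv
        exact ⟨j, h1, by omega, h3⟩

lemma ord_bus_lip (h : ∀ e, 0 ≤ t e) {r : ℕ → V} (hr : IsRayIn t S r) {a b : V}
    (hc : ConnIn S (r 0) a) (hab : ConnIn S a b) :
    bus t S r b ≤ bus t S r a + TS t S a b := by
  linarith [(abs_le.1 (Rays.bus_lip h hr hc hab)).1]

lemma ord_ray_conn {r : ℕ → V} (hr : IsRayIn t S r) {z : V} (hc : ConnIn S (r 0) z) (n : ℕ) :
    ConnIn S (r n) z := ConnIn.trans (hr.conn n 0) hc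

/-- An approximate minimiser of the Busemann function at `z`. -/
lemma ord_bus_approx {r : ℕ → V} (hr : IsRayIn t S r) {z : V} (hc : ConnIn S (r 0) z)
    {ε : ℝ} (hε : 0 < ε) :
    ∃ (n : ℕ) (p : grid.Walk (r n) z), WalkIn S p ∧
      plen t p - rlen t r n ≤ bus t S r z + ε := by
  obtain ⟨n, hn⟩ := exists_lt_of_ciInf_lt
    (show bus t S r z < bus t S r z + ε / 2 by linarith)
  obtain ⟨p, hp, hlt⟩ := ord_TS_approx (t := t) (ord_ray_conn hr hc n) (half_pos hε)
  exact ⟨n, p, hp, by linarith⟩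

/-- `c` lies on an approximate geodesic from the end of `r` to `z`, of normalised length `v`. -/
def OnExt (t : Conf) (S : Set Edge) (r : ℕ → V) (z : V) (v : ℝ) (c : V) : Prop :=
  ConnIn S (r 0) c ∧ ConnIn S c z ∧ bus t S r c + TS t S c z ≤ v

/-- The splicing inequality. -/
theorem bus_quad (h : ∀ e, 0 ≤ t e) {r r' : ℕ → V} (hr : IsRayIn t S r) (hr' : IsRayIn t S r')
    {z y c : V} {v v' : ℝ} (h1 : OnExt t S r z v c) (h2 : OnExt t S r' y v' c) :
    bus t S r' z + bus t S r y ≤ v + v' := by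
  obtain ⟨hrc, hcz, hv⟩ := h1
  obtain ⟨hrc', hcy, hv'⟩ := h2
  linarith [ord_bus_lip h hr' hrc' hcz, ord_bus_lip h hr hrc hcy]

/-! ### First visit of a far level -/

/-- The index of the first vertex of `r` with `σ * lev ≤ D`. -/
noncomputable def hitIdx (k σ D : ℤ) (r : ℕ → V) : ℕ := sInf {n | σ * lev k (r n) ≤ D}

/-- The height of the first vertex of `r` with `σ * lev ≤ D`. -/
noncomputable def hitHt (k σ D : ℤ) (r : ℕ → V) : ℤ := (r (hitIdx k σ D r)).2

lemma ord_lev_step (hk : |k| ≤ 1) (hσ : σ = 1 ∨ σ = -1) {x y : V} (h : Adj x y) :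
    |σ * lev k x - σ * lev k y| ≤ 1 := by
  have h1 : σ * lev k x - σ * lev k y = σ * ((x.1 - y.1) + k * (x.2 - y.2)) := by
    simp only [lev]; ring
  have hσ1 : |σ| = 1 := by rcases hσ with rfl | rfl <;> simp
  rw [h1, abs_mul, hσ1, one_mul]
  refine (abs_add_le _ _).trans ?_
  rw [abs_mul]
  have := mul_le_of_le_one_left (abs_nonneg (x.2 - y.2)) hk
  unfold Adj at h
  omega

lemma hitIdx_spec {r : ℕ → V} (hlev : Tendsto (fun n => σ * lev k (r n)) atTop atBot) (D : ℤ) :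
    σ * lev k (r (hitIdx k σ D r)) ≤ D :=
  Nat.sInf_mem (s := {n | σ * lev k (r n) ≤ D}) (tendsto_atBot.1 hlev D).exists

lemma lt_of_lt_hitIdx {r : ℕ → V} {D : ℤ} {j : ℕ} (hj : j < hitIdx k σ D r) :
    D < σ * lev k (r j) :=
  not_le.1 fun h => Nat.notMem_of_lt_sInf hj h

lemma hitIdx_level (hk : |k| ≤ 1) (hσ : σ = 1 ∨ σ = -1) {r : ℕ → V}
    (hadj : ∀ i, Adj (r i) (r (i + 1))) (hlev : Tendsto (fun n => σ * lev k (r n)) atTop atBot)
    {D : ℤ} (hD : D ≤ σ * lev k (r 0)) : σ * lev k (r (hitIdx k σ D r)) = D := by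
  refine le_antisymm (hitIdx_spec hlev D) ?_
  rcases Nat.eq_zero_or_pos (hitIdx k σ D r) with h | h
  · rw [h]; exact hD
  · obtain ⟨j, hj⟩ : ∃ j, hitIdx k σ D r = j + 1 := ⟨_, (Nat.succ_pred_eq_of_pos h).symm⟩
    have h1 := lt_of_lt_hitIdx (show j < hitIdx k σ D r by omega)
    have h2 := ord_lev_step hk hσ (hadj j)
    rw [hj, abs_le] at *
    omega

lemma eventually_le_bot (f : ℕ → ℤ) (N : ℕ) : ∀ᶠ D in (atBot : Filter ℤ), ∀ i ≤ N, D < f i := by
  exact (eventually_all_finite (Set.finite_Iic N)).2 fun i _ => eventually_lt_atBot (f i)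

/-- For far levels, the approximate geodesic from the end of the ray to `z`, cut at the first
visit of the level, is a walk on one side of that level through points of `OnExt`. -/
lemma ext_walk (h : ∀ e, 0 ≤ t e) (hk : |k| ≤ 1) (hσ : σ = 1 ∨ σ = -1) {r : ℕ → V}
    (hr : IsRayIn t S r) (hlev : Tendsto (fun n => σ * lev k (r n)) atTop atBot) {z : V}
    {n : ℕ} (p : grid.Walk (r n) z) (hp : WalkIn S p) {v : ℝ} (hv : plen t p - rlen t r n ≤ v) :
    ∀ᶠ D in atBot, σ * lev k (r (hitIdx k σ D r)) = D ∧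
      ∃ w : grid.Walk (r (hitIdx k σ D r)) z, ∀ c ∈ w.support, OnExt t S r z v c ∧
        D ≤ σ * lev k c ∧ (c ∈ p.support ∨ ∃ i, c = r i) := by
  have hfar : ∀ᶠ D in (atBot : Filter ℤ), ∀ c ∈ p.support, D < σ * lev k c := by
    exact (eventually_all_finite p.support.finite_toSet).2 fun c _ => eventually_lt_atBot _
  filter_upwards [hfar, eventually_le_bot (fun i => σ * lev k (r i)) n] with D hpD hD
  have hlevel := hitIdx_level hk hσ hr.adj hlev (hD 0 (Nat.zero_le n)).le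
  have hn : n ≤ hitIdx k σ D r := by
    by_contra hlt
    exact absurd (hitIdx_spec hlev D) (not_le.2 (hD _ (not_le.1 hlt).le))
  obtain ⟨s, hs, hsl, hsv⟩ := ord_ray_seg hr hn
  have hcn : ConnIn S (r 0) z := by
    obtain ⟨w, hw, -, -⟩ := ord_ray_seg hr (Nat.zero_le n)
    exact ConnIn.trans (ConnIn.symm ⟨w, hw⟩) ⟨p, hp⟩
  refine ⟨hlevel, s.append p, fun c hc => ?_⟩
  rcases (SimpleGraph.Walk.mem_support_append_iff _ _).1 hc with hcs | hcp
  · obtain ⟨i, hni, hih, rfl⟩ := hsv c hcs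
    refine ⟨?_, ?_, Or.inr ⟨i, rfl⟩⟩
    · obtain ⟨s0, hs0, -, -⟩ := ord_ray_seg hr (Nat.zero_le i)
      obtain ⟨si, hsi, hsil, -⟩ := ord_ray_seg hr hni
      have h1 := Rays.bus_le h hr (ConnIn.symm ⟨s0, hs0⟩) i
      have h2 := Rays.TS_le' h (.nil : grid.Walk (r i) (r i)) (S := S) (by simp [WalkIn])
      have h3 := Rays.TS_le' h (si.append p) ((walkIn_append_iff _ _).2 ⟨hsi, hp⟩)
      rw [plen_nil] at h2
      rw [plen_append, hsil] at h3
      exact ⟨ConnIn.symm ⟨s0, hs0⟩, ⟨_, (walkIn_append_iff _ _).2 ⟨hsi, hp⟩⟩, by linarith⟩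
    · rcases hih.lt_or_eq with hlt | rfl
      · exact (lt_of_lt_hitIdx hlt).le
      · exact hlevel.ge
  · refine ⟨?_, (hpD c hcp).le, Or.inl hcp⟩
    have hsplit := p.take_spec hcp
    have h1 : WalkIn S (p.takeUntil c hcp) ∧ WalkIn S (p.dropUntil c hcp) := by
      rw [← (walkIn_append_iff _ _), hsplit]; exact hp
    have h2 : plen t (p.takeUntil c hcp) + plen t (p.dropUntil c hcp) = plen t p := by
      rw [← plen_append, hsplit]
    have hc0 : ConnIn S (r 0) c := ConnIn.trans hcn (ConnIn.symm ⟨_, h1.2⟩)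
    have h3 := Rays.bus_le h hr hc0 n
    have h4 := Rays.TS_le' h _ h1.1
    have h5 := Rays.TS_le' h _ h1.2
    exact ⟨hc0, ⟨_, h1.2⟩, by linarith⟩

/-! ### No alternation -/

/-- For four rays in height order at far levels, the increments do not alternate. -/
theorem bus_noAlt (hmeet : MeetHalf k) (h : ∀ e, 0 ≤ t e) (hk : |k| ≤ 1)
    (hσ : σ = 1 ∨ σ = -1) (r : Fin 4 → ℕ → V) (hr : ∀ i, IsRayIn t S (r i))
    (hlev : ∀ i, Tendsto (fun n => σ * lev k (r i n)) atTop atBot) (x y : V)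
    (hx : ∀ i, ConnIn S (r i 0) x) (hy : ∀ i, ConnIn S (r i 0) y)
    (hord : ∃ᶠ D in atBot, hitHt k σ D (r 0) ≤ hitHt k σ D (r 1) ∧
      hitHt k σ D (r 1) ≤ hitHt k σ D (r 2) ∧ hitHt k σ D (r 2) ≤ hitHt k σ D (r 3)) :
    min (bus t S (r 1) x - bus t S (r 1) y) (bus t S (r 3) x - bus t S (r 3) y) ≤
      max (bus t S (r 0) x - bus t S (r 0) y) (bus t S (r 2) x - bus t S (r 2) y) := by
  refine le_of_forall_pos_le_add fun ε hε => ?_
  obtain ⟨n0, p0, hp0, hv0⟩ := ord_bus_approx (hr 0) (hx 0) (half_pos hε)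
  obtain ⟨n1, p1, hp1, hv1⟩ := ord_bus_approx (hr 1) (hy 1) (half_pos hε)
  obtain ⟨n2, p2, hp2, hv2⟩ := ord_bus_approx (hr 2) (hx 2) (half_pos hε)
  obtain ⟨n3, p3, hp3, hv3⟩ := ord_bus_approx (hr 3) (hy 3) (half_pos hε)
  obtain ⟨D, ⟨o1, o2, o3⟩, ⟨l0, w0, k0⟩, ⟨l1, w1, k1⟩, ⟨l2, w2, k2⟩, ⟨l3, w3, k3⟩⟩ :=
    (hord.and_eventually ((ext_walk h hk hσ (hr 0) (hlev 0) p0 hp0 hv0).and
      ((ext_walk h hk hσ (hr 1) (hlev 1) p1 hp1 hv1).and
        ((ext_walk h hk hσ (hr 2) (hlev 2) p2 hp2 hv2).and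
          (ext_walk h hk hσ (hr 3) (hlev 3) p3 hp3 hv3))))).exists
  obtain ⟨c, hcA, hcB⟩ := hmeet σ D _ _ _ _ (w0.append w2.reverse) (w1.append w3.reverse) hσ
    l0 l1 l2 l3 o1 o2 o3
    (fun c hc => by
      rcases (SimpleGraph.Walk.mem_support_append_iff _ _).1 hc with hc | hc
      · exact (k0 c hc).2.1
      · rw [SimpleGraph.Walk.support_reverse, List.mem_reverse] at hc
        exact (k2 c hc).2.1)
    (fun c hc => by
      rcases (SimpleGraph.Walk.mem_support_append_iff _ _).1 hc with hc | hc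
      · exact (k1 c hc).2.1
      · rw [SimpleGraph.Walk.support_reverse, List.mem_reverse] at hc
        exact (k3 c hc).2.1)
  rw [SimpleGraph.Walk.mem_support_append_iff, SimpleGraph.Walk.support_reverse,
    List.mem_reverse] at hcA hcB
  rcases hcA with hA | hA <;> rcases hcB with hB | hB
  · have := bus_quad h (hr 0) (hr 1) (k0 c hA).1 (k1 c hB).1
    exact le_trans (min_le_left _ _) (by
      linarith [le_max_left (bus t S (r 0) x - bus t S (r 0) y)
        (bus t S (r 2) x - bus t S (r 2) y)])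
  · have := bus_quad h (hr 0) (hr 3) (k0 c hA).1 (k3 c hB).1
    exact le_trans (min_le_right _ _) (by
      linarith [le_max_left (bus t S (r 0) x - bus t S (r 0) y)
        (bus t S (r 2) x - bus t S (r 2) y)])
  · have := bus_quad h (hr 2) (hr 1) (k2 c hA).1 (k1 c hB).1
    exact le_trans (min_le_left _ _) (by
      linarith [le_max_right (bus t S (r 0) x - bus t S (r 0) y)
        (bus t S (r 2) x - bus t S (r 2) y)])
  · have := bus_quad h (hr 2) (hr 3) (k2 c hA).1 (k3 c hB).1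
    exact le_trans (min_le_right _ _) (by
      linarith [le_max_right (bus t S (r 0) x - bus t S (r 0) y)
        (bus t S (r 2) x - bus t S (r 2) y)])

/-- Windows of rays which are ordered among each other at far levels: the oscillations of the
increments between `x` and `y` add up to at most `6 * TS x y`. -/
theorem bus_windows (hmeet : MeetHalf k) (h : ∀ e, 0 ≤ t e) (hk : |k| ≤ 1)
    (hσ : σ = 1 ∨ σ = -1) {ι : Type*} [Fintype ι] (r : ι → ℕ → V)
    (hr : ∀ i, IsRayIn t S (r i))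
    (hlev : ∀ i, Tendsto (fun n => σ * lev k (r i n)) atTop atBot) (x y : V)
    (hxy : ConnIn S x y) (hx : ∀ i, ConnIn S (r i 0) x) {m : ℕ} (U : Finset (Fin m))
    (p q : Fin m → ι)
    (hsep : ∀ u ∈ U, ∀ v ∈ U, u < v → ∀ᶠ D in atBot,
      max (hitHt k σ D (r (p u))) (hitHt k σ D (r (q u))) <
        min (hitHt k σ D (r (p v))) (hitHt k σ D (r (q v)))) :
    ∑ u ∈ U, |(bus t S (r (p u)) x - bus t S (r (p u)) y) -
        (bus t S (r (q u)) x - bus t S (r (q u)) y)| ≤ 6 * TS t S x y := by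
  obtain ⟨key, hkey⟩ : ∃ key : ℤ → ι → ℤ, key = fun D i => hitHt k σ D (r i) := ⟨_, rfl⟩
  obtain ⟨e, he⟩ : ∃ e : ι ≃ Fin (Fintype.card ι), e = Fintype.equivFin ι := ⟨_, rfl⟩
  -- some increasing enumeration works at infinitely many levels
  have hev : ∀ᶠ D in (atBot : Filter ℤ), (∀ u ∈ U, ∀ v ∈ U, u < v →
      max (key D (p u)) (key D (q u)) < min (key D (p v)) (key D (q v))) := by
    rw [hkey]
    refine (eventually_all_finset U).2 fun u hu => (eventually_all_finset U).2 fun v hv => ?_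
    by_cases huv : u < v
    · filter_upwards [hsep u hu v hv huv] with D hD _ using hD
    · exact Eventually.of_forall fun D h' => absurd h' huv
  obtain ⟨π, hπ⟩ : ∃ π : Equiv.Perm (Fin (Fintype.card ι)), ∃ᶠ D in (atBot : Filter ℤ),
      Monotone (fun i => key D (e.symm (π i))) ∧ ∀ u ∈ U, ∀ v ∈ U, u < v →
        max (key D (p u)) (key D (q u)) < min (key D (p v)) (key D (q v)) := by
    by_contra hne
    push Not at hne
    obtain ⟨D, hD, hD'⟩ := (hev.and (eventually_all.2 fun π => (hne π))).exists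
    obtain ⟨u, hu, v, hv, huv, hle⟩ := hD' (Tuple.sort fun i => key D (e.symm i))
      (Tuple.monotone_sort fun i => key D (e.symm i))
    exact absurd (hD u hu v hv huv) (not_lt.2 hle)
  obtain ⟨f, hf⟩ : ∃ f : Fin (Fintype.card ι) → ℝ,
      f = fun i => bus t S (r (e.symm (π i))) x - bus t S (r (e.symm (π i))) y := ⟨_, rfl⟩
  have hy : ∀ i, ConnIn S (r i 0) y := fun i => ConnIn.trans (hx i) hxy
  have hna : NoAlt f := by
    intro a b c d hab hbc hcd
    have hord : ∃ᶠ D in (atBot : Filter ℤ), key D (e.symm (π a)) ≤ key D (e.symm (π b)) ∧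
        key D (e.symm (π b)) ≤ key D (e.symm (π c)) ∧
        key D (e.symm (π c)) ≤ key D (e.symm (π d)) :=
      hπ.mono fun D hD => ⟨hD.1 hab.le, hD.1 hbc.le, hD.1 hcd.le⟩
    rw [hkey] at hord
    have h1 := bus_noAlt hmeet h hk hσ
      ![r (e.symm (π a)), r (e.symm (π b)), r (e.symm (π c)), r (e.symm (π d))]
      (Fin.forall_fin_succ.2 ⟨hr _, Fin.forall_fin_succ.2 ⟨hr _, Fin.forall_fin_two.2 ⟨hr _, hr _⟩⟩⟩)
      (Fin.forall_fin_succ.2 ⟨hlev _, Fin.forall_fin_succ.2 ⟨hlev _,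
        Fin.forall_fin_two.2 ⟨hlev _, hlev _⟩⟩⟩)
    have c4 : ∀ z, (∀ i, ConnIn S (r i 0) z) → ∀ i : Fin 4, ConnIn S
        (![r (e.symm (π a)), r (e.symm (π b)), r (e.symm (π c)), r (e.symm (π d))] i 0) z :=
      fun z hz => Fin.forall_fin_succ.2 ⟨hz _, Fin.forall_fin_succ.2 ⟨hz _,
        Fin.forall_fin_two.2 ⟨hz _, hz _⟩⟩⟩
    have h2 := h1 x y (c4 x hx) (c4 y hy) hord
    have h3 := h1 y x (c4 y hy) (c4 x hx) hord
    simp only [Matrix.cons_val_zero, Matrix.cons_val_one, Matrix.cons_val] at h2 h3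
    rw [hf]
    refine ⟨h2, ?_⟩
    obtain ⟨n1, n2⟩ := And.intro h3 h2
    simp only [min_le_iff, le_max_iff] at n1 ⊢
    rcases n1 with (o | o) | (o | o)
    · exact Or.inl (Or.inl (by linarith))
    · exact Or.inr (Or.inl (by linarith))
    · exact Or.inl (Or.inr (by linarith))
    · exact Or.inr (Or.inr (by linarith))
  have habs : ∀ i, |f i| ≤ TS t S x y := fun i => by
    rw [hf, abs_le]
    constructor
    · linarith [ord_bus_lip h (hr (e.symm (π i))) (hx _) hxy]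
    · have := ord_bus_lip h (hr (e.symm (π i))) (hy (e.symm (π i))) (hxy.symm)
      rw [TS_comm S y x] at this
      linarith
  have hT : 0 ≤ TS t S x y := by
    obtain ⟨w, hw⟩ := hxy
    exact le_csInf ⟨_, w, hw, rfl⟩ (by rintro _ ⟨q', -, rfl⟩; exact plen_nonneg h q')
  have hsum := windows_le_of_noAlt f hna (-TS t S x y) (TS t S x y) (by linarith)
    (fun i => (abs_le.1 (habs i)).1) (fun i => (abs_le.1 (habs i)).2) U
    (fun u => π.symm (e (p u))) (fun u => π.symm (e (q u))) fun u hu v hv huv => by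
      obtain ⟨D, hmono, hD⟩ := hπ.exists
      have hlt := hD u hu v hv huv
      simp only [max_lt_iff, lt_min_iff] at hlt
      have hidx : ∀ i j, key D i < key D j → π.symm (e i) < π.symm (e j) := fun i j hij => by
        by_contra hge
        have := hmono (not_lt.1 hge)
        simp only [Equiv.apply_symm_apply, Equiv.symm_apply_apply] at this
        exact absurd hij (not_lt.2 this)
      refine max_le (le_min (hidx _ _ ?_).le (hidx _ _ ?_).le) (le_min (hidx _ _ ?_).le (hidx _ _ ?_).le)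
      exacts [hlt.1.1, hlt.2.1, hlt.1.2, hlt.2.2]
  simp only [hf, Equiv.apply_symm_apply, Equiv.symm_apply_apply] at hsum
  linarith

/-! ### Half-planes -/

lemma ord_edgeOf_ends {a b : V} (h : Adj a b) :
    (eFst (edgeOf a b) = a ∧ eSnd (edgeOf a b) = b) ∨
      (eFst (edgeOf a b) = b ∧ eSnd (edgeOf a b) = a) :=
  (Rays.edge_ends h).imp (fun h => ⟨h.1.symm, h.2.symm⟩) fun h => ⟨h.1.symm, h.2.symm⟩

lemma ord_support_le {D0 : ℤ}
    (hS : ∀ e ∈ S, σ * lev k (eFst e) ≤ D0 ∧ σ * lev k (eSnd e) ≤ D0) {a b : V}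
    (p : grid.Walk a b) (hp : WalkIn S p) (hb : σ * lev k b ≤ D0) :
    ∀ v ∈ p.support, σ * lev k v ≤ D0 := by
  induction p with
  | nil => intro v hv; rw [SimpleGraph.Walk.support_nil, List.mem_singleton] at hv; exact hv ▸ hb
  | cons h p ih =>
    rw [Rays.walkIn_cons] at hp
    intro v hv
    rw [SimpleGraph.Walk.support_cons, List.mem_cons] at hv
    rcases hv with rfl | hv
    · obtain ⟨h1, h2⟩ := hS _ hp.1
      rcases ord_edgeOf_ends h with ⟨e1, -⟩ | ⟨-, e2⟩
      · exact e1 ▸ h1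
      · exact e2 ▸ h2
    · exact ih hp.2 hb v hv

lemma ord_ray_le {D0 : ℤ}
    (hS : ∀ e ∈ S, σ * lev k (eFst e) ≤ D0 ∧ σ * lev k (eSnd e) ≤ D0) {r : ℕ → V}
    (hr : IsRayIn t S r) (i : ℕ) : σ * lev k (r i) ≤ D0 := by
  obtain ⟨h1, h2⟩ := hS _ (hr.mem i)
  rcases ord_edgeOf_ends (hr.adj i) with ⟨e1, -⟩ | ⟨-, e2⟩
  · exact e1 ▸ h1
  · exact e2 ▸ h2

/-- In a half-plane, the increments on the boundary decrease in the height order of the rays. -/
theorem bus_half_mono (hmeet : MeetStrip k) (h : ∀ e, 0 ≤ t e) (hk : |k| ≤ 1)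
    (hσ : σ = 1 ∨ σ = -1) (D0 : ℤ)
    (hS : ∀ e ∈ S, σ * lev k (eFst e) ≤ D0 ∧ σ * lev k (eSnd e) ≤ D0) (r r' : ℕ → V)
    (hr : IsRayIn t S r) (hr' : IsRayIn t S r')
    (hlev : Tendsto (fun n => σ * lev k (r n)) atTop atBot)
    (hlev' : Tendsto (fun n => σ * lev k (r' n)) atTop atBot) (z z' : V)
    (hz : σ * lev k z = D0) (hz' : σ * lev k z' = D0) (hzz : z.2 ≤ z'.2)
    (hc : ConnIn S (r 0) z) (hc' : ConnIn S (r' 0) z) (hzc : ConnIn S z z')
    (hord : ∃ᶠ D in atBot, hitHt k σ D r ≤ hitHt k σ D r') :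
    bus t S r' z' - bus t S r' z ≤ bus t S r z' - bus t S r z := by
  refine le_of_forall_pos_le_add fun ε hε => ?_
  obtain ⟨n, p, hp, hv⟩ := ord_bus_approx hr (ConnIn.trans hc hzc) (half_pos hε)
  obtain ⟨n', p', hp', hv'⟩ := ord_bus_approx hr' hc' (half_pos hε)
  obtain ⟨D, hD, ⟨l, w, hw⟩, ⟨l', w', hw'⟩, hDD⟩ :=
    (hord.and_eventually ((ext_walk h hk hσ hr hlev p hp hv).and
      ((ext_walk h hk hσ hr' hlev' p' hp' hv').and (eventually_lt_atBot D0)))).exists
  obtain ⟨c, hcw, hcw'⟩ := hmeet σ D D0 _ _ _ _ w w' hσ hDD l l' hz' hz hD hzz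
    (fun c hc => ⟨(hw c hc).2.1, by
      rcases (hw c hc).2.2 with h' | ⟨i, rfl⟩
      · exact ord_support_le hS p hp hz'.le c h'
      · exact ord_ray_le hS hr i⟩)
    (fun c hc => ⟨(hw' c hc).2.1, by
      rcases (hw' c hc).2.2 with h' | ⟨i, rfl⟩
      · exact ord_support_le hS p' hp' hz.le c h'
      · exact ord_ray_le hS hr' i⟩)
  linarith [bus_quad h hr hr' (hw c hcw).1 (hw' c hcw').1]

/-- The same for finite sources: any two walks which have to meet give the inequality. -/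
theorem TS_quad (h : ∀ e, 0 ≤ t e) {a a' z z' : V} (hc : ConnIn S a z') (hc' : ConnIn S a' z)
    (hmeet : ∀ (p : grid.Walk a z') (q : grid.Walk a' z), WalkIn S p → WalkIn S q →
      ∃ v, v ∈ p.support ∧ v ∈ q.support) :
    TS t S a z + TS t S a' z' ≤ TS t S a z' + TS t S a' z := by
  refine le_of_forall_pos_le_add fun ε hε => ?_
  obtain ⟨p, hp, hlp⟩ := ord_TS_approx (t := t) hc (half_pos hε)
  obtain ⟨q, hq, hlq⟩ := ord_TS_approx (t := t) hc' (half_pos hε)
  obtain ⟨v, hvp, hvq⟩ := hmeet p q hp hq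
  rw [← p.take_spec hvp, (walkIn_append_iff _ _)] at hp
  rw [← q.take_spec hvq, (walkIn_append_iff _ _)] at hq
  rw [← p.take_spec hvp, plen_append] at hlp
  rw [← q.take_spec hvq, plen_append] at hlq
  have h1 := Rays.TS_le' h _ ((walkIn_append_iff _ _).2 ⟨hp.1, hq.2⟩)
  have h2 := Rays.TS_le' h _ ((walkIn_append_iff _ _).2 ⟨hq.1, hp.2⟩)
  rw [plen_append] at h1 h2
  linarith

/-! ### Crossed excess -/

/-- Two lines in the same height order at both ends have crossed excess bounded below. -/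
theorem crossed_excess (hmeet : MeetStrip k) (h : ∀ e, 0 ≤ t e) (hk : |k| ≤ 1)
    (hσ : σ = 1 ∨ σ = -1) (rp rq sp sq : ℕ → V)
    (hrp : IsRayIn t S rp) (hrq : IsRayIn t S rq) (hsp : IsRayIn t S sp) (hsq : IsRayIn t S sq)
    (lrp : Tendsto (fun n => σ * lev k (rp n)) atTop atBot)
    (lrq : Tendsto (fun n => σ * lev k (rq n)) atTop atBot)
    (lsp : Tendsto (fun n => -σ * lev k (sp n)) atTop atBot)
    (lsq : Tendsto (fun n => -σ * lev k (sq n)) atTop atBot)
    (hc : ∀ a b : V, ConnIn S a b) (ep eq : ℝ)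
    (hep : ∀ c, ep ≤ bus t S rp c + bus t S sp c) (heq : ∀ c, eq ≤ bus t S rq c + bus t S sq c)
    (hord : ∃ᶠ D in atBot, hitHt k σ D rp ≤ hitHt k σ D rq ∧
      hitHt k (-σ) D sp ≤ hitHt k (-σ) D sq) (z w : V) :
    ep + eq ≤ (bus t S rp z + bus t S sq z) + (bus t S rq w + bus t S sp w) := by
  refine le_of_forall_pos_le_add fun ε hε => ?_
  have h4 : 0 < ε / 4 := by linarith
  have hσ' : -σ = 1 ∨ -σ = -1 := by rcases hσ with rfl | rfl <;> simp
  obtain ⟨n1, p1, hp1, v1⟩ := ord_bus_approx hrp (hc _ z) h4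
  obtain ⟨n2, p2, hp2, v2⟩ := ord_bus_approx hsq (hc _ z) h4
  obtain ⟨n3, p3, hp3, v3⟩ := ord_bus_approx hrq (hc _ w) h4
  obtain ⟨n4, p4, hp4, v4⟩ := ord_bus_approx hsp (hc _ w) h4
  have bdd : ∀ (σ' : ℤ) (r : ℕ → V), Tendsto (fun n => σ' * lev k (r n)) atTop atBot →
      ∀ (a b : V) (p : grid.Walk a b), ∀ᶠ D in (atBot : Filter ℤ),
        (∀ i, σ' * lev k (r i) ≤ -D) ∧ ∀ v ∈ p.support, σ' * lev k v ≤ -D := by
    intro σ' r hl a b p
    obtain ⟨B, hB⟩ : BddAbove (Set.range fun n => σ' * lev k (r n)) := by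
      obtain ⟨N, hN⟩ := eventually_atTop.1 (tendsto_atBot.1 hl 0)
      obtain ⟨B, hB⟩ := ((Set.finite_Iio N).image fun n => σ' * lev k (r n)).bddAbove
      refine ⟨max B 0, ?_⟩
      rintro _ ⟨n, rfl⟩
      rcases lt_or_ge n N with hn | hn
      · exact (hB ⟨n, hn, rfl⟩).trans (le_max_left _ _)
      · exact (hN n hn).trans (le_max_right _ _)
    have hfar : ∀ᶠ D in (atBot : Filter ℤ), ∀ v ∈ p.support, σ' * lev k v ≤ -D := by
      refine (eventually_all_finite p.support.finite_toSet).2 ?_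
      exact fun v _ => (eventually_le_atBot (-(σ' * lev k v))).mono fun D hD => by omega
    filter_upwards [eventually_le_atBot (-B), hfar] with D hD hv
    exact ⟨fun i => le_trans (hB ⟨i, rfl⟩) (by omega), hv⟩
  obtain ⟨D, ⟨o1, o2⟩, ⟨l1, w1, k1⟩, ⟨l2, w2, k2⟩, ⟨l3, w3, k3⟩, ⟨l4, w4, k4⟩, b1, b2, b3, b4,
      hDneg⟩ :=
    (hord.and_eventually ((ext_walk h hk hσ hrp lrp p1 hp1 v1).and
      ((ext_walk h hk hσ' hsq lsq p2 hp2 v2).and ((ext_walk h hk hσ hrq lrq p3 hp3 v3).and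
      ((ext_walk h hk hσ' hsp lsp p4 hp4 v4).and ((bdd σ rp lrp _ _ p1).and
      ((bdd (-σ) sq lsq _ _ p2).and ((bdd σ rq lrq _ _ p3).and
      ((bdd (-σ) sp lsp _ _ p4).and (eventually_lt_atBot 0)))))))))).exists
  rw [neg_mul] at l2 l4
  have hA : ∀ v ∈ (w1.append w2.reverse).support, D ≤ σ * lev k v ∧ σ * lev k v ≤ -D := by
    intro v hv
    rcases (SimpleGraph.Walk.mem_support_append_iff _ _).1 hv with hv | hv
    · refine ⟨(k1 v hv).2.1, ?_⟩
      rcases (k1 v hv).2.2 with h' | ⟨i, rfl⟩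
      exacts [b1.2 v h', b1.1 i]
    · rw [SimpleGraph.Walk.support_reverse, List.mem_reverse] at hv
      have h1 := (k2 v hv).2.1
      rw [neg_mul] at h1
      refine ⟨?_, by linarith⟩
      rcases (k2 v hv).2.2 with h' | ⟨i, rfl⟩
      · have := b2.2 v h'; rw [neg_mul] at this; linarith
      · have := b2.1 i; rw [neg_mul] at this; linarith
  have hB : ∀ v ∈ (w3.append w4.reverse).support, D ≤ σ * lev k v ∧ σ * lev k v ≤ -D := by
    intro v hv
    rcases (SimpleGraph.Walk.mem_support_append_iff _ _).1 hv with hv | hv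
    · refine ⟨(k3 v hv).2.1, ?_⟩
      rcases (k3 v hv).2.2 with h' | ⟨i, rfl⟩
      exacts [b3.2 v h', b3.1 i]
    · rw [SimpleGraph.Walk.support_reverse, List.mem_reverse] at hv
      have h1 := (k4 v hv).2.1
      rw [neg_mul] at h1
      refine ⟨?_, by linarith⟩
      rcases (k4 v hv).2.2 with h' | ⟨i, rfl⟩
      · have := b4.2 v h'; rw [neg_mul] at this; linarith
      · have := b4.1 i; rw [neg_mul] at this; linarith
  obtain ⟨c, hcA, hcB⟩ := hmeet σ D (-D) _ _ _ _ (w1.append w2.reverse) (w3.append w4.reverse) hσ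
    (by omega) l1 l3 (by linarith) (by linarith) o1 o2 hA hB
  have gA : bus t S rp c + bus t S sq c ≤ bus t S rp z + bus t S sq z + ε / 4 := by
    rcases (SimpleGraph.Walk.mem_support_append_iff _ _).1 hcA with hc' | hc'
    · obtain ⟨-, hcz, hle⟩ := (k1 c hc').1
      have := ord_bus_lip h hsq (hc _ z) (hcz.symm)
      rw [TS_comm S z c] at this
      linarith
    · rw [SimpleGraph.Walk.support_reverse, List.mem_reverse] at hc'
      obtain ⟨-, hcz, hle⟩ := (k2 c hc').1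
      have := ord_bus_lip h hrp (hc _ z) (hcz.symm)
      rw [TS_comm S z c] at this
      linarith
  have gB : bus t S rq c + bus t S sp c ≤ bus t S rq w + bus t S sp w + ε / 4 := by
    rcases (SimpleGraph.Walk.mem_support_append_iff _ _).1 hcB with hc' | hc'
    · obtain ⟨-, hcw, hle⟩ := (k3 c hc').1
      have := ord_bus_lip h hsp (hc _ w) (hcw.symm)
      rw [TS_comm S w c] at this
      linarith
    · rw [SimpleGraph.Walk.support_reverse, List.mem_reverse] at hc'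
      obtain ⟨-, hcw, hle⟩ := (k4 c hc').1
      have := ord_bus_lip h hrq (hc _ w) (hcw.symm)
      rw [TS_comm S w c] at this
      linarith
  linarith [hep c, heq c]

end Vale.Agent.P158
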