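import Vale.Agent.P158.Spec4
import Vale.Agent.P158.Order

/-!
Sites of the main argument in smaller boxes and under translation.
-/

open MeasureTheory Filter Topology

namespace Vale.Agent.P158

/-- Levels change by at most one per step of a path. -/
theorem site_lev_step {k : ℤ} (hk : |k| ≤ 1) {γ : ℤ → V} (hadj : ∀ i, Adj (γ i) (γ (i + 1)))
    (a : ℤ) (n : ℕ) : |lev k (γ (a + n)) - lev k (γ a)| ≤ n := by
  induction n with
  | zero => simp
  | succ n ih =>
    have h := ord_lev_step (σ := 1) hk (Or.inl rfl) (hadj (a + n))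
    rw [one_mul, one_mul, abs_sub_comm, add_assoc] at h
    push_cast
    calc |lev k (γ (a + (n + 1))) - lev k (γ a)|
        ≤ |lev k (γ (a + (n + 1))) - lev k (γ (a + n))| + |lev k (γ (a + n)) - lev k (γ a)| :=
          abs_sub_le _ _ _
      _ ≤ 1 + n := add_le_add h ih
      _ = (n : ℤ) + 1 := add_comm _ _

/-- Levels change by at most the number of steps. -/
theorem site_lev_le {k : ℤ} (hk : |k| ≤ 1) {γ : ℤ → V} (hadj : ∀ i, Adj (γ i) (γ (i + 1)))
    {a b : ℤ} (h : a ≤ b) : |lev k (γ b) - lev k (γ a)| ≤ b - a := by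
  obtain ⟨n, hn⟩ : ∃ n : ℕ, b = a + n := ⟨(b - a).toNat, by omega⟩
  subst hn
  simpa using site_lev_step hk hadj a n

/-- The levels of the middle part of a site line. -/
theorem LineSite.lev_le {P : SiteP} {k : ℤ} (hk : |k| ≤ 1) {s : ℝ} {x : V} {t : Conf}
    {γ : ℤ → V} {iL jR : ℤ} (h : LineSite P k s x t γ iL jR) {m : ℤ} (h1 : iL ≤ m) (h2 : m ≤ jR) :
    |lev k (γ m)| ≤ (P.Lam : ℤ) + P.R' := by
  obtain ⟨j, hL, hj⟩ := h.left
  obtain ⟨i, hR, hi⟩ := h.right
  have hm : InSq P.N (γ m) := h.inBox m (by omega) (by omega)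
  rw [abs_le]
  constructor
  · rcases lt_or_ge j m with hjm | hjm
    · have := hL.after m hjm hm; omega
    · have := site_lev_le hk h.line.adj h1
      rw [hL.first, abs_le] at this
      have := hL.len
      omega
  · rcases lt_or_ge m i with him | him
    · have := hR.before m him hm; omega
    · have := site_lev_le hk h.line.adj him
      rw [hR.first, abs_le] at this
      have := hR.len
      omega

/-- The middle part of a site line and its neighbours lie in an explicit box. -/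
theorem LineSite.bound {P : SiteP} {k : ℤ} (hk : |k| ≤ 1) {s : ℝ} {x : V} {t : Conf}
    {γ : ℤ → V} {iL jR : ℤ} (h : LineSite P k s x t γ iL jR) (hL : iL ≤ jR) {N₁ : ℤ}
    (hN : 2 * (|s| + P.ε + 1) * ((P.Lam : ℝ) + P.R' + |(lev k x : ℝ)| + 2) + 2 * |(x.2 : ℝ)| +
      2 * P.w + 4 ≤ (N₁ : ℝ)) {m : ℤ} (h1 : iL - 1 ≤ m) (h2 : m ≤ jR + 1) : InSq N₁ (γ m) := by
  obtain ⟨s', hs', htube⟩ := h.tube
  have key : ∀ m, iL ≤ m → m ≤ jR → |(lev k (γ m) : ℝ)| ≤ (P.Lam : ℝ) + P.R' ∧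
      |((γ m).2 : ℝ)| ≤ |(x.2 : ℝ)| +
        (|s| + P.ε) * ((P.Lam : ℝ) + P.R' + |(lev k x : ℝ)|) + P.w := by
    intro m a b
    have hl : |(lev k (γ m) : ℝ)| ≤ (P.Lam : ℝ) + P.R' := by exact_mod_cast h.lev_le hk a b
    have hd : |(lev k (γ m) : ℝ) - lev k x| ≤ (P.Lam : ℝ) + P.R' + |(lev k x : ℝ)| :=
      (abs_sub _ _).trans (by linarith)
    have hs : |s'| ≤ |s| + P.ε := by
      have := abs_sub_abs_le_abs_sub s' s
      linarith
    have hp : |s' * ((lev k (γ m) : ℝ) - lev k x)| ≤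
        (|s| + P.ε) * ((P.Lam : ℝ) + P.R' + |(lev k x : ℝ)|) := by
      rw [abs_mul]
      exact mul_le_mul hs hd (abs_nonneg _) ((abs_nonneg _).trans hs)
    refine ⟨hl, ?_⟩
    have ht := htube m a b
    obtain ⟨t1, t2⟩ := abs_le.1 ht
    obtain ⟨p1, p2⟩ := abs_le.1 hp
    obtain ⟨x1, x2⟩ := abs_le.1 (le_refl |(x.2 : ℝ)|)
    rw [abs_le]
    constructor <;> linarith
  -- the nearest index of the middle part
  obtain ⟨m', a', b', hmm⟩ : ∃ m', iL ≤ m' ∧ m' ≤ jR ∧ (m = m' ∨ m = m' - 1 ∨ m = m' + 1) := by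
    rcases lt_or_ge m iL with hlo | hlo
    · exact ⟨iL, le_rfl, hL, Or.inr (Or.inl (by omega))⟩
    · rcases lt_or_ge jR m with hhi | hhi
      · exact ⟨jR, hL, le_rfl, Or.inr (Or.inr (by omega))⟩
      · exact ⟨m, hlo, hhi, Or.inl rfl⟩
  obtain ⟨kl, kh⟩ := key m' a' b'
  have hstep : |(γ m).1 - (γ m').1| + |(γ m).2 - (γ m').2| ≤ 1 := by
    rcases hmm with rfl | rfl | rfl
    · simp
    · have := h.line.adj (m' - 1)
      rw [sub_add_cancel] at this
      exact this.le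
    · have := h.line.adj m'
      rw [Adj, abs_sub_comm, abs_sub_comm ((γ m').2)] at this
      exact this.le
  have e1 : |((γ m).1 : ℝ) - (γ m').1| + |((γ m).2 : ℝ) - (γ m').2| ≤ 1 := by
    exact_mod_cast hstep
  have e2 : ((γ m').1 : ℝ) = (lev k (γ m') : ℝ) - k * (γ m').2 := by simp [lev]
  have hk' : |(k : ℝ)| ≤ 1 := by exact_mod_cast hk
  have e3 : |(k : ℝ) * (γ m').2| ≤ |((γ m').2 : ℝ)| := by
    rw [abs_mul]; exact mul_le_of_le_one_left (abs_nonneg _) hk'
  have f1 := abs_le.1 (le_of_add_le_of_nonneg_left e1 (abs_nonneg _))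
  have f2 := abs_le.1 (le_of_add_le_of_nonneg_right e1 (abs_nonneg _))
  obtain ⟨g1, g2⟩ := abs_le.1 kl
  obtain ⟨g3, g4⟩ := abs_le.1 kh
  obtain ⟨g5, g6⟩ := abs_le.1 e3
  have hε : 0 ≤ |s| + P.ε := by
    have := abs_sub_abs_le_abs_sub s' s
    linarith [abs_nonneg s']
  have hq : 0 ≤ (P.Lam : ℝ) + P.R' + |(lev k x : ℝ)| := by positivity
  have hw : 0 ≤ P.w := (abs_nonneg _).trans (htube iL le_rfl hL)
  have goal : |((γ m).1 : ℝ)| ≤ (N₁ : ℝ) ∧ |((γ m).2 : ℝ)| ≤ (N₁ : ℝ) := by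
    have hmul : 2 * ((|s| + P.ε) * ((P.Lam : ℝ) + P.R' + |(lev k x : ℝ)|)) +
        2 * ((P.Lam : ℝ) + P.R' + |(lev k x : ℝ)|) ≤
        2 * (|s| + P.ε + 1) * ((P.Lam : ℝ) + P.R' + |(lev k x : ℝ)| + 2) := by nlinarith
    have := mul_nonneg hε hq
    have := abs_nonneg (x.2 : ℝ)
    have := abs_nonneg (lev k x : ℝ)
    constructor <;> rw [abs_le] <;> constructor <;> linarith
  obtain ⟨h1', h2'⟩ := goal
  rw [← Int.cast_abs, Int.cast_le] at h1' h2'
  rw [abs_le] at h1' h2'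
  exact ⟨h1'.1, h1'.2, h2'.1, h2'.2⟩

theorem inSq_of_le {N N' : ℤ} (h : N ≤ N') {v : V} (hv : InSq N v) : InSq N' v := by
  obtain ⟨a, b, c, d⟩ := hv
  exact ⟨by omega, by omega, by omega, by omega⟩

theorem BoxCross.mono {k : ℤ} {γ : ℤ → V} {N N' c : ℤ} {R : ℕ} {i j : ℤ}
    (h : BoxCross k γ N c R i j) (hN : N' ≤ N) : BoxCross k γ N' c R i j :=
  ⟨h.le, h.len, h.first, h.last, h.step, fun m hm hb => h.before m hm (inSq_of_le hN hb),
    fun m hm hb => h.after m hm (inSq_of_le hN hb)⟩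

/-- A site line for a large box is one for any smaller box containing the explicit box. -/
theorem LineSite.mono {P : SiteP} {k : ℤ} (hk : |k| ≤ 1) {s : ℝ} {x : V} {t : Conf}
    {γ : ℤ → V} {iL jR : ℤ} (h : LineSite P k s x t γ iL jR) {N₁ : ℕ} (hle : N₁ ≤ P.N)
    (hN : 2 * (|s| + P.ε + 1) * ((P.Lam : ℝ) + P.R' + |(lev k x : ℝ)| + 2) + 2 * |(x.2 : ℝ)| +
      2 * P.w + 4 ≤ (N₁ : ℝ)) : LineSite { P with N := N₁ } k s x t γ iL jR := by
  have hlr : iL ≤ jR := by
    obtain ⟨j, hj, hj'⟩ := h.left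
    obtain ⟨i, hi, hi'⟩ := h.right
    have := hj.le; have := hi.le
    omega
  have hle' : ((N₁ : ℕ) : ℤ) ≤ (P.N : ℤ) := by exact_mod_cast hle
  obtain ⟨j, hj⟩ := h.site
  obtain ⟨jl, hjl, hjl'⟩ := h.left
  obtain ⟨ir, hir, hir'⟩ := h.right
  exact ⟨h.line, h.origin, ⟨j, hj.mono hle'⟩, ⟨jl, hjl.mono hle', hjl'⟩,
    ⟨ir, hir.mono hle', hir'⟩, fun m a b => h.bound hk hlr (N₁ := (N₁ : ℤ)) (by exact_mod_cast hN) a b,
    h.tube, h.rigid, h.heavy⟩

theorem lev_add (k : ℤ) (u v : V) : lev k (u + v) = lev k u + lev k v := by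
  simp [lev]; ring

theorem lev_hvec (k h : ℤ) : lev k (pt k 0 h) = 0 := by simp [lev, pt]

theorem inSq_sub {N : ℤ} {k h : ℤ} (hk : |k| ≤ 1) {u : V} (hu : InSq N (u + pt k 0 h)) :
    InSq (N + |h|) u := by
  obtain ⟨a, b, c, d⟩ := hu
  simp only [pt, Prod.fst_add, Prod.snd_add, zero_sub] at a b c d
  have hkh : |k * h| ≤ |h| := by
    rw [abs_mul]; exact mul_le_of_le_one_left (abs_nonneg _) hk
  have := abs_le.1 hkh
  have := abs_le.1 (le_refl |h|)
  refine ⟨?_, ?_, ?_, ?_⟩ <;> omega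

theorem inSq_add {N : ℤ} {k h : ℤ} (hk : |k| ≤ 1) {u : V} (hu : InSq N u) :
    InSq (N + |h|) (u + pt k 0 h) := by
  obtain ⟨a, b, c, d⟩ := hu
  have hkh : |k * h| ≤ |h| := by
    rw [abs_mul]; exact mul_le_of_le_one_left (abs_nonneg _) hk
  have := abs_le.1 hkh
  have := abs_le.1 (le_refl |h|)
  simp only [InSq, pt, Prod.fst_add, Prod.snd_add, zero_sub]
  refine ⟨?_, ?_, ?_, ?_⟩ <;> omega

/-- Translation of a site line along a level. -/
theorem LineSite.translate {P : SiteP} {k : ℤ} (hk : |k| ≤ 1) {s : ℝ} {x : V} {t : Conf}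
    {γ : ℤ → V} {iL jR : ℤ} {h : ℤ} {N' : ℕ}
    (hs : LineSite P k s x (shift (pt k 0 h) t) γ iL jR) (hN' : (N' : ℤ) + |h| ≤ P.N)
    (hb : 2 * (|s| + P.ε + 1) * ((P.Lam : ℝ) + P.R' + |(lev k x : ℝ)| + 2) + 2 * |(x.2 : ℝ)| +
      2 * P.w + 4 + |(h : ℝ)| + 1 ≤ (N' : ℝ)) :
    LineSite { P with N := N' } k s (x + pt k 0 h) t (fun i => γ i + pt k 0 h) iL jR := by
  set v := pt k 0 h with hv
  have hlr : iL ≤ jR := by
    obtain ⟨j, hj, hj'⟩ := hs.left
    obtain ⟨i, hi, hi'⟩ := hs.right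
    have := hj.le; have := hi.le
    omega
  have hlev : ∀ u, lev k (u + v) = lev k u := fun u => by rw [lev_add, hv, lev_hvec, add_zero]
  have hcr : ∀ {c : ℤ} {R : ℕ} {i j : ℤ}, BoxCross k γ P.N c R i j →
      BoxCross k (fun i => γ i + v) N' c R i j := fun H =>
    ⟨H.le, H.len, by rw [hlev]; exact H.first, by rw [hlev]; exact H.last,
      by rw [hlev]; exact H.step,
      fun m hm hb' => by rw [hlev]; exact H.before m hm (inSq_of_le hN' (inSq_sub hk hb')),
      fun m hm hb' => by rw [hlev]; exact H.after m hm (inSq_of_le hN' (inSq_sub hk hb'))⟩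
  obtain ⟨j, hj⟩ := hs.site
  obtain ⟨jl, hjl, hjl'⟩ := hs.left
  obtain ⟨ir, hir, hir'⟩ := hs.right
  have hadj := hs.line.adj
  refine ⟨(isBigeodesic_shift v t γ).1 hs.line, by simp [hs.origin], ⟨j, ?_⟩,
    ⟨jl, hcr hjl, hjl'⟩, ⟨ir, hcr hir, hir'⟩, fun m a b => ?_, ?_, ?_, ?_⟩
  · rw [hlev]; exact hcr hj
  · have hbd := hs.bound hk hlr (N₁ := (N' : ℤ) - |h|) (by push_cast; linarith) a b
    have := inSq_add (h := h) hk hbd
    simpa using this
  · obtain ⟨s', h1, h2⟩ := hs.tube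
    refine ⟨s', h1, fun m a b => ?_⟩
    have := h2 m a b
    simp only [hlev, Prod.snd_add, Int.cast_add]
    simpa using this
  · intro n m a z p ha hz hp
    subst ha hz
    let p0 : grid.Walk (γ (-((n : ℤ) + 1))) (γ m) :=
      (p.map (shiftSym (-v)).hom).copy (by simp) (by simp)
    have hpl : plen (shift v t) p0 = plen t p := by
      have e : ∀ {a b a' b' : V} (q : grid.Walk a b) (ha : a = a') (hb : b = b'),
          plen (shift v t) (q.copy ha hb) = plen (shift v t) q := by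
        intro a b a' b' q ha hb; subst ha hb; rfl
      rw [show p0 = _ from rfl, e, ← plen_shift]
      congr 1
      rw [shift_shift]; simp [shift_zero]
    have hin : WalkIn {edgeOf (γ (-1)) (γ 0)}ᶜ p0 := by
      refine WalkIn.copy ?_ _ _
      intro d hd
      rw [SimpleGraph.Walk.darts_map, List.mem_map] at hd
      obtain ⟨d', hd', rfl⟩ := hd
      intro he
      apply hp d' hd'
      simp only [Set.mem_singleton_iff] at he ⊢
      have := congrArg (shiftSym v).emap he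
      rw [(shiftSym v).edge_map _ _ (by exact ((shiftSym (-v)).adj_map _ _).2 d'.adj),
        (shiftSym v).edge_map _ _ (by simpa using hadj (-1))] at this
      simpa [add_assoc] using this
    have := hs.rigid n m _ _ p0 rfl rfl hin
    rw [T_shift, hpl] at this
    exact this
  · refine hs.heavy.trans (le_of_eq ?_)
    congr 1
    ext m
    simp only [Set.mem_ofPred_eq, hlev]
    have : wt (shift v t) (γ m) (γ (m + 1)) = wt t (γ m + v) (γ (m + 1) + v) :=
      (shiftSym v).wt_act t (hadj m)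
    rw [this]

end Vale.Agent.P158
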