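import Vale.Agent.P158.Tilt2
import Vale.Agent.P158.MainBlock
import Vale.Agent.P158.Class2
import Vale.Agent.P158.Site2

/-!
The probability of the certificate of one block in the second stage: tilting the weights in the
tilt region makes at least half of the sites of the block gain, and one window contains the
witnesses of all pairs of confined lines, whatever the box of the sites.
-/

open MeasureTheory ProbabilityTheory Filter Topology
open scoped ENNReal

namespace Vale.Agent.P158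

open Rays

section half
variable {G : Measure ℝ} [IsProbabilityMeasure G] {η r₀ : ℝ}

/-- At least half of the sites gain, rounding up, with probability at least one half. -/
lemma markField_half_up (h0 : 0 ≤ η) (h1 : η ≤ 1) (Y : Finset ℤ) (E : ℤ → Finset Edge) (c : ℝ)
    (hE : ∀ y ∈ Y, Real.exp (c - η * G.real (Set.Iio r₀) * (E y).card / 2) ≤ 1 / 8) :
    ENNReal.ofReal (1 / 2) ≤ markField G η {ω | open Classical in
      (Y.card + 1) / 2
        ≤ (Y.filter fun y => c ≤ (((E y).filter fun e => ω e ∈ hitSet r₀).card : ℝ)).card} := by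
  classical
  haveI := markLaw_prob (G := G) h0 h1
  haveI : IsProbabilityMeasure (markField G η) := by unfold markField; infer_instance
  have hm : ∀ y, MeasurableSet {ω : Edge → Bool × ℝ |
      (((E y).filter fun e => ω e ∈ hitSet r₀).card : ℝ) < c} := fun y => by
    have e : (fun ω : Edge → Bool × ℝ => (((E y).filter fun e => ω e ∈ hitSet r₀).card : ℝ))
        = fun ω => ∑ e ∈ E y, if ω e ∈ hitSet r₀ then (1 : ℝ) else 0 := by
      funext ω; simp [Finset.sum_boole]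
    refine measurableSet_lt ?_ measurable_const
    rw [e]
    exact Finset.measurable_fun_sum _ fun e _ => Measurable.ite
      ((measurable_pi_apply e) (measurableSet_hitSet r₀)) measurable_const measurable_const
  set F : (Edge → Bool × ℝ) → ℝ≥0∞ := fun ω => ∑ y ∈ Y,
    {ω : Edge → Bool × ℝ | (((E y).filter fun e => ω e ∈ hitSet r₀).card : ℝ) < c}.indicator
      (fun _ => (1 : ℝ≥0∞)) ω with hF
  have hFm : Measurable F :=
    Finset.measurable_fun_sum _ fun y _ => measurable_const.indicator (hm y)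
  have hint : ∫⁻ ω, F ω ∂markField G η ≤ (Y.card : ℝ≥0∞) * ENNReal.ofReal (1 / 8) := by
    simp only [hF]
    rw [lintegral_finsetSum _ fun y _ => measurable_const.indicator (hm y), ← nsmul_eq_mul]
    refine Finset.sum_le_card_nsmul _ _ _ fun y hy => ?_
    rw [lintegral_indicator_const (hm y), one_mul]
    exact (markField_few_hits h0 h1 _ c).trans (ENNReal.ofReal_le_ofReal (hE y hy))
  set Good' : Set (Edge → Bool × ℝ) := {ω | (Y.card + 1) / 2
      ≤ (Y.filter fun y => c ≤ (((E y).filter fun e => ω e ∈ hitSet r₀).card : ℝ)).card}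
  set T := (Y.card / 2 + 1 : ℕ)
  have hcount : ∀ ω, ω ∉ Good' → (T : ℝ≥0∞) ≤ F ω := by
    intro ω hω
    simp only [Good', Set.mem_setOf_eq, not_le] at hω
    simp only [hF, Set.indicator_apply, Set.mem_setOf_eq, Finset.sum_boole]
    have hsplit := Finset.card_filter_add_card_filter_not (s := Y)
      (fun y => c ≤ (((E y).filter fun e => ω e ∈ hitSet r₀).card : ℝ))
    simp only [not_le] at hsplit
    exact_mod_cast (by omega : T ≤ _)
  have hT : 1 ≤ T := by omega
  have hbad : markField G η Good'ᶜ ≤ ENNReal.ofReal (1 / 4) := by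
    refine (measure_mono (fun ω hω => hcount ω hω :
      Good'ᶜ ⊆ {ω | (T : ℝ≥0∞) ≤ F ω})).trans ?_
    refine (meas_ge_le_lintegral_div hFm.aemeasurable (by simp [T]) (by simp)).trans ?_
    refine (ENNReal.div_le_div_right hint _).trans ?_
    rw [← ENNReal.ofReal_natCast, ← ENNReal.ofReal_natCast T,
      ← ENNReal.ofReal_mul (Nat.cast_nonneg _), ← ENNReal.ofReal_div_of_pos (by exact_mod_cast hT)]
    refine ENNReal.ofReal_le_ofReal ?_
    rw [div_le_iff₀ (by exact_mod_cast hT)]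
    have : (Y.card : ℝ) ≤ 2 * (T : ℝ) := by exact_mod_cast (by omega : Y.card ≤ 2 * T)
    linarith
  have h2 := measure_union_le (μ := markField G η) Good' Good'ᶜ
  rw [Set.union_compl_self, measure_univ] at h2
  by_contra hlt
  rw [not_le] at hlt
  have h3 := h2.trans_lt (ENNReal.add_lt_add_of_lt_of_le
    (ne_top_of_le_ne_top ENNReal.ofReal_ne_top hbad) hlt hbad)
  rw [← ENNReal.ofReal_add (by norm_num) (by norm_num)] at h3
  exact absurd h3 (not_lt.2 (ENNReal.ofReal_le_one.2 (by norm_num)))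

end half

section edges
variable {P : SiteP} {k c : ℤ} {s : ℝ} {h : ℤ} {d : ℕ}

/-- The tilt region is finite, with the expected cardinality. -/
lemma exists_regSet2 (hw : 0 ≤ P.w) : ∃ S : Finset Edge, (↑S : Set Edge) = regSet2 P k c s h d ∧
    (S.card : ℝ) ≤ 4 * (2 * (P.L : ℝ) + 2) * ((d : ℝ) + 4 * P.w + 3) := by
  classical
  set lo := fun l : ℤ => ⌈(h : ℝ) - 2 * P.w + s * ((l : ℝ) - c)⌉ with hlo
  set hi := fun l : ℤ => ⌊(h : ℝ) + d + 2 * P.w + s * ((l : ℝ) - c)⌋ with hhi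
  set Vs : Finset V := (Finset.Icc (c - (P.L : ℤ)) (c + P.L)).biUnion fun l =>
    (Finset.Icc (lo l) (hi l)).image fun y => pt k l y with hVs
  have hmem : ∀ v, InReg2 P k c s h d v → v ∈ Vs := by
    rintro v ⟨h1, h2, h3⟩
    refine Finset.mem_biUnion.2 ⟨lev k v, Finset.mem_Icc.2 (by rw [abs_le] at h1; omega),
      Finset.mem_image.2 ⟨v.2, Finset.mem_Icc.2 ⟨?_, ?_⟩, Prod.ext ?_ rfl⟩⟩
    · rw [hlo, Int.ceil_le]; push_cast at h2; linarith
    · rw [hhi, Int.le_floor]; push_cast at h3; linarith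
    · simp [pt, lev]
  have hVcard : (Vs.card : ℝ) ≤ (2 * (P.L : ℝ) + 1) * ((d : ℝ) + 4 * P.w + 1) := by
    refine (Nat.cast_le.2 (Finset.card_biUnion_le)).trans ?_
    rw [Nat.cast_sum]
    refine (Finset.sum_le_card_nsmul _ _ ((d : ℝ) + 4 * P.w + 1) fun l _ => ?_).trans (le_of_eq ?_)
    · refine (Nat.cast_le.2 Finset.card_image_le).trans ?_
      rw [Int.card_Icc]
      have a1 := Int.floor_le ((h : ℝ) + d + 2 * P.w + s * ((l : ℝ) - c))
      have a2 := Int.le_ceil ((h : ℝ) - 2 * P.w + s * ((l : ℝ) - c))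
      rcases le_or_gt (hi l + 1 - lo l) 0 with hn | hn
      · rw [Int.toNat_of_nonpos hn, Nat.cast_zero]; positivity
      · have e : (((hi l + 1 - lo l).toNat : ℕ) : ℝ) = ((hi l + 1 - lo l : ℤ) : ℝ) := by
          exact_mod_cast Int.toNat_of_nonneg hn.le
        rw [e]
        simp only [hlo, hhi]
        push_cast
        linarith
    · rw [nsmul_eq_mul, Int.card_Icc,
        show c + (P.L : ℤ) + 1 - (c - P.L) = ((2 * P.L + 1 : ℕ) : ℤ) by push_cast; ring,
        Int.toNat_natCast]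
      push_cast; ring
  refine ⟨(Vs ×ˢ (Finset.univ : Finset Bool)).filter fun e => e ∈ regSet2 P k c s h d, ?_, ?_⟩
  · ext e
    simp only [Finset.coe_filter, Set.mem_setOf_eq, Finset.mem_product, Finset.mem_univ, and_true,
      and_iff_right_iff_imp]
    exact fun he => hmem _ he.1
  · refine (Nat.cast_le.2 (Finset.card_filter_le _ _)).trans ?_
    rw [Finset.card_product, Finset.card_univ, Fintype.card_bool, Nat.cast_mul, Nat.cast_ofNat]
    have h2 : (0 : ℝ) ≤ P.L := Nat.cast_nonneg _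
    have h3 : 0 ≤ (d : ℝ) + 4 * P.w := by positivity
    calc (Vs.card : ℝ) * 2 ≤ (2 * (P.L : ℝ) + 1) * ((d : ℝ) + 4 * P.w + 1) * 2 := by gcongr
      _ ≤ (2 * (P.L : ℝ) + 2) * ((d : ℝ) + 4 * P.w + 3) * 4 := by
          gcongr <;> norm_num
      _ = _ := by ring

lemma step_edge_injOn {t : Conf} {γ : ℤ → V} (hγ : IsBigeodesic t γ) :
    Function.Injective fun m : ℤ => edgeOf (γ m) (γ (m + 1)) := by
  intro a b hab
  rcases (edgeOf_eq_iff (hγ.adj a) (hγ.adj b)).1 hab with ⟨h1, -⟩ | ⟨h1, h2⟩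
  · exact hγ.inj h1
  · have := hγ.inj h1; have := hγ.inj h2; omega

/-- The heavy steps of a confined line in its strip give edges of the tilt region. -/
lemma site2_edges {t : Conf} {γ : ℤ → V} {iL jR y : ℤ}
    (hls : LineSite P k s (pt k c y) t γ iL jR) (hεw : P.ε * P.L ≤ P.w)
    (hy : h ≤ y ∧ y < h + d) :
    ∃ E : Finset Edge, P.L ≤ E.card ∧
      E ⊆ (Finset.Ico iL jR).image (fun m => edgeOf (γ m) (γ (m + 1))) ∧
      (∀ e ∈ E, e ∈ regSet2 P k c s h d) ∧ ∀ e ∈ E, P.r ≤ t e := by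
  classical
  have hlev : lev k (pt k c y) = c := by simp [lev, pt]
  obtain ⟨s', hs', htube⟩ := hls.tube
  have hheavy := hls.heavy
  rw [hlev] at hheavy htube
  set H := (Finset.Ico iL jR).filter fun m => P.r ≤ wt t (γ m) (γ (m + 1)) ∧
    |lev k (γ m) - c| ≤ (P.L : ℤ) ∧ |lev k (γ (m + 1)) - c| ≤ (P.L : ℤ) with hH
  have hset : {m : ℤ | iL ≤ m ∧ m < jR ∧ P.r ≤ wt t (γ m) (γ (m + 1)) ∧
      |lev k (γ m) - c| ≤ (P.L : ℤ) ∧ |lev k (γ (m + 1)) - c| ≤ (P.L : ℤ)} = ↑H := by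
    ext m; simp [hH, and_assoc]
  rw [hset, Set.ncard_coe_finset] at hheavy
  have hin : ∀ m, iL ≤ m → m ≤ jR → |lev k (γ m) - c| ≤ (P.L : ℤ) →
      InReg2 P k c s h d (γ m) := by
    intro m hm1 hm2 hl
    have ht := htube m hm1 hm2
    simp only [pt] at ht
    have hl' : |((lev k (γ m) : ℝ) - c)| ≤ P.L := by exact_mod_cast hl
    have h1 : |(s' - s) * ((lev k (γ m) : ℝ) - c)| ≤ P.w := by
      rw [abs_mul]
      exact (mul_le_mul hs' hl' (abs_nonneg _) ((abs_nonneg _).trans hs')).trans hεw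
    rw [abs_le] at ht h1
    have hy1 : (h : ℝ) ≤ y := by exact_mod_cast hy.1
    have hy2 : (y : ℝ) ≤ h + d := by exact_mod_cast hy.2.le
    refine ⟨hl, ?_, ?_⟩ <;> push_cast <;> linarith
  refine ⟨H.image fun m => edgeOf (γ m) (γ (m + 1)), ?_,
    Finset.image_subset_image (Finset.filter_subset _ _), fun e he => ?_, fun e he => ?_⟩
  · rwa [Finset.card_image_of_injective _ (step_edge_injOn hls.line)]
  · obtain ⟨m, hm, rfl⟩ := Finset.mem_image.1 he
    obtain ⟨hmI, -, hl1, hl2⟩ := Finset.mem_filter.1 hm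
    rw [Finset.mem_Ico] at hmI
    have a1 := hin m hmI.1 hmI.2.le hl1
    have a2 := hin (m + 1) (by omega) (by omega) hl2
    rcases ends_edgeOf (hls.line.adj m) with ⟨e1, e2⟩ | ⟨e1, e2⟩ <;>
      simp only [regSet2, Set.mem_setOf_eq, e1, e2]
    exacts [⟨a1, a2⟩, ⟨a2, a1⟩]
  · obtain ⟨m, hm, rfl⟩ := Finset.mem_image.1 he
    exact (Finset.mem_filter.1 hm).2.1

end edges


section closed

/-- A property of finitely many places of a path is closed. -/
lemma isClosed_fin_coords (F : Finset ℤ) {Q : (ℤ → V) → Prop}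
    (hQ : ∀ γ γ' : ℤ → V, (∀ m ∈ F, γ m = γ' m) → Q γ → Q γ') : IsClosed {γ | Q γ} := by
  have e : {γ | Q γ} = F.restrict ⁻¹' (F.restrict '' {γ | Q γ}) := by
    ext γ
    refine ⟨fun h => ⟨γ, h, rfl⟩, ?_⟩
    rintro ⟨γ', h', he⟩
    exact hQ γ' γ (fun m hm => congrFun he ⟨m, hm⟩) h'
  rw [e]
  exact (isClosed_discrete _).preimage (Finset.continuous_restrict (A := fun _ : ℤ => V) F)

lemma isClosed_boxCross (k N c : ℤ) (R : ℕ) (i j : ℤ) :
    IsClosed {γ : ℤ → V | BoxCross k γ N c R i j} := by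
  have e : {γ : ℤ → V | BoxCross k γ N c R i j} = {γ | (i ≤ j ∧ j - i ≤ R) ∧ lev k (γ i) = c ∧
      lev k (γ j) = c ∧ lev k (γ (i - 1)) = c - 1 ∧
      (∀ m, m < i → InSq N (γ m) → lev k (γ m) < c) ∧
      ∀ m, j < m → InSq N (γ m) → c < lev k (γ m)} := by
    ext γ
    exact ⟨fun (h : BoxCross k γ N c R i j) =>
        ⟨⟨h.le, h.len⟩, h.first, h.last, h.step, h.before, h.after⟩,
      fun ⟨⟨a, b⟩, c', d, e, f, g⟩ => ⟨a, b, c', d, e, f, g⟩⟩
  rw [e]
  simp only [Set.ofPred_and, Set.ofPred_forall]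
  refine ((isClosed_coord i i fun _ _ => i ≤ j).inter (isClosed_coord i i fun _ _ => j - i ≤ R)).inter
    ((isClosed_coord i i fun a _ => lev k a = c).inter
    ((isClosed_coord j j fun a _ => lev k a = c).inter
    ((isClosed_coord (i - 1) (i - 1) fun a _ => lev k a = c - 1).inter (IsClosed.inter ?_ ?_))))
  · exact isClosed_iInter fun m => isClosed_iInter fun _ =>
      isClosed_coord m m fun a _ => InSq N a → lev k a < c
  · exact isClosed_iInter fun m => isClosed_iInter fun _ =>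
      isClosed_coord m m fun a _ => InSq N a → c < lev k a

lemma LineSite.signs {P : SiteP} {k : ℤ} {s : ℝ} {x : V} {t : Conf} {γ : ℤ → V} {iL jR : ℤ}
    (h : LineSite P k s x t γ iL jR) : iL < 0 ∧ 0 < jR := by
  obtain ⟨j, hj, hj'⟩ := h.left
  obtain ⟨i, hi, hi'⟩ := h.right
  exact ⟨hj.le.trans_lt hj', hi'.trans_le hi.le⟩

lemma LineSite.index_mem {P : SiteP} {k : ℤ} {s : ℝ} {x : V} {t : Conf} {γ : ℤ → V} {iL jR : ℤ}
    (h : LineSite P k s x t γ iL jR) :
    iL ∈ Finset.Icc (-(2 * (P.N : ℤ) + 1) ^ 2) 0 ∧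
      jR ∈ Finset.Icc (0 : ℤ) ((2 * (P.N : ℤ) + 1) ^ 2) := by
  classical
  obtain ⟨hL, hR⟩ := h.signs
  set S := Finset.Icc (-(P.N : ℤ)) P.N ×ˢ Finset.Icc (-(P.N : ℤ)) P.N
  have hsub : (Finset.Icc iL jR).image γ ⊆ S := by
    intro v hv
    obtain ⟨m, hm, rfl⟩ := Finset.mem_image.1 hv
    rw [Finset.mem_Icc] at hm
    obtain ⟨a, b, c, d⟩ := h.inBox m (by omega) (by omega)
    exact Finset.mem_product.2 ⟨Finset.mem_Icc.2 ⟨a, b⟩, Finset.mem_Icc.2 ⟨c, d⟩⟩
  have h1 := Finset.card_le_card hsub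
  rw [Finset.card_image_of_injective _ h.line.inj, Finset.card_product, Int.card_Icc,
    Int.card_Icc] at h1
  have h2 : jR + 1 - iL ≤ (2 * (P.N : ℤ) + 1) ^ 2 := by
    have h3 : ((jR + 1 - iL).toNat : ℤ) ≤
        (((P.N : ℤ) + 1 - -P.N).toNat : ℤ) * (((P.N : ℤ) + 1 - -P.N).toNat : ℤ) := by
      exact_mod_cast h1
    rw [Int.toNat_of_nonneg (by omega), Int.toNat_of_nonneg (by omega)] at h3
    linarith
  exact ⟨Finset.mem_Icc.2 ⟨by omega, hL.le⟩, Finset.mem_Icc.2 ⟨hR.le, by omega⟩⟩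

/-- Site lines with given outer indices form a closed set. -/
lemma isClosed_lineSite (P : SiteP) (k : ℤ) (s : ℝ) (x : V) (iL jR : ℤ) :
    IsClosed {q : Conf × (ℤ → V) | q.1 ∈ NN ∧ LineSite P k s x q.1 q.2 iL jR} := by
  classical
  have hcoord : ∀ i : ℤ, Continuous fun q : Conf × (ℤ → V) => q.2 i :=
    fun i => (continuous_apply i).comp continuous_snd
  set G0 := {γ : ℤ → V | γ 0 = x} ∩
    ((⋃ j ∈ Finset.Icc (0 : ℤ) P.R, {γ | BoxCross k γ P.N (lev k x) P.R 0 j}) ∩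
    ((⋃ j ∈ Finset.Icc iL (-1), {γ | BoxCross k γ P.N (-(P.Lam : ℤ)) P.R' iL j}) ∩
    ((⋃ i ∈ Finset.Icc 1 jR, {γ | BoxCross k γ P.N P.Lam P.R' i jR}) ∩
    ((⋂ (m : ℤ) (_ : iL - 1 ≤ m) (_ : m ≤ jR + 1), {γ | InSq P.N (γ m)}) ∩
    {γ | ∃ s' : ℝ, |s' - s| ≤ P.ε ∧ ∀ m, iL ≤ m → m ≤ jR →
      |((γ m).2 : ℝ) - x.2 - s' * (lev k (γ m) - lev k x)| ≤ P.w})))) with hG0
  have hG0c : IsClosed G0 := by
    refine IsClosed.inter (isClosed_coord 0 0 fun a _ => a = x) (IsClosed.inter ?_ (IsClosed.inter ?_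
      (IsClosed.inter ?_ (IsClosed.inter ?_ ?_))))
    · exact isClosed_biUnion_finset fun j _ => isClosed_boxCross ..
    · exact isClosed_biUnion_finset fun j _ => isClosed_boxCross ..
    · exact isClosed_biUnion_finset fun j _ => isClosed_boxCross ..
    · exact isClosed_iInter fun m => isClosed_iInter fun _ => isClosed_iInter fun _ =>
        isClosed_coord m m fun a _ => InSq P.N a
    · refine isClosed_fin_coords (Finset.Icc iL jR) ?_
      rintro γ γ' hγ ⟨s', h1, h2⟩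
      exact ⟨s', h1, fun m a b => by rw [← hγ m (Finset.mem_Icc.2 ⟨a, b⟩)]; exact h2 m a b⟩
  set Rg := {q : Conf × (ℤ → V) | ∀ (n m : ℕ) (a z : V) (p : grid.Walk a z),
    ¬ (q.2 (-((n : ℤ) + 1)) = a ∧ q.2 m = z ∧ WalkIn {edgeOf (q.2 (-1)) (q.2 0)}ᶜ p) ∨
      seg q.1 q.2 (-((n : ℤ) + 1)) m + P.δ ≤ plen q.1 p} with hRg
  have hRgc : IsClosed Rg := by
    simp only [hRg, Set.ofPred_forall, Set.ofPred_or]
    refine isClosed_iInter fun n => isClosed_iInter fun m => isClosed_iInter fun a =>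
      isClosed_iInter fun z => isClosed_iInter fun p => IsClosed.union ?_ (isClosed_le ?_ ?_)
    · exact (isClosed_fin_coords (Q := fun γ => ¬ (γ (-((n : ℤ) + 1)) = a ∧ γ m = z ∧
        WalkIn {edgeOf (γ (-1)) (γ 0)}ᶜ p)) {-((n : ℤ) + 1), (m : ℤ), -1, 0}
        fun γ γ' hγ h => by
          rwa [← hγ _ (by simp), ← hγ (m : ℤ) (by simp), ← hγ (-1) (by simp),
            ← hγ 0 (by simp)]).preimage continuous_snd
    · exact (continuous_finsetSum _ fun i _ =>
        continuous_wt_apply continuous_fst (hcoord i) (hcoord (i + 1))).add continuous_const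
    · exact (continuous_plen p).comp continuous_fst
  set Hv := ⋃ u ∈ (Finset.Ico iL jR).powerset.filter (fun u => P.L ≤ u.card),
    ⋂ m ∈ u, ({q : Conf × (ℤ → V) | P.r ≤ wt q.1 (q.2 m) (q.2 (m + 1))} ∩
      Prod.snd ⁻¹' {γ : ℤ → V | |lev k (γ m) - lev k x| ≤ (P.L : ℤ) ∧
        |lev k (γ (m + 1)) - lev k x| ≤ (P.L : ℤ)}) with hHv
  have hHvc : IsClosed Hv := isClosed_biUnion_finset fun u _ => isClosed_biInter fun m _ =>
    (isClosed_le continuous_const
      (continuous_wt_apply continuous_fst (hcoord m) (hcoord (m + 1)))).inter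
      ((isClosed_coord m (m + 1) fun a b => |lev k a - lev k x| ≤ (P.L : ℤ) ∧
        |lev k b - lev k x| ≤ (P.L : ℤ)).preimage continuous_snd)
  suffices e : {q : Conf × (ℤ → V) | q.1 ∈ NN ∧ LineSite P k s x q.1 q.2 iL jR}
      = {q : Conf × (ℤ → V) | q.1 ∈ NN ∧ IsBigeodesic q.1 q.2} ∩
        (Prod.snd ⁻¹' G0 ∩ (Rg ∩ Hv)) by
    rw [e]
    exact isClosed_isBigeodesic.inter ((hG0c.preimage continuous_snd).inter (hRgc.inter hHvc))
  ext ⟨t, γ⟩
  simp only [hG0, hRg, hHv, Set.mem_inter_iff, Set.mem_preimage, Set.mem_iUnion, Set.mem_iInter,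
    Set.mem_ofPred_eq, Finset.mem_Icc, exists_prop, Finset.mem_filter, Finset.mem_powerset]
  constructor
  · rintro ⟨ht, h⟩
    obtain ⟨j, hj⟩ := h.site
    obtain ⟨j', hj1, hj2⟩ := h.left
    obtain ⟨i, hi1, hi2⟩ := h.right
    refine ⟨⟨ht, h.line⟩, ⟨h.origin, ⟨j, ⟨hj.le, by linarith [hj.len]⟩, hj⟩,
      ⟨j', ⟨hj1.le, by omega⟩, hj1⟩, ⟨i, ⟨by omega, hi1.le⟩, hi1⟩, h.inBox, h.tube⟩,
      fun n m a z p => ?_, ?_⟩
    · refine or_iff_not_imp_left.2 fun hh => ?_
      obtain ⟨rfl, rfl, hp⟩ := not_not.1 hh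
      rw [← bigeo_T h.line ht (by omega)]
      exact h.rigid n m _ _ p rfl rfl hp
    · refine ⟨(Finset.Ico iL jR).filter fun m => P.r ≤ wt t (γ m) (γ (m + 1)) ∧
        |lev k (γ m) - lev k x| ≤ (P.L : ℤ) ∧ |lev k (γ (m + 1)) - lev k x| ≤ (P.L : ℤ),
        ⟨Finset.filter_subset _ _, h.heavy.trans (le_of_eq ?_)⟩,
        fun m hm => ⟨(Finset.mem_filter.1 hm).2.1, (Finset.mem_filter.1 hm).2.2⟩⟩
      rw [← Set.ncard_coe_finset]
      congr 1
      ext m
      simp [and_assoc]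
  · rintro ⟨⟨ht, hγ⟩, ⟨h0, ⟨j, -, hj⟩, ⟨j', ⟨-, hj'⟩, hj1⟩, ⟨i, ⟨hi', -⟩, hi1⟩, hbox, htube⟩,
      hrig, u, ⟨hu, hcard⟩, hm⟩
    refine ⟨ht, hγ, h0, ⟨j, hj⟩, ⟨j', hj1, by omega⟩, ⟨i, hi1, by omega⟩, hbox, htube,
      fun n m a z p ha hz hp => ?_, ?_⟩
    · subst ha hz
      rw [bigeo_T hγ ht (by omega)]
      exact (hrig n m _ _ p).resolve_left (not_not.2 ⟨rfl, rfl, hp⟩)
    · refine hcard.trans ?_
      rw [← Set.ncard_coe_finset]
      refine Set.ncard_le_ncard (fun m hmu => ?_)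
        ((Finset.Ico iL jR).finite_toSet.subset fun m hmu => Finset.mem_coe.2
          (Finset.mem_Ico.2 ⟨hmu.1, hmu.2.1⟩))
      have := Finset.mem_Ico.1 (hu hmu)
      exact ⟨this.1, this.2, (hm m hmu).1, (hm m hmu).2⟩

/-- The paths which are site lines. -/
def lineSet (P : SiteP) (k : ℤ) (s : ℝ) (x : V) : Set (Conf × (ℤ → V)) :=
  {q | q.1 ∈ NN ∧ ∃ iL jR, LineSite P k s x q.1 q.2 iL jR}

lemma isClosed_lineSet (P : SiteP) (k : ℤ) (s : ℝ) (x : V) : IsClosed (lineSet P k s x) := by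
  have e : lineSet P k s x = ⋃ p ∈ Finset.Icc (-(2 * (P.N : ℤ) + 1) ^ 2) 0 ×ˢ
      Finset.Icc (0 : ℤ) ((2 * (P.N : ℤ) + 1) ^ 2),
      {q : Conf × (ℤ → V) | q.1 ∈ NN ∧ LineSite P k s x q.1 q.2 p.1 p.2} := by
    ext q
    simp only [lineSet, Set.mem_ofPred_eq, Set.mem_iUnion, Finset.mem_product, exists_prop]
    constructor
    · rintro ⟨ht, iL, jR, h⟩
      exact ⟨(iL, jR), h.index_mem, ht, h⟩
    · rintro ⟨p, -, ht, h⟩
      exact ⟨ht, p.1, p.2, h⟩
  rw [e]
  exact isClosed_biUnion_finset fun p _ => isClosed_lineSite ..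

/-- No point of the box shows a crossed excess below `-G₀` along finite approximations. -/
def NoWitAt (t : Conf) (W : ℤ) (G₀ : ℝ) (r s : ℕ → V) : Prop :=
  ∀ z, InSq W z → ∀ (n m : ℕ) (a a' : V) (p : grid.Walk a z) (q : grid.Walk a' z),
    r n ≠ a ∨ s m ≠ a' ∨ -G₀ ≤ plen t p - rlen t r n + (plen t q - rlen t s m)

/-- One of the four pairings of the ends has no witness. -/
def NoWit4 (t : Conf) (W : ℤ) (G₀ : ℝ) (γ γ' : ℤ → V) : Prop :=
  NoWitAt t W G₀ (bwd γ 0) (fwd γ' 0) ∨ NoWitAt t W G₀ (fwd γ 0) (bwd γ' 0) ∨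
    NoWitAt t W G₀ (bwd γ 0) (bwd γ' 0) ∨ NoWitAt t W G₀ (fwd γ 0) (fwd γ' 0)

lemma isClosed_noWitAt {X : Type*} [TopologicalSpace X] {ft : X → Conf} (ht : Continuous ft)
    {fr fs : X → ℕ → V} (hr : Continuous fr) (hs : Continuous fs) (W : ℤ) (G₀ : ℝ) :
    IsClosed {q | NoWitAt (ft q) W G₀ (fr q) (fs q)} := by
  have hr' : ∀ n, Continuous fun q => fr q n := fun n => (continuous_apply n).comp hr
  have hs' : ∀ n, Continuous fun q => fs q n := fun n => (continuous_apply n).comp hs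
  simp only [NoWitAt, Set.ofPred_forall, Set.ofPred_or]
  refine isClosed_iInter fun z => isClosed_iInter fun _ => isClosed_iInter fun n =>
    isClosed_iInter fun m => isClosed_iInter fun a => isClosed_iInter fun a' =>
    isClosed_iInter fun p => isClosed_iInter fun q => ?_
  refine ((isClosed_discrete {v : V | v ≠ a}).preimage (hr' n)).union
    (((isClosed_discrete {v : V | v ≠ a'}).preimage (hs' m)).union (isClosed_le continuous_const ?_))
  exact (((continuous_plen p).comp ht).sub (continuous_finsetSum _ fun i _ =>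
      continuous_wt_apply ht (hr' i) (hr' (i + 1)))).add
    (((continuous_plen q).comp ht).sub (continuous_finsetSum _ fun i _ =>
      continuous_wt_apply ht (hs' i) (hs' (i + 1))))

lemma isClosed_noWit4 (W : ℤ) (G₀ : ℝ) :
    IsClosed {q : Conf × ((ℤ → V) × (ℤ → V)) | NoWit4 q.1 W G₀ q.2.1 q.2.2} := by
  have hf : Continuous fun γ : ℤ → V => fwd γ 0 :=
    continuous_pi fun n => continuous_apply _
  have hb : Continuous fun γ : ℤ → V => bwd γ 0 :=
    continuous_pi fun n => continuous_apply _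
  have h1 : Continuous fun q : Conf × ((ℤ → V) × (ℤ → V)) => q.2.1 :=
    continuous_fst.comp continuous_snd
  have h2 : Continuous fun q : Conf × ((ℤ → V) × (ℤ → V)) => q.2.2 :=
    continuous_snd.comp continuous_snd
  exact (isClosed_noWitAt continuous_fst (hb.comp h1) (hf.comp h2) W G₀).union
    ((isClosed_noWitAt continuous_fst (hf.comp h1) (hb.comp h2) W G₀).union
    ((isClosed_noWitAt continuous_fst (hb.comp h1) (hb.comp h2) W G₀).union
      (isClosed_noWitAt continuous_fst (hf.comp h1) (hf.comp h2) W G₀)))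

lemma wit_iff_not_noWitAt {t : Conf} (h0 : ∀ e, 0 ≤ t e) {r s : ℕ → V}
    (hr : IsRayIn t Set.univ r) (hs : IsRayIn t Set.univ s) {W : ℤ} {G₀ : ℝ} :
    Wit t W G₀ r s ↔ ¬ NoWitAt t W G₀ r s := by
  constructor
  · rintro ⟨z, hz, hlt⟩ hno
    refine absurd hlt (not_lt.2 ?_)
    suffices -G₀ - bus t Set.univ s z ≤ bus t Set.univ r z by linarith
    refine le_bus fun n => ?_
    suffices -G₀ - bus t Set.univ s z + rlen t r n ≤ TS t Set.univ (r n) z by linarith
    refine le_TS (connIn_univ _ _) fun p _ => ?_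
    suffices -G₀ - (plen t p - rlen t r n) ≤ bus t Set.univ s z by linarith
    refine le_bus fun m => ?_
    suffices -G₀ - (plen t p - rlen t r n) + rlen t s m ≤ TS t Set.univ (s m) z by linarith
    refine le_TS (connIn_univ _ _) fun q _ => ?_
    rcases hno z hz n m _ _ p q with h | h | h
    · exact absurd rfl h
    · exact absurd rfl h
    · linarith
  · intro hno
    simp only [NoWitAt, not_forall, not_or, not_not, not_le] at hno
    obtain ⟨z, hz, n, m, a, a', p, q, rfl, rfl, h⟩ := hno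
    have a1 := bus_le h0 hr (connIn_univ _ z) n
    have a2 := bus_le h0 hs (connIn_univ _ z) m
    have a3 := TS_le h0 (walkIn_univ p)
    have a4 := TS_le h0 (walkIn_univ q)
    exact ⟨z, hz, by linarith⟩

lemma wit4_iff_not_noWit4 {t : Conf} (h0 : ∀ e, 0 ≤ t e) {γ γ' : ℤ → V}
    (hγ : IsBigeodesic t γ) (hγ' : IsBigeodesic t γ') {W : ℤ} {G₀ : ℝ} :
    Wit4 t W G₀ γ γ' ↔ ¬ NoWit4 t W G₀ γ γ' := by
  have a := isRayIn_fwd hγ h0 0
  have b := isRayIn_bwd hγ h0 0
  have a' := isRayIn_fwd hγ' h0 0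
  have b' := isRayIn_bwd hγ' h0 0
  simp only [Wit4, NoWit4, not_or, wit_iff_not_noWitAt h0 b a', wit_iff_not_noWitAt h0 a b',
    wit_iff_not_noWitAt h0 b b', wit_iff_not_noWitAt h0 a a']

lemma noWit4_anti {t : Conf} {W W' : ℤ} (h : W ≤ W') {G₀ : ℝ} {γ γ' : ℤ → V}
    (hw : NoWit4 t W' G₀ γ γ') : NoWit4 t W G₀ γ γ' := by
  have key : ∀ {r s : ℕ → V}, NoWitAt t W' G₀ r s → NoWitAt t W G₀ r s :=
    fun H z hz => H z (inSq_of_le h hz)
  exact hw.imp key (Or.imp key (Or.imp key key))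

end closed

/-- Site lines at two sites of one level lie in different classes. -/
theorem site_not_sameClass {κ : ℝ} {t : Conf} (hN : NiceG κ t) (hκ : 0 < κ) {P : SiteP}
    (hδ : 0 < P.δ) {k : ℤ} {s : ℝ} {x x' : V} (hlev : lev k x = lev k x') (hne : x ≠ x')
    {γ γ' : ℤ → V} {iL jR iL' jR' : ℤ} (h : LineSite P k s x t γ iL jR)
    (h' : LineSite P k s x' t γ' iL' jR') : ¬ SameClass t γ γ' := by
  intro hsc
  obtain ⟨hiL, hjR⟩ := h.signs
  obtain ⟨hiL', hjR'⟩ := h'.signs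
  have hmeet : ∃ m, γ 0 = γ' m := by
    by_contra hcon
    refine rigid_class hN hκ hδ h.line h'.line h.rigid (fun i he => hcon ?_) hsc
    rcases (edgeOf_eq_iff (h'.line.adj i) (by simpa using h.line.adj (-1))).1 he with
      ⟨-, e⟩ | ⟨e, -⟩
    · exact ⟨_, e.symm⟩
    · exact ⟨_, e.symm⟩
  obtain ⟨m, hm⟩ := hmeet
  obtain ⟨j, hj⟩ := h.site
  obtain ⟨j', hj'⟩ := h'.site
  have hbox : InSq P.N (γ 0) := h.inBox 0 (by omega) (by omega)
  have hbox' : InSq P.N (γ' 0) := h'.inBox 0 (by omega) (by omega)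
  have hm1 : 1 ≤ m := by
    rcases lt_trichotomy m 0 with hlt | rfl | hgt
    · have := hj'.before m hlt (hm ▸ hbox)
      rw [← hm, h.origin, hlev] at this
      exact absurd this (lt_irrefl _)
    · rw [h.origin, h'.origin] at hm; exact absurd hm hne
    · omega
  rcases hsc with hb | hb
  · have e := line_unique hN h.line h'.line hb hm (-m)
    rw [add_neg_cancel, zero_add] at e
    have := hj.before (-m) (by omega) (e ▸ hbox')
    rw [← e, h'.origin, hlev] at this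
    exact absurd this (lt_irrefl _)
  · have e := line_unique hN h.line h'.line.rev hb (b := -m)
      (by simpa [revLine] using hm) iL
    simp only [revLine, zero_add, neg_add_rev, neg_neg] at e
    obtain ⟨jl, hl, -⟩ := h.left
    obtain ⟨jl', hl', hl0⟩ := h'.left
    have hb1 := h.inBox iL (by omega) (by omega)
    rw [← e] at hb1
    have := hl'.after _ (by omega) hb1
    rw [e, hl.first] at this
    exact absurd this (lt_irrefl _)

/-- Configurations with two confined lines at distinct sites lacking witnesses in a window. -/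
def badPair (P : SiteP) (k : ℤ) (s : ℝ) (x x' : V) (G₀ : ℝ) (W : ℕ) : Set Conf :=
  {t | ∃ q ∈ pathsFrom x ×ˢ pathsFrom x', (t, q) ∈
    {q : Conf × ((ℤ → V) × (ℤ → V)) | (q.1, q.2.1) ∈ lineSet P k s x ∧
      (q.1, q.2.2) ∈ lineSet P k s x' ∧ NoWit4 q.1 W G₀ q.2.1 q.2.2}}

lemma isClosed_pairSet (P : SiteP) (k : ℤ) (s : ℝ) (x x' : V) (G₀ : ℝ) (W : ℕ) :
    IsClosed {q : Conf × ((ℤ → V) × (ℤ → V)) | (q.1, q.2.1) ∈ lineSet P k s x ∧
      (q.1, q.2.2) ∈ lineSet P k s x' ∧ NoWit4 q.1 W G₀ q.2.1 q.2.2} :=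
  ((isClosed_lineSet P k s x).preimage (continuous_fst.prodMk (continuous_fst.comp continuous_snd))).inter
    (((isClosed_lineSet P k s x').preimage
      (continuous_fst.prodMk (continuous_snd.comp continuous_snd))).inter (isClosed_noWit4 _ _))

lemma measurableSet_badPair (P : SiteP) (k : ℤ) (s : ℝ) (x x' : V) (G₀ : ℝ) (W : ℕ) :
    MeasurableSet (badPair P k s x x' G₀ W) :=
  measurableSet_exists_paths (isClosed_pairSet P k s x x' G₀ W)

lemma badPair_anti (P : SiteP) (k : ℤ) (s : ℝ) (x x' : V) (G₀ : ℝ) :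
    Antitone (badPair P k s x x' G₀) := by
  rintro W W' h t ⟨q, hq, h1, h2, h3⟩
  exact ⟨q, hq, h1, h2, noWit4_anti (by exact_mod_cast h) h3⟩

/-- One window has witnesses for all lines at two sites: a compactness argument. -/
lemma badPair_eventually {κ : ℝ} {t : Conf} (hN : NiceG κ t) (hκ : 0 < κ) {P : SiteP}
    (hδ : 0 < P.δ) {k : ℤ} {s : ℝ} {x x' : V} (hlev : lev k x = lev k x') (hne : x ≠ x')
    (G₀ : ℝ) : ∀ᶠ W in atTop, t ∉ badPair P k s x x' G₀ W := by
  by_contra hcon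
  have hall : ∀ W, t ∈ badPair P k s x x' G₀ W := fun W => by
    by_contra hW
    exact hcon (eventually_atTop.2 ⟨W, fun W' h' hW' => hW (badPair_anti P k s x x' G₀ h' hW')⟩)
  set S : ℕ → Set ((ℤ → V) × (ℤ → V)) := fun W => (pathsFrom x ×ˢ pathsFrom x') ∩
    Prod.mk t ⁻¹' {q | (q.1, q.2.1) ∈ lineSet P k s x ∧
      (q.1, q.2.2) ∈ lineSet P k s x' ∧ NoWit4 q.1 W G₀ q.2.1 q.2.2} with hS
  have hK := (isCompact_pathsFrom x).prod (isCompact_pathsFrom x')
  have hcl : ∀ W, IsClosed (S W) := fun W =>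
    hK.isClosed.inter ((isClosed_pairSet P k s x x' G₀ W).preimage (Continuous.prodMk_right t))
  obtain ⟨q, hq⟩ := IsCompact.nonempty_iInter_of_sequence_nonempty_isCompact_isClosed S
    (fun W q hq => ⟨hq.1, hq.2.1, hq.2.2.1, noWit4_anti (by push_cast; omega) hq.2.2.2⟩)
    (fun W => let ⟨q, a, b⟩ := hall W; ⟨q, a, b⟩)
    (hK.of_isClosed_subset (hcl 0) Set.inter_subset_left) hcl
  rw [Set.mem_iInter] at hq
  obtain ⟨-, ⟨-, iL, jR, h1⟩, ⟨-, iL', jR', h2⟩, -⟩ := hq 0
  obtain ⟨W, hW⟩ := (wit_eventually hN h1.line h2.line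
    (site_not_sameClass hN hκ hδ hlev hne h1 h2) G₀).exists
  exact (wit4_iff_not_noWit4 hN.good.nonneg h1.line h2.line).1 hW (hq W).2.2.2


/-- All pairs of site lines of a block have witnesses in the window. -/
def WitAll (P : SiteP) (k c : ℤ) (s G₀ : ℝ) (h : ℤ) (d W : ℕ) (t : Conf) : Prop :=
  ∀ (y y' : ℤ) (γ γ' : ℤ → V) (iL jR iL' jR' : ℤ), h ≤ y ∧ y < h + d → h ≤ y' ∧ y' < h + d →
    LineSite P k s (pt k c y) t γ iL jR → LineSite P k s (pt k c y') t γ' iL' jR' → y ≠ y' →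
      Wit4 t W G₀ γ γ'

/-- The probability of the certificate of one block, on the configurations with witnesses. -/
theorem block2_slice {G : Measure ℝ} {M : ℝ} (hG : LawOK G M) {GS : Set Conf}
    (hGS : ∀ᵐ t ∂law G, t ∈ GS) {P : SiteP} {k c : ℤ} {s : ℝ} {h : ℤ} {d W : ℕ}
    {G₀ g r₀ η : ℝ} (hεw : P.ε * P.L ≤ P.w) (hrr : r₀ < P.r)
    (h0 : 0 ≤ η) (h1 : η ≤ 1) {S : Finset Edge} (hS : (↑S : Set Edge) = regSet2 P k c s h d)
    (hbig : 32 ≤ η * G.real (Set.Iio r₀) * P.L)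
    (hg : g ≤ (P.r - r₀) * η * G.real (Set.Iio r₀) * P.L / 4)
    {q : ℕ} (hq1 : 1 ≤ q) (hq : (q : ℝ) * η ≤ 1) {lam : ℝ} (hlam : 0 < lam) (n : ℕ) :
    ENNReal.ofReal (1 / 2) * law G {t | open Classical in
        n ≤ ((Finset.Ico h (h + d)).filter fun y => t ∈ siteEvent2 P k c s y).card
          ∧ t ∈ GS ∧ WitAll P k c s G₀ h d W t}
      ≤ ENNReal.ofReal lam * law G (blockEvent2 P ⟨d, W, G₀, g⟩ GS k c s h ((n + 1) / 2))
        + ENNReal.ofReal ((1 + (q : ℝ) ^ 2 * η ^ 2) ^ S.card / lam ^ (q - 1)) := by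
  classical
  have := hG.prob
  haveI := markLaw_prob (G := G) h0 h1
  haveI : IsProbabilityMeasure (markField G η) := by unfold markField; infer_instance
  haveI := law_isProb hG
  set μ := (law G).prod (markField G η) with hμ
  set c' := η * G.real (Set.Iio r₀) * (P.L : ℝ) / 4 with hc'
  set A := {t : Conf | n ≤ ((Finset.Ico h (h + d)).filter fun y => t ∈ siteEvent2 P k c s y).card
      ∧ t ∈ GS ∧ WitAll P k c s G₀ h d W t} with hA
  set C : Set (Conf × (Edge → Bool × ℝ)) :=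
    {p | Cert2 P ⟨d, W, G₀, g⟩ GS k c s h ((n + 1) / 2) p.1 (tiltMap S p)} with hC
  have hnew : ∀ᵐ p ∂μ, tiltMap S p ∈ GS := by
    refine ae_of_ae_map (measurable_tiltMap S).aemeasurable ?_
    rw [hμ, tiltMap_law hG.noAtoms h0 h1]
    exact (withDensity_absolutelyContinuous _ _).ae_le hGS
  -- for a configuration with many sites, most marks give a certificate
  have hslice : ∀ t ∈ A, ENNReal.ofReal (1 / 2) ≤
      markField G η {ω | tiltMap S (t, ω) ∈ GS → (t, ω) ∈ C} := by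
    rintro t ⟨hYk, ht, hwit⟩
    set Y := (Finset.Ico h (h + d)).filter fun y => t ∈ siteEvent2 P k c s y with hYd
    have hsel : ∀ y ∈ Y, ∃ (γ : ℤ → V) (iL jR : ℤ) (E : Finset Edge),
        LineSite P k s (pt k c y) t γ iL jR ∧ P.L ≤ E.card ∧
        E ⊆ (Finset.Ico iL jR).image (fun m => edgeOf (γ m) (γ (m + 1))) ∧
        E ⊆ S ∧ ∀ e ∈ E, P.r ≤ t e := fun y hy => by
      obtain ⟨hy1, γ, iL, jR, hγ⟩ := Finset.mem_filter.1 hy
      obtain ⟨E, e1, e2, e3, e4⟩ := site2_edges hγ hεw (Finset.mem_Ico.1 hy1)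
      exact ⟨γ, iL, jR, E, hγ, e1, e2, fun e he => by rw [← Finset.mem_coe, hS]; exact e3 e he, e4⟩
    choose! γ iL jR E hline hcard hmid hES hge using hsel
    have hhalf := markField_half_up (G := G) (r₀ := r₀) h0 h1 Y E c' fun y hy => by
      have h3 : (P.L : ℝ) ≤ ((E y).card : ℝ) := by exact_mod_cast hcard y hy
      have h4 := mul_le_mul_of_nonneg_left h3 (mul_nonneg h0 (measureReal_nonneg (μ := G)
        (s := Set.Iio r₀)))
      calc Real.exp (c' - η * G.real (Set.Iio r₀) * (E y).card / 2)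
          ≤ Real.exp (-8) := Real.exp_le_exp.2 (by rw [hc']; linarith)
        _ ≤ 1 / 8 := by
          rw [Real.exp_neg, ← one_div]
          exact one_div_le_one_div_of_le (by norm_num) (by linarith [Real.add_one_le_exp (8 : ℝ)])
    refine hhalf.trans (measure_mono fun ω hω hnewω => ?_)
    simp only [Set.mem_setOf_eq] at hω
    obtain ⟨T, hTsub, hTcard⟩ := Finset.exists_subset_card_eq
      (le_trans (Nat.div_le_div_right (Nat.add_le_add_right hYk 1)) hω)
    set eqv := (Finset.equivFinOfCardEq hTcard).symm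
    set ys : Fin ((n + 1) / 2) → ℤ := fun i => (eqv i : ℤ) with hys
    have hysinj : Function.Injective ys := fun i j hij => eqv.injective (Subtype.ext hij)
    have hmem : ∀ i, ys i ∈ Y ∧ c' ≤ (((E (ys i)).filter fun e => ω e ∈ hitSet r₀).card : ℝ) :=
      fun i => Finset.mem_filter.1 (hTsub (eqv i).2)
    refine ⟨ht, hnewω, fun e => ?_, fun e he => ?_, ys, fun i => γ (ys i),
      fun i => iL (ys i), fun i => jR (ys i), hysinj, fun i => ?_, fun i j hij => ?_⟩
    · simp only [tiltMap, tiltVal]; split_ifs <;> simp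
    · simp only at he ⊢
      rw [tiltMap, if_neg]
      rwa [← Finset.mem_coe, hS]
    · obtain ⟨hy, hcy⟩ := hmem i
      obtain ⟨hy1, hy2⟩ := Finset.mem_Ico.1 (Finset.mem_filter.1 hy).1
      refine ⟨hy1, hy2, hline _ hy, ?_⟩
      have hgain := gain_le_sum hrr.le (hES _ hy) (hmid _ hy) (hge _ hy) ω
      rw [Finset.sum_image (step_edge_injOn (hline _ hy).line).injOn] at hgain
      refine le_trans (le_trans (hg.trans_eq (by rw [hc']; ring))
        (mul_le_mul_of_nonneg_left hcy (by linarith))) hgain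
    · exact hwit _ _ _ _ _ _ _ _ (Finset.mem_Ico.1 (Finset.mem_filter.1 (hmem i).1).1)
        (Finset.mem_Ico.1 (Finset.mem_filter.1 (hmem j).1).1) (hline _ (hmem i).1)
        (hline _ (hmem j).1) (hysinj.ne hij)
  set X := toMeasurable μ C ∪ toMeasurable μ {p | tiltMap S p ∉ GS} with hX
  have hXm : MeasurableSet X :=
    (measurableSet_toMeasurable _ _).union (measurableSet_toMeasurable _ _)
  have hsub : A ⊆ {t | ENNReal.ofReal (1 / 2) ≤ markField G η (Prod.mk t ⁻¹' X)} := fun t ht =>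
    (hslice t ht).trans (measure_mono fun ω hω => by
      by_cases hn : tiltMap S (t, ω) ∈ GS
      · exact Or.inl (subset_toMeasurable _ _ (hω hn))
      · exact Or.inr (subset_toMeasurable _ _ hn))
  have hPX : μ X ≤ μ C := by
    refine (measure_union_le _ _).trans ?_
    rw [measure_toMeasurable, measure_toMeasurable,
      (show μ {p | tiltMap S p ∉ GS} = 0 from ae_iff.1 hnew), add_zero]
  have hCU : ENNReal.ofReal (1 / 2) * law G A ≤ μ C := by
    refine le_trans ?_ hPX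
    rw [hμ, Measure.prod_apply hXm]
    refine le_trans ?_ (mul_meas_ge_le_lintegral (measurable_measure_prodMk_left hXm)
      (ENNReal.ofReal (1 / 2)))
    gcongr
  exact hCU.trans ((measure_mono fun p hp => ⟨p.1, hp⟩ : μ C ≤
    μ (tiltMap S ⁻¹' blockEvent2 P ⟨d, W, G₀, g⟩ GS k c s h ((n + 1) / 2))).trans
    (tilt_pow hG.noAtoms h0 h1 S hq1 hq hlam _))

/-- The probability of the certificate of one block: for any set tolerance one window works for
all large boxes. -/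
theorem block2_prob {G : Measure ℝ} {M κ : ℝ} (hG : LawOK G M) (hκ : 0 < κ) {GS : Set Conf}
    (hGS : ∀ᵐ t ∂law G, t ∈ GS) (hN2 : ∀ t ∈ GS, Nice2 M κ t) {P : SiteP} (hδ : 0 < P.δ)
    {k c : ℤ} (hk : |k| ≤ 1) {s : ℝ} {d : ℕ} {N₁ : ℕ}
    (hN₁ : 2 * (|s| + P.ε + 1) * ((P.Lam : ℝ) + P.R' + |(c : ℝ)| + 2) + 2 * (d : ℝ) +
      2 * P.w + 4 ≤ (N₁ : ℝ))
    {G₀ g r₀ η : ℝ} (hεw : P.ε * P.L ≤ P.w) (hrr : r₀ < P.r)
    (h0 : 0 ≤ η) (h1 : η ≤ 1) {S : Finset Edge} (hS : (↑S : Set Edge) = regSet2 P k c s 0 d)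
    (hbig : 32 ≤ η * G.real (Set.Iio r₀) * P.L)
    (hg : g ≤ (P.r - r₀) * η * G.real (Set.Iio r₀) * P.L / 4)
    {q : ℕ} (hq1 : 1 ≤ q) (hq : (q : ℝ) * η ≤ 1) {lam : ℝ} (hlam : 0 < lam)
    (n : ℕ) {β : ℝ} (hβ : 0 < β) :
    ∀ᶠ W in atTop, ∀ N : ℕ, N₁ ≤ N → ENNReal.ofReal (1 / 2) * law G {t | open Classical in
        n ≤ ((Finset.Ico (0 : ℤ) d).filter fun y =>
          t ∈ siteEvent2 { P with N := N } k c s y).card}
      ≤ ENNReal.ofReal lam * law G
          (blockEvent2 { P with N := N } ⟨d, W, G₀, g⟩ GS k c s 0 ((n + 1) / 2))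
        + ENNReal.ofReal ((1 + (q : ℝ) ^ 2 * η ^ 2) ^ S.card / lam ^ (q - 1))
        + ENNReal.ofReal β := by
  classical
  haveI := law_isProb hG
  set P₁ : SiteP := { P with N := N₁ } with hP₁
  set pairs := (Finset.Ico (0 : ℤ) d).offDiag with hpairs
  set B : ℕ → Set Conf := fun W =>
    ⋃ p ∈ pairs, badPair P₁ k s (pt k c p.1) (pt k c p.2) G₀ W with hB
  have hBm : ∀ W, MeasurableSet (B W) := fun W =>
    Finset.measurableSet_biUnion _ fun p _ => measurableSet_badPair ..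
  have hanti : Antitone B := fun W W' h =>
    Set.iUnion₂_mono fun p _ => badPair_anti _ _ _ _ _ _ h
  have hzero : law G (⋂ W, B W) = 0 := by
    refine measure_mono_null (fun t ht => ?_) (ae_iff.1 hGS)
    rw [Set.mem_ofPred_eq]
    intro hts
    have hev : ∀ᶠ W in atTop, ∀ p ∈ pairs,
        t ∉ badPair P₁ k s (pt k c p.1) (pt k c p.2) G₀ W :=
      (eventually_all_finset pairs).2 fun p hp => badPair_eventually (hN2 t hts).gen hκ
        (P := P₁) hδ (by simp [lev, pt]) (fun e => (Finset.mem_offDiag.1 hp).2.2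
          (congrArg Prod.snd e : _)) G₀
    obtain ⟨W, hW⟩ := hev.exists
    obtain ⟨p, hp, hpt⟩ : ∃ p ∈ pairs, t ∈ badPair P₁ k s (pt k c p.1) (pt k c p.2) G₀ W := by
      simpa [hB] using Set.mem_iInter.1 ht W
    exact hW p hp hpt
  have hlim := tendsto_measure_iInter_atTop (μ := law G) (fun W => (hBm W).nullMeasurableSet)
    hanti ⟨0, measure_ne_top _ _⟩
  rw [hzero] at hlim
  filter_upwards [hlim.eventually_le_const (ENNReal.ofReal_pos.2 hβ)] with W hW N hN
  set A := {t : Conf | n ≤ ((Finset.Ico (0 : ℤ) d).filter fun y =>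
      t ∈ siteEvent2 { P with N := N } k c s y).card}
  set A' := {t : Conf | n ≤ ((Finset.Ico (0 : ℤ) (0 + d)).filter fun y =>
      t ∈ siteEvent2 { P with N := N } k c s y).card ∧ t ∈ GS ∧
        WitAll { P with N := N } k c s G₀ 0 d W t}
  have hsub : A ⊆ A' ∪ B W ∪ GSᶜ := by
    intro t ht
    by_cases hts : t ∈ GS
    swap
    · exact Or.inr hts
    by_cases htB : t ∈ B W
    · exact Or.inl (Or.inr htB)
    refine Or.inl (Or.inl ⟨by rw [zero_add]; exact ht, hts, ?_⟩)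
    intro y y' γ γ' iL jR iL' jR' hy hy' hl hl' hne
    have hmono : ∀ {y : ℤ} {γ : ℤ → V} {iL jR : ℤ}, 0 ≤ y ∧ y < 0 + (d : ℤ) →
        LineSite { P with N := N } k s (pt k c y) t γ iL jR →
        LineSite P₁ k s (pt k c y) t γ iL jR := by
      intro y γ iL jR hy hl
      refine hl.mono hk hN ?_
      have h1 : |(y : ℝ)| ≤ d := by
        rw [abs_of_nonneg (by exact_mod_cast hy.1)]
        exact_mod_cast (by omega : y ≤ (d : ℤ))
      simp only [lev, pt, sub_add_cancel]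
      linarith
    have h0t := (hN2 t hts).good.nonneg
    have m1 := hmono hy hl
    have m2 := hmono hy' hl'
    rw [wit4_iff_not_noWit4 h0t hl.line hl'.line]
    intro hno
    refine htB (Set.mem_iUnion₂.2 ⟨(y, y'), ?_, (γ, γ'), ⟨⟨hl.origin, hl.line.adj⟩,
      ⟨hl'.origin, hl'.line.adj⟩⟩, ⟨h0t, _, _, m1⟩, ⟨h0t, _, _, m2⟩, hno⟩)
    simp only [hpairs, Finset.mem_offDiag, Finset.mem_Ico]
    omega
  calc ENNReal.ofReal (1 / 2) * law G A
      ≤ ENNReal.ofReal (1 / 2) * (law G A' + law G (B W) + law G GSᶜ) := by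
        gcongr
        refine (measure_mono hsub).trans ((measure_union_le _ _).trans ?_)
        gcongr
        exact measure_union_le _ _
    _ = ENNReal.ofReal (1 / 2) * law G A' + ENNReal.ofReal (1 / 2) * law G (B W) := by
        rw [(show law G GSᶜ = 0 from ae_iff.1 hGS), add_zero, mul_add]
    _ ≤ _ := by
        refine add_le_add (block2_slice hG hGS (P := { P with N := N }) hεw hrr h0 h1 hS hbig hg
          hq1 hq hlam n) ((mul_le_of_le_one_left' ?_).trans hW)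
        exact ENNReal.ofReal_le_one.2 (by norm_num)

end Vale.Agent.P158
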