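import Vale.Agent.P158.MuShape

/-!
Coarse cells: a finite sequence of neighbouring cells rarely contains many bad ones.
-/

open MeasureTheory ProbabilityTheory Filter Topology
open scoped ENNReal

namespace Vale.Agent.P158

/-- The cell of side `r` containing a vertex. -/
def cellOf (r : ℕ) (z : V) : V := (z.1 / (r : ℤ), z.2 / (r : ℤ))

/-- Two cells touch. -/
def CellNbr (P Q : V) : Prop := |Q.1 - P.1| ≤ 1 ∧ |Q.2 - P.2| ≤ 1

/-- Some walk of length at most `r` starting in the cell `Q` beats the norm `μ` by more than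
`ε r`. -/
def BadCellF (μ : ℝ × ℝ → ℝ) (ε : ℝ) (r : ℕ) (Q : V) : Set Conf :=
  {t | ∃ (z w : V) (q : grid.Walk z w), cellOf r z = Q ∧ q.length ≤ r ∧
    plen t q < μ (toR w - toR z) - ε * r}

/-- The bad cells of the time constant. -/
abbrev BadCell (G : Measure ℝ) (ε : ℝ) (r : ℕ) (Q : V) : Set Conf := BadCellF (mu G) ε r Q

/-- The edges on which the state of a cell depends. -/
noncomputable def cellRegion (r : ℕ) (Q : V) : Finset Edge :=
  (Finset.Icc ((r : ℤ) * Q.1 - r) ((r : ℤ) * Q.1 + 2 * r) ×ˢ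
    Finset.Icc ((r : ℤ) * Q.2 - r) ((r : ℤ) * Q.2 + 2 * r)) ×ˢ Finset.univ

lemma ediv_near {r : ℕ} (hr : 0 < r) {a b : ℤ} (h : |b - a| ≤ r) :
    |b / (r : ℤ) - a / (r : ℤ)| ≤ 1 := by
  have hr' : (0 : ℤ) < r := by exact_mod_cast hr
  rw [abs_le] at h ⊢
  have h1 : b / (r : ℤ) ≤ (a + r) / r := Int.ediv_le_ediv hr' (by omega)
  have h2 : a / (r : ℤ) ≤ (b + r) / r := Int.ediv_le_ediv hr' (by omega)
  rw [Int.add_ediv_of_dvd_right dvd_rfl, Int.ediv_self hr'.ne'] at h1 h2
  omega

lemma ediv_bounds {r : ℕ} (hr : 0 < r) (a : ℤ) :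
    (r : ℤ) * (a / r) ≤ a ∧ a < (r : ℤ) * (a / r) + r := by
  have hr' : (0 : ℤ) < r := by exact_mod_cast hr
  have h1 := Int.emod_add_mul_ediv a r
  have h2 := Int.emod_nonneg a hr'.ne'
  have h3 := Int.emod_lt_of_pos a hr'
  omega

lemma l1_le_length {a b : V} (q : grid.Walk a b) :
    |a.1 - b.1| + |a.2 - b.2| ≤ (q.length : ℤ) := by
  induction q with
  | nil => simp
  | @cons a b c hab q ih =>
    have h1 : |a.1 - b.1| + |a.2 - b.2| = 1 := hab
    have := abs_sub_le a.1 b.1 c.1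
    have := abs_sub_le a.2 b.2 c.2
    simp only [SimpleGraph.Walk.length_cons]; push_cast; omega

lemma r1_le_length {a b : V} (q : grid.Walk a b) : r1 (toR b - toR a) ≤ q.length := by
  have : ((|a.1 - b.1| + |a.2 - b.2| : ℤ) : ℝ) ≤ ((q.length : ℤ) : ℝ) :=
    Int.cast_le.2 (l1_le_length q)
  rw [← r1_neg, neg_sub]
  simpa [r1, toR] using this

lemma codes_near {z w : V} (q : grid.Walk z w) :
    WalkIn {e : Edge | |e.1.1 - z.1| ≤ q.length ∧ |e.1.2 - z.2| ≤ q.length} q := by
  induction q with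
  | nil => exact walkIn_nil
  | @cons a b c hab q ih =>
    have h1 : |a.1 - b.1| + |a.2 - b.2| = 1 := hab
    have := abs_nonneg (a.1 - b.1)
    have := abs_nonneg (a.2 - b.2)
    refine (walkIn_cons_iff _ _).2 ⟨?_, ih.mono fun e he => ?_⟩
    · simp only [Set.mem_ofPred_eq, edgeOf, SimpleGraph.Walk.length_cons, abs_le]
      push_cast
      have := abs_le.1 (show |a.1 - b.1| ≤ 1 by omega)
      have := abs_le.1 (show |a.2 - b.2| ≤ 1 by omega)
      omega
    · simp only [Set.mem_ofPred_eq, SimpleGraph.Walk.length_cons] at he ⊢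
      push_cast
      have := abs_sub_le e.1.1 b.1 a.1
      have := abs_sub_le e.1.2 b.2 a.2
      have := abs_sub_comm a.1 b.1
      have := abs_sub_comm a.2 b.2
      constructor <;> omega

lemma badCell_congr {μ : ℝ × ℝ → ℝ} {ε : ℝ} {r : ℕ} (hr : 0 < r) {Q : V} {t t' : Conf}
    (h : ∀ e ∈ cellRegion r Q, t e = t' e) :
    t ∈ BadCellF μ ε r Q ↔ t' ∈ BadCellF μ ε r Q := by
  suffices key : ∀ {t t' : Conf}, (∀ e ∈ cellRegion r Q, t e = t' e) →
      t ∈ BadCellF μ ε r Q → t' ∈ BadCellF μ ε r Q from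
    ⟨key h, key fun e he => (h e he).symm⟩
  rintro t t' h ⟨z, w, q, hz, hl, hlt⟩
  refine ⟨z, w, q, hz, hl, lt_of_eq_of_lt (plen_congr (codes_near q) fun e he => ?_).symm hlt⟩
  refine h e ?_
  obtain ⟨a1, a2⟩ := ediv_bounds hr z.1
  obtain ⟨b1, b2⟩ := ediv_bounds hr z.2
  simp only [cellOf] at hz
  subst hz
  simp only [Set.mem_ofPred_eq, abs_le] at he
  simp only [cellRegion, Finset.mem_product, Finset.mem_Icc, Finset.mem_univ, and_true]
  omega

lemma measurableSet_badCell (μ : ℝ × ℝ → ℝ) (ε : ℝ) (r : ℕ) (Q : V) :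
    MeasurableSet (BadCellF μ ε r Q) := by
  have : BadCellF μ ε r Q = ⋃ (z : V), ⋃ (w : V), ⋃ (q : grid.Walk z w),
      {t : Conf | cellOf r z = Q ∧ q.length ≤ r ∧ plen t q < μ (toR w - toR z) - ε * r} := by
    ext t; simp [BadCellF]
  rw [this]
  exact MeasurableSet.iUnion fun z => MeasurableSet.iUnion fun w => MeasurableSet.iUnion fun q =>
    (MeasurableSet.const _).inter ((MeasurableSet.const _).inter
      (measurableSet_lt (measurable_plen q) measurable_const))

variable {G : Measure ℝ} {M : ℝ}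

/-- Cells are rarely bad when they are large, uniformly in the cell. -/
lemma badCell_prob (hG : LawOK G M) {ε δ : ℝ} (hε : 0 < ε) (hδ : 0 < δ) :
    ∀ᶠ r : ℕ in atTop, ∀ Q : V, law G (BadCell G ε r Q) ≤ ENNReal.ofReal δ := by
  have := hG.prob
  obtain ⟨κ, hS⟩ := exists_shortBound hG
  filter_upwards [shape_box hG hS 2 hε hδ, eventually_ge_atTop 1] with r hr hr1 Q
  refine le_trans ?_ hr
  set v : V := ((r : ℤ) * Q.1, (r : ℤ) * Q.2) with hv
  rw [← law_shift_preimage (G := G) v {t | ∃ x y : V, InBox (2 * r) x ∧ InBox (2 * r) y ∧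
    ε * r < |T t x y - mu G (toR y - toR x)|}]
  refine measure_mono_ae ((ae_inRange hG).mono fun t ht => ?_)
  rintro ⟨z, w, q, hz, hl, hlt⟩
  simp only [cellOf] at hz
  obtain ⟨a1, a2⟩ := ediv_bounds (show 0 < r by omega) z.1
  obtain ⟨b1, b2⟩ := ediv_bounds (show 0 < r by omega) z.2
  have hq := l1_le_length q
  have := abs_nonneg (z.1 - w.1)
  have := abs_nonneg (z.2 - w.2)
  have c1 := abs_le.1 (show |z.1 - w.1| ≤ (r : ℤ) by omega)
  have c2 := abs_le.1 (show |z.2 - w.2| ≤ (r : ℤ) by omega)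
  subst hz
  simp only at hv
  refine ⟨z - v, w - v, ?_, ?_, ?_⟩
  · simp only [InBox, hv, abs_le, Prod.fst_sub, Prod.snd_sub]; push_cast; omega
  · simp only [InBox, hv, abs_le, Prod.fst_sub, Prod.snd_sub]; push_cast; omega
  · rw [T_shift, sub_add_cancel, sub_add_cancel, toR_sub, toR_sub, sub_sub_sub_cancel_right,
      abs_sub_comm]
    refine lt_of_lt_of_le ?_ (le_abs_self _)
    linarith [T_le ht.nonneg q]

/-- Events of two disjoint sets of edges are independent. -/
lemma law_inter_of_dep (hG : IsProbabilityMeasure G) {F F' : Finset Edge} (hd : Disjoint F F')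
    {A A' : Set Conf} (hA : MeasurableSet A) (hA' : MeasurableSet A')
    (dA : ∀ t t', (∀ e ∈ F, t e = t' e) → (t ∈ A ↔ t' ∈ A))
    (dA' : ∀ t t', (∀ e ∈ F', t e = t' e) → (t ∈ A' ↔ t' ∈ A')) :
    law G (A ∩ A') = law G A * law G A' := by
  classical
  let ext' : ∀ S : Finset Edge, (S → ℝ) → Conf := fun S v e =>
    if h : e ∈ S then v ⟨e, h⟩ else 0
  have hm : ∀ S : Finset Edge, Measurable (ext' S) := fun S => by
    refine measurable_pi_lambda _ fun e => ?_
    by_cases h : e ∈ S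
    · simp only [ext', dif_pos h]; exact measurable_pi_apply _
    · simp only [ext', dif_neg h]; exact measurable_const
  have hpre : ∀ (S : Finset Edge) (B : Set Conf),
      (∀ t t', (∀ e ∈ S, t e = t' e) → (t ∈ B ↔ t' ∈ B)) →
      B = (fun (t : Conf) (i : S) => t i) ⁻¹' (ext' S ⁻¹' B) := fun S B dB => by
    ext t
    exact dB t _ fun e he => by simp [ext', dif_pos he]
  have hi : iIndepFun (fun e : Edge => fun t : Conf => t e) (law G) :=
    iIndepFun_infinitePi (P := fun _ : Edge => G) (X := fun _ x => x) fun _ => measurable_id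
  have h := hi.indepFun_finset F F' hd fun i => measurable_pi_apply i
  rw [hpre F A dA, hpre F' A' dA']
  exact h.measure_inter_preimage_eq_mul _ _ (hm F hA) (hm F' hA')

/-- Bad cells far from each other are independent. -/
lemma all_bad_far (hG : IsProbabilityMeasure G) {μ : ℝ × ℝ → ℝ} {ε δ : ℝ} {r : ℕ} (hr : 0 < r)
    (hQ : ∀ Q : V, law G (BadCellF μ ε r Q) ≤ ENNReal.ofReal δ) (S : Finset V)
    (hS : ∀ P ∈ S, ∀ Q ∈ S, P ≠ Q → 4 ≤ |P.1 - Q.1| ∨ 4 ≤ |P.2 - Q.2|) :
    law G (⋂ Q ∈ S, BadCellF μ ε r Q) ≤ ENNReal.ofReal δ ^ S.card := by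
  classical
  have : IsProbabilityMeasure (law G) := by unfold law; infer_instance
  induction S using Finset.induction_on with
  | empty => simp
  | insert P S hP ih =>
    have hdisj : Disjoint (cellRegion r P) (S.biUnion (cellRegion r)) := by
      rw [Finset.disjoint_biUnion_right]
      intro Q hQS
      rw [Finset.disjoint_left]
      intro e he he'
      have hfar := hS P (Finset.mem_insert_self _ _) Q (Finset.mem_insert_of_mem hQS)
        (by rintro rfl; exact hP hQS)
      simp only [cellRegion, Finset.mem_product, Finset.mem_Icc, Finset.mem_univ, and_true] at he he'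
      have hr' : (1 : ℤ) ≤ r := by exact_mod_cast hr
      rcases hfar with h | h
      · rcases le_abs.1 h with h | h <;> nlinarith [he.1.1, he.1.2, he'.1.1, he'.1.2]
      · rcases le_abs.1 h with h | h <;> nlinarith [he.2.1, he.2.2, he'.2.1, he'.2.2]
    rw [Finset.set_biInter_insert, Finset.card_insert_of_notMem hP, pow_succ']
    have hm : MeasurableSet (⋂ Q ∈ S, BadCellF μ ε r Q) :=
      S.measurableSet_biInter fun Q _ => measurableSet_badCell μ ε r Q
    rw [law_inter_of_dep hG hdisj (measurableSet_badCell μ ε r P) hm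
      (fun t t' h => badCell_congr hr h) (fun t t' h => by
        simp only [Set.mem_iInter]
        exact forall₂_congr fun Q hQ' => badCell_congr hr fun e he =>
          h e (Finset.mem_biUnion.2 ⟨Q, hQ', he⟩))]
    exact mul_le_mul' (hQ P)
      (ih fun A hA B hB => hS A (Finset.mem_insert_of_mem hA) B (Finset.mem_insert_of_mem hB))

/-- Any set of bad cells contains a sixteenth that is far apart. -/
lemma all_bad (hG : IsProbabilityMeasure G) {μ : ℝ × ℝ → ℝ} {ε δ : ℝ} (hδ1 : δ ≤ 1) {r : ℕ} (hr : 0 < r)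
    (hQ : ∀ Q : V, law G (BadCellF μ ε r Q) ≤ ENNReal.ofReal δ) (S : Finset V) {m : ℕ}
    (hm : 16 * m ≤ S.card + 15) :
    law G (⋂ Q ∈ S, BadCellF μ ε r Q) ≤ ENNReal.ofReal δ ^ m := by
  classical
  have : IsProbabilityMeasure (law G) := by unfold law; infer_instance
  rcases Nat.eq_zero_or_pos m with rfl | hm0
  · simpa using prob_le_one
  let f : V → ℤ × ℤ := fun Q => (Q.1 % 4, Q.2 % 4)
  have hmap : ∀ Q ∈ S, f Q ∈ Finset.Ico (0 : ℤ) 4 ×ˢ Finset.Ico (0 : ℤ) 4 := fun Q _ => by
    simp only [f, Finset.mem_product, Finset.mem_Ico]; omega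
  obtain ⟨c, -, hc⟩ := Finset.exists_lt_card_fiber_of_mul_lt_card_of_maps_to hmap
    (show (Finset.Ico (0 : ℤ) 4 ×ˢ Finset.Ico (0 : ℤ) 4).card * (m - 1) < S.card by
      simp; omega)
  refine (measure_mono ?_).trans ((all_bad_far hG hr hQ (S.filter fun Q => f Q = c) ?_).trans ?_)
  · exact Set.biInter_mono (fun Q hQ' => (Finset.mem_filter.1 hQ').1) fun Q _ => subset_rfl
  · intro P hP Q hQ' hne
    have h1 := (Finset.mem_filter.1 hP).2
    have h2 := (Finset.mem_filter.1 hQ').2
    have : f P = f Q := h1.trans h2.symm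
    simp only [f, Prod.mk.injEq] at this
    have hne' : P.1 ≠ Q.1 ∨ P.2 ≠ Q.2 := by
      by_contra hc'; push Not at hc'; exact hne (Prod.ext hc'.1 hc'.2)
    rcases hne' with h | h
    · left; rw [le_abs]; omega
    · right; rw [le_abs]; omega
  · exact pow_le_pow_of_le_one zero_le (ENNReal.ofReal_le_one.2 hδ1) (by omega)

/-- The possible sets of the first cells of a sequence of touching cells. -/
noncomputable def cellLists : ℕ → V → Finset (List V)
  | 0, _ => {[]}
  | N + 1, Q => open Classical in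
      (Finset.Icc (Q.1 - 1) (Q.1 + 1) ×ˢ Finset.Icc (Q.2 - 1) (Q.2 + 1)).biUnion fun P =>
        (cellLists N P).image (List.cons Q)

lemma card_cellLists : ∀ (N : ℕ) (Q : V), (cellLists N Q).card ≤ 9 ^ N
  | 0, Q => by simp [cellLists]
  | N + 1, Q => by
    classical
    rw [cellLists]
    refine Finset.card_biUnion_le.trans ((Finset.sum_le_card_nsmul _ _ (9 ^ N) fun P _ =>
      Finset.card_image_le.trans (card_cellLists N P)).trans ?_)
    rw [Finset.card_product, Int.card_Icc, Int.card_Icc, smul_eq_mul, pow_succ',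
      show (Q.1 + 1 + 1 - (Q.1 - 1)).toNat = 3 by omega,
      show (Q.2 + 1 + 1 - (Q.2 - 1)).toNat = 3 by omega]

lemma length_cellLists : ∀ (N : ℕ) (Q : V), ∀ l ∈ cellLists N Q, l.length = N
  | 0, Q, l, hl => by simp [cellLists] at hl; simp [hl]
  | N + 1, Q, l, hl => by
    simp only [cellLists, Finset.mem_biUnion, Finset.mem_image] at hl
    obtain ⟨P, -, l', hl', rfl⟩ := hl
    simp [length_cellLists N P l' hl']

lemma mem_cellLists : ∀ (N : ℕ) (c : ℕ → V), (∀ i, CellNbr (c i) (c (i + 1))) →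
    (List.range N).map c ∈ cellLists N (c 0)
  | 0, c, _ => by simp [cellLists]
  | N + 1, c, hc => by
    classical
    rw [cellLists, List.range_succ_eq_map, List.map_cons, List.map_map]
    refine Finset.mem_biUnion.2 ⟨c 1, ?_, Finset.mem_image.2 ⟨_, ?_, rfl⟩⟩
    · have := hc 0
      simp only [CellNbr, abs_le, zero_add] at this
      simp only [Finset.mem_product, Finset.mem_Icc]; omega
    · exact mem_cellLists N (fun i => c (i + 1)) fun i => hc (i + 1)

/-- A chain of `N` touching cells from `Q₀` with more than `b` distinct bad cells is unlikely. -/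
lemma many_bad (hG : IsProbabilityMeasure G) {μ : ℝ × ℝ → ℝ} {ε δ : ℝ} (hδ1 : δ ≤ 1) {r : ℕ} (hr : 0 < r)
    (hQ : ∀ Q : V, law G (BadCellF μ ε r Q) ≤ ENNReal.ofReal δ) (Q₀ : V) (N : ℕ) {b : ℝ} {m : ℕ}
    (hm : ∀ k : ℕ, b < k → 16 * m ≤ k + 15) :
    law G {t | ∃ c : ℕ → V, c 0 = Q₀ ∧ (∀ i, CellNbr (c i) (c (i + 1))) ∧
        ∃ S ⊆ (Finset.range N).image c, b < S.card ∧ ∀ Q ∈ S, t ∈ BadCellF μ ε r Q}
      ≤ (18 : ℝ≥0∞) ^ N * ENNReal.ofReal δ ^ m := by
  classical
  set Ss : List V → Finset (Finset V) := fun l =>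
    l.toFinset.powerset.filter fun S : Finset V => b < S.card with hSs
  refine (measure_mono (t := ⋃ l ∈ cellLists N Q₀, ⋃ S ∈ Ss l, ⋂ Q ∈ S, BadCellF μ ε r Q)
    ?_).trans ?_
  · rintro t ⟨c, rfl, hc, S, hSub, hb, hS⟩
    refine Set.mem_iUnion₂.2 ⟨_, mem_cellLists N c hc, Set.mem_iUnion₂.2
      ⟨S, ?_, Set.mem_iInter₂.2 hS⟩⟩
    simp only [hSs, Finset.mem_filter, Finset.mem_powerset]
    refine ⟨hSub.trans ?_, hb⟩
    intro Q hQ'
    simpa using Finset.mem_image.1 hQ'
  · refine (measure_biUnion_finset_le _ _).trans ((Finset.sum_le_card_nsmul _ _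
      ((2 : ℝ≥0∞) ^ N * ENNReal.ofReal δ ^ m) fun l hl =>
        (measure_biUnion_finset_le _ _).trans ((Finset.sum_le_card_nsmul _ _ _ fun S hS =>
          all_bad hG hδ1 hr hQ S (hm _ (Finset.mem_filter.1 hS).2)).trans ?_)).trans ?_)
    · rw [nsmul_eq_mul]
      refine mul_le_mul' ?_ le_rfl
      have : (Ss l).card ≤ 2 ^ N := by
        refine (Finset.card_filter_le _ _).trans ?_
        rw [Finset.card_powerset]
        exact Nat.pow_le_pow_right two_pos
          ((List.toFinset_card_le _).trans (length_cellLists N Q₀ l hl).le)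
      exact_mod_cast this
    · rw [nsmul_eq_mul, ← mul_assoc, show (18 : ℝ≥0∞) = 9 * 2 by norm_num, mul_pow]
      refine mul_le_mul' (mul_le_mul' ?_ le_rfl) le_rfl
      exact_mod_cast card_cellLists N Q₀

end Vale.Agent.P158
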