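import Vale.Agent.P158.ChordDet

/-!
The chord property: with high probability every geodesic chord through the middle of a box is
short and has a frame in which almost all levels are crossed quickly through a heavy edge.
-/

open MeasureTheory Filter Topology
open scoped ENNReal

namespace Vale.Agent.P158

variable {G : Measure ℝ} {M : ℝ}

/-- Chords are well behaved with high probability. -/
theorem chordProp (hG : LawOK G M) : ChordProp G := by
  classical
  have := hG.prob
  have := law_isProb hG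
  have hM := hG.M_nonneg
  obtain ⟨κ, hS⟩ := exists_shortBound hG
  have hκ := hS.1
  obtain ⟨C, hC, hC1⟩ : ∃ C : ℕ, 4 * M ≤ κ * C ∧ 1 ≤ C := by
    refine ⟨⌈4 * M / κ⌉₊ + 1, ?_, Nat.le_add_left 1 _⟩
    have h1 := (div_le_iff₀ hκ).1 (Nat.le_ceil (4 * M / κ))
    push_cast; linarith
  have hC0 : (0 : ℝ) < C := by exact_mod_cast hC1
  refine ⟨1 / 8, C, by norm_num, by norm_num, hC0, fun ε hε => ?_⟩
  set lam₂ : ℝ := ε / (4 * C) with hlam₂
  obtain ⟨δ₂, hδ₂, hhit₂⟩ := hitCount_prob hG (show 0 < lam₂ by positivity)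
  obtain ⟨r₂, hr₂, -, hr₂G⟩ := exists_small_low hG hδ₂
  set ρ : ℝ := min (ε / 8) (ε * r₂ / (112 * (M + 1))) with hρ
  have hρ0 : 0 < ρ := lt_min (by positivity) (by positivity)
  set lam₁ : ℝ := ρ / (4 * C) with hlam₁
  obtain ⟨δ₁, hδ₁, hhit₁⟩ := hitCount_prob hG (show 0 < lam₁ by positivity)
  obtain ⟨r₁, hr₁, hr₁pos, hr₁G⟩ := exists_small_low hG hδ₁
  set θ : ℝ := r₁ / (2 * (M + 1)) with hθdef
  have hθ : 0 < θ := by positivity
  have hθr₁ : 2 * M * θ ≤ r₁ := by
    have e : 2 * (M + 1) * θ = r₁ := by rw [hθdef]; field_simp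
    linarith
  set ε' : ℝ := min (κ / 256) (ρ * κ * θ / 768) with hε'def
  have hε'0 : 0 < ε' := lt_min (by positivity) (by positivity)
  obtain ⟨r, hblock, hr⟩ := ((block_summable hG C hε'0).and (eventually_gt_atTop 0)).exists
  refine ⟨r₁, r * (⌈8 / θ⌉₊ + 3), hr₁pos, ?_⟩
  set g : ℕ → ℝ := fun N =>
    12 * ((C : ℝ) + 1) * (((N : ℝ) + 1) ^ 3 * (1 / 2) ^ (N / 2)) with hg
  have hgs : Tendsto (fun N => ENNReal.ofReal (g N)) atTop (𝓝 0) := by
    have := ((summable_poly_half two_pos 3).mul_left (12 * ((C : ℝ) + 1))).tendsto_atTop_zero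
    rw [← ENNReal.ofReal_zero]
    exact ENNReal.tendsto_ofReal this
  set Sh : ℕ → Set Conf := fun N => {t | ∃ x y : V, InBox (1 * N) x ∧ InBox (1 * N) y ∧
      ε' * N < |T t x y - mu G (toR y - toR x)|} with hSh
  have hshapeT : Tendsto (fun N => law G (Sh N)) atTop (𝓝 0) := by
    refine ENNReal.tendsto_nhds_zero.2 fun e he => ?_
    obtain ⟨δ, -, hδ1, hδ2⟩ := ENNReal.lt_iff_exists_real_btwn.1 he
    exact (shape_box hG hS 1 hε'0 (ENNReal.ofReal_pos.1 hδ1)).mono fun N h => h.trans hδ2.le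
  have hblockT := ENNReal.tendsto_atTop_zero_of_tsum_ne_top hblock
  have hall := (hshapeT.add hblockT).add hgs
  rw [add_zero, add_zero] at hall
  refine tendsto_of_tendsto_of_tendsto_of_le_of_le' tendsto_const_nhds hall
    (Eventually.of_forall fun N => zero_le) ?_
  filter_upwards [eventually_ge_atTop (32 * r),
    tendsto_natCast_atTop_atTop.eventually_ge_atTop (4 * (r : ℝ) / ρ)] with N hN hNρ
  rw [div_le_iff₀ hρ0] at hNρ
  set Bx : Finset V := Finset.Icc (-((1 * N : ℕ) : ℤ)) (1 * N : ℕ) ×ˢ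
    Finset.Icc (-((1 * N : ℕ) : ℤ)) (1 * N : ℕ) with hBx
  set Hit : ℝ → ℝ → V → ℕ → Set Conf := fun r₀ lam a ℓ => {t | ∃ y, ∃ p : grid.Walk a y,
    p.IsPath ∧ p.length = ℓ ∧ lam * ℓ < hitCount (Set.Iio r₀) t p} with hHit
  set U : Set Conf := ⋃ a ∈ Bx, shortSet κ a (C * N + 1) ∪
    ⋃ ℓ ∈ Finset.Icc (N / 2) (C * N), Hit r₁ lam₁ a ℓ ∪ Hit r₂ lam₂ a ℓ with hU
  have hbadR : law G {t | ¬ InRange M t} = 0 := ae_iff.1 (ae_inRange hG)
  refine (measure_mono (t := Sh N ∪ {t | ¬ BlockGood G C r ε' N t} ∪ U ∪ {t | ¬ InRange M t})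
    ?_).trans ?_
  · intro t ht
    by_contra hcon
    simp only [hSh, hU, hHit, Set.mem_union, Set.mem_iUnion, Set.mem_ofPred_eq, not_or, not_exists,
      not_and, not_not, not_lt] at hcon
    obtain ⟨⟨⟨hsh, hbl⟩, hnU⟩, hR⟩ := hcon
    have hmem : ∀ a : V, InBox (1 * N) a → a ∈ Bx := fun a ha => Finset.mem_product.2
      ⟨Finset.mem_Icc.2 (abs_le.1 ha.1), Finset.mem_Icc.2 (abs_le.1 ha.2)⟩
    refine ht (chord_det hG hS hR (lam₁ := lam₁) (lam₂ := lam₂)
      (X := 2 * lam₁ * ((C : ℝ) * N) + 192 * ε' * N / (κ * θ) + r)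
      hC hC1 hr hr₁ hr₂ hθ hθr₁ hε'0.le (min_le_left _ _) hN ?_ hsh hbl
      (fun a ha => (hnU a (hmem a ha)).1) (fun a b p ha hp h1 h2 => ?_) le_rfl ?_ ?_)
    · push_cast
      have := Nat.le_ceil (8 / θ)
      exact mul_le_mul_of_nonneg_left (by linarith) (Nat.cast_nonneg r)
    · have hℓ : (p.length : ℝ) ≤ (C : ℝ) * N := by exact_mod_cast h2
      obtain ⟨e1, e2⟩ := (hnU a (hmem a ha)).2 p.length (Finset.mem_Icc.2 ⟨by omega, h2⟩)
      exact ⟨(e1 b p hp rfl).trans (mul_le_mul_of_nonneg_left hℓ (by positivity)),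
        (e2 b p hp rfl).trans (mul_le_mul_of_nonneg_left hℓ (by positivity))⟩
    · have hX : 2 * lam₁ * ((C : ℝ) * N) + 192 * ε' * N / (κ * θ) + r ≤ ρ * N := by
        have e1 : 2 * lam₁ * ((C : ℝ) * N) = ρ / 2 * N := by rw [hlam₁]; field_simp; ring
        have e2 : 192 * ε' * N / (κ * θ) ≤ ρ / 4 * N := by
          rw [div_le_iff₀ (by positivity)]
          have := mul_le_mul_of_nonneg_right (min_le_right (κ / 256) (ρ * κ * θ / 768))
            (Nat.cast_nonneg N)
          rw [← hε'def] at this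
          linarith
        linarith
      have e3 : lam₁ * ((C : ℝ) * N) = ρ / 4 * N := by rw [hlam₁]; field_simp
      have := mul_le_mul_of_nonneg_right (min_le_left (ε / 8) (ε * r₂ / (112 * (M + 1))))
        (Nat.cast_nonneg N)
      rw [← hρ] at this
      have : 0 ≤ ρ * (N : ℝ) := by positivity
      linarith
    · set X := 2 * lam₁ * ((C : ℝ) * N) + 192 * ε' * N / (κ * θ) + r with hXdef
      have hX : X ≤ ρ * N := by
        have e1 : 2 * lam₁ * ((C : ℝ) * N) = ρ / 2 * N := by rw [hlam₁]; field_simp; ring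
        have e2 : 192 * ε' * N / (κ * θ) ≤ ρ / 4 * N := by
          rw [div_le_iff₀ (by positivity)]
          have := mul_le_mul_of_nonneg_right (min_le_right (κ / 256) (ρ * κ * θ / 768))
            (Nat.cast_nonneg N)
          rw [← hε'def] at this
          linarith
        linarith
      have e3 : lam₁ * ((C : ℝ) * N) = ρ / 4 * N := by rw [hlam₁]; field_simp
      have e4 : lam₂ * ((C : ℝ) * N) = ε / 4 * N := by rw [hlam₂]; field_simp
      have e5 : 4 * M * (6 * X + lam₁ * ((C : ℝ) * N)) / r₂ ≤ ε / 4 * N := by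
        rw [div_le_iff₀ hr₂]
        have a1 := min_le_right (ε / 8) (ε * r₂ / (112 * (M + 1)))
        rw [← hρ, le_div_iff₀ (by positivity)] at a1
        have a2 := mul_le_mul_of_nonneg_right a1 (Nat.cast_nonneg N)
        have a3 : 4 * M * (6 * X + lam₁ * ((C : ℝ) * N)) ≤ 4 * M * (7 * (ρ * N)) :=
          mul_le_mul_of_nonneg_left
            (by linarith [show 0 ≤ ρ * (N : ℝ) by positivity]) (by positivity)
        have : 0 ≤ ρ * (N : ℝ) := by positivity
        linarith
      have := mul_le_mul_of_nonneg_right (min_le_left (ε / 8) (ε * r₂ / (112 * (M + 1))))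
        (Nat.cast_nonneg N)
      rw [← hρ] at this
      have : 0 ≤ ε * (N : ℝ) := by positivity
      linarith
  · refine (measure_union_le _ _).trans ?_
    rw [hbadR, add_zero]
    refine (measure_union_le _ _).trans (add_le_add (measure_union_le _ _) ?_)
    refine (measure_biUnion_finset_le _ _).trans ((Finset.sum_le_card_nsmul _ _
      (ENNReal.ofReal ((2 * ((C : ℝ) + 1) * ((N : ℝ) + 1) + 1) * (1 / 2) ^ (N / 2)))
      fun a _ => ?_).trans ?_)
    · refine (measure_union_le _ _).trans ?_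
      rw [add_mul, one_mul, ENNReal.ofReal_add (by positivity) (by positivity), add_comm]
      refine add_le_add ?_ ?_
      · refine (measure_biUnion_finset_le _ _).trans ((Finset.sum_le_card_nsmul _ _
          (ENNReal.ofReal (2 * (1 / 2) ^ (N / 2))) fun ℓ hℓ => ?_).trans ?_)
        · refine (measure_union_le _ _).trans ?_
          rw [two_mul, ENNReal.ofReal_add (by positivity) (by positivity)]
          exact add_le_add ((hhit₁ _ measurableSet_Iio hr₁G a ℓ).trans (ENNReal.ofReal_le_ofReal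
              (pow_le_pow_of_le_one (by norm_num) (by norm_num) (Finset.mem_Icc.1 hℓ).1)))
            ((hhit₂ _ measurableSet_Iio hr₂G a ℓ).trans (ENNReal.ofReal_le_ofReal
              (pow_le_pow_of_le_one (by norm_num) (by norm_num) (Finset.mem_Icc.1 hℓ).1)))
        · rw [nsmul_eq_mul, ← ENNReal.ofReal_natCast, ← ENNReal.ofReal_mul (Nat.cast_nonneg _)]
          refine ENNReal.ofReal_le_ofReal ?_
          have h1 : (Finset.Icc (N / 2) (C * N)).card ≤ C * N + 1 := by
            rw [Nat.card_Icc]; exact Nat.sub_le _ _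
          have h2 : ((Finset.Icc (N / 2) (C * N)).card : ℝ) ≤ (C : ℝ) * N + 1 := by
            exact_mod_cast h1
          have h3 : (C : ℝ) * N + 1 ≤ ((C : ℝ) + 1) * ((N : ℝ) + 1) := by
            have : (0 : ℝ) ≤ (C : ℝ) + N := by positivity
            linarith
          have := mul_le_mul_of_nonneg_right (h2.trans h3) (pow_nonneg (show (0 : ℝ) ≤ 1 / 2 by
            norm_num) (N / 2))
          linarith
      · refine (hS.2 a _).trans ?_
        rw [show (1 / 2 : ℝ≥0∞) = ENNReal.ofReal (1 / 2) by simp [ENNReal.ofReal_div_of_pos],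
          ← ENNReal.ofReal_pow (by norm_num)]
        refine ENNReal.ofReal_le_ofReal (pow_le_pow_of_le_one (by norm_num) (by norm_num) ?_)
        have := Nat.mul_le_mul_right N hC1
        omega
    · rw [nsmul_eq_mul, ← ENNReal.ofReal_natCast, ← ENNReal.ofReal_mul (Nat.cast_nonneg _)]
      refine ENNReal.ofReal_le_ofReal ?_
      have hcard : (Bx.card : ℝ) ≤ 4 * ((N : ℝ) + 1) ^ 2 := by
        rw [hBx, Finset.card_product, Int.card_Icc,
          show ((1 * N : ℕ) : ℤ) + 1 - -((1 * N : ℕ) : ℤ) = ((2 * N + 1 : ℕ) : ℤ) by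
            push_cast; ring, Int.toNat_natCast]
        push_cast
        nlinarith [(Nat.cast_nonneg N : (0 : ℝ) ≤ N)]
      refine (mul_le_mul_of_nonneg_right hcard (by positivity)).trans ?_
      simp only [hg]
      have hp : 0 ≤ ((N : ℝ) + 1) ^ 2 * (1 / 2) ^ (N / 2) := by positivity
      have h1 : (1 : ℝ) ≤ ((C : ℝ) + 1) * ((N : ℝ) + 1) :=
        one_le_mul_of_one_le_of_one_le (by linarith) (by linarith [(Nat.cast_nonneg N : (0 : ℝ) ≤ N)])
      have := mul_le_mul_of_nonneg_left h1 hp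
      linarith

end Vale.Agent.P158
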