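import Vale.Agent.P158.ChordCount.Chord

/-!
The expected number of chords of bigeodesics through a box is linear in its radius, uniformly in
the tolerance and in the number of steps of the crossings.
-/

open MeasureTheory Filter Topology
open scoped ENNReal

namespace Vale.Agent.P158.ChordCount

theorem card_Icc_window {γ₀ : ℝ} (hγ : 0 < γ₀) (K N : ℕ) :
    ((winL γ₀ K N).card : ℝ) ≤ γ₀ * ((K * N : ℕ) : ℝ) / 2 ∧
      ((winR γ₀ K N).card : ℝ) ≤ γ₀ * ((K * N : ℕ) : ℝ) / 2 := by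
  have h0 : 0 ≤ γ₀ * ((K * N : ℕ) : ℝ) / 2 := by positivity
  have hle := Int.floor_le (γ₀ * ((K * N : ℕ) : ℝ) / 2)
  have hW := Int.floor_nonneg.2 h0
  have h1 : ((winL γ₀ K N).card : ℤ) ≤ ⌊γ₀ * ((K * N : ℕ) : ℝ) / 2⌋ := by
    rw [winL, Int.card_Icc]; omega
  have h2 : ((winR γ₀ K N).card : ℤ) ≤ ⌊γ₀ * ((K * N : ℕ) : ℝ) / 2⌋ := by
    rw [winR, Int.card_Icc]; omega
  constructor
  · refine le_trans ?_ hle
    exact_mod_cast h1
  · refine le_trans ?_ hle
    exact_mod_cast h2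

/-- The count at one scale, from a bound on the expected number of rigid objects of two levels. -/
theorem integral_le {G : Measure ℝ} {κ r₀ r₁ γ₀ C ε b : ℝ} {R K N : ℕ} (hG : LawGen G)
    (hgood : ∀ᵐ t ∂law G, GoodG κ t) (hr : r₀ < r₁) (hg : 0 < G (Set.Icc 0 r₀)) (hγ₀ : 0 < γ₀)
    (hγ₁ : γ₀ ≤ 1) (hK : 32 ≤ γ₀ * K) (hε : ε ≤ γ₀ / 32) (hN : 1 ≤ N) (hRN : R < N) (hb0 : 0 ≤ b)
    (hcount : ∀ (k cL cR : ℤ) (O : Finset Key), cL < cR - R →
      ∑ o ∈ O, law G (rigidSite (r₁ - r₀) k ((K * N : ℕ) : ℤ)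
        (((⌈C⌉₊ + 1) * (K * N) : ℕ) : ℤ) cL cR R o) ≤ ENNReal.ofReal b) :
    ∫⁻ t in {t | ChordOK γ₀ C r₁ ε R (K * N) t}, ((lineChords t N N).encard : ℝ≥0∞) ∂law G ≤
      ENNReal.ofReal (48 * b / (G (Set.Icc 0 r₀)).toReal ^ 2) := by
  classical
  have := hG.prob
  have : IsProbabilityMeasure (law G) := by unfold law; infer_instance
  set B' : ℤ := (((⌈C⌉₊ + 1) * (K * N) : ℕ) : ℤ) with hB'
  set g₀ := (G (Set.Icc 0 r₀)).toReal with hg₀
  have hg0 : 0 < g₀ := ENNReal.toReal_pos hg.ne' (measure_ne_top _ _)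
  set Vs : Finset V := Finset.Icc (-B', -B') (B', B') with hVs
  set Ks : Finset Key := (Vs ×ˢ Vs) ×ˢ (Vs ×ˢ Vs) with hKs
  have hmemV : ∀ v : V, InSq B' v → v ∈ Vs := fun v hv => by
    simp only [hVs, Finset.mem_Icc, Prod.le_def]
    unfold InSq at hv
    omega
  set T := (Finset.univ : Finset (Fin frameSyms.length)) ×ˢ (({0, 1} : Finset ℤ) ×ˢ
    (winL γ₀ K N ×ˢ (winR γ₀ K N ×ˢ Ks))) with hT
  set E : Fin frameSyms.length × ℤ × ℤ × ℤ × Key → Set Conf := fun x =>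
    (frameSyms.get x.1).symm.act ⁻¹'
      heavySite r₁ x.2.1 ((K * N : ℕ) : ℤ) B' x.2.2.1 x.2.2.2.1 R x.2.2.2.2 with hE
  -- configurations where the deterministic argument applies
  have hgood' : ∀ᵐ t ∂law G, (∀ e, 0 ≤ t e) ∧
      ∀ j : Fin frameSyms.length, GoodG κ ((frameSyms.get j).symm.act t) := by
    filter_upwards [ae_nn hG, ae_all_iff.2 fun j : Fin frameSyms.length =>
      (frameSyms.get j).symm.ae_act hgood] with t h1 h2
    exact ⟨h1, h2⟩
  obtain ⟨Z, hZ, hZm, hZ0⟩ : ∃ Z, (∀ t, t ∉ Z → (∀ e, 0 ≤ t e) ∧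
      ∀ j : Fin frameSyms.length, GoodG κ ((frameSyms.get j).symm.act t)) ∧
      MeasurableSet Z ∧ law G Z = 0 := by
    refine ⟨toMeasurable (law G) {t | ¬((∀ e, 0 ≤ t e) ∧
      ∀ j : Fin frameSyms.length, GoodG κ ((frameSyms.get j).symm.act t))}, fun t ht => ?_,
      measurableSet_toMeasurable _ _, by rw [measure_toMeasurable]; exact ae_iff.1 hgood'⟩
    exact not_not.1 fun h => ht (subset_toMeasurable _ _ h)
  set q : ℕ := ⌈γ₀ * ((K * N : ℕ) : ℝ) / 4⌉₊ with hq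
  have hKN0 : (0 : ℝ) < ((K * N : ℕ) : ℝ) := by
    have : 0 < K := Nat.pos_of_ne_zero fun h => by simp [h] at hK; linarith
    exact_mod_cast Nat.mul_pos this hN
  have hq0 : 0 < q := Nat.ceil_pos.2 (by positivity)
  -- the pointwise bound
  have hpt : ∀ t ∈ {t | ChordOK γ₀ C r₁ ε R (K * N) t}, ((lineChords t N N).encard : ℝ≥0∞) *
      ((q * q : ℕ) : ℝ≥0∞) ≤ (∑ x ∈ T, (toMeasurable (law G) (E x)).indicator 1 t) +
        Z.indicator (fun _ => ⊤) t := by
    intro t ht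
    by_cases htZ : t ∈ Z
    · simp [Set.indicator_of_mem htZ]
    obtain ⟨h0, hGood⟩ := hZ t htZ
    set Tt := T.filter fun x => t ∈ E x with hTt
    have hsum : (Tt.card : ℝ≥0∞) ≤ ∑ x ∈ T, (toMeasurable (law G) (E x)).indicator 1 t := by
      rw [hTt, ← Finset.sum_boole]
      refine Finset.sum_le_sum fun x _ => ?_
      split_ifs with hx
      · rw [Set.indicator_of_mem (subset_toMeasurable _ _ hx)]
        exact le_rfl
      · exact bot_le
    refine le_trans ?_ (le_trans hsum le_self_add)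
    -- each chord occupies at least `q * q` elements
    have key : ∀ l ∈ lineChords t N N, ∃ Sl : Finset (Fin frameSyms.length × ℤ × ℤ × ℤ × Key),
        Sl ⊆ Tt ∧ q * q ≤ Sl.card ∧ ∀ x ∈ Sl, HasObj t N ((K * N : ℕ) : ℤ) B' r₁ R
          (frameSyms.get x.1) x.2.1 x.2.2.1 x.2.2.2.1 l x.2.2.2.2 := by
      intro l hl
      obtain ⟨σ, hσ, k, hk, Lg, Rg, hLs, hRs, hLc, hRc, hobj⟩ :=
        exists_objects h0 hγ₀ hγ₁ hK hε hN hRN ht hl
      obtain ⟨j, rfl⟩ := List.mem_iff_get.1 hσ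
      have hchoice : ∀ p : ℤ × ℤ, ∃ o : Key, p ∈ Lg ×ˢ Rg →
          o ∈ Ks ∧ HasObj t N ((K * N : ℕ) : ℤ) B' r₁ R (frameSyms.get j) k p.1 p.2 l o := by
        intro p
        by_cases hp : p ∈ Lg ×ˢ Rg
        · rw [Finset.mem_product] at hp
          obtain ⟨o, ⟨o1, o2, o3, o4⟩, ho⟩ := hobj p.1 hp.1 p.2 hp.2
          refine ⟨o, fun _ => ⟨?_, ho⟩⟩
          simp only [hKs, Finset.mem_product]
          exact ⟨⟨hmemV _ o1, hmemV _ o2⟩, hmemV _ o3, hmemV _ o4⟩
        · exact ⟨((0, 0), (0, 0)), fun h => absurd h hp⟩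
      choose o ho using hchoice
      refine ⟨(Lg ×ˢ Rg).image fun p => (j, k, p.1, p.2, o p), ?_, ?_, ?_⟩
      · intro x hx
        obtain ⟨p, hp, rfl⟩ := Finset.mem_image.1 hx
        obtain ⟨h1, h2⟩ := ho p hp
        rw [Finset.mem_product] at hp
        simp only [hTt, hT, hE, Finset.mem_filter, Finset.mem_product, Finset.mem_univ,
          Finset.mem_insert, Finset.mem_singleton, true_and]
        exact ⟨⟨hk, hLs hp.1, hRs hp.2, h1⟩, h2.heavy⟩
      · rw [Finset.card_image_of_injective _ fun p p' h => by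
          simp only [Prod.mk.injEq] at h
          exact Prod.ext h.2.2.1 h.2.2.2.1, Finset.card_product]
        exact Nat.mul_le_mul (Nat.ceil_le.2 hLc) (Nat.ceil_le.2 hRc)
      · intro x hx
        obtain ⟨p, hp, rfl⟩ := Finset.mem_image.1 hx
        exact (ho p hp).2
    choose! Sl hSsub hScard hSobj using key
    have hdis : ∀ l ∈ lineChords t N N, ∀ l' ∈ lineChords t N N,
        ∀ x, x ∈ Sl l → x ∈ Sl l' → l = l' := by
      intro l hl l' hl' x hx hx'
      have hmem := (Finset.mem_filter.1 (hSsub l hl hx)).1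
      simp only [hT, Finset.mem_product, Finset.mem_univ, true_and, Finset.mem_insert,
        Finset.mem_singleton, winL, winR, Finset.mem_Icc] at hmem
      obtain ⟨hk, ⟨-, hL⟩, ⟨hR, -⟩, -⟩ := hmem
      refine HasObj.unique (List.get_mem _ _) (hGood x.1) hk ?_ ?_ ?_ (hSobj l hl x hx)
        (hSobj l' hl' x hx')
      · have h1 : (32 : ℝ) * N ≤ γ₀ * K * N := mul_le_mul_of_nonneg_right hK (Nat.cast_nonneg N)
        have h2 : γ₀ * K * N ≤ 1 * K * N := by gcongr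
        have : (N : ℝ) ≤ ((K * N : ℕ) : ℝ) := by
          push_cast; linarith [(Nat.cast_nonneg N : (0 : ℝ) ≤ N)]
        exact_mod_cast this
      · omega
      · omega
    have hfin : (lineChords t N N).Finite := by
      have hne : ∀ l : lineChords t N N, ∃ x, x ∈ Sl l.1 := fun l =>
        Finset.card_pos.1 (lt_of_lt_of_le (Nat.mul_pos hq0 hq0) (hScard l.1 l.2))
      choose x hx using hne
      have : Finite (lineChords t N N) := Finite.of_injective
        (fun l => (⟨x l, hSsub l.1 l.2 (hx l)⟩ : Tt)) fun l l' h => by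
          simp only [Subtype.mk.injEq] at h
          exact Subtype.ext (hdis _ l.2 _ l'.2 _ (hx l) (h ▸ hx l'))
      exact Set.toFinite _
    have hcard : hfin.toFinset.card * (q * q) ≤ Tt.card := by
      calc hfin.toFinset.card * (q * q) = ∑ _l ∈ hfin.toFinset, q * q := by simp
        _ ≤ ∑ l ∈ hfin.toFinset, (Sl l).card :=
            Finset.sum_le_sum fun l hl => hScard l (hfin.mem_toFinset.1 hl)
        _ = (hfin.toFinset.biUnion Sl).card := by
            refine (Finset.card_biUnion fun l hl l' hl' hne => ?_).symm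
            refine Finset.disjoint_left.2 fun x hx hx' => hne ?_
            exact hdis l (hfin.mem_toFinset.1 hl) l' (hfin.mem_toFinset.1 hl') x hx hx'
        _ ≤ Tt.card := Finset.card_le_card (Finset.biUnion_subset.2 fun l hl =>
            hSsub l (hfin.mem_toFinset.1 hl))
    rw [hfin.encard_eq_coe_toFinset_card, ENat.toENNReal_coe]
    exact_mod_cast hcard
  -- the expected number
  have hmeasE : ∀ x, law G (E x) = law G (heavySite r₁ x.2.1 ((K * N : ℕ) : ℤ) B' x.2.2.1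
      x.2.2.2.1 R x.2.2.2.2) := fun x => LatSym.law_act_preimage _ _
  have hX : (∫⁻ t in {t | ChordOK γ₀ C r₁ ε R (K * N) t},
      ((lineChords t N N).encard : ℝ≥0∞) ∂law G) * ((q * q : ℕ) : ℝ≥0∞) ≤
      ∑ x ∈ T, law G (E x) := by
    rw [← lintegral_mul_const' _ _ (ENNReal.natCast_ne_top _)]
    refine (setLIntegral_mono ?_ hpt).trans ((setLIntegral_le_lintegral _ _).trans ?_)
    · exact (Finset.measurable_fun_sum _ fun x _ =>
        measurable_one.indicator (measurableSet_toMeasurable _ _)).add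
        (measurable_const.indicator hZm)
    rw [lintegral_add_right _ (measurable_const.indicator hZm),
      lintegral_indicator_const hZm, hZ0, mul_zero, add_zero,
      lintegral_finsetSum _ fun x _ =>
        measurable_one.indicator (measurableSet_toMeasurable _ _)]
    refine (Finset.sum_congr rfl fun x _ => ?_).le
    rw [lintegral_indicator_one (measurableSet_toMeasurable _ _), measure_toMeasurable]
  have hTsum : (∑ x ∈ T, law G (E x)) * G (Set.Icc 0 r₀) ^ 2 ≤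
      ((12 * (winL γ₀ K N).card * (winR γ₀ K N).card : ℕ) : ℝ≥0∞) * ENNReal.ofReal b := by
    rw [Finset.sum_congr rfl fun x _ => hmeasE x]
    simp only [hT, Finset.sum_product, Finset.sum_mul]
    calc _ ≤ ∑ _j : Fin frameSyms.length, ∑ _k ∈ ({0, 1} : Finset ℤ), ∑ _c ∈ winL γ₀ K N,
          ∑ _d ∈ winR γ₀ K N, ENNReal.ofReal b := by
          refine Finset.sum_le_sum fun j _ => Finset.sum_le_sum fun k _ =>
            Finset.sum_le_sum fun cL hcL => Finset.sum_le_sum fun cR hcR => ?_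
          rw [← Finset.sum_mul]
          refine (heavySite_le hG hr Ks).trans (hcount _ _ _ _ ?_)
          simp only [winL, winR, Finset.mem_Icc] at hcL hcR
          omega
      _ = _ := by
          have hlen : frameSyms.length = 6 := rfl
          simp [hlen]
          ring
  have hqR : γ₀ * ((K * N : ℕ) : ℝ) / 4 ≤ q := Nat.le_ceil _
  obtain ⟨hwL, hwR⟩ := card_Icc_window hγ₀ K N
  set X := ∫⁻ t in {t | ChordOK γ₀ C r₁ ε R (K * N) t},
      ((lineChords t N N).encard : ℝ≥0∞) ∂law G with hXdef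
  have hmain : X * ENNReal.ofReal ((q : ℝ) * q * g₀ ^ 2) ≤
      ENNReal.ofReal (12 * (γ₀ * ((K * N : ℕ) : ℝ) / 2) ^ 2 * b) := by
    have e1 : ENNReal.ofReal ((q : ℝ) * q * g₀ ^ 2) =
        ((q * q : ℕ) : ℝ≥0∞) * G (Set.Icc 0 r₀) ^ 2 := by
      rw [ENNReal.ofReal_mul (by positivity), ENNReal.ofReal_pow ENNReal.toReal_nonneg,
        ENNReal.ofReal_toReal (measure_ne_top _ _), ← ENNReal.ofReal_natCast (q * q)]
      push_cast
      rfl
    rw [e1, ← mul_assoc]
    refine (mul_le_mul' hX le_rfl).trans (hTsum.trans ?_)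
    rw [← ENNReal.ofReal_natCast, ← ENNReal.ofReal_mul (Nat.cast_nonneg _)]
    refine ENNReal.ofReal_le_ofReal (mul_le_mul_of_nonneg_right ?_ hb0)
    push_cast at hwL hwR ⊢
    rw [pow_two, mul_assoc]
    exact mul_le_mul_of_nonneg_left
      (mul_le_mul hwL hwR (Nat.cast_nonneg _) (by positivity)) (by norm_num)
  have hden : 0 < (q : ℝ) * q * g₀ ^ 2 := by positivity
  refine le_trans ((ENNReal.le_div_iff_mul_le
    (Or.inl (ENNReal.ofReal_pos.2 hden).ne') (Or.inl ENNReal.ofReal_ne_top)).2 hmain) ?_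
  rw [← ENNReal.ofReal_div_of_pos hden]
  refine ENNReal.ofReal_le_ofReal ?_
  rw [div_le_div_iff₀ hden (by positivity)]
  have h4 : (γ₀ * ((K * N : ℕ) : ℝ) / 4) ^ 2 ≤ (q : ℝ) * q := by
    rw [pow_two]; exact mul_le_mul hqR hqR (by positivity) (Nat.cast_nonneg _)
  have h5 : 12 * (γ₀ * ((K * N : ℕ) : ℝ) / 2) ^ 2 ≤ 48 * ((q : ℝ) * q) := by linarith
  calc 12 * (γ₀ * ((K * N : ℕ) : ℝ) / 2) ^ 2 * b * g₀ ^ 2
      ≤ 48 * ((q : ℝ) * q) * b * g₀ ^ 2 :=
        mul_le_mul_of_nonneg_right (mul_le_mul_of_nonneg_right h5 hb0) (sq_nonneg _)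
    _ = 48 * b * ((q : ℝ) * q * g₀ ^ 2) := by ring

/-- The scale factor, chosen at least `8 / γ₀`, works for every tolerance and crossing length. -/
theorem exists_scale {G : Measure ℝ} {κ r₀ r₁ γ₀ C a : ℝ} (hG : LawGen G)
    (hgood : ∀ᵐ t ∂law G, GoodG κ t) (hr : r₀ < r₁) (hg : 0 < G (Set.Icc 0 r₀))
    (hγ₀ : 0 < γ₀) (hγ₁ : γ₀ ≤ 1) (ha : 0 ≤ a)
    (hcount : ∀ (k B cL cR : ℤ) (R B' : ℕ) (O : Finset Key), cL < cR - R →
      ∑ o ∈ O, law G (rigidSite (r₁ - r₀) k B (B' : ℤ) cL cR R o) ≤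
        ENNReal.ofReal (a * ((B' : ℝ) + 1))) :
    ∃ K : ℕ, 8 ≤ γ₀ * K ∧ ∀ ε : ℝ, ε ≤ γ₀ / 32 → ∀ R : ℕ, ∀ᶠ N : ℕ in atTop,
      ∫⁻ t in {t | ChordOK γ₀ C r₁ ε R (K * N) t}, ((lineChords t N N).encard : ℝ≥0∞) ∂law G ≤
        (K : ℝ≥0∞) ^ 2 * N := by
  have := hG.prob
  set g₀ := (G (Set.Icc 0 r₀)).toReal with hg₀
  have hg0 : 0 < g₀ := ENNReal.toReal_pos hg.ne' (measure_ne_top _ _)
  set A : ℝ := 48 * (a * ((⌈C⌉₊ : ℝ) + 2)) / g₀ ^ 2 with hA
  set K : ℕ := max ⌈32 / γ₀⌉₊ ⌈A⌉₊ with hKdef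
  have hK32 : 32 ≤ γ₀ * K := by
    have h1 : 32 / γ₀ ≤ K := le_trans (Nat.le_ceil _) (by exact_mod_cast le_max_left _ _)
    rw [div_le_iff₀ hγ₀] at h1
    linarith
  have hKA : A ≤ K := le_trans (Nat.le_ceil _) (by exact_mod_cast le_max_right _ _)
  refine ⟨K, by linarith, fun ε hε R => ?_⟩
  filter_upwards [eventually_gt_atTop R] with N hRN
  have hN : 1 ≤ N := by omega
  refine (integral_le hG hgood hr hg hγ₀ hγ₁ hK32 hε hN hRN
    (b := a * ((((⌈C⌉₊ + 1) * (K * N) : ℕ) : ℝ) + 1)) (by positivity)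
    fun k cL cR O h => hcount k _ cL cR R _ O h).trans ?_
  have hKpos : 0 < K := Nat.pos_of_ne_zero fun h => by simp [h] at hK32; linarith
  have hB1 : (1 : ℝ) ≤ (K : ℝ) * N := by exact_mod_cast Nat.mul_pos hKpos hN
  rw [show (K : ℝ≥0∞) ^ 2 * N = ENNReal.ofReal ((K : ℝ) ^ 2 * N) by
    rw [ENNReal.ofReal_mul (by positivity), ENNReal.ofReal_pow (Nat.cast_nonneg _),
      ENNReal.ofReal_natCast, ENNReal.ofReal_natCast]]
  refine ENNReal.ofReal_le_ofReal ?_
  push_cast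
  calc 48 * (a * (((⌈C⌉₊ : ℝ) + 1) * ((K : ℝ) * N) + 1)) / g₀ ^ 2
      ≤ 48 * (a * (((⌈C⌉₊ : ℝ) + 2) * ((K : ℝ) * N))) / g₀ ^ 2 := by
        refine div_le_div_of_nonneg_right (mul_le_mul_of_nonneg_left
          (mul_le_mul_of_nonneg_left ?_ ha) (by norm_num)) (sq_nonneg _)
        linarith
    _ = A * ((K : ℝ) * N) := by rw [hA]; ring
    _ ≤ (K : ℝ) * ((K : ℝ) * N) := mul_le_mul_of_nonneg_right hKA (by positivity)
    _ = (K : ℝ) ^ 2 * N := by ring

end Vale.Agent.P158.ChordCount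

namespace Vale.Agent.P158

open ChordCount in
/-- The expected number of chords of bigeodesics is linear in the scale. -/
theorem chordCount {G : Measure ℝ} {M : ℝ} (hG : LawOK G M) (hF : ForkNullAll G) :
    ChordCount G := by
  intro γ₀ C r₁ hγ₀ hγ₁ _ hr₁
  have := hG.prob
  have := law_isProb hG
  obtain ⟨r₀, hr, -, hg⟩ := Units.exists_low hG hr₁
  obtain ⟨κ, hκ, hg'⟩ := exists_good hG
  have hδ : 0 < r₁ - r₀ := sub_pos.2 hr
  have hM : 0 ≤ M := by
    by_contra hneg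
    have := hG.supp
    rw [Set.Icc_eq_empty (fun h => hneg h)] at this
    simp at this
  obtain ⟨K, hK₈, hK⟩ := exists_scale (a := 2 + 192 * M / (r₁ - r₀)) hG.gen
    (hg'.mono fun _ h => h.gen) hr hg hγ₀ hγ₁ (by positivity) (C := C)
    fun k B cL cR R B' O hlev => by
      obtain ⟨u, v, Γ, hΓ, hlen, hcov⟩ := exists_cycle (B := (B' : ℤ)) (Int.natCast_nonneg _)
      refine (rigidSite_sum_le (f := fun _ => ENNReal.ofReal
        ((2 + 192 * M / (r₁ - r₀)) * ((B' : ℝ) + 1))) O ?_).trans (by simp)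
      filter_upwards [hg', hF, matchAll_of_forkNullAll hG hF] with t h1 h2 h3 O' hO'
      rw [← ENNReal.ofReal_natCast]
      refine ENNReal.ofReal_le_ofReal ?_
      have hc := card_obj_le (⟨h1.gen, h2, h3⟩ : NiceG κ t) hκ hδ hlev Γ hΓ hcov O'
        fun o ho => (hO' o ho).2
      have hp : plen t Γ ≤ M * Γ.length := plen_le_of_range h1.range Γ
      have hlen' : (Γ.length : ℝ) ≤ 8 * ((B' : ℝ) + 1) := by exact_mod_cast hlen
      have h4 := mul_le_mul_of_nonneg_left hlen' hM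
      have h5 : 0 ≤ (B' : ℝ) * (r₁ - r₀) := by positivity
      have e : (2 + 192 * M / (r₁ - r₀)) * ((B' : ℝ) + 1) =
          ((2 * (r₁ - r₀) + 192 * M) * ((B' : ℝ) + 1)) / (r₁ - r₀) := by field_simp
      rw [e, le_div_iff₀ hδ]
      linarith
  exact ⟨K, hK₈, fun ε _ hε R => hK ε hε R⟩

end Vale.Agent.P158
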