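import Vale.Agent.P158.Order
import Vale.Agent.P158.PlanarBox

/-!
P158, order module for rays with arbitrary ends: the height on a far level is replaced by the
position, on the boundary of a far box, of the first exit of the ray.
-/

open Filter Topology

namespace Vale.Agent.P158

variable {t : Conf} {S : Set Edge}

/-- The pairs `a, b` and `c, d` are interleaved. -/
def Alt (a b c d : ℤ) : Prop :=
  (min a b ≤ c ∧ c ≤ max a b ∧ (d ≤ min a b ∨ max a b ≤ d)) ∨
    (min a b ≤ d ∧ d ≤ max a b ∧ (c ≤ min a b ∨ max a b ≤ c))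

/-- Of the three pairings of four positions one is interleaved. -/
theorem alt_trichotomy (a b c d : ℤ) : Alt a b c d ∨ Alt a c b d ∨ Alt a d b c := by
  unfold Alt; omega

/-- Walks in a box with interleaved ends on its boundary share a vertex. -/
theorem meet_box_alt {N : ℤ} {a b c d : V} (p : grid.Walk a b) (q : grid.Walk c d)
    (hp : ∀ x ∈ p.support, InSq N x) (hq : ∀ x ∈ q.support, InSq N x)
    (ha : OnBd N a) (hb : OnBd N b) (hc : OnBd N c) (hd : OnBd N d)
    (halt : Alt (bdPos N a) (bdPos N b) (bdPos N c) (bdPos N d)) :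
    ∃ x, x ∈ p.support ∧ x ∈ q.support := by
  have hp' : ∀ x ∈ p.reverse.support, InSq N x := fun x hx =>
    hp x (by simpa [SimpleGraph.Walk.support_reverse] using hx)
  have hq' : ∀ x ∈ q.reverse.support, InSq N x := fun x hx =>
    hq x (by simpa [SimpleGraph.Walk.support_reverse] using hx)
  have rev : ∀ {u v x : V} (w : grid.Walk u v), x ∈ w.reverse.support → x ∈ w.support :=
    fun w hx => by simpa [SimpleGraph.Walk.support_reverse] using hx
  generalize ea : bdPos N a = A at halt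
  generalize eb : bdPos N b = B at halt
  generalize ec : bdPos N c = C at halt
  generalize ed : bdPos N d = D at halt
  by_cases h1 : A ≤ C ∧ C ≤ B ∧ B ≤ D
  · exact meet_box p q hp hq ha hb hc hd (by omega) (by omega) (by omega)
  by_cases h2 : A ≤ D ∧ D ≤ B ∧ B ≤ C
  · obtain ⟨x, x1, x2⟩ := meet_box p q.reverse hp hq' ha hb hd hc (by omega) (by omega) (by omega)
    exact ⟨x, x1, rev q x2⟩
  by_cases h3 : B ≤ C ∧ C ≤ A ∧ A ≤ D
  · obtain ⟨x, x1, x2⟩ := meet_box p.reverse q hp' hq hb ha hc hd (by omega) (by omega) (by omega)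
    exact ⟨x, rev p x1, x2⟩
  by_cases h4 : B ≤ D ∧ D ≤ A ∧ A ≤ C
  · obtain ⟨x, x1, x2⟩ := meet_box p.reverse q.reverse hp' hq' hb ha hd hc (by omega) (by omega)
      (by omega)
    exact ⟨x, rev p x1, rev q x2⟩
  by_cases h5 : C ≤ A ∧ A ≤ D ∧ D ≤ B
  · obtain ⟨x, x1, x2⟩ := meet_box q p hq hp hc hd ha hb (by omega) (by omega) (by omega)
    exact ⟨x, x2, x1⟩
  by_cases h6 : C ≤ B ∧ B ≤ D ∧ D ≤ A
  · obtain ⟨x, x1, x2⟩ := meet_box q p.reverse hq hp' hc hd hb ha (by omega) (by omega) (by omega)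
    exact ⟨x, rev p x2, x1⟩
  by_cases h7 : D ≤ A ∧ A ≤ C ∧ C ≤ B
  · obtain ⟨x, x1, x2⟩ := meet_box q.reverse p hq' hp hd hc ha hb (by omega) (by omega) (by omega)
    exact ⟨x, x2, rev q x1⟩
  by_cases h8 : D ≤ B ∧ B ≤ C ∧ C ≤ A
  · obtain ⟨x, x1, x2⟩ := meet_box q.reverse p.reverse hq' hp' hd hc hb ha (by omega) (by omega)
      (by omega)
    exact ⟨x, rev p x2, rev q x1⟩
  exfalso
  unfold Alt at halt
  omega

/-- The index of the first vertex of `r` not strictly inside the box of radius `N`. -/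
noncomputable def boxIdx (N : ℤ) (r : ℕ → V) : ℕ := sInf {n | ¬ InSq (N - 1) (r n)}

/-- The first exit vertex. -/
noncomputable def boxExit (N : ℤ) (r : ℕ → V) : V := r (boxIdx N r)

/-- The position of the first exit on the boundary of the box. -/
noncomputable def exitPos (N : ℤ) (r : ℕ → V) : ℤ := bdPos N (boxExit N r)

theorem exists_notInBox {r : ℕ → V} (hr : Function.Injective r) (N : ℤ) :
    ∃ n, ¬ InSq N (r n) := by
  by_contra hno
  push Not at hno
  refine Set.infinite_range_of_injective hr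
    (((Set.finite_Icc (-N) N).prod (Set.finite_Icc (-N) N)).subset ?_)
  rintro _ ⟨n, rfl⟩
  obtain ⟨h1, h2, h3, h4⟩ := hno n
  exact ⟨⟨h1, h2⟩, h3, h4⟩

theorem boxIdx_spec {r : ℕ → V} (hr : Function.Injective r) (N : ℤ) :
    ¬ InSq (N - 1) (r (boxIdx N r)) :=
  Nat.sInf_mem (s := {n | ¬ InSq (N - 1) (r n)}) (exists_notInBox hr (N - 1))

theorem inBox_of_lt_boxIdx {r : ℕ → V} {N : ℤ} {j : ℕ} (hj : j < boxIdx N r) :
    InSq (N - 1) (r j) :=
  not_not.1 fun h => Nat.notMem_of_lt_sInf hj h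

theorem inBox_mono {N N' : ℤ} (h : N ≤ N') {v : V} (hv : InSq N v) : InSq N' v := by
  unfold InSq at *; omega

theorem eventually_inBox (v : V) : ∀ᶠ N in (atTop : Filter ℤ), InSq (N - 1) v :=
  (eventually_ge_atTop (max |v.1| |v.2| + 1)).mono fun N hN => by
    have hm : max |v.1| |v.2| ≤ N - 1 := by omega
    obtain ⟨h1, h2⟩ := abs_le.1 ((le_max_left _ _).trans hm)
    obtain ⟨h3, h4⟩ := abs_le.1 ((le_max_right _ _).trans hm)
    exact ⟨h1, h2, h3, h4⟩

theorem boxExit_onBd {r : ℕ → V} (hr : Function.Injective r) (hadj : ∀ i, Adj (r i) (r (i + 1)))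
    {N : ℤ} (h0 : InSq (N - 1) (r 0)) : OnBd N (boxExit N r) := by
  have hout := boxIdx_spec hr N
  have hne : boxIdx N r ≠ 0 := fun h => hout (by rwa [h])
  obtain ⟨j, hj⟩ := Nat.exists_eq_succ_of_ne_zero hne
  have hin : InSq (N - 1) (r j) := inBox_of_lt_boxIdx (by omega)
  unfold boxExit OnBd
  rw [hj] at hout ⊢
  have hstep := Planar.adj_cases (hadj j)
  simp only [InSq, Nat.succ_eq_add_one] at *
  omega

/-- For far boxes, the approximate geodesic from the end of the ray to `z`, cut at the first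
exit of the box, is a walk in the box through points of `OnExt`. -/
lemma ext_box (h : ∀ e, 0 ≤ t e) {r : ℕ → V} (hr : IsRayIn t S r) {z : V} {n : ℕ}
    (p : grid.Walk (r n) z) (hp : WalkIn S p) {v : ℝ} (hv : plen t p - rlen t r n ≤ v) :
    ∀ᶠ N in atTop, OnBd N (boxExit N r) ∧
      ∃ w : grid.Walk (boxExit N r) z, ∀ c ∈ w.support, OnExt t S r z v c ∧ InSq N c := by
  have hfar : ∀ᶠ N in (atTop : Filter ℤ), ∀ c ∈ p.support, InSq (N - 1) c :=
    (eventually_all_finite p.support.finite_toSet).2 fun c _ => eventually_inBox c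
  have hpre : ∀ᶠ N in (atTop : Filter ℤ), ∀ i ≤ n, InSq (N - 1) (r i) :=
    (eventually_all_finite (Set.finite_Iic n)).2 fun i _ => eventually_inBox _
  filter_upwards [hfar, hpre] with N hpN hN
  have hbd := boxExit_onBd hr.inj hr.adj (hN 0 (Nat.zero_le n))
  have hn : n ≤ boxIdx N r := by
    by_contra hlt
    exact boxIdx_spec hr.inj N (hN _ (not_le.1 hlt).le)
  obtain ⟨s, hs, hsl, hsv⟩ := ord_ray_seg hr hn
  have hcn : ConnIn S (r 0) z := by
    obtain ⟨w, hw, -, -⟩ := ord_ray_seg hr (Nat.zero_le n)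
    exact ConnIn.trans (ConnIn.symm ⟨w, hw⟩) ⟨p, hp⟩
  refine ⟨hbd, s.append p, fun c hc => ?_⟩
  rcases (SimpleGraph.Walk.mem_support_append_iff _ _).1 hc with hcs | hcp
  · obtain ⟨i, hni, hih, rfl⟩ := hsv c hcs
    refine ⟨?_, ?_⟩
    · obtain ⟨s0, hs0, -, -⟩ := ord_ray_seg hr (Nat.zero_le i)
      obtain ⟨si, hsi, hsil, -⟩ := ord_ray_seg hr hni
      have h1 := Rays.bus_le h hr (ConnIn.symm ⟨s0, hs0⟩) i
      have h2 := Rays.TS_le' h (.nil : grid.Walk (r i) (r i)) (S := S) (by simp [WalkIn])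
      have h3 := Rays.TS_le' h (si.append p) ((walkIn_append_iff _ _).2 ⟨hsi, hp⟩)
      rw [plen_nil] at h2
      rw [plen_append, hsil] at h3
      exact ⟨ConnIn.symm ⟨s0, hs0⟩, ⟨_, (walkIn_append_iff _ _).2 ⟨hsi, hp⟩⟩, by linarith⟩
    · rcases hih.lt_or_eq with hlt | rfl
      · exact inBox_mono (by omega) (inBox_of_lt_boxIdx hlt)
      · exact hbd.1
  · refine ⟨?_, inBox_mono (by omega) (hpN c hcp)⟩
    have hsplit := p.take_spec hcp
    have h1 : WalkIn S (p.takeUntil c hcp) ∧ WalkIn S (p.dropUntil c hcp) := by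
      rw [← (walkIn_append_iff _ _), hsplit]; exact hp
    have h2 : plen t (p.takeUntil c hcp) + plen t (p.dropUntil c hcp) = plen t p := by
      rw [← plen_append, hsplit]
    have hc0 : ConnIn S (r 0) c := ConnIn.trans hcn (ConnIn.symm ⟨_, h1.2⟩)
    have h3 := Rays.bus_le h hr hc0 n
    have h4 := Rays.TS_le' h _ h1.1
    have h5 := Rays.TS_le' h _ h1.2
    exact ⟨hc0, ⟨_, h1.2⟩, by linarith⟩

lemma inBox_append_reverse {N : ℤ} {a b z : V} (w : grid.Walk a z) (w' : grid.Walk b z)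
    (hw : ∀ c ∈ w.support, InSq N c) (hw' : ∀ c ∈ w'.support, InSq N c) :
    ∀ c ∈ (w.append w'.reverse).support, InSq N c := by
  intro c hc
  rcases (SimpleGraph.Walk.mem_support_append_iff _ _).1 hc with hc | hc
  · exact hw c hc
  · rw [SimpleGraph.Walk.support_reverse, List.mem_reverse] at hc
    exact hw' c hc

/-- For four rays in the order of their exit positions from far boxes, the increments do not
alternate. -/
theorem bus_noAlt_box (h : ∀ e, 0 ≤ t e) (r : Fin 4 → ℕ → V) (hr : ∀ i, IsRayIn t S (r i))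
    (x y : V) (hx : ∀ i, ConnIn S (r i 0) x) (hy : ∀ i, ConnIn S (r i 0) y)
    (hord : ∃ᶠ N in atTop, exitPos N (r 0) ≤ exitPos N (r 1) ∧
      exitPos N (r 1) ≤ exitPos N (r 2) ∧ exitPos N (r 2) ≤ exitPos N (r 3)) :
    min (bus t S (r 1) x - bus t S (r 1) y) (bus t S (r 3) x - bus t S (r 3) y) ≤
      max (bus t S (r 0) x - bus t S (r 0) y) (bus t S (r 2) x - bus t S (r 2) y) := by
  refine le_of_forall_pos_le_add fun ε hε => ?_
  obtain ⟨n0, p0, hp0, hv0⟩ := ord_bus_approx (hr 0) (hx 0) (half_pos hε)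
  obtain ⟨n1, p1, hp1, hv1⟩ := ord_bus_approx (hr 1) (hy 1) (half_pos hε)
  obtain ⟨n2, p2, hp2, hv2⟩ := ord_bus_approx (hr 2) (hx 2) (half_pos hε)
  obtain ⟨n3, p3, hp3, hv3⟩ := ord_bus_approx (hr 3) (hy 3) (half_pos hε)
  obtain ⟨N, ⟨o1, o2, o3⟩, ⟨l0, w0, k0⟩, ⟨l1, w1, k1⟩, ⟨l2, w2, k2⟩, ⟨l3, w3, k3⟩⟩ :=
    (hord.and_eventually ((ext_box h (hr 0) p0 hp0 hv0).and
      ((ext_box h (hr 1) p1 hp1 hv1).and
        ((ext_box h (hr 2) p2 hp2 hv2).and (ext_box h (hr 3) p3 hp3 hv3))))).exists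
  obtain ⟨c, hcA, hcB⟩ := meet_box (w0.append w2.reverse) (w1.append w3.reverse)
    (inBox_append_reverse w0 w2 (fun c hc => (k0 c hc).2) fun c hc => (k2 c hc).2)
    (inBox_append_reverse w1 w3 (fun c hc => (k1 c hc).2) fun c hc => (k3 c hc).2)
    l0 l2 l1 l3 o1 o2 o3
  rw [SimpleGraph.Walk.mem_support_append_iff, SimpleGraph.Walk.support_reverse,
    List.mem_reverse] at hcA hcB
  rcases hcA with hA | hA <;> rcases hcB with hB | hB
  · have := bus_quad h (hr 0) (hr 1) (k0 c hA).1 (k1 c hB).1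
    exact le_trans (min_le_left _ _) (by
      linarith [le_max_left (bus t S (r 0) x - bus t S (r 0) y)
        (bus t S (r 2) x - bus t S (r 2) y)])
  · have := bus_quad h (hr 0) (hr 3) (k0 c hA).1 (k3 c hB).1
    exact le_trans (min_le_right _ _) (by
      linarith [le_max_left (bus t S (r 0) x - bus t S (r 0) y)
        (bus t S (r 2) x - bus t S (r 2) y)])
  · have := bus_quad h (hr 2) (hr 1) (k2 c hA).1 (k1 c hB).1
    exact le_trans (min_le_left _ _) (by
      linarith [le_max_right (bus t S (r 0) x - bus t S (r 0) y)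
        (bus t S (r 2) x - bus t S (r 2) y)])
  · have := bus_quad h (hr 2) (hr 3) (k2 c hA).1 (k3 c hB).1
    exact le_trans (min_le_right _ _) (by
      linarith [le_max_right (bus t S (r 0) x - bus t S (r 0) y)
        (bus t S (r 2) x - bus t S (r 2) y)])

/-- Windows of rays which do not overlap on the boundary of infinitely many boxes: the
oscillations of the increments between `x` and `y` add up to at most `6 * TS x y`. -/
theorem bus_windows_box (h : ∀ e, 0 ≤ t e) {ι : Type*} [Fintype ι] (r : ι → ℕ → V)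
    (hr : ∀ i, IsRayIn t S (r i)) (x y : V) (hxy : ConnIn S x y)
    (hx : ∀ i, ConnIn S (r i 0) x) {κ : Type*} (U : Finset κ) (p q : κ → ι)
    (hsep : ∃ᶠ N in atTop, ∀ u ∈ U, ∀ v ∈ U, u ≠ v →
      max (exitPos N (r (p u))) (exitPos N (r (q u))) <
          min (exitPos N (r (p v))) (exitPos N (r (q v))) ∨
        max (exitPos N (r (p v))) (exitPos N (r (q v))) <
          min (exitPos N (r (p u))) (exitPos N (r (q u)))) :
    ∑ u ∈ U, |(bus t S (r (p u)) x - bus t S (r (p u)) y) -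
        (bus t S (r (q u)) x - bus t S (r (q u)) y)| ≤ 6 * TS t S x y := by
  obtain ⟨key, hkey⟩ : ∃ key : ℤ → ι → ℤ, key = fun N i => exitPos N (r i) := ⟨_, rfl⟩
  obtain ⟨e, he⟩ : ∃ e : ι ≃ Fin (Fintype.card ι), e = Fintype.equivFin ι := ⟨_, rfl⟩
  obtain ⟨π, hπ⟩ : ∃ π : Equiv.Perm (Fin (Fintype.card ι)), ∃ᶠ N in (atTop : Filter ℤ),
      Monotone (fun i => key N (e.symm (π i))) ∧ ∀ u ∈ U, ∀ v ∈ U, u ≠ v →
        max (key N (p u)) (key N (q u)) < min (key N (p v)) (key N (q v)) ∨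
          max (key N (p v)) (key N (q v)) < min (key N (p u)) (key N (q u)) := by
    by_contra hne
    simp only [not_exists, not_frequently] at hne
    subst hkey
    obtain ⟨N, hN, hN'⟩ := (hsep.and_eventually (eventually_all.2 hne)).exists
    exact hN' (Tuple.sort fun i => exitPos N (r (e.symm i)))
      ⟨Tuple.monotone_sort fun i => exitPos N (r (e.symm i)), hN⟩
  obtain ⟨f, hf⟩ : ∃ f : Fin (Fintype.card ι) → ℝ,
      f = fun i => bus t S (r (e.symm (π i))) x - bus t S (r (e.symm (π i))) y := ⟨_, rfl⟩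
  have hy : ∀ i, ConnIn S (r i 0) y := fun i => ConnIn.trans (hx i) hxy
  have hna : NoAlt f := by
    intro a b c d hab hbc hcd
    have hord : ∃ᶠ N in (atTop : Filter ℤ), key N (e.symm (π a)) ≤ key N (e.symm (π b)) ∧
        key N (e.symm (π b)) ≤ key N (e.symm (π c)) ∧
        key N (e.symm (π c)) ≤ key N (e.symm (π d)) :=
      hπ.mono fun N hN => ⟨hN.1 hab.le, hN.1 hbc.le, hN.1 hcd.le⟩
    rw [hkey] at hord
    have h1 := bus_noAlt_box h
      ![r (e.symm (π a)), r (e.symm (π b)), r (e.symm (π c)), r (e.symm (π d))]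
      (Fin.forall_fin_succ.2 ⟨hr _, Fin.forall_fin_succ.2 ⟨hr _, Fin.forall_fin_two.2 ⟨hr _, hr _⟩⟩⟩)
    have c4 : ∀ z, (∀ i, ConnIn S (r i 0) z) → ∀ i : Fin 4, ConnIn S
        (![r (e.symm (π a)), r (e.symm (π b)), r (e.symm (π c)), r (e.symm (π d))] i 0) z :=
      fun z hz => Fin.forall_fin_succ.2 ⟨hz _, Fin.forall_fin_succ.2 ⟨hz _,
        Fin.forall_fin_two.2 ⟨hz _, hz _⟩⟩⟩
    have h2 := h1 x y (c4 x hx) (c4 y hy) hord
    have h3 := h1 y x (c4 y hy) (c4 x hx) hord
    simp only [Matrix.cons_val_zero, Matrix.cons_val_one, Matrix.cons_val] at h2 h3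
    rw [hf]
    refine ⟨h2, ?_⟩
    simp only [min_le_iff, le_max_iff] at h3 ⊢
    rcases h3 with (o | o) | (o | o)
    · exact Or.inl (Or.inl (by linarith))
    · exact Or.inr (Or.inl (by linarith))
    · exact Or.inl (Or.inr (by linarith))
    · exact Or.inr (Or.inr (by linarith))
  have habs : ∀ i, |f i| ≤ TS t S x y := fun i => by
    rw [hf, abs_le]
    constructor
    · linarith [ord_bus_lip h (hr (e.symm (π i))) (hx _) hxy]
    · have := ord_bus_lip h (hr (e.symm (π i))) (hy (e.symm (π i))) (hxy.symm)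
      rw [TS_comm S y x] at this
      linarith
  have hT : 0 ≤ TS t S x y := by
    obtain ⟨w, hw⟩ := hxy
    exact le_csInf ⟨_, w, hw, rfl⟩ (by rintro _ ⟨q', -, rfl⟩; exact plen_nonneg h q')
  -- list the windows in increasing order
  obtain ⟨N0, hmono, hN0⟩ := hπ.exists
  obtain ⟨eU, -⟩ : ∃ eU : U ≃ Fin U.card, True := ⟨U.equivFin, trivial⟩
  obtain ⟨lo, hlo⟩ : ∃ lo : Fin U.card → ℤ,
      lo = fun i => min (key N0 (p (eU.symm i))) (key N0 (q (eU.symm i))) := ⟨_, rfl⟩
  obtain ⟨τ, hτ⟩ : ∃ τ : Equiv.Perm (Fin U.card), Monotone (lo ∘ τ) :=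
    ⟨Tuple.sort lo, Tuple.monotone_sort lo⟩
  have hidx : ∀ i j, key N0 i < key N0 j → π.symm (e i) < π.symm (e j) := fun i j hij => by
    by_contra hge
    have := hmono (not_lt.1 hge)
    simp only [Equiv.apply_symm_apply, Equiv.symm_apply_apply] at this
    exact absurd hij (not_lt.2 this)
  have hsum := windows_le_of_noAlt f hna (-TS t S x y) (TS t S x y) (by linarith)
    (fun i => (abs_le.1 (habs i)).1) (fun i => (abs_le.1 (habs i)).2) Finset.univ
    (fun i => π.symm (e (p (eU.symm (τ i))))) (fun i => π.symm (e (q (eU.symm (τ i)))))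
    fun i _ j _ hij => by
      have hle : lo (τ i) ≤ lo (τ j) := hτ hij.le
      have hne : (eU.symm (τ i) : κ) ≠ eU.symm (τ j) := fun h' =>
        hij.ne (τ.injective (eU.symm.injective (Subtype.ext h')))
      have hd := hN0 _ (eU.symm (τ i)).2 _ (eU.symm (τ j)).2 hne
      rw [hlo] at hle
      simp only at hle
      have hlt : max (key N0 (p (eU.symm (τ i)))) (key N0 (q (eU.symm (τ i)))) <
          min (key N0 (p (eU.symm (τ j)))) (key N0 (q (eU.symm (τ j)))) := by omega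
      simp only [max_lt_iff, lt_min_iff] at hlt
      exact max_le (le_min (hidx _ _ hlt.1.1).le (hidx _ _ hlt.2.1).le)
        (le_min (hidx _ _ hlt.1.2).le (hidx _ _ hlt.2.2).le)
  simp only [hf, Equiv.apply_symm_apply, Equiv.symm_apply_apply] at hsum
  rw [Equiv.sum_comp τ (fun i => |(bus t S (r (p (eU.symm i))) x - bus t S (r (p (eU.symm i))) y) -
      (bus t S (r (q (eU.symm i))) x - bus t S (r (q (eU.symm i))) y)|),
    Equiv.sum_comp eU.symm (fun u : U => |(bus t S (r (p u)) x - bus t S (r (p u)) y) -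
      (bus t S (r (q u)) x - bus t S (r (q u)) y)|),
    Finset.sum_coe_sort U (fun u => |(bus t S (r (p u)) x - bus t S (r (p u)) y) -
      (bus t S (r (q u)) x - bus t S (r (q u)) y)|)] at hsum
  linarith

/-- If the crossed pairs of ends of two lines are interleaved on infinitely many boxes, their
crossed excess is bounded below. -/
theorem crossed_excess_box (h : ∀ e, 0 ≤ t e) (rp rq sp sq : ℕ → V)
    (hrp : IsRayIn t S rp) (hrq : IsRayIn t S rq) (hsp : IsRayIn t S sp) (hsq : IsRayIn t S sq)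
    (hc : ∀ a b : V, ConnIn S a b) (ep eq : ℝ)
    (hep : ∀ c, ep ≤ bus t S rp c + bus t S sp c) (heq : ∀ c, eq ≤ bus t S rq c + bus t S sq c)
    (hord : ∃ᶠ N in atTop, Alt (exitPos N rp) (exitPos N sq) (exitPos N rq) (exitPos N sp))
    (z w : V) :
    ep + eq ≤ (bus t S rp z + bus t S sq z) + (bus t S rq w + bus t S sp w) := by
  refine le_of_forall_pos_le_add fun ε hε => ?_
  have h4 : 0 < ε / 4 := by linarith
  obtain ⟨n1, p1, hp1, v1⟩ := ord_bus_approx hrp (hc _ z) h4
  obtain ⟨n2, p2, hp2, v2⟩ := ord_bus_approx hsq (hc _ z) h4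
  obtain ⟨n3, p3, hp3, v3⟩ := ord_bus_approx hrq (hc _ w) h4
  obtain ⟨n4, p4, hp4, v4⟩ := ord_bus_approx hsp (hc _ w) h4
  obtain ⟨N, halt, ⟨l1, w1, k1⟩, ⟨l2, w2, k2⟩, ⟨l3, w3, k3⟩, ⟨l4, w4, k4⟩⟩ :=
    (hord.and_eventually ((ext_box h hrp p1 hp1 v1).and ((ext_box h hsq p2 hp2 v2).and
      ((ext_box h hrq p3 hp3 v3).and (ext_box h hsp p4 hp4 v4))))).exists
  obtain ⟨c, hcA, hcB⟩ := meet_box_alt (w1.append w2.reverse) (w3.append w4.reverse)
    (inBox_append_reverse w1 w2 (fun c hc => (k1 c hc).2) fun c hc => (k2 c hc).2)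
    (inBox_append_reverse w3 w4 (fun c hc => (k3 c hc).2) fun c hc => (k4 c hc).2)
    l1 l2 l3 l4 halt
  have gA : bus t S rp c + bus t S sq c ≤ bus t S rp z + bus t S sq z + ε / 4 := by
    rcases (SimpleGraph.Walk.mem_support_append_iff _ _).1 hcA with hc' | hc'
    · obtain ⟨-, hcz, hle⟩ := (k1 c hc').1
      have := ord_bus_lip h hsq (hc _ z) (hcz.symm)
      rw [TS_comm S z c] at this
      linarith
    · rw [SimpleGraph.Walk.support_reverse, List.mem_reverse] at hc'
      obtain ⟨-, hcz, hle⟩ := (k2 c hc').1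
      have := ord_bus_lip h hrp (hc _ z) (hcz.symm)
      rw [TS_comm S z c] at this
      linarith
  have gB : bus t S rq c + bus t S sp c ≤ bus t S rq w + bus t S sp w + ε / 4 := by
    rcases (SimpleGraph.Walk.mem_support_append_iff _ _).1 hcB with hc' | hc'
    · obtain ⟨-, hcw, hle⟩ := (k3 c hc').1
      have := ord_bus_lip h hsp (hc _ w) (hcw.symm)
      rw [TS_comm S w c] at this
      linarith
    · rw [SimpleGraph.Walk.support_reverse, List.mem_reverse] at hc'
      obtain ⟨-, hcw, hle⟩ := (k4 c hc').1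
      have := ord_bus_lip h hrq (hc _ w) (hcw.symm)
      rw [TS_comm S w c] at this
      linarith
  linarith [hep c, heq c]

end Vale.Agent.P158
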