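import Vale.Agent.P158.Spec

/-!
Interfaces for the second stage: the same statements without any hypothesis on asymptotic
directions.
-/

open MeasureTheory Filter Topology

namespace Vale.Agent.P158

/-- Almost surely no two bigeodesics share a forward ray from a vertex and enter that vertex from
different neighbours. -/
def ForkNullAll (G : Measure ℝ) : Prop :=
  ∀ᵐ t ∂law G, ¬ ∃ γ δ, IsBigeodesic t γ ∧ IsBigeodesic t δ ∧
    (∀ n : ℕ, γ n = δ n) ∧ γ (-1) ≠ δ (-1)

/-- Almost surely a geodesic ray whose Busemann function has finite crossed excess with the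
forward end of a bigeodesic has the same Busemann function, up to a constant, as its backward
end. -/
def MatchAll (G : Measure ℝ) : Prop :=
  ∀ᵐ t ∂law G, ∀ γ, IsBigeodesic t γ → ∀ r, IsRayIn t Set.univ r →
    (∃ C : ℝ, ∀ z, -C ≤ bus t Set.univ r z + bus t Set.univ (fwd γ 0) z) →
    ∃ c : ℝ, ∀ z, bus t Set.univ r z - bus t Set.univ (bwd γ 0) z = c

/-- Almost surely there is no bigeodesic. -/
def NoBigeodesic (G : Measure ℝ) : Prop :=
  ∀ᵐ t ∂law G, ¬ ∃ γ, IsBigeodesic t γ

end Vale.Agent.P158
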