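import Vale.Agent.P158.Match
import Vale.Agent.P158.Spec2

/-!
The matching lemma for all bigeodesics and rays.
-/

open MeasureTheory Filter

namespace Vale.Agent.P158

/-- Without forks, a ray with finite crossed excess matches. -/
theorem matchAllG {G : Measure ℝ} (hG : LawGen G) (hF : ForkNullAll G) :
    MatchAll G := by
  have h : ∀ᵐ t ∂law G, ¬ Match.Fork (fun _ => True) t :=
    hF.mono fun t ht ⟨γ, δ, h1, _, h2, _, h3, h4⟩ => ht ⟨γ, δ, h1, h2, h3, h4⟩
  exact (Match.ae_match hG Match.closed_all h).mono
    fun _ ht γ hγ r hr hC => ht γ hγ trivial r hr trivial hC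

/-- The same for a bounded law. -/
theorem matchAll_of_forkNullAll {G : Measure ℝ} {M : ℝ} (hG : LawOK G M) (hF : ForkNullAll G) :
    MatchAll G := matchAllG hG.gen hF

end Vale.Agent.P158
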