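import Vale.Agent.P158.Gen.Law
import Vale.Agent.P158.Units.Objects

/-!
P158, unit bound: the expected number of disjoint slope units with a line through one entrance
edge is at most linear in the crossing count. Lowering the entrance edge turns lines into lines
with margins; in one configuration those are at most linear in the number of heights.
-/

open MeasureTheory Filter Topology

namespace Vale.Agent.P158

namespace Units

/-- A positive-mass set of low values below `r₁`, for every atomless law. -/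
theorem exists_lowG {G : Measure ℝ} {r₁ : ℝ} (hG : LawGen G) (h : 0 < G (Set.Iio r₁)) :
    ∃ r₀, r₀ < r₁ ∧ 0 < G (Set.Icc 0 r₀) := by
  have := hG.prob
  obtain ⟨m, hm⟩ : ∃ m : ℕ, 0 < G (Set.Iic (r₁ - 1 / ((m : ℝ) + 1))) := by
    by_contra hne
    push Not at hne
    refine h.ne' (measure_mono_null (fun x hx => ?_)
      (measure_iUnion_null fun m : ℕ => nonpos_iff_eq_zero.1 (hne m)))
    obtain ⟨m, hm⟩ := exists_nat_one_div_lt (sub_pos.2 (show x < r₁ from hx))
    exact Set.mem_iUnion.2 ⟨m, show x ≤ r₁ - 1 / ((m : ℝ) + 1) by linarith⟩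
  refine ⟨r₁ - 1 / ((m : ℝ) + 1), sub_lt_self _ (by positivity), hm.trans_le ?_⟩
  calc G (Set.Iic (r₁ - 1 / ((m : ℝ) + 1)))
      ≤ G (Set.Icc 0 (r₁ - 1 / ((m : ℝ) + 1)) ∪ (Set.Ici 0)ᶜ) := measure_mono fun x hx => by
        by_cases hx' : x ∈ Set.Ici (0 : ℝ)
        · exact Or.inl ⟨hx', hx⟩
        · exact Or.inr hx'
    _ ≤ G (Set.Icc 0 (r₁ - 1 / ((m : ℝ) + 1))) + G (Set.Ici 0)ᶜ := measure_union_le _ _
    _ = _ := by rw [(prob_compl_eq_zero_iff measurableSet_Ici).2 hG.supp, add_zero]

/-- A positive-mass set of low values below `r₁`, inside the support. -/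
theorem exists_low {G : Measure ℝ} {M r₁ : ℝ} (hG : LawOK G M) (h : 0 < G (Set.Iio r₁)) :
    ∃ r₀, r₀ < r₁ ∧ r₀ ≤ M ∧ 0 < G (Set.Icc 0 r₀) := by
  have := hG.prob
  obtain ⟨m, hm⟩ : ∃ m : ℕ, 0 < G (Set.Iic (r₁ - 1 / ((m : ℝ) + 1))) := by
    by_contra hne
    push Not at hne
    refine h.ne' (measure_mono_null (fun x hx => ?_)
      (measure_iUnion_null fun m : ℕ => nonpos_iff_eq_zero.1 (hne m)))
    obtain ⟨m, hm⟩ := exists_nat_one_div_lt (sub_pos.2 (show x < r₁ from hx))
    exact Set.mem_iUnion.2 ⟨m, show x ≤ r₁ - 1 / ((m : ℝ) + 1) by linarith⟩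
  have hnull : G (Set.Icc 0 M)ᶜ = 0 := by
    rw [measure_compl measurableSet_Icc (measure_ne_top _ _), hG.supp, measure_univ, tsub_self]
  refine ⟨min (r₁ - 1 / ((m : ℝ) + 1)) M, lt_of_le_of_lt (min_le_left _ _) ?_, min_le_right _ _, ?_⟩
  · have : (0 : ℝ) < 1 / ((m : ℝ) + 1) := by positivity
    linarith
  · refine hm.trans_le ?_
    calc G (Set.Iic (r₁ - 1 / ((m : ℝ) + 1)))
        ≤ G (Set.Icc 0 (min (r₁ - 1 / ((m : ℝ) + 1)) M) ∪ (Set.Icc 0 M)ᶜ) := by
          refine measure_mono fun x hx => ?_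
          by_cases hx' : x ∈ Set.Icc 0 M
          · exact Or.inl ⟨hx'.1, le_min hx hx'.2⟩
          · exact Or.inr hx'
      _ ≤ G (Set.Icc 0 (min (r₁ - 1 / ((m : ℝ) + 1)) M)) + G (Set.Icc 0 M)ᶜ := measure_union_le _ _
      _ = _ := by rw [hnull, add_zero]

/-- The expected number of disjoint units with a margin at one entrance edge. -/
theorem sum_objEvent_le {G : Measure ℝ} {M δ : ℝ} (hG : LawOK G M) (hδ : 0 < δ) {R J N : ℕ}
    {a b : Fin N → ℝ} (hab : ∀ i j, i < j → b i < a j) :
    δ * ∑ i, (law G (objEvent M δ (a i) (b i) R J)).toReal ≤ 16 * M * ((J : ℝ) + 1) := by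
  classical
  have := hG.prob
  have : IsProbabilityMeasure (law G) := by unfold law; infer_instance
  set L : Fin N → Set Conf := fun i => objEvent M δ (a i) (b i) R J with hL
  set X : ℝ := ∑ i, (law G (L i)).toReal with hX
  set C0 : ℝ := 4 * ((J : ℝ) + 1) * (δ * N) with hC0
  set C1 : ℝ := 16 * M * ((J : ℝ) + 1) with hC1
  have key : ∀ n : ℕ, (n : ℝ) * (δ * X - C1) ≤ C0 := by
    intro n
    set f : ℕ × Fin N → Conf → ENNReal :=
      fun o => (shift (0, (o.1 : ℤ)) ⁻¹' L o.2).indicator 1 with hf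
    have hmeas : ∀ o : ℕ × Fin N, MeasurableSet (shift (0, (o.1 : ℤ)) ⁻¹' L o.2) := fun o =>
      measurable_shift _ (measurableSet_objEvent _ _ _ _ _ _)
    have hint : ∫⁻ t, ∑ o ∈ Finset.range n ×ˢ (Finset.univ : Finset (Fin N)), f o t ∂law G =
        n * ∑ i, law G (L i) := by
      rw [lintegral_finsetSum _ fun o _ => measurable_one.indicator (hmeas o), Finset.sum_product]
      have hone : ∀ (y : ℕ) (i : Fin N),
          ∫⁻ t, (shift (0, (y : ℤ)) ⁻¹' L i).indicator 1 t ∂law G = law G (L i) := fun y i => by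
        rw [lintegral_indicator_one (measurable_shift _ (measurableSet_objEvent _ _ _ _ _ _)),
          ← Measure.map_apply (measurable_shift _) (measurableSet_objEvent _ _ _ _ _ _), law_shift]
      simp only [hone, Finset.sum_const, Finset.card_range, nsmul_eq_mul]
    have hbound : ∀ᵐ t ∂law G,
        ∑ o ∈ Finset.range n ×ˢ (Finset.univ : Finset (Fin N)), f o t ≤
          ENNReal.ofReal ((C0 + C1 * n) / δ) := by
      filter_upwards [prob_inRange hG] with t ht
      set O := (Finset.range n ×ˢ (Finset.univ : Finset (Fin N))).filter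
        fun o => t ∈ shift (0, (o.1 : ℤ)) ⁻¹' L o.2 with hO
      have hsum : ∑ o ∈ Finset.range n ×ˢ (Finset.univ : Finset (Fin N)), f o t =
          (O.card : ENNReal) := by
        rw [hO, ← Finset.sum_boole]
        exact Finset.sum_congr rfl fun o _ => by simp [hf, Set.indicator_apply]
      rw [hsum, ← ENNReal.ofReal_natCast]
      refine ENNReal.ofReal_le_ofReal ((le_div_iff₀ hδ).2 ?_)
      have := card_lines_le ht hab O (n := n) (R := R) (J := J) (δ := δ) (fun o ho => by
        obtain ⟨h1, h2⟩ := Finset.mem_filter.1 ho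
        exact ⟨Finset.mem_range.1 (Finset.mem_product.1 h1).1, line_of_shift h2⟩) hδ
      simp only [hC0, hC1]
      linarith
    have hle : (n : ENNReal) * ∑ i, law G (L i) ≤ ENNReal.ofReal ((C0 + C1 * n) / δ) := by
      rw [← hint]
      exact (lintegral_mono_ae hbound).trans (by simp)
    have hM : 0 ≤ M := by
      by_contra hneg
      have := hG.supp
      rw [Set.Icc_eq_empty (fun h => hneg h)] at this
      simp at this
    have h := ENNReal.toReal_mono ENNReal.ofReal_ne_top hle
    rw [ENNReal.toReal_mul, ENNReal.toReal_natCast,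
      ENNReal.toReal_sum fun i _ => measure_ne_top _ _, ← hX,
      ENNReal.toReal_ofReal (by positivity), le_div_iff₀ hδ] at h
    linarith
  by_contra hne
  obtain ⟨n, hn⟩ := exists_nat_gt (C0 / (δ * X - C1))
  have := key n
  rw [div_lt_iff₀ (sub_pos.2 (lt_of_not_ge hne))] at hn
  linarith

end Units

open Vale.Agent.P158.Units in
/-- The unit bound holds for every atomless law with bounded support. -/
theorem unitBound {G : Measure ℝ} {M : ℝ} (hG : LawOK G M) : UnitBound G := by
  intro r₁ hr₁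
  have := hG.prob
  have : IsProbabilityMeasure (law G) := by unfold law; infer_instance
  obtain ⟨r₀, hr, hr₀M, hpos⟩ := exists_low hG hr₁
  set g := (G (Set.Icc 0 r₀)).toReal with hg
  have hg0 : 0 < g := ENNReal.toReal_pos hpos.ne' (measure_ne_top _ _)
  refine ⟨16 * M / ((r₁ - r₀) * g), fun R J N a b _ hab => ?_⟩
  have hstep : ∀ i, (law G (unitEvent r₁ (a i) (b i) R J)).toReal * g ≤
      (law G (objEvent M (r₁ - r₀) (a i) (b i) R J)).toReal := by
    intro i
    rw [hg, ← ENNReal.toReal_mul]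
    refine ENNReal.toReal_mono (measure_ne_top _ _) ?_
    have hae : law G (unitEvent r₁ (a i) (b i) R J) ≤
        law G (unitEvent r₁ (a i) (b i) R J ∩ {t | InRange M t}) := by
      refine measure_mono_ae ?_
      filter_upwards [prob_inRange hG] with t ht using fun h => ⟨h, ht⟩
    refine (mul_le_mul' hae le_rfl).trans (measure_inter_le_of_lower e0
      (measurableSet_objEvent _ _ _ _ _ _) ?_)
    rintro t ⟨ht, hM⟩ x hx
    exact lower_mem hr₀M hr.le ht hM hx
  have hsum := (Finset.sum_le_sum fun i (_ : i ∈ (Finset.univ : Finset (Fin N))) => hstep i)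
  rw [← Finset.sum_mul] at hsum
  have hδ : 0 < r₁ - r₀ := sub_pos.2 hr
  have hobj := sum_objEvent_le (R := R) (J := J) hG hδ hab
  have hM : 0 ≤ M := by
    by_contra hneg
    have := hG.supp
    rw [Set.Icc_eq_empty (fun h => hneg h)] at this
    simp at this
  have h1 : (∑ i, (law G (unitEvent r₁ (a i) (b i) R J)).toReal) * ((r₁ - r₀) * g) ≤
      16 * M * ((J : ℝ) + 1) := by
    nlinarith [mul_le_mul_of_nonneg_left hsum hδ.le]
  rw [div_mul_eq_mul_div, le_div_iff₀ (mul_pos hδ hg0)]
  refine h1.trans (mul_le_mul_of_nonneg_left ?_ (by positivity))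
  nlinarith [(Nat.cast_nonneg J : (0 : ℝ) ≤ J)]

/-- The interface form. -/
theorem unitBound_of_straight {G : Measure ℝ} {M : ℝ} (hG : LawOK G M) (_ : StraightProp G) :
    UnitBound G :=
  unitBound hG

end Vale.Agent.P158
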