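import Mathlib

/-!
The norm attached to a subadditive Lipschitz function on the square lattice.
-/

open Filter Topology

namespace Vale.Agent.P158

/-- The ℓ¹ norm of a point of the real plane. -/
def r1 (p : ℝ × ℝ) : ℝ := |p.1| + |p.2|

/-- A lattice point as a point of the real plane. -/
def toR (z : ℤ × ℤ) : ℝ × ℝ := ((z.1 : ℝ), (z.2 : ℝ))

/-- The rounded down multiple. -/
noncomputable def flr (n : ℝ) (p : ℝ × ℝ) : ℤ × ℤ := (⌊n * p.1⌋, ⌊n * p.2⌋)

lemma r1_nonneg (p : ℝ × ℝ) : 0 ≤ r1 p := add_nonneg (abs_nonneg _) (abs_nonneg _)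

lemma r1_add (p q : ℝ × ℝ) : r1 (p + q) ≤ r1 p + r1 q := by
  simp only [r1, Prod.fst_add, Prod.snd_add]
  linarith [abs_add_le p.1 q.1, abs_add_le p.2 q.2]

lemma r1_neg (p : ℝ × ℝ) : r1 (-p) = r1 p := by simp [r1]

lemma r1_smul (t : ℝ) (p : ℝ × ℝ) : r1 (t • p) = |t| * r1 p := by
  simp [r1, abs_mul, mul_add]

lemma flr_close (n : ℝ) (p : ℝ × ℝ) : r1 (toR (flr n p) - n • p) ≤ 2 := by
  simp only [r1, toR, flr, Prod.fst_sub, Prod.snd_sub, Prod.smul_fst, Prod.smul_snd, smul_eq_mul]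
  have h1 := Int.floor_le (n * p.1); have h2 := Int.lt_floor_add_one (n * p.1)
  have h3 := Int.floor_le (n * p.2); have h4 := Int.lt_floor_add_one (n * p.2)
  have : |(⌊n * p.1⌋ : ℝ) - n * p.1| ≤ 1 := abs_le.2 ⟨by linarith, by linarith⟩
  have : |(⌊n * p.2⌋ : ℝ) - n * p.2| ≤ 1 := abs_le.2 ⟨by linarith, by linarith⟩
  linarith

lemma toR_add (x y : ℤ × ℤ) : toR (x + y) = toR x + toR y := by
  simp [toR]

lemma toR_sub (x y : ℤ × ℤ) : toR (x - y) = toR x - toR y := by
  simp [toR]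

lemma toR_neg (x : ℤ × ℤ) : toR (-x) = -toR x := by
  simp [toR]

/-- A nonnegative even subadditive function of linear growth. -/
structure Subadd (f : ℤ × ℤ → ℝ) (M : ℝ) : Prop where
  nonneg : ∀ x, 0 ≤ f x
  le : ∀ x, f x ≤ M * r1 (toR x)
  add : ∀ x y, f (x + y) ≤ f x + f y
  even : ∀ x, f (-x) = f x

namespace Subadd

variable {f : ℤ × ℤ → ℝ} {M : ℝ}

lemma M_nonneg (hf : Subadd f M) : 0 ≤ M := by
  have h := (hf.nonneg (1, 0)).trans (hf.le (1, 0))
  simpa [r1, toR] using h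

lemma lip (hf : Subadd f M) (x y : ℤ × ℤ) : |f x - f y| ≤ M * r1 (toR x - toR y) := by
  have h1 := hf.add (x - y) y
  have h2 := hf.add (-(x - y)) x
  rw [hf.even] at h2
  rw [sub_add_cancel] at h1
  rw [show -(x - y) + x = y by abel] at h2
  have h3 := hf.le (x - y)
  rw [toR_sub] at h3
  rw [abs_le]; constructor <;> linarith

/-- The limit norm. -/
noncomputable def norm (f : ℤ × ℤ → ℝ) (p : ℝ × ℝ) : ℝ :=
  limUnder atTop fun n : ℕ => f (flr n p) / n

lemma exists_lim (hf : Subadd f M) (p : ℝ × ℝ) :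
    ∃ l, Tendsto (fun n : ℕ => f (flr n p) / n) atTop (𝓝 l) := by
  set u : ℕ → ℝ := fun n => f (flr n p) + 6 * M with hu
  have hM := hf.M_nonneg
  have hsub : _root_.Subadditive u := by
    intro m n
    have h1 := abs_le.1 (hf.lip (flr (m + n : ℕ) p) (flr m p + flr n p))
    have h2 : r1 (toR (flr (m + n : ℕ) p) - toR (flr m p + flr n p)) ≤ 6 := by
      rw [toR_add, show toR (flr (m + n : ℕ) p) - (toR (flr (m : ℕ) p) + toR (flr (n : ℕ) p)) =
        (toR (flr (m + n : ℕ) p) - ((m + n : ℕ) : ℝ) • p) + -(toR (flr (m : ℕ) p) - (m : ℝ) • p)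
          + -(toR (flr (n : ℕ) p) - (n : ℝ) • p) by push_cast; rw [add_smul]; abel]
      refine (r1_add _ _).trans ((add_le_add ((r1_add _ _)) le_rfl).trans ?_)
      rw [r1_neg, r1_neg]
      linarith [flr_close ((m + n : ℕ) : ℝ) p, flr_close (m : ℝ) p, flr_close (n : ℝ) p]
    have h3 := hf.add (flr m p) (flr n p)
    have h4 := mul_le_mul_of_nonneg_left h2 hM
    simp only [hu]
    linarith [h1.2]
  have hbdd : BddBelow (Set.range fun n => u n / n) := ⟨0, by
    rintro _ ⟨n, rfl⟩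
    have := hf.nonneg (flr n p)
    simp only [hu]; positivity⟩
  refine ⟨hsub.lim, ?_⟩
  have h := hsub.tendsto_lim hbdd
  have h2 : Tendsto (fun n : ℕ => 6 * M / (n : ℝ)) atTop (𝓝 0) :=
    tendsto_const_div_atTop_nhds_zero_nat _
  have h3 := h.sub h2
  rw [sub_zero] at h3
  exact h3.congr fun n => by simp only [hu]; ring

lemma tendsto_norm (hf : Subadd f M) (p : ℝ × ℝ) :
    Tendsto (fun n : ℕ => f (flr n p) / n) atTop (𝓝 (norm f p)) := by
  obtain ⟨l, hl⟩ := hf.exists_lim p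
  rw [norm, hl.limUnder_eq]
  exact hl

/-- A bound on `f` at nearby points passes to the limit. -/
lemma norm_le_of (hf : Subadd f M) {p : ℝ × ℝ} {g : ℕ → ℝ} {l : ℝ}
    (hg : Tendsto g atTop (𝓝 l)) (h : ∀ᶠ n : ℕ in atTop, f (flr n p) / n ≤ g n) :
    norm f p ≤ l := le_of_tendsto_of_tendsto (hf.tendsto_norm p) hg h

lemma norm_nonneg (hf : Subadd f M) (p : ℝ × ℝ) : 0 ≤ norm f p :=
  ge_of_tendsto' (hf.tendsto_norm p) fun n => div_nonneg (hf.nonneg _) (Nat.cast_nonneg n)

lemma flr_lip (hf : Subadd f M) (n : ℕ) (p q : ℝ × ℝ) :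
    f (flr n p) / n ≤ f (flr n q) / n + M * r1 (p - q) + 4 * M / n := by
  rcases Nat.eq_zero_or_pos n with rfl | hn
  · simp only [Nat.cast_zero, div_zero]
    have := mul_nonneg hf.M_nonneg (r1_nonneg (p - q))
    linarith
  have hn' : (0 : ℝ) < n := Nat.cast_pos.2 hn
  have h1 := (abs_le.1 (hf.lip (flr n p) (flr n q))).2
  have h2 : r1 (toR (flr n p) - toR (flr n q)) ≤ (n : ℝ) * r1 (p - q) + 4 := by
    rw [show toR (flr (n : ℕ) p) - toR (flr (n : ℕ) q) = (n : ℝ) • (p - q) +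
      (toR (flr (n : ℕ) p) - (n : ℝ) • p) + -(toR (flr (n : ℕ) q) - (n : ℝ) • q) by
        rw [smul_sub]; abel]
    refine (r1_add _ _).trans ((add_le_add (r1_add _ _) le_rfl).trans ?_)
    rw [r1_neg, r1_smul, abs_of_pos hn']
    linarith [flr_close (n : ℝ) p, flr_close (n : ℝ) q]
  have h4 := mul_le_mul_of_nonneg_left h2 hf.M_nonneg
  rw [show f (flr n q) / n + M * r1 (p - q) + 4 * M / n =
    (f (flr n q) + M * ((n : ℝ) * r1 (p - q) + 4)) / n by field_simp; ring]
  exact div_le_div_of_nonneg_right (by linarith) hn'.le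

lemma norm_lip (hf : Subadd f M) (p q : ℝ × ℝ) : |norm f p - norm f q| ≤ M * r1 (p - q) := by
  have key : ∀ p q : ℝ × ℝ, norm f p ≤ norm f q + M * r1 (p - q) := fun p q => by
    refine hf.norm_le_of ?_ (Eventually.of_forall fun n => hf.flr_lip n p q)
    simpa using ((hf.tendsto_norm q).add_const (M * r1 (p - q))).add
      (tendsto_const_div_atTop_nhds_zero_nat (4 * M))
  have h1 := key p q
  have h2 := key q p
  rw [show q - p = -(p - q) by abel, r1_neg] at h2
  rw [abs_le]; constructor <;> linarith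

lemma norm_add (hf : Subadd f M) (p q : ℝ × ℝ) : norm f (p + q) ≤ norm f p + norm f q := by
  refine hf.norm_le_of (g := fun n : ℕ => f (flr n p) / n + f (flr n q) / n + 6 * M / n) ?_ ?_
  · simpa using ((hf.tendsto_norm p).add (hf.tendsto_norm q)).add
      (tendsto_const_div_atTop_nhds_zero_nat (6 * M))
  · refine Eventually.of_forall fun n => ?_
    have h1 := (abs_le.1 (hf.lip (flr n (p + q)) (flr n p + flr n q))).2
    have h2 : r1 (toR (flr n (p + q)) - toR (flr n p + flr n q)) ≤ 6 := by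
      rw [toR_add, show toR (flr (n : ℕ) (p + q)) - (toR (flr (n : ℕ) p) + toR (flr (n : ℕ) q)) =
        (toR (flr (n : ℕ) (p + q)) - (n : ℝ) • (p + q)) + -(toR (flr (n : ℕ) p) - (n : ℝ) • p)
          + -(toR (flr (n : ℕ) q) - (n : ℝ) • q) by rw [smul_add]; abel]
      refine (r1_add _ _).trans ((add_le_add (r1_add _ _) le_rfl).trans ?_)
      rw [r1_neg, r1_neg]
      linarith [flr_close (n : ℝ) (p + q), flr_close (n : ℝ) p, flr_close (n : ℝ) q]
    have h3 := hf.add (flr n p) (flr n q)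
    have h4 := mul_le_mul_of_nonneg_left h2 hf.M_nonneg
    rw [← add_div, ← add_div]
    exact div_le_div_of_nonneg_right (by linarith) (Nat.cast_nonneg n)

lemma norm_neg (hf : Subadd f M) (p : ℝ × ℝ) : norm f (-p) = norm f p := by
  have key : ∀ p : ℝ × ℝ, norm f (-p) ≤ norm f p := fun p => by
    refine hf.norm_le_of (g := fun n : ℕ => f (flr n p) / n + 4 * M / n) ?_ ?_
    · simpa using (hf.tendsto_norm p).add (tendsto_const_div_atTop_nhds_zero_nat (4 * M))
    · refine Eventually.of_forall fun n => ?_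
      have h1 := (abs_le.1 (hf.lip (flr n (-p)) (-flr n p))).2
      rw [hf.even] at h1
      have h2 : r1 (toR (flr n (-p)) - toR (-flr n p)) ≤ 4 := by
        rw [toR_neg, show toR (flr (n : ℕ) (-p)) - -toR (flr (n : ℕ) p) =
          (toR (flr (n : ℕ) (-p)) - (n : ℝ) • (-p)) + (toR (flr (n : ℕ) p) - (n : ℝ) • p) by
            rw [smul_neg]; abel]
        exact (r1_add _ _).trans (by linarith [flr_close (n : ℝ) (-p), flr_close (n : ℝ) p])
      have h4 := mul_le_mul_of_nonneg_left h2 hf.M_nonneg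
      rw [← add_div]
      exact div_le_div_of_nonneg_right (by linarith) (Nat.cast_nonneg n)
  refine le_antisymm (key p) ?_
  simpa using key (-p)

lemma norm_zero (hf : Subadd f M) : norm f 0 = 0 := by
  have h0 : Tendsto (fun n : ℕ => f (0, 0) / n) atTop (𝓝 0) :=
    tendsto_const_div_atTop_nhds_zero_nat _
  refine tendsto_nhds_unique (hf.tendsto_norm 0) (h0.congr fun n => ?_)
  simp [flr]

lemma norm_smul_nonneg (hf : Subadd f M) {t : ℝ} (ht : 0 ≤ t) (p : ℝ × ℝ) :
    norm f (t • p) = t * norm f p := by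
  rcases ht.eq_or_lt with h | ht'
  · rw [← h, zero_smul, hf.norm_zero, zero_mul]
  set m : ℕ → ℕ := fun n => ⌊t * n⌋₊
  have hm : Tendsto m atTop atTop :=
    tendsto_nat_floor_atTop.comp (tendsto_natCast_atTop_atTop.const_mul_atTop ht')
  have hquot : Tendsto (fun n : ℕ => (m n : ℝ) / n) atTop (𝓝 t) :=
    (tendsto_nat_floor_mul_div_atTop ht).comp tendsto_natCast_atTop_atTop
  have hprod : Tendsto (fun n : ℕ => (m n : ℝ) / n * (f (flr (m n) p) / (m n))) atTop
      (𝓝 (t * norm f p)) := hquot.mul ((hf.tendsto_norm p).comp hm)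
  refine tendsto_nhds_unique (hf.tendsto_norm (t • p)) ?_
  have hdiff : Tendsto (fun n : ℕ => f (flr n (t • p)) / n -
      (m n : ℝ) / n * (f (flr (m n) p) / (m n))) atTop (𝓝 0) := by
    refine squeeze_zero_norm' ?_ (tendsto_const_div_atTop_nhds_zero_nat (M * (r1 p + 4)))
    filter_upwards [hm.eventually_ge_atTop 1, eventually_ge_atTop 1] with n hmn hn
    have hn' : (0 : ℝ) < n := by exact_mod_cast hn
    have hm' : (0 : ℝ) < m n := by exact_mod_cast hmn
    have h1 : (m n : ℝ) / n * (f (flr (m n) p) / (m n)) = f (flr (m n) p) / n := by field_simp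
    rw [h1, div_sub_div_same, Real.norm_eq_abs, abs_div, abs_of_pos hn']
    refine div_le_div_of_nonneg_right ((hf.lip _ _).trans ?_) hn'.le
    refine mul_le_mul_of_nonneg_left ?_ hf.M_nonneg
    have h2 : |t * n - m n| ≤ 1 := by
      have := Nat.floor_le (show 0 ≤ t * n by positivity)
      have := Nat.lt_floor_add_one (t * n)
      rw [abs_le]; constructor <;> linarith
    rw [show toR (flr (n : ℕ) (t • p)) - toR (flr (m n : ℕ) p) = (t * n - m n) • p +
      (toR (flr (n : ℕ) (t • p)) - (n : ℝ) • (t • p)) + -(toR (flr (m n : ℕ) p) - (m n : ℝ) • p) by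
        rw [sub_smul, smul_smul, mul_comm (n : ℝ) t]; abel]
    refine (r1_add _ _).trans ((add_le_add (r1_add _ _) le_rfl).trans ?_)
    rw [r1_neg, r1_smul]
    have := mul_le_mul_of_nonneg_right h2 (r1_nonneg p)
    linarith [flr_close (n : ℝ) (t • p), flr_close ((m n : ℕ) : ℝ) p]
  have := hdiff.add hprod
  rw [zero_add] at this
  exact this.congr fun n => by ring

lemma norm_le (hf : Subadd f M) (p : ℝ × ℝ) : norm f p ≤ M * r1 p := by
  have := (abs_le.1 (hf.norm_lip p 0)).2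
  rw [hf.norm_zero, sub_zero, sub_zero] at this
  exact this

/-- Additivity on one pair gives linearity on the cone that it spans. -/
lemma norm_cone (hf : Subadd f M) {u v : ℝ × ℝ} (h : norm f (u + v) = norm f u + norm f v)
    {a b : ℝ} (ha : 0 ≤ a) (hb : 0 ≤ b) :
    norm f (a • u + b • v) = a * norm f u + b * norm f v := by
  have key : ∀ {u v : ℝ × ℝ}, norm f (u + v) = norm f u + norm f v → ∀ {a b : ℝ}, 0 ≤ b → b ≤ a →
      norm f (a • u + b • v) = a * norm f u + b * norm f v := by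
    intro u v h a b hb hba
    refine le_antisymm ((hf.norm_add _ _).trans_eq ?_) ?_
    · rw [hf.norm_smul_nonneg (hb.trans hba), hf.norm_smul_nonneg hb]
    · have h1 := hf.norm_add (a • u + b • v) ((a - b) • v)
      rw [hf.norm_smul_nonneg (sub_nonneg.2 hba),
        show a • u + b • v + (a - b) • v = a • (u + v) by
          rw [smul_add, sub_smul]; abel,
        hf.norm_smul_nonneg (hb.trans hba), h] at h1
      linarith
  rcases le_total b a with hab | hab
  · exact key h hb hab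
  · rw [add_comm (a • u), add_comm (a * _)]
    exact key (by rw [add_comm v u, h, add_comm]) ha hab

/-- Uniform closeness of `f` to its norm, relative to the ℓ¹ size. -/
lemma uniform (hf : Subadd f M) {ε : ℝ} (hε : 0 < ε) :
    ∃ R : ℕ, ∀ z : ℤ × ℤ, (R : ℝ) ≤ r1 (toR z) → |f z - norm f (toR z)| ≤ ε * r1 (toR z) := by
  have hM := hf.M_nonneg
  obtain ⟨K, hK⟩ := exists_nat_gt (8 * (M + 1) / ε)
  have hK' : (0 : ℝ) < K := lt_trans (by positivity) hK
  let node : ℤ × ℤ → ℝ × ℝ := fun i => ((i.1 : ℝ) / K, (i.2 : ℝ) / K)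
  let net : Finset (ℤ × ℤ) := Finset.Icc (-(K : ℤ) - 1) K ×ˢ Finset.Icc (-(K : ℤ) - 1) K
  have hev : ∀ᶠ n : ℕ in atTop, (4 * M / (n : ℝ) ≤ ε / 4) ∧
      ∀ i ∈ net, |f (flr n (node i)) / n - norm f (node i)| ≤ ε / 4 := by
    refine ((tendsto_const_div_atTop_nhds_zero_nat (4 * M)).eventually_le_const (by linarith)).and ?_
    refine (Finset.eventually_all net).2 fun i _ => ?_
    have := Metric.tendsto_nhds.1 (hf.tendsto_norm (node i)) (ε / 4) (by linarith)
    exact this.mono fun n hn => (Real.dist_eq _ _ ▸ hn).le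
  obtain ⟨R, hR⟩ := eventually_atTop.1 hev
  refine ⟨R + 1, fun z hz => ?_⟩
  set n : ℕ := (|z.1| + |z.2|).toNat
  have hn : (n : ℝ) = r1 (toR z) := by
    have : ((n : ℕ) : ℤ) = |z.1| + |z.2| :=
      Int.toNat_of_nonneg (add_nonneg (abs_nonneg _) (abs_nonneg _))
    have h := congrArg (fun x : ℤ => (x : ℝ)) this
    push_cast at h
    simpa [r1, toR] using h
  have hnR : R ≤ n := by
    have h : ((R + 1 : ℕ) : ℝ) ≤ n := hn ▸ hz
    exact_mod_cast (show (R : ℝ) ≤ n by push_cast at h; linarith)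
  have hn0 : (0 : ℝ) < n := by
    rw [hn]; push_cast at hz; linarith
  set p : ℝ × ℝ := ((z.1 : ℝ) / n, (z.2 : ℝ) / n)
  have hp : flr n p = z := by
    simp only [flr, p]
    rw [mul_div_cancel₀ _ hn0.ne', mul_div_cancel₀ _ hn0.ne', Int.floor_intCast, Int.floor_intCast]
  have hzp : toR z = (n : ℝ) • p := by
    refine Prod.ext ?_ ?_ <;>
      simp only [toR, p, Prod.smul_fst, Prod.smul_snd, smul_eq_mul] <;>
      rw [mul_div_cancel₀ _ hn0.ne']
  set i : ℤ × ℤ := flr K p
  have hbd : ∀ x : ℝ, |x| ≤ 1 → ⌊(K : ℝ) * x⌋ ∈ Finset.Icc (-(K : ℤ) - 1) (K : ℤ) := by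
    intro x hx
    obtain ⟨h1, h2⟩ := abs_le.1 hx
    rw [Finset.mem_Icc]
    refine ⟨Int.le_floor.2 ?_, ?_⟩
    · push_cast; nlinarith
    · have : ((⌊(K : ℝ) * x⌋ : ℤ) : ℝ) ≤ (K : ℝ) :=
        (Int.floor_le _).trans (by nlinarith)
      exact_mod_cast this
  have hp1 : |p.1| + |p.2| = 1 := by
    simp only [p, abs_div, abs_of_pos hn0, ← add_div]
    rw [hn]
    exact div_self (by simpa [r1, toR] using (hn ▸ hn0).ne')
  have hi : i ∈ net := Finset.mem_product.2
    ⟨hbd _ (by linarith [abs_nonneg p.2]), hbd _ (by linarith [abs_nonneg p.1])⟩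
  have hdist : r1 (p - node i) ≤ 2 / K := by
    have h := flr_close (K : ℝ) p
    rw [show p - node i = -((1 / (K : ℝ)) • (toR i - (K : ℝ) • p)) by
      refine Prod.ext ?_ ?_ <;>
        simp only [node, toR, Prod.fst_sub, Prod.snd_sub, Prod.fst_neg, Prod.snd_neg, Prod.smul_fst,
          Prod.smul_snd, smul_eq_mul] <;> field_simp <;> ring,
      r1_neg, r1_smul, abs_of_pos (by positivity : (0 : ℝ) < 1 / K), one_div_mul_eq_div]
    exact div_le_div_of_nonneg_right h hK'.le
  obtain ⟨h4, hnet⟩ := hR n hnR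
  have a1 := hf.flr_lip n p (node i)
  have a2 := hf.flr_lip n (node i) p
  have a3 := hf.norm_lip p (node i)
  rw [show node i - p = -(p - node i) by abel, r1_neg] at a2
  have a4 := abs_le.1 (hnet i hi)
  have a5 : M * r1 (p - node i) ≤ ε / 4 := by
    refine (mul_le_mul_of_nonneg_left hdist hM).trans ?_
    rw [← mul_div_assoc, div_le_iff₀ hK']
    rw [div_lt_iff₀ hε] at hK
    nlinarith
  rw [hp] at a1 a2
  rw [hzp, hf.norm_smul_nonneg hn0.le, r1_smul, abs_of_pos hn0,
    show r1 p = 1 from hp1, mul_one]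
  have a6 : |f z / n - norm f p| ≤ ε := by
    obtain ⟨b1, b2⟩ := abs_le.1 a3
    rw [abs_le]; constructor <;> linarith [a4.1, a4.2]
  calc |f z - n * norm f p| = n * |f z / n - norm f p| := by
        rw [← abs_of_pos hn0, ← abs_mul, abs_of_pos hn0]
        congr 1; field_simp
    _ ≤ n * ε := mul_le_mul_of_nonneg_left a6 hn0.le
    _ = ε * n := mul_comm _ _

end Subadd

end Vale.Agent.P158
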