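import Vale.Agent.P158.MuVar
import Vale.Agent.P158.MuNorm
import Vale.Agent.P158.Meas
import Vale.Agent.P158.BasicLaw

/-!
The limit norm of first-passage percolation and the convergence in probability of the passage
times, uniformly in boxes.
-/

open MeasureTheory Filter Topology
open scoped ENNReal

namespace Vale.Agent.P158

/-- The expected passage time from the origin. -/
noncomputable def muT (G : Measure ℝ) (z : V) : ℝ := ∫ t, T t 0 z ∂law G

/-- The time constant. -/
noncomputable def mu (G : Measure ℝ) (p : ℝ × ℝ) : ℝ := Subadd.norm (muT G) p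

/-- The vertices at sup-distance at most `n` from the origin. -/
def InBox (n : ℕ) (x : V) : Prop := |x.1| ≤ (n : ℤ) ∧ |x.2| ≤ (n : ℤ)

variable {G : Measure ℝ} {M κ : ℝ}

lemma exists_shortBound (hG : LawOK G M) : ∃ κ : ℝ, ShortBound G κ := by
  obtain ⟨κ, hκ, h⟩ := short_walk_prob_pow hG
  exact ⟨κ, hκ, h⟩

lemma r1_toR (x : V) : r1 (toR x) = ((|x.1| + |x.2| : ℤ) : ℝ) := by simp [r1, toR]

lemma integral_T_shift (hG : LawOK G M) (v x y : V) :
    ∫ t, T t (x + v) (y + v) ∂law G = ∫ t, T t x y ∂law G := by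
  have := hG.prob
  have h := measurePreserving_shift (G := G) v
  calc ∫ t, T t (x + v) (y + v) ∂law G = ∫ t, T (shift v t) x y ∂law G := by
        simp only [T_shift]
    _ = ∫ s, T s x y ∂(law G).map (shift v) :=
        (integral_map h.measurable.aemeasurable (measurable_T' x y).aestronglyMeasurable).symm
    _ = _ := by rw [h.map_eq]

lemma mean_T (hG : LawOK G M) (x y : V) : ∫ t, T t x y ∂law G = muT G (y - x) := by
  have := integral_T_shift hG x 0 (y - x)
  simpa [muT] using this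

lemma T_bdd (hG : LawOK G M) (x y : V) :
    ∀ᵐ t ∂law G, |T t x y| ≤ M * r1 (toR x - toR y) := by
  filter_upwards [ae_inRange hG] with t ht
  rw [abs_of_nonneg (T_nonneg ht.nonneg x y)]
  refine (T_le_l1 ht x y).trans (le_of_eq ?_)
  simp [r1, toR]

lemma integrable_T (hG : LawOK G M) (x y : V) : Integrable (fun t => T t x y) (law G) := by
  have := hG.prob
  have : IsProbabilityMeasure (law G) := by unfold law; infer_instance
  exact Integrable.of_bound (measurable_T' x y).aestronglyMeasurable _ (T_bdd hG x y)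

theorem muT_subadd (hG : LawOK G M) : Subadd (muT G) M := by
  have := hG.prob
  have : IsProbabilityMeasure (law G) := by unfold law; infer_instance
  refine ⟨fun z => integral_nonneg_of_ae ((ae_inRange hG).mono fun t ht => T_nonneg ht.nonneg 0 z),
    fun z => ?_, fun x y => ?_, fun z => ?_⟩
  · refine (integral_mono_ae (integrable_T hG 0 z) (integrable_const (M * r1 (toR z)))
      ((ae_inRange hG).mono fun t ht => (T_le_l1 ht 0 z).trans (le_of_eq ?_))).trans_eq ?_
    · simp [r1, toR]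
    · simp
  · have h : muT G y = ∫ t, T t x (x + y) ∂law G := by rw [mean_T hG]; simp
    rw [h, muT, muT, ← integral_add (integrable_T hG _ _) (integrable_T hG _ _)]
    exact integral_mono_ae (integrable_T hG _ _) ((integrable_T hG _ _).add (integrable_T hG _ _))
      ((ae_inRange hG).mono fun t ht => T_triangle ht.nonneg 0 x (x + y))
  · calc muT G (-z) = ∫ t, T t z 0 ∂law G := by rw [mean_T hG]; simp
      _ = muT G z := by simp only [muT, T_comm _ z 0]

lemma mu_nonneg (hG : LawOK G M) (p : ℝ × ℝ) : 0 ≤ mu G p := (muT_subadd hG).norm_nonneg p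

lemma mu_add_le (hG : LawOK G M) (p q : ℝ × ℝ) : mu G (p + q) ≤ mu G p + mu G q :=
  (muT_subadd hG).norm_add p q

lemma mu_neg (hG : LawOK G M) (p : ℝ × ℝ) : mu G (-p) = mu G p := (muT_subadd hG).norm_neg p

lemma mu_zero (hG : LawOK G M) : mu G 0 = 0 := (muT_subadd hG).norm_zero

lemma mu_smul (hG : LawOK G M) {c : ℝ} (hc : 0 ≤ c) (p : ℝ × ℝ) : mu G (c • p) = c * mu G p :=
  (muT_subadd hG).norm_smul_nonneg hc p

lemma mu_smul_abs (hG : LawOK G M) (c : ℝ) (p : ℝ × ℝ) : mu G (c • p) = |c| * mu G p := by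
  rcases le_total 0 c with h | h
  · rw [abs_of_nonneg h, mu_smul hG h]
  · rw [abs_of_nonpos h, ← mu_smul hG (neg_nonneg.2 h), neg_smul, mu_neg hG]

lemma mu_lip (hG : LawOK G M) (p q : ℝ × ℝ) : |mu G p - mu G q| ≤ M * r1 (p - q) :=
  (muT_subadd hG).norm_lip p q

lemma mu_le (hG : LawOK G M) (p : ℝ × ℝ) : mu G p ≤ M * r1 p := (muT_subadd hG).norm_le p

lemma mu_linear_cone (hG : LawOK G M) {u v : ℝ × ℝ} (h : mu G (u + v) = mu G u + mu G v)
    {a b : ℝ} (ha : 0 ≤ a) (hb : 0 ≤ b) : mu G (a • u + b • v) = a * mu G u + b * mu G v :=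
  (muT_subadd hG).norm_cone h ha hb

lemma muT_act (hG : LawOK G M) (σ : LatSym) (h0 : σ.vmap 0 = 0) (z : V) :
    muT G (σ.vmap z) = muT G z := by
  have := hG.prob
  have h := σ.measurePreserving_act (G := G)
  symm
  calc muT G z = ∫ s, T s 0 z ∂(law G).map σ.act := by rw [h.map_eq]; rfl
    _ = ∫ t, T (σ.act t) 0 z ∂law G :=
        integral_map h.measurable.aemeasurable (measurable_T' 0 z).aestronglyMeasurable
    _ = muT G (σ.vmap z) := by simp only [σ.T_act, h0, muT]

lemma mu_eq_of_muT (hG : LawOK G M) {φ : ℝ × ℝ → ℝ × ℝ} {ψ : V → V} {p : ℝ × ℝ}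
    (hψ : ∀ z, muT G (ψ z) = muT G z)
    (hclose : ∀ n : ℕ, r1 (toR (flr n (φ p)) - toR (ψ (flr n p))) ≤ 4) :
    mu G (φ p) = mu G p := by
  have hf := muT_subadd hG
  refine tendsto_nhds_unique (hf.tendsto_norm (φ p)) ?_
  have hdiff : Tendsto (fun n : ℕ => muT G (flr n (φ p)) / n - muT G (flr n p) / n) atTop (𝓝 0) := by
    refine squeeze_zero_norm' ?_ (tendsto_const_div_atTop_nhds_zero_nat (4 * M))
    refine Eventually.of_forall fun n => ?_
    rw [← hψ (flr n p), div_sub_div_same, Real.norm_eq_abs, abs_div, Nat.abs_cast]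
    refine div_le_div_of_nonneg_right ((hf.lip _ _).trans ?_) (Nat.cast_nonneg n)
    rw [mul_comm 4 M]
    exact mul_le_mul_of_nonneg_left (hclose n) hG.M_nonneg
  simpa [mu] using hdiff.add (hf.tendsto_norm p)

lemma mu_swap (hG : LawOK G M) (p : ℝ × ℝ) : mu G (p.2, p.1) = mu G p :=
  mu_eq_of_muT hG (φ := fun q => (q.2, q.1)) (ψ := fun z => (z.2, z.1))
    (fun z => by simpa using muT_act hG swapSym (by simp) z)
    (fun n => by simp [flr, toR, r1])

lemma mu_flip (hG : LawOK G M) (p : ℝ × ℝ) : mu G (p.1, -p.2) = mu G p :=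
  mu_eq_of_muT hG (φ := fun q => (q.1, -q.2)) (ψ := fun z => (z.1, -z.2))
    (fun z => by simpa using muT_act hG flipSym (by simp) z)
    (fun n => by
      have h1 := Int.floor_le ((n : ℝ) * p.2)
      have h2 := Int.lt_floor_add_one ((n : ℝ) * p.2)
      have h3 := Int.floor_le ((n : ℝ) * -p.2)
      have h4 := Int.lt_floor_add_one ((n : ℝ) * -p.2)
      simp only [flr, toR, r1, Prod.fst_sub, Prod.snd_sub, sub_self, abs_zero, zero_add,
        Int.cast_neg, sub_neg_eq_add]
      rw [abs_le]; constructor <;> linarith)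

/-- Self-avoiding walks of length at least `m` from `x` are rarely short. -/
lemma short_from_le (hS : ShortBound G κ) (x : V) (m : ℕ) :
    law G (⋃ i : ℕ, shortSet κ x (m + i)) ≤ 2 * (1 / 2 : ℝ≥0∞) ^ m := by
  refine (measure_iUnion_le _).trans ?_
  refine (ENNReal.tsum_le_tsum fun i => hS.2 x (m + i)).trans_eq ?_
  simp only [pow_add]
  rw [ENNReal.tsum_mul_left, ENNReal.tsum_geometric, mul_comm (2 : ℝ≥0∞)]
  congr 1
  rw [one_div, ENNReal.one_sub_inv_two, inv_inv]

lemma le_T_of_not_short {t : Conf} (h0 : ∀ e, 0 ≤ t e) (hκ : 0 ≤ κ) {x y : V} {m : ℕ}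
    (hm : (m : ℤ) ≤ |x.1 - y.1| + |x.2 - y.2|) (h : t ∉ ⋃ i : ℕ, shortSet κ x (m + i)) :
    κ * m ≤ T t x y := by
  refine le_T fun p => le_trans ?_ (plen_bypass_le h0 p)
  have hlen : ∀ {a b : V} (q : grid.Walk a b), |a.1 - b.1| + |a.2 - b.2| ≤ (q.length : ℤ) := by
    intro a b q
    induction q with
    | nil => simp
    | @cons a b c hab q ih =>
      have h1 : |a.1 - b.1| + |a.2 - b.2| = 1 := hab
      have := abs_sub_le a.1 b.1 c.1
      have := abs_sub_le a.2 b.2 c.2
      simp only [SimpleGraph.Walk.length_cons]; push_cast; omega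
  have hl := hm.trans (hlen p.bypass)
  obtain ⟨i, hi⟩ := Nat.exists_eq_add_of_le (show m ≤ p.bypass.length by omega)
  simp only [Set.mem_iUnion, not_exists, shortSet, Set.mem_ofPred_eq, not_and, not_lt] at h
  refine le_trans ?_ (h i y p.bypass p.bypass_isPath hi)
  rw [← hi]
  exact mul_le_mul_of_nonneg_left (by exact_mod_cast (show m ≤ p.bypass.length by omega)) hκ

/-- The time constant is positive. -/
theorem mu_lower (hG : LawOK G M) (hS : ShortBound G κ) (p : ℝ × ℝ) : κ * r1 p ≤ mu G p := by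
  have := hG.prob
  have : IsProbabilityMeasure (law G) := by unfold law; infer_instance
  have hκ := hS.1.le
  have hlow : ∀ z : V, κ * r1 (toR z) - 2 * κ ≤ muT G z := by
    intro z
    obtain ⟨m, hm⟩ : ∃ m : ℕ, (m : ℤ) = |z.1| + |z.2| :=
      ⟨(|z.1| + |z.2|).toNat, Int.toNat_of_nonneg (add_nonneg (abs_nonneg _) (abs_nonneg _))⟩
    set A := ⋃ i : ℕ, shortSet κ (0 : V) (m + i) with hA
    have hmA : MeasurableSet A := MeasurableSet.iUnion fun i => measurableSet_shortSet κ _ _
    have h2 : ∫ t, κ * m * (1 - A.indicator (fun _ => (1 : ℝ)) t) ∂law G ≤ muT G z := by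
      refine integral_mono_ae ?_ (integrable_T hG _ _) ((ae_inRange hG).mono fun t ht => ?_)
      · exact (((integrable_const (1 : ℝ)).sub ((integrable_const (1 : ℝ)).indicator hmA)).const_mul _)
      · by_cases h : t ∈ A
        · simp [h, T_nonneg ht.nonneg]
        · have := le_T_of_not_short ht.nonneg hκ (y := z) (by simp [hm]) h
          simpa [h] using this
    rw [integral_const_mul, integral_sub (integrable_const _) ((integrable_const _).indicator hmA),
      integral_indicator_const _ hmA] at h2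
    simp only [integral_const, probReal_univ, smul_eq_mul, mul_one] at h2
    have h3 : (law G).real A ≤ 2 * (1 / 2 : ℝ) ^ m := by
      have := ENNReal.toReal_mono (by simp [ENNReal.mul_eq_top]) (short_from_le hS (0 : V) m)
      simpa [measureReal_def, ENNReal.toReal_pow] using this
    have h4 : (m : ℝ) * (1 / 2 : ℝ) ^ m ≤ 1 := by
      rw [one_div, inv_pow, ← div_eq_mul_inv, div_le_one (by positivity)]
      exact_mod_cast (Nat.lt_two_pow_self).le
    rw [r1_toR, ← hm]; push_cast
    have h5 := mul_le_mul_of_nonneg_left h3 (mul_nonneg hκ (Nat.cast_nonneg m))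
    have h6 := mul_le_mul_of_nonneg_left h4 hκ
    linarith
  refine le_of_tendsto_of_tendsto (f := fun n : ℕ => κ * r1 p - 4 * κ / n) ?_
    ((muT_subadd hG).tendsto_norm p) ?_
  · simpa using (tendsto_const_nhds (x := κ * r1 p)).sub
      (tendsto_const_div_atTop_nhds_zero_nat (4 * κ))
  · filter_upwards [eventually_ge_atTop 1] with n hn
    have hn' : (0 : ℝ) < n := by exact_mod_cast hn
    have h := r1_add (toR (flr n p)) (-(toR (flr n p) - (n : ℝ) • p))
    rw [show toR (flr n p) + -(toR (flr n p) - (n : ℝ) • p) = (n : ℝ) • p by abel, r1_neg, r1_smul,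
      abs_of_pos hn'] at h
    have hc := mul_le_mul_of_nonneg_left (h.trans (by linarith [flr_close (n : ℝ) p] :
      r1 (toR (flr n p)) + r1 (toR (flr n p) - (n : ℝ) • p) ≤ r1 (toR (flr n p)) + 2)) hκ
    show κ * r1 p - 4 * κ / n ≤ muT G (flr n p) / n
    rw [le_div_iff₀ hn', sub_mul, div_mul_cancel₀ _ hn'.ne']
    linarith [hlow (flr n p)]

lemma mu_pos (hG : LawOK G M) (hS : ShortBound G κ) {p : ℝ × ℝ} (hp : p ≠ 0) : 0 < mu G p := by
  refine lt_of_lt_of_le (mul_pos hS.1 ?_) (mu_lower hG hS p)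
  rcases eq_or_lt_of_le (r1_nonneg p) with h | h
  · exact absurd (Prod.ext (abs_eq_zero.1 (by unfold r1 at h; linarith [abs_nonneg p.1, abs_nonneg p.2]))
      (abs_eq_zero.1 (by unfold r1 at h; linarith [abs_nonneg p.1, abs_nonneg p.2]))) hp
  · exact h

lemma r1_flr_sub (n : ℕ) (p q : ℝ × ℝ) :
    r1 (toR (flr n q - flr n p) - toR (flr n (q - p))) ≤ 6 := by
  rw [toR_sub, show toR (flr (n : ℕ) q) - toR (flr (n : ℕ) p) - toR (flr (n : ℕ) (q - p)) =
    (toR (flr (n : ℕ) q) - (n : ℝ) • q) + -(toR (flr (n : ℕ) p) - (n : ℝ) • p) +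
      -(toR (flr (n : ℕ) (q - p)) - (n : ℝ) • (q - p)) by rw [smul_sub]; abel]
  refine (r1_add _ _).trans ((add_le_add (r1_add _ _) le_rfl).trans ?_)
  rw [r1_neg, r1_neg]
  linarith [flr_close (n : ℝ) q, flr_close (n : ℝ) p, flr_close (n : ℝ) (q - p)]

/-- Convergence in probability along one pair of directions. -/
theorem shape_pair (hG : LawOK G M) (hS : ShortBound G κ) (p q : ℝ × ℝ) {ε δ : ℝ} (hε : 0 < ε)
    (hδ : 0 < δ) : ∀ᶠ n : ℕ in atTop,
    law G {t | ε * n < |T t (flr n p) (flr n q) - n * mu G (q - p)|} ≤ ENNReal.ofReal δ := by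
  have := hG.prob
  have : IsProbabilityMeasure (law G) := by unfold law; infer_instance
  have hf := muT_subadd hG
  have hM := hG.M_nonneg
  have hmean : Tendsto (fun n : ℕ => muT G (flr n q - flr n p) / n) atTop (𝓝 (mu G (q - p))) := by
    have h1 : Tendsto (fun n : ℕ => muT G (flr n (q - p)) / n) atTop (𝓝 (mu G (q - p))) :=
      hf.tendsto_norm _
    have h2 : Tendsto (fun n : ℕ => muT G (flr n q - flr n p) / n - muT G (flr n (q - p)) / n)
        atTop (𝓝 0) := by
      refine squeeze_zero_norm' ?_ (tendsto_const_div_atTop_nhds_zero_nat (6 * M))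
      filter_upwards [eventually_ge_atTop 1] with n hn
      rw [div_sub_div_same, Real.norm_eq_abs, abs_div, Nat.abs_cast]
      refine div_le_div_of_nonneg_right ((hf.lip _ _).trans ?_) (Nat.cast_nonneg n)
      rw [mul_comm 6 M]
      exact mul_le_mul_of_nonneg_left (r1_flr_sub n p q) hM
    simpa using h2.add h1
  set D := r1 (q - p) + 4 with hD
  set K := M ^ 2 * ((M * D + 1) / κ + 2) with hK
  have hsmall : ∀ᶠ n : ℕ in atTop, K / ((ε / 2) ^ 2 * n) ≤ δ := by
    have : Tendsto (fun n : ℕ => K / (ε / 2) ^ 2 / n) atTop (𝓝 0) :=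
      tendsto_const_div_atTop_nhds_zero_nat _
    exact (this.eventually_le_const hδ).mono fun n hn => by rwa [← div_div]
  have hclose := Metric.tendsto_nhds.1 hmean (ε / 2) (half_pos hε)
  filter_upwards [hsmall, hclose, eventually_ge_atTop 1] with n hn1 hn2 hn3
  have hn' : (1 : ℝ) ≤ n := by exact_mod_cast hn3
  set a := flr n p with ha
  set b := flr n q with hb
  set m := muT G (b - a)
  have hm : ∫ t, T t a b ∂law G = m := mean_T hG a b
  rw [Real.dist_eq, show m / n - mu G (q - p) = (m - n * mu G (q - p)) / n by field_simp,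
    abs_div, Nat.abs_cast, div_lt_iff₀ (by linarith : (0 : ℝ) < n)] at hn2
  have hd : ((|a.1 - b.1| + |a.2 - b.2| : ℤ) : ℝ) ≤ D * n := by
    have h1 := r1_add (toR a - (n : ℝ) • p) (-(toR b - (n : ℝ) • q) + (n : ℝ) • (p - q))
    have h2 := r1_add (-(toR b - (n : ℝ) • q)) ((n : ℝ) • (p - q))
    rw [r1_neg, r1_smul, Nat.abs_cast, show p - q = -(q - p) by abel, r1_neg] at h2
    rw [show toR a - (n : ℝ) • p + (-(toR b - (n : ℝ) • q) + (n : ℝ) • (p - q)) = toR a - toR b by
      rw [smul_sub]; abel] at h1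
    rw [show p - q = -(q - p) by abel] at h1
    have e : r1 (toR a - toR b) = ((|a.1 - b.1| + |a.2 - b.2| : ℤ) : ℝ) := by simp [r1, toR]
    rw [hD, ← e]
    have := flr_close (n : ℝ) p
    have := flr_close (n : ℝ) q
    rw [← ha, ← hb] at *
    linarith
  have hvar : ∫ t, (T t a b - m) ^ 2 ∂law G ≤ K * n := by
    rw [← hm]
    refine (var_T_le hG hS a b).trans ?_
    rw [hK, mul_assoc]
    refine mul_le_mul_of_nonneg_left ?_ (sq_nonneg M)
    rw [add_mul, div_mul_eq_mul_div]
    refine add_le_add (div_le_div_of_nonneg_right ?_ hS.1.le) (by linarith)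
    have := mul_le_mul_of_nonneg_left hd hM
    linarith
  have hint : Integrable (fun t => (T t a b - m) ^ 2) (law G) := by
    refine Integrable.of_bound (((measurable_T' a b).sub_const m).pow_const 2).aestronglyMeasurable
      ((M * r1 (toR a - toR b) + |m|) ^ 2) ((T_bdd hG a b).mono fun t ht => ?_)
    rw [norm_pow, Real.norm_eq_abs]
    exact pow_le_pow_left₀ (abs_nonneg _) ((abs_sub _ _).trans (by linarith)) 2
  have hch := mul_meas_ge_le_integral_of_nonneg (Eventually.of_forall fun t => sq_nonneg _) hint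
    ((ε / 2 * n) ^ 2)
  have hsub : {t : Conf | ε * n < |T t a b - n * mu G (q - p)|} ⊆
      {t | (ε / 2 * n) ^ 2 ≤ (T t a b - m) ^ 2} := fun t ht => by
    simp only [Set.mem_ofPred_eq] at ht ⊢
    rw [← sq_abs (T t a b - m)]
    refine pow_le_pow_left₀ (by positivity) ?_ 2
    have := abs_sub_le (T t a b) m (n * mu G (q - p))
    linarith
  refine (measure_mono hsub).trans ?_
  rw [← ofReal_measureReal (measure_ne_top _ _)]
  refine ENNReal.ofReal_le_ofReal (le_trans ?_ hn1)
  rw [le_div_iff₀ (by positivity)]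
  have := hch.trans hvar
  nlinarith [this]

lemma abs_T_sub_T {t : Conf} (h : InRange M t) (x y a b : V) :
    |T t x y - T t a b| ≤ M * (r1 (toR x - toR a) + r1 (toR y - toR b)) := by
  have e : ∀ u v : V, ((|u.1 - v.1| + |u.2 - v.2| : ℤ) : ℝ) = r1 (toR u - toR v) := fun u v => by
    simp [r1, toR]
  have h1 := (T_lip h.nonneg x y b).trans (T_le_l1 h y b)
  have h2 := (T_lip h.nonneg b x a).trans (T_le_l1 h x a)
  rw [T_comm t b x, T_comm t b a, e] at h2
  rw [e] at h1
  have := abs_sub_le (T t x y) (T t x b) (T t a b)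
  linarith

/-- Convergence in probability, uniformly over the pairs of vertices of a box. -/
theorem shape_box (hG : LawOK G M) (hS : ShortBound G κ) (C : ℕ) {ε δ : ℝ} (hε : 0 < ε)
    (hδ : 0 < δ) : ∀ᶠ n : ℕ in atTop,
    law G {t | ∃ x y : V, InBox (C * n) x ∧ InBox (C * n) y ∧
      ε * n < |T t x y - mu G (toR y - toR x)|} ≤ ENNReal.ofReal δ := by
  have hM := hG.M_nonneg
  obtain ⟨K, hK⟩ := exists_nat_gt (32 * (M + 1) / ε)
  have hK' : (0 : ℝ) < K := lt_trans (by positivity) hK
  let node : V → ℝ × ℝ := fun i => ((i.1 : ℝ) / K, (i.2 : ℝ) / K)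
  let net : Finset (V × V) :=
    (Finset.Icc (-((C * K : ℕ) : ℤ) - 1) (C * K : ℕ) ×ˢ
        Finset.Icc (-((C * K : ℕ) : ℤ) - 1) (C * K : ℕ)) ×ˢ
      (Finset.Icc (-((C * K : ℕ) : ℤ) - 1) (C * K : ℕ) ×ˢ
        Finset.Icc (-((C * K : ℕ) : ℤ) - 1) (C * K : ℕ))
  have hev : ∀ᶠ n : ℕ in atTop, (8 * M / (n : ℝ) ≤ ε / 4 ∧ 1 ≤ n) ∧ ∀ ij ∈ net,
      law G {t | ε / 4 * n < |T t (flr n (node ij.1)) (flr n (node ij.2)) -
        n * mu G (node ij.2 - node ij.1)|} ≤ ENNReal.ofReal (δ / (net.card + 1)) := by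
    refine (((tendsto_const_div_atTop_nhds_zero_nat (8 * M)).eventually_le_const
      (by linarith)).and (eventually_ge_atTop 1)).and ?_
    exact (Finset.eventually_all net).2 fun ij _ =>
      shape_pair hG hS _ _ (by linarith) (by positivity)
  refine hev.mono fun n hn => ?_
  obtain ⟨⟨hn1, hn2⟩, hnet⟩ := hn
  have hn' : (0 : ℝ) < n := by exact_mod_cast hn2
  set U := ⋃ ij ∈ net, {t : Conf | ε / 4 * n < |T t (flr n (node ij.1)) (flr n (node ij.2)) -
        n * mu G (node ij.2 - node ij.1)|} with hU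
  have hbad : law G {t | ¬ InRange M t} = 0 := ae_iff.1 (ae_inRange hG)
  refine (measure_mono (t := U ∪ {t | ¬ InRange M t}) ?_).trans ?_
  · rintro t ⟨x, y, hx, hy, hxy⟩
    by_cases ht : InRange M t
    swap
    · exact Or.inr ht
    refine Or.inl ?_
    have hnode : ∀ z : V, InBox (C * n) z →
        ∃ i ∈ (Finset.Icc (-((C * K : ℕ) : ℤ) - 1) (C * K : ℕ) ×ˢ
          Finset.Icc (-((C * K : ℕ) : ℤ) - 1) (C * K : ℕ)),
          r1 (toR z - (n : ℝ) • node i) ≤ 2 * n / K ∧
            r1 (toR z - toR (flr n (node i))) ≤ 2 * n / K + 2 := by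
      intro z hz
      set w : ℝ × ℝ := ((z.1 : ℝ) / n, (z.2 : ℝ) / n) with hw
      have hwz : toR z = (n : ℝ) • w := by
        refine Prod.ext ?_ ?_ <;>
          simp only [toR, w, Prod.smul_fst, Prod.smul_snd, smul_eq_mul] <;>
          rw [mul_div_cancel₀ _ hn'.ne']
      have hbd : ∀ u : ℤ, |u| ≤ ((C * n : ℕ) : ℤ) →
          ⌊(K : ℝ) * ((u : ℝ) / n)⌋ ∈ Finset.Icc (-((C * K : ℕ) : ℤ) - 1) (C * K : ℕ) := by
        intro u hu
        have hu' : |(u : ℝ)| ≤ (C : ℝ) * n := by exact_mod_cast hu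
        have h1 : |(K : ℝ) * ((u : ℝ) / n)| ≤ (C : ℝ) * K := by
          rw [abs_mul, abs_div, Nat.abs_cast, Nat.abs_cast, ← mul_div_assoc, div_le_iff₀ hn']
          have := mul_le_mul_of_nonneg_left hu' hK'.le
          linarith
        obtain ⟨a1, a2⟩ := abs_le.1 h1
        rw [Finset.mem_Icc]
        refine ⟨Int.le_floor.2 ?_, ?_⟩
        · push_cast; linarith
        · rw [← Int.cast_le (R := ℝ)]; push_cast
          exact (Int.floor_le _).trans a2
      refine ⟨flr K w, Finset.mem_product.2 ⟨hbd _ hz.1, hbd _ hz.2⟩, ?_⟩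
      have h2 : r1 (toR z - (n : ℝ) • node (flr K w)) ≤ 2 * n / K := by
        rw [hwz, ← smul_sub, r1_smul, Nat.abs_cast, show w - node (flr K w) =
          -((1 / (K : ℝ)) • (toR (flr K w) - (K : ℝ) • w)) by
            refine Prod.ext ?_ ?_ <;>
              simp only [node, toR, Prod.fst_sub, Prod.snd_sub, Prod.fst_neg, Prod.snd_neg,
                Prod.smul_fst, Prod.smul_snd, smul_eq_mul] <;> field_simp <;> ring,
          r1_neg, r1_smul, abs_of_pos (by positivity : (0 : ℝ) < 1 / K)]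
        refine (mul_le_mul_of_nonneg_left (mul_le_mul_of_nonneg_left (flr_close _ w)
          (by positivity)) hn'.le).trans (le_of_eq ?_)
        ring
      refine ⟨h2, ?_⟩
      rw [show toR z - toR (flr (n : ℕ) (node (flr K w))) = (toR z - (n : ℝ) • node (flr K w)) +
        -(toR (flr (n : ℕ) (node (flr K w))) - (n : ℝ) • node (flr K w)) by abel]
      refine (r1_add _ _).trans (add_le_add h2 ?_)
      rw [r1_neg]; exact flr_close _ _
    obtain ⟨i, hi, i1, i2⟩ := hnode x hx
    obtain ⟨j, hj, j1, j2⟩ := hnode y hy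
    rw [hU]
    simp only [Set.mem_iUnion, Set.mem_ofPred_eq]
    refine ⟨(i, j), Finset.mem_product.2 ⟨hi, hj⟩, ?_⟩
    simp only [Set.mem_ofPred_eq] at hxy ⊢
    have a1 := abs_T_sub_T ht x y (flr n (node i)) (flr n (node j))
    have a2 := mu_lip hG (toR y - toR x) ((n : ℝ) • (node j - node i))
    rw [mu_smul hG hn'.le] at a2
    have a3 : r1 (toR y - toR x - (n : ℝ) • (node j - node i)) ≤ 2 * n / K + 2 * n / K := by
      rw [show toR y - toR x - (n : ℝ) • (node j - node i) = (toR y - (n : ℝ) • node j) +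
        -(toR x - (n : ℝ) • node i) by rw [smul_sub]; abel]
      exact (r1_add _ _).trans (add_le_add j1 (by rw [r1_neg]; exact i1))
    have a4 : M * (2 * n / K) ≤ ε / 16 * n := by
      rw [← mul_div_assoc, div_le_iff₀ hK']
      rw [div_lt_iff₀ hε] at hK
      nlinarith
    rw [div_le_iff₀ hn'] at hn1
    have b1 := a1.trans (mul_le_mul_of_nonneg_left (add_le_add i2 j2) hM)
    have b2 := a2.trans (mul_le_mul_of_nonneg_left a3 hM)
    have c1 := abs_sub_le (T t x y) (T t (flr n (node i)) (flr n (node j)))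
      (n * mu G (node j - node i))
    have c2 := abs_sub_le (T t x y) (n * mu G (node j - node i)) (mu G (toR y - toR x))
    rw [abs_sub_comm (↑n * mu G (node j - node i))] at c2
    linarith
  · refine (measure_union_le _ _).trans ?_
    rw [hbad, add_zero]
    refine (measure_biUnion_finset_le _ _).trans ((Finset.sum_le_sum hnet).trans ?_)
    rw [Finset.sum_const, nsmul_eq_mul, ← ENNReal.ofReal_natCast,
      ← ENNReal.ofReal_mul (Nat.cast_nonneg _)]
    refine ENNReal.ofReal_le_ofReal ?_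
    rw [mul_div_assoc', div_le_iff₀ (by positivity)]
    nlinarith

end Vale.Agent.P158
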