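import Vale.Agent.P158.Spec3
import Vale.Agent.P158.MuShape

/-!
A supporting functional of the norm and, for it, one of the eight axis and diagonal frames that
is positive on the vectors on which the norm nearly equals the functional.
-/

open MeasureTheory Filter Topology

namespace Vale.Agent.P158

/-- A linear functional of the plane. -/
def linR (p q : ℝ) (v : ℝ × ℝ) : ℝ := p * v.1 + q * v.2

/-- A frame composed with a symmetry fixing the origin, as an integer functional. -/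
def frameVal (σ : LatSym) (k : ℤ) (v : V) : ℤ := lev k (σ.vmap v)

lemma linR_sub (p q : ℝ) (u v : ℝ × ℝ) : linR p q (u - v) = linR p q u - linR p q v := by
  simp only [linR, Prod.fst_sub, Prod.snd_sub]; ring

lemma linR_add (p q : ℝ) (u v : ℝ × ℝ) : linR p q (u + v) = linR p q u + linR p q v := by
  simp only [linR, Prod.fst_add, Prod.snd_add]; ring

lemma frameVal_adj (σ : LatSym) {k : ℤ} (hk : k = 0 ∨ k = 1) {u v : V} (h : Adj u v) :
    |frameVal σ k v - frameVal σ k u| ≤ 1 := by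
  have h' : |(σ.vmap u).1 - (σ.vmap v).1| + |(σ.vmap u).2 - (σ.vmap v).2| = 1 :=
    (σ.adj_map u v).2 h
  rcases abs_cases ((σ.vmap u).1 - (σ.vmap v).1) with h3 | h3 <;>
    rcases abs_cases ((σ.vmap u).2 - (σ.vmap v).2) with h4 | h4 <;>
    rcases hk with rfl | rfl <;> simp only [frameVal, lev] <;> rw [abs_le] <;> constructor <;> omega

variable {G : Measure ℝ} {M κ : ℝ}

/-- The norm has a supporting functional at every nonzero vector. -/
lemma exists_support (hG : LawOK G M) {D : ℝ × ℝ} (hD : D ≠ 0) :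
    ∃ p q : ℝ, (∀ v, linR p q v ≤ mu G v) ∧ linR p q D = mu G D := by
  set f : (ℝ × ℝ) →ₗ.[ℝ] ℝ := LinearPMap.mkSpanSingleton D (mu G D) hD with hf
  have hmem : D ∈ f.domain := Submodule.mem_span_singleton_self D
  have hfD : f ⟨D, hmem⟩ = mu G D := LinearPMap.mkSpanSingleton_apply ℝ ℝ hD (mu G D)
  obtain ⟨g, hg1, hg2⟩ := exists_extension_of_le_sublinear f (mu G)
    (fun c hc x => mu_smul hG hc.le x) (mu_add_le hG) (by
      rintro ⟨x, hx⟩
      have hx' : x ∈ Submodule.span ℝ {D} := hx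
      obtain ⟨c, rfl⟩ := Submodule.mem_span_singleton.1 hx'
      have e : f ⟨c • D, hx⟩ = c * mu G D := by
        rw [show (⟨c • D, hx⟩ : f.domain) = c • ⟨D, hmem⟩ from rfl, LinearPMap.map_smul, hfD,
          smul_eq_mul]
      rw [e, mu_smul_abs hG]
      exact mul_le_mul_of_nonneg_right (le_abs_self c) (mu_nonneg hG D))
  have hlin : ∀ v : ℝ × ℝ, g v = linR (g (1, 0)) (g (0, 1)) v := fun v => by
    have e : v = v.1 • ((1 : ℝ), (0 : ℝ)) + v.2 • ((0 : ℝ), (1 : ℝ)) := by
      refine Prod.ext ?_ ?_ <;> simp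
    conv_lhs => rw [e]
    rw [map_add, map_smul, map_smul, linR, smul_eq_mul, smul_eq_mul]
    ring
  refine ⟨g (1, 0), g (0, 1), fun v => hlin v ▸ hg2 v, ?_⟩
  rw [← hlin]
  rw [hg1 ⟨D, hmem⟩, hfD]

/-- The four sign and exchange symmetries bound the components of a nearly extremal vector. -/
lemma near_contact_bounds (hG : LawOK G M) {p q η : ℝ} (hφ : ∀ v, linR p q v ≤ mu G v)
    {v : ℝ × ℝ} (hv : mu G v - linR p q v ≤ η) :
    -η ≤ p * v.1 ∧ -η ≤ q * v.2 ∧ -η ≤ (p - q) * (v.1 - v.2) ∧ -η ≤ (p + q) * (v.1 + v.2) := by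
  have h1 : mu G (-v.1, v.2) = mu G v := by
    rw [← mu_neg hG, show -((-v.1, v.2) : ℝ × ℝ) = (v.1, -v.2) by simp]
    exact mu_flip hG v
  have h2 : mu G (v.1, -v.2) = mu G v := mu_flip hG v
  have h3 : mu G (v.2, v.1) = mu G v := mu_swap hG v
  have h4 : mu G (-v.2, -v.1) = mu G v := by
    rw [show ((-v.2, -v.1) : ℝ × ℝ) = -(v.2, v.1) by simp, mu_neg hG, h3]
  have a1 := hφ (-v.1, v.2)
  have a2 := hφ (v.1, -v.2)
  have a3 := hφ (v.2, v.1)
  have a4 := hφ (-v.2, -v.1)
  rw [h1] at a1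
  rw [h2] at a2
  rw [h3] at a3
  rw [h4] at a4
  have := hφ v
  simp only [linR] at *
  refine ⟨by linarith, by linarith, by linarith, by linarith⟩

/-- Signed sum bound from `-η ≤ P s x` with `P` bounded below. -/
lemma abs_le_signed {P s x η lam : ℝ} (hlam : 0 < lam) (hP : lam ≤ P) (hs : s = 1 ∨ s = -1)
    (hη : 0 ≤ η) (h : -η ≤ P * (s * x)) : |x| ≤ s * x + 2 * η / lam := by
  have h1 : -(η / lam) ≤ s * x := by
    rw [← neg_div, div_le_iff₀ hlam]
    nlinarith
  have hd : 0 ≤ η / lam := div_nonneg hη hlam.le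
  rw [show 2 * η / lam = η / lam + η / lam by ring]
  rw [abs_le]
  rcases hs with rfl | rfl <;> constructor <;> linarith

/-- The frame of a functional: `sx * x + sy * y` with signs, or one signed coordinate. -/
lemma exists_axis (hG : LawOK G M) (hκ : 0 < κ) {p q : ℝ} (hφ : ∀ v, linR p q v ≤ mu G v)
    (hbig : κ ≤ max |p| |q|) : ∃ α β : ℝ,
      ((α, β) ∈ ([(1, 0), (-1, 0), (0, 1), (0, -1), (1, 1), (1, -1), (-1, 1), (-1, -1)] :
        List (ℝ × ℝ))) ∧
      ∀ v : ℝ × ℝ, mu G v - linR p q v ≤ κ / 64 * r1 v → r1 v / 4 ≤ α * v.1 + β * v.2 := by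
  have key : ∀ v : ℝ × ℝ, mu G v - linR p q v ≤ κ / 64 * r1 v → 0 ≤ κ / 64 * r1 v ∧
      -(κ / 64 * r1 v) ≤ p * v.1 ∧ -(κ / 64 * r1 v) ≤ q * v.2 ∧
      -(κ / 64 * r1 v) ≤ (p - q) * (v.1 - v.2) ∧ -(κ / 64 * r1 v) ≤ (p + q) * (v.1 + v.2) :=
    fun v hv => ⟨mul_nonneg (by linarith) (r1_nonneg v), near_contact_bounds hG hφ hv⟩
  set sp : ℝ := if 0 ≤ p then 1 else -1 with hsp
  set sq : ℝ := if 0 ≤ q then 1 else -1 with hsq
  have hp : sp = 1 ∨ sp = -1 := by rw [hsp]; split_ifs <;> simp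
  have hq : sq = 1 ∨ sq = -1 := by rw [hsq]; split_ifs <;> simp
  have ep : p = |p| * sp := by
    rw [hsp]; split_ifs with h
    · rw [abs_of_nonneg h, mul_one]
    · rw [abs_of_neg (not_le.1 h)]; ring
  have eq' : q = |q| * sq := by
    rw [hsq]; split_ifs with h
    · rw [abs_of_nonneg h, mul_one]
    · rw [abs_of_neg (not_le.1 h)]; ring
  by_cases hboth : κ / 4 ≤ |p| ∧ κ / 4 ≤ |q|
  · refine ⟨sp, sq, ?_, fun v hv => ?_⟩
    · rcases hp with h | h <;> rcases hq with h' | h' <;> simp [h, h']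
    · obtain ⟨h0, h1, h2, -, -⟩ := key v hv
      rw [ep, mul_assoc] at h1
      rw [eq', mul_assoc] at h2
      have b1 := abs_le_signed (by linarith) hboth.1 hp h0 h1
      have b2 := abs_le_signed (by linarith) hboth.2 hq h0 h2
      rw [show 2 * (κ / 64 * r1 v) / (κ / 4) = r1 v / 8 by field_simp; ring] at b1 b2
      have : r1 v = |v.1| + |v.2| := rfl
      have := r1_nonneg v
      linarith
  · -- one coordinate of the functional dominates
    have aux : ∀ (P Q s x y R : ℝ), κ ≤ |P| → |Q| < κ / 4 → P = |P| * s → (s = 1 ∨ s = -1) →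
        R = |x| + |y| → -(κ / 64 * R) ≤ P * x → -(κ / 64 * R) ≤ (P - Q) * (x - y) →
        -(κ / 64 * R) ≤ (P + Q) * (x + y) → R / 4 ≤ s * x := by
      intro P Q s x y R hP hQ hPs hs hR h1 h3 h4
      have hR0 : 0 ≤ R := hR ▸ add_nonneg (abs_nonneg x) (abs_nonneg y)
      have h0 : 0 ≤ κ / 64 * R := by positivity
      rw [hPs, mul_assoc] at h1
      have b1 := abs_le_signed hκ hP hs h0 h1
      have hQ' := abs_lt.1 hQ
      have e3 : -(κ / 64 * R) ≤ (|P| - Q * s) * (s * (x - y)) := by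
        rcases hs with rfl | rfl <;> rw [hPs] at h3 <;> linarith
      have e4 : -(κ / 64 * R) ≤ (|P| + Q * s) * (s * (x + y)) := by
        rcases hs with rfl | rfl <;> rw [hPs] at h4 <;> linarith
      have d1 : κ / 2 ≤ |P| - Q * s := by rcases hs with rfl | rfl <;> linarith
      have d2 : κ / 2 ≤ |P| + Q * s := by rcases hs with rfl | rfl <;> linarith
      have b3 := abs_le_signed (show 0 < κ / 2 by linarith) d1 hs h0 e3
      have b4 := abs_le_signed (show 0 < κ / 2 by linarith) d2 hs h0 e4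
      rw [show 2 * (κ / 64 * R) / (κ / 2) = R / 16 by field_simp; ring] at b3 b4
      rw [show 2 * (κ / 64 * R) / κ = R / 32 by field_simp; ring] at b1
      have := abs_le.1 (le_refl |x|)
      rcases le_total 0 y with hy | hy
      · rw [abs_of_nonneg hy] at hR
        rcases hs with rfl | rfl <;> linarith [le_abs_self (x - y), neg_abs_le (x - y),
          le_abs_self (x + y), neg_abs_le (x + y)]
      · rw [abs_of_nonpos hy] at hR
        rcases hs with rfl | rfl <;> linarith [le_abs_self (x - y), neg_abs_le (x - y),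
          le_abs_self (x + y), neg_abs_le (x + y)]
    rcases lt_or_ge |q| (κ / 4) with hq4 | hq4
    · refine ⟨sp, 0, by rcases hp with h | h <;> simp [h], fun v hv => ?_⟩
      obtain ⟨-, h1, -, h3, h4⟩ := key v hv
      have hP : κ ≤ |p| := by
        rcases le_max_iff.1 hbig with h | h
        · exact h
        · linarith
      rw [zero_mul, add_zero]
      exact aux p q sp v.1 v.2 (r1 v) hP hq4 ep hp rfl h1 h3 h4
    · have hp4 : |p| < κ / 4 := not_le.1 fun h => hboth ⟨h, hq4⟩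
      refine ⟨0, sq, by rcases hq with h | h <;> simp [h], fun v hv => ?_⟩
      obtain ⟨-, -, h2, h3, h4⟩ := key v hv
      have hP : κ ≤ |q| := by
        rcases le_max_iff.1 hbig with h | h
        · linarith
        · exact h
      rw [zero_mul, zero_add]
      exact aux q p sq v.2 v.1 (r1 v) hP hp4 eq' hq (add_comm _ _) h2 (by linarith) (by linarith)

/-- Each of the eight functionals is the level function of an allowed frame. -/
lemma exists_frame_of_axis {α β : ℝ}
    (h : (α, β) ∈ ([(1, 0), (-1, 0), (0, 1), (0, -1), (1, 1), (1, -1), (-1, 1), (-1, -1)] :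
      List (ℝ × ℝ))) :
    ∃ σ ∈ frameSyms, ∃ k : ℤ, (k = 0 ∨ k = 1) ∧
      ∀ v : V, (frameVal σ k v : ℝ) = α * v.1 + β * v.2 := by
  simp only [List.mem_cons, List.not_mem_nil, or_false, Prod.mk.injEq] at h
  rcases h with ⟨rfl, rfl⟩ | ⟨rfl, rfl⟩ | ⟨rfl, rfl⟩ | ⟨rfl, rfl⟩ | ⟨rfl, rfl⟩ | ⟨rfl, rfl⟩ |
    ⟨rfl, rfl⟩ | ⟨rfl, rfl⟩
  · exact ⟨shiftSym 0, by simp [frameSyms], 0, Or.inl rfl, fun v => by simp [frameVal, lev]⟩
  · exact ⟨negXSym, by simp [frameSyms], 0, Or.inl rfl, fun v => by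
      simp [frameVal, lev, negXSym, LatSym.comp]⟩
  · exact ⟨swapSym, by simp [frameSyms], 0, Or.inl rfl, fun v => by simp [frameVal, lev]⟩
  · exact ⟨negSym.comp swapSym, by simp [frameSyms], 0, Or.inl rfl, fun v => by
      simp [frameVal, lev, negSym, negXSym, LatSym.comp]⟩
  · exact ⟨shiftSym 0, by simp [frameSyms], 1, Or.inr rfl, fun v => by simp [frameVal, lev]⟩
  · exact ⟨flipSym, by simp [frameSyms], 1, Or.inr rfl, fun v => by simp [frameVal, lev]⟩
  · exact ⟨negXSym, by simp [frameSyms], 1, Or.inr rfl, fun v => by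
      simp [frameVal, lev, negXSym, LatSym.comp]⟩
  · exact ⟨negSym, by simp [frameSyms], 1, Or.inr rfl, fun v => by
      simp [frameVal, lev, negSym, negXSym, LatSym.comp]⟩

/-- A functional supporting the norm has a frame that grows at rate at least `1/4` along every
vector on which it nearly realises the norm, and at rate at least `-1` along every vector. -/
theorem exists_frame (hG : LawOK G M) (hS : ShortBound G κ) {p q : ℝ}
    (hφ : ∀ v, linR p q v ≤ mu G v) {D : ℝ × ℝ} (hD : D ≠ 0) (hDeq : linR p q D = mu G D) :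
    ∃ σ ∈ frameSyms, ∃ k : ℤ, (k = 0 ∨ k = 1) ∧
      (∀ u w : V, mu G (toR w - toR u) - linR p q (toR w - toR u) ≤
          κ / 64 * r1 (toR w - toR u) →
        r1 (toR w - toR u) / 4 ≤ (frameVal σ k w : ℝ) - frameVal σ k u) ∧
      ∀ v : V, |(frameVal σ k v : ℝ)| ≤ r1 (toR v) := by
  have hr : 0 < r1 D := by
    rcases eq_or_lt_of_le (r1_nonneg D) with h | h
    · have hh : |D.1| + |D.2| = 0 := h.symm
      exact absurd (Prod.ext (abs_eq_zero.1 (by linarith [abs_nonneg D.1, abs_nonneg D.2]))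
        (abs_eq_zero.1 (by linarith [abs_nonneg D.1, abs_nonneg D.2]))) hD
    · exact h
  have hbig : κ ≤ max |p| |q| := by
    have h1 : linR p q D ≤ max |p| |q| * r1 D := by
      simp only [linR, r1, mul_add]
      refine add_le_add ?_ ?_
      · exact (le_abs_self _).trans ((abs_mul _ _).trans_le
          (mul_le_mul_of_nonneg_right (le_max_left _ _) (abs_nonneg _)))
      · exact (le_abs_self _).trans ((abs_mul _ _).trans_le
          (mul_le_mul_of_nonneg_right (le_max_right _ _) (abs_nonneg _)))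
    have h2 := mu_lower hG hS D
    exact le_of_mul_le_mul_right (by linarith) hr
  obtain ⟨α, β, hmem, hα⟩ := exists_axis hG hS.1 hφ hbig
  obtain ⟨σ, hσ, k, hk, he⟩ := exists_frame_of_axis hmem
  refine ⟨σ, hσ, k, hk, fun u w h => ?_, fun v => ?_⟩
  · rw [he, he]
    have := hα _ h
    simp only [toR, Prod.fst_sub, Prod.snd_sub] at this ⊢
    linarith
  · have hb : |α| ≤ 1 ∧ |β| ≤ 1 := by
      simp only [List.mem_cons, List.not_mem_nil, or_false, Prod.mk.injEq] at hmem
      rcases hmem with ⟨rfl, rfl⟩ | ⟨rfl, rfl⟩ | ⟨rfl, rfl⟩ | ⟨rfl, rfl⟩ | ⟨rfl, rfl⟩ |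
        ⟨rfl, rfl⟩ | ⟨rfl, rfl⟩ | ⟨rfl, rfl⟩ <;> norm_num
    rw [he, r1, toR]
    refine (abs_add_le _ _).trans (add_le_add ?_ ?_) <;> rw [abs_mul]
    · exact mul_le_of_le_one_left (abs_nonneg _) hb.1
    · exact mul_le_of_le_one_left (abs_nonneg _) hb.2

end Vale.Agent.P158
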