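import Mathlib

/-!
An integer sequence with steps of size at most one, cut every `r` indices, which increases by at
least `q` over every good step: levels away from the bad cuts are crossed in a short time, and the
good steps all of whose levels are exceptional gain little in total.
-/

namespace Vale.Agent.P158.ChordSteps

variable {ℓ r : ℕ} {g : ℕ → ℤ} {q : ℝ} {bad : Finset ℕ}

/-- The value at the `k`-th cut. -/
def cutVal (ℓ r : ℕ) (g : ℕ → ℤ) (k : ℕ) : ℤ := g (min (k * r) ℓ)

lemma lip (hg : ∀ m < ℓ, |g (m + 1) - g m| ≤ 1) {a b : ℕ} (hab : a ≤ b) (hb : b ≤ ℓ) :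
    |g b - g a| ≤ (b : ℤ) - a := by
  induction b, hab using Nat.le_induction with
  | base => simp
  | succ b hab ih =>
    have h1 := abs_le.1 (hg b (by omega))
    have h2 := abs_le.1 (ih (by omega))
    rw [abs_le]; push_cast; omega

lemma hits (hg : ∀ m < ℓ, |g (m + 1) - g m| ≤ 1) {a b : ℕ} (hab : a ≤ b) (hb : b ≤ ℓ) {c : ℤ}
    (h1 : g a < c) (h2 : c ≤ g b) : ∃ m, a < m ∧ m ≤ b ∧ g m = c := by
  induction b, hab using Nat.le_induction with
  | base => omega
  | succ b hab ih =>
    rcases le_or_gt c (g b) with h | h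
    · obtain ⟨m, a1, a2, a3⟩ := ih (by omega) h
      exact ⟨m, a1, by omega, a3⟩
    · have := abs_le.1 (hg b (by omega))
      exact ⟨b + 1, by omega, le_rfl, by omega⟩

/-- First and last visit of an intermediate level. -/
lemma first_last (hg : ∀ m < ℓ, |g (m + 1) - g m| ≤ 1) {c : ℤ} (h0 : g 0 < c) (hℓ : c < g ℓ) :
    ∃ i j, 0 < i ∧ i ≤ j ∧ j < ℓ ∧ g i = c ∧ g j = c ∧ (∀ m < i, g m < c) ∧
      ∀ m, j < m → m ≤ ℓ → c < g m := by
  classical
  obtain ⟨m₀, -, hm₀, hm₀c⟩ := hits hg (Nat.zero_le ℓ) le_rfl h0 hℓ.le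
  have hex : ∃ m, m ≤ ℓ ∧ g m = c := ⟨m₀, hm₀, hm₀c⟩
  obtain ⟨hi1, hi2⟩ := Nat.find_spec hex
  set s := (Finset.range (ℓ + 1)).filter fun m => g m = c with hs
  have hne : s.Nonempty := ⟨m₀, Finset.mem_filter.2 ⟨Finset.mem_range.2 (by omega), hm₀c⟩⟩
  obtain ⟨hj1, hj2⟩ := Finset.mem_filter.1 (s.max'_mem hne)
  rw [Finset.mem_range] at hj1
  refine ⟨Nat.find hex, s.max' hne, ?_, ?_, ?_, hi2, hj2, ?_, ?_⟩
  · rcases Nat.eq_zero_or_pos (Nat.find hex) with h | h
    · rw [h] at hi2; omega
    · exact h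
  · exact s.le_max' _ (Finset.mem_filter.2 ⟨Finset.mem_range.2 (by omega), hi2⟩)
  · rcases Nat.lt_or_ge (s.max' hne) ℓ with h | h
    · exact h
    · rw [show s.max' hne = ℓ by omega] at hj2; omega
  · intro m hm
    by_contra hcon
    have hc' : c ≤ g m := not_lt.1 hcon
    obtain ⟨m', -, a2, a3⟩ := hits hg (Nat.zero_le m) (by omega) h0 hc'
    exact Nat.find_min hex (lt_of_le_of_lt a2 hm) ⟨by omega, a3⟩
  · intro m hm hmℓ
    by_contra hcon
    have hlast : ∀ m', s.max' hne < m' → m' ≤ ℓ → g m' ≠ c := fun m' a b h => absurd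
      (s.le_max' m' (Finset.mem_filter.2 ⟨Finset.mem_range.2 (by omega), h⟩)) (not_le.2 a)
    have hlt : g m < c := lt_of_le_of_ne (not_lt.1 hcon) (hlast m hm hmℓ)
    obtain ⟨m', a1, a2, a3⟩ := hits hg hmℓ le_rfl hlt hℓ.le
    exact hlast m' (by omega) a2 a3

/-- A level at distance more than `2 r` from all bad cuts is crossed in a short time. -/
lemma crossing_short (hr : 0 < r) (hq : 0 < q) (hg : ∀ m < ℓ, |g (m + 1) - g m| ≤ 1)
    (hgood : ∀ k ≤ ℓ / r, k ∉ bad →
      k < ℓ / r ∧ q ≤ (cutVal ℓ r g (k + 1) : ℝ) - cutVal ℓ r g k)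
    {c : ℤ} {i j : ℕ} (hij : i ≤ j) (hj : j ≤ ℓ) (hi : g i = c) (hjc : g j = c)
    (hfar : ∀ b ∈ bad, 2 * (r : ℤ) < |cutVal ℓ r g b - c|) :
    ((j - i : ℕ) : ℝ) ≤ r * (2 * r / q + 2) := by
  set s := i / r
  set e := j / r
  have hse : s ≤ e := Nat.div_le_div_right hij
  have hiu : i < (s + 1) * r := by rw [mul_comm]; exact Nat.lt_mul_div_succ i hr
  have hju : j < (e + 1) * r := by rw [mul_comm]; exact Nat.lt_mul_div_succ j hr
  have his : s * r ≤ i := Nat.div_mul_le_self i r
  have hje : e * r ≤ j := Nat.div_mul_le_self j r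
  have he : e ≤ ℓ / r := Nat.div_le_div_right hj
  have hrq : (0 : ℝ) ≤ 2 * r / q := by positivity
  rcases Nat.lt_or_ge e (s + 2) with hshort | hlong
  · have h1 : j - i ≤ 2 * r := by
      have := Nat.mul_le_mul_right r (show e + 1 ≤ s + 2 by omega)
      rw [Nat.add_mul s 2 r] at this
      omega
    have h2 : ((j - i : ℕ) : ℝ) ≤ 2 * r := by exact_mod_cast h1
    have : (0 : ℝ) ≤ r * (2 * r / q) := by positivity
    linarith
  set G := cutVal ℓ r g
  have hs1 : (s + 1) * r ≤ j := le_trans (Nat.mul_le_mul_right r (by omega)) hje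
  have hs1' : (s + 1) * r = s * r + r := by rw [Nat.add_mul, one_mul]
  have he1' : (e + 1) * r = e * r + r := by rw [Nat.add_mul, one_mul]
  have hGs : |G (s + 1) - c| ≤ (r : ℤ) := by
    have := lip hg hiu.le (hs1.trans hj)
    simp only [G, cutVal, Nat.min_eq_left (hs1.trans hj)]
    rw [← hi]
    refine this.trans ?_
    omega
  have hGe : |G e - c| ≤ (r : ℤ) := by
    have := lip hg hje hj
    simp only [G, cutVal, Nat.min_eq_left (hje.trans hj)]
    rw [← hjc, abs_sub_comm]
    refine this.trans ?_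
    omega
  have hstep : ∀ k, |G (k + 1) - G k| ≤ (r : ℤ) := fun k => by
    have := lip hg (show min (k * r) ℓ ≤ min ((k + 1) * r) ℓ from
      min_le_min_right ℓ (Nat.mul_le_mul_right r (Nat.le_add_right k 1))) (min_le_right _ _)
    simp only [G, cutVal]
    refine this.trans ?_
    have := Nat.add_mul k 1 r
    omega
  have hup : ∀ k, k < e → k ∉ bad → q ≤ (G (k + 1) : ℝ) - G k := fun k hk hb =>
    (hgood k (by omega) hb).2
  have hupZ : ∀ k, k < e → k ∉ bad → G k < G (k + 1) := fun k hk hb => by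
    have := hup k hk hb
    have : (G k : ℝ) < G (k + 1) := by linarith
    exact_mod_cast this
  -- once above `c + r`, the cut values stay there
  have habove : ∀ a b, a ≤ b → b ≤ e → c + r < G a → c + r < G b := by
    intro a b hab
    induction b, hab using Nat.le_induction with
    | base => exact fun _ h => h
    | succ b hab ih =>
      intro hbe h
      have hb' := ih (by omega) h
      by_cases hbad : b ∈ bad
      · have h1 := hfar b hbad
        rw [lt_abs] at h1
        have := abs_le.1 (hstep b)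
        omega
      · have := hupZ b (by omega) hbad
        omega
  have hle : ∀ a, s + 1 ≤ a → a ≤ e → G a ≤ c + r := fun a _ ha2 => by
    by_contra hcon
    have := habove a e ha2 le_rfl (not_le.1 hcon)
    have := abs_le.1 hGe
    omega
  have hge : ∀ a, s + 1 ≤ a → a ≤ e → c - r ≤ G a ∧ ∀ k, s + 1 ≤ k → k < a → k ∉ bad := by
    intro a ha
    induction a, ha using Nat.le_induction with
    | base =>
      intro _
      exact ⟨by have := abs_le.1 hGs; omega, fun k a b => by omega⟩
    | succ a ha ih =>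
      intro hae
      obtain ⟨h1, h2⟩ := ih (by omega)
      have hnb : a ∉ bad := fun hbad => by
        have h3 := hfar a hbad
        rw [lt_abs] at h3
        have := hle a ha (by omega)
        omega
      refine ⟨?_, fun k hk hk' => ?_⟩
      · have := hupZ a (by omega) hnb
        omega
      · rcases Nat.lt_or_ge k a with h | h
        · exact h2 k hk h
        · rwa [show k = a by omega]
  have hgrow : ∀ a, s + 1 ≤ a → a ≤ e → ((a : ℝ) - (s + 1 : ℕ)) * q ≤ G a - G (s + 1) := by
    intro a ha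
    induction a, ha using Nat.le_induction with
    | base => intro _; simp
    | succ a ha ih =>
      intro hae
      have h1 := ih (by omega)
      have h2 := hup a (by omega) ((hge (a + 1) (by omega) hae).2 a ha (by omega))
      push_cast at h1 ⊢
      linarith
  have h1 := hgrow e (by omega) le_rfl
  have h2 : (G e : ℝ) - G (s + 1) ≤ 2 * r := by
    have a1 := abs_le.1 hGe
    have a2 := abs_le.1 hGs
    have : G e - G (s + 1) ≤ 2 * (r : ℤ) := by omega
    exact_mod_cast this
  have h3 : (e : ℝ) - (s + 1 : ℕ) ≤ 2 * r / q := by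
    rw [le_div_iff₀ hq]; linarith
  have h4 : ((j - i : ℕ) : ℝ) ≤ ((e : ℝ) + 1 - s) * r := by
    rw [Nat.cast_sub hij]
    have a1 : (j : ℝ) ≤ ((e : ℝ) + 1) * r := by exact_mod_cast hju.le
    have a2 : (s : ℝ) * r ≤ i := by exact_mod_cast his
    linarith
  refine h4.trans ?_
  have := mul_le_mul_of_nonneg_right h3 (Nat.cast_nonneg r)
  push_cast at this
  linarith

/-- The total gain over good steps all of whose levels are exceptional. -/
lemma gain_le (hq : 0 ≤ q) (hg : ∀ m < ℓ, |g (m + 1) - g m| ≤ 1)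
    (hgood : ∀ k ≤ ℓ / r, k ∉ bad →
      k < ℓ / r ∧ q ≤ (cutVal ℓ r g (k + 1) : ℝ) - cutVal ℓ r g k)
    (Bl : Finset ℤ) (S : Finset ℕ) (hS : ∀ k ∈ S, k ≤ ℓ / r ∧ k ∉ bad ∧
      ∀ c : ℤ, cutVal ℓ r g k < c → c ≤ cutVal ℓ r g (k + 1) → c ∈ Bl) :
    ∑ k ∈ S, (cutVal ℓ r g (k + 1) - cutVal ℓ r g k) ≤ (Bl.card : ℤ) + r * bad.card := by
  classical
  set G := cutVal ℓ r g
  set up : ℕ → ℤ := fun k => ∑ c ∈ Bl,
    ((if c ≤ G (k + 1) then (1 : ℤ) else 0) - (if c ≤ G k then 1 else 0)) with hup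
  have hstep : ∀ k, |G (k + 1) - G k| ≤ (r : ℤ) := fun k => by
    have := lip hg (show min (k * r) ℓ ≤ min ((k + 1) * r) ℓ from
      min_le_min_right ℓ (Nat.mul_le_mul_right r (Nat.le_add_right k 1))) (min_le_right _ _)
    simp only [G, cutVal]
    refine this.trans ?_
    have := Nat.add_mul k 1 r
    omega
  have hmono : ∀ k ∈ Finset.range (ℓ / r + 1), k ∉ bad → G k < G (k + 1) ∨ G k = G (k + 1) := by
    intro k hk hb
    have h := (hgood k (by rw [Finset.mem_range] at hk; omega) hb).2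
    have : (G k : ℝ) ≤ G (k + 1) := by linarith
    exact lt_or_eq_of_le (by exact_mod_cast this)
  have htotal : ∑ k ∈ Finset.range (ℓ / r + 1), up k ≤ Bl.card := by
    simp only [hup]
    rw [Finset.sum_comm]
    refine (Finset.sum_le_card_nsmul _ _ 1 fun c _ => ?_).trans_eq (by simp)
    rw [Finset.sum_range_sub (fun k => if c ≤ G k then (1 : ℤ) else 0)]
    split_ifs <;> omega
  have hbadlow : ∀ k, -(r : ℤ) ≤ up k := fun k => by
    simp only [hup]
    have h1 : ∀ c ∈ Bl, -(if c ∈ Finset.Ioc (G (k + 1)) (G k) then (1 : ℤ) else 0) ≤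
        (if c ≤ G (k + 1) then (1 : ℤ) else 0) - (if c ≤ G k then 1 else 0) := fun c _ => by
      simp only [Finset.mem_Ioc]
      split_ifs <;> omega
    refine le_trans ?_ (Finset.sum_le_sum h1)
    rw [Finset.sum_neg_distrib, neg_le_neg_iff, Finset.sum_ite_mem, Finset.sum_const, nsmul_eq_mul,
      mul_one]
    refine (Nat.cast_le.2 (Finset.card_le_card Finset.inter_subset_right)).trans ?_
    rw [Int.card_Ioc]
    have := abs_le.1 (hstep k)
    omega
  have hSup : ∀ k ∈ S, G (k + 1) - G k ≤ up k := by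
    intro k hk
    obtain ⟨hk1, hk2, hk3⟩ := hS k hk
    have hle : G k ≤ G (k + 1) := by
      rcases hmono k (Finset.mem_range.2 (by omega)) hk2 with h | h <;> omega
    have h1 : ∀ c ∈ Bl, (if c ∈ Finset.Ioc (G k) (G (k + 1)) then (1 : ℤ) else 0) ≤
        (if c ≤ G (k + 1) then (1 : ℤ) else 0) - (if c ≤ G k then 1 else 0) := fun c _ => by
      simp only [Finset.mem_Ioc]
      split_ifs <;> omega
    simp only [hup]
    refine le_trans ?_ (Finset.sum_le_sum h1)
    rw [Finset.sum_ite_mem, Finset.sum_const, nsmul_eq_mul, mul_one,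
      Finset.inter_eq_right.2 (fun c hc => hk3 c (Finset.mem_Ioc.1 hc).1 (Finset.mem_Ioc.1 hc).2),
      Int.card_Ioc]
    omega
  have hrest : ∀ k ∈ Finset.range (ℓ / r + 1),
      (if k ∈ S then G (k + 1) - G k else 0) - (if k ∈ bad then (r : ℤ) else 0) ≤ up k := by
    intro k hk
    by_cases hkS : k ∈ S
    · rw [if_pos hkS, if_neg (hS k hkS).2.1, sub_zero]
      exact hSup k hkS
    rw [if_neg hkS]
    by_cases hkb : k ∈ bad
    · rw [if_pos hkb, zero_sub]; exact hbadlow k
    · rw [if_neg hkb, sub_zero]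
      refine Finset.sum_nonneg fun c _ => ?_
      rcases hmono k hk hkb with h | h <;> split_ifs <;> omega
  have h2 := (Finset.sum_le_sum hrest).trans htotal
  rw [Finset.sum_sub_distrib, Finset.sum_ite_mem, Finset.sum_ite_mem, Finset.sum_const,
    nsmul_eq_mul] at h2
  rw [Finset.inter_eq_right.2 (fun k hk => Finset.mem_range.2 (Nat.lt_succ_of_le (hS k hk).1))] at h2
  have h3 : (((Finset.range (ℓ / r + 1) ∩ bad).card : ℕ) : ℤ) * r ≤ r * bad.card := by
    rw [mul_comm (r : ℤ)]
    exact mul_le_mul_of_nonneg_right (Nat.cast_le.2 (Finset.card_le_card Finset.inter_subset_right))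
      (Nat.cast_nonneg _)
  linarith

end Vale.Agent.P158.ChordSteps
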