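import Vale.Agent.P158.Block
import Vale.Agent.P158.ChordFrame
import Vale.Agent.P158.ChordSteps

/-!
The deterministic part of the chord property: on the event where shape, block shape, length and
light-edge bounds hold, every geodesic chord through the middle of the box has a frame in which
almost all levels and steps belong to short heavy crossings.
-/

open MeasureTheory Filter Topology

namespace Vale.Agent.P158

/-- A finite sequence of adjacent distinct vertices is a self-avoiding walk. -/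
lemma exists_seq_walk (t : Conf) {v : ℕ → V} : ∀ (ℓ : ℕ), (∀ m < ℓ, Adj (v m) (v (m + 1))) →
    Set.InjOn v {i | i ≤ ℓ} → ∃ p : grid.Walk (v 0) (v ℓ), p.IsPath ∧ p.length = ℓ ∧
      (∀ m, p.getVert m = v (min m ℓ)) ∧ ∀ m ≤ ℓ, rlen t p.getVert m = rlen t v m := by
  intro ℓ hadj hinj
  have key : ∀ n ≤ ℓ, ∃ p : grid.Walk (v 0) (v n), p.length = n ∧ ∀ m ≤ n, p.getVert m = v m := by
    intro n
    induction n with
    | zero => exact fun _ => ⟨.nil, rfl, fun m hm => by simp [Nat.le_zero.1 hm]⟩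
    | succ n ih =>
      intro hn
      obtain ⟨p, hp, hv⟩ := ih (by omega)
      refine ⟨p.concat (show grid.Adj _ _ from hadj n (by omega)), by simp [hp], fun m hm => ?_⟩
      rw [SimpleGraph.Walk.concat_eq_append, SimpleGraph.Walk.getVert_append]
      split_ifs with h
      · exact hv m (by omega)
      · rcases (show m = n ∨ m = n + 1 by omega) with rfl | rfl
        · simp [hp]
        · simp [hp]
  obtain ⟨p, hp, hv⟩ := key ℓ le_rfl
  refine ⟨p, ?_, hp, fun m => ?_, fun m hm => ?_⟩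
  · refine (SimpleGraph.Walk.IsPath.getVert_injOn_iff p).1 fun a ha b hb hab => ?_
    simp only [Set.mem_ofPred_eq, hp] at ha hb
    rw [hv a ha, hv b hb] at hab
    exact hinj ha hb hab
  · rcases le_total m ℓ with h | h
    · rw [min_eq_left h, hv m h]
    · rw [min_eq_right h, p.getVert_of_length_le (by omega)]
  · unfold rlen
    refine Finset.sum_congr rfl fun i hi => ?_
    rw [Finset.mem_range] at hi
    rw [hv i (by omega), hv (i + 1) (by omega)]

lemma sum_Ico_shift (f : ℤ → ℝ) (i₀ : ℤ) (ℓ : ℕ) :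
    ∑ m ∈ Finset.Ico i₀ (i₀ + ℓ), f m = ∑ m ∈ Finset.range ℓ, f (i₀ + m) := by
  induction ℓ with
  | zero => simp
  | succ ℓ ih =>
    rw [Finset.sum_range_succ, ← ih, show i₀ + ((ℓ + 1 : ℕ) : ℤ) = i₀ + ℓ + 1 by push_cast; ring,
      ← Finset.insert_Ico_right_eq_Ico_add_one (by omega : i₀ ≤ i₀ + (ℓ : ℤ)),
      Finset.sum_insert (by simp)]
    ring

/-- Pieces of `r` steps contain at least their length minus the light edges of heavy edges. -/
lemma pieces_weight {t : Conf} (h0 : ∀ e, 0 ≤ t e) {a b : V} (p : grid.Walk a b) {r : ℕ} {r₀ : ℝ}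
    (hr₀ : 0 ≤ r₀) {S : Finset ℕ} (hS : ∀ k ∈ S, k < p.length / r) :
    r₀ * ((S.card : ℝ) * r - hitCount (Set.Iio r₀) t p) ≤
      ∑ k ∈ S, (rlen t p.getVert ((k + 1) * r) - rlen t p.getVert (k * r)) := by
  set cnt : ℕ → ℝ := fun m =>
    (Set.Iio r₀).indicator (fun _ => (1 : ℝ)) (wt t (p.getVert m) (p.getVert (m + 1))) with hcnt
  have hcnt0 : ∀ m, 0 ≤ cnt m := fun m => Set.indicator_nonneg (fun _ _ => zero_le_one) _
  set N := p.length / r
  have hle : ∀ k : ℕ, k ≤ N → k * r ≤ p.length := fun k hk =>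
    (Nat.mul_le_mul_right r hk).trans (Nat.div_mul_le_self _ _)
  have hsum : ∑ k ∈ S, ∑ m ∈ Finset.Ico (k * r) ((k + 1) * r), cnt m ≤
      (hitCount (Set.Iio r₀) t p : ℝ) := by
    refine (Finset.sum_le_sum_of_subset_of_nonneg (fun k hk => Finset.mem_range.2 (hS k hk))
      fun k _ _ => Finset.sum_nonneg fun m _ => hcnt0 m).trans ?_
    refine le_trans (le_of_eq ?_) ((Finset.sum_le_sum_of_subset_of_nonneg
      (Finset.range_mono (hle N le_rfl)) fun m _ _ => hcnt0 m).trans (hitCount_eq_sum _ t p).ge)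
    calc ∑ k ∈ Finset.range N, ∑ m ∈ Finset.Ico (k * r) ((k + 1) * r), cnt m
        = ∑ k ∈ Finset.range N, ((∑ m ∈ Finset.range ((k + 1) * r), cnt m) -
            ∑ m ∈ Finset.range (k * r), cnt m) :=
          Finset.sum_congr rfl fun k _ =>
            Finset.sum_Ico_eq_sub _ (Nat.mul_le_mul_right r (Nat.le_add_right k 1))
      _ = _ := by
          rw [Finset.sum_range_sub (fun k => ∑ m ∈ Finset.range (k * r), cnt m)]; simp
  have hk : ∀ k, r₀ * ((r : ℝ) - ∑ m ∈ Finset.Ico (k * r) ((k + 1) * r), cnt m) ≤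
      rlen t p.getVert ((k + 1) * r) - rlen t p.getVert (k * r) := by
    intro k
    rw [rlen_sub_eq_Ico (Nat.mul_le_mul_right r (Nat.le_add_right k 1))]
    have : (r : ℝ) = ∑ _m ∈ Finset.Ico (k * r) ((k + 1) * r), (1 : ℝ) := by simp [Nat.add_mul]
    rw [this, ← Finset.sum_sub_distrib, Finset.mul_sum]
    refine Finset.sum_le_sum fun m _ => ?_
    simp only [hcnt, Set.indicator_apply, Set.mem_Iio]
    split_ifs with h
    · simpa [wt] using h0 _
    · rw [sub_zero, mul_one]; exact not_lt.1 h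
  refine le_trans ?_ (Finset.sum_le_sum fun k _ => hk k)
  rw [← Finset.mul_sum, Finset.sum_sub_distrib, Finset.sum_const, nsmul_eq_mul]
  exact mul_le_mul_of_nonneg_left (by linarith) hr₀

lemma r1_ge_of_onBd {N : ℕ} {a m : V} (ha : OnBd (N : ℤ) a) {h : ℝ}
    (hm : |(m.1 : ℝ)| ≤ h ∧ |(m.2 : ℝ)| ≤ h) : (N : ℝ) - h ≤ r1 (toR m - toR a) := by
  have key : ∀ {x y : ℤ}, |(y : ℝ)| ≤ h → (x = -(N : ℤ) ∨ x = (N : ℤ)) →
      (N : ℝ) - h ≤ |(y : ℝ) - x| := fun {x y} hy hx => by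
    have h1 := abs_sub_abs_le_abs_sub (x : ℝ) y
    rw [abs_sub_comm] at h1
    have : |(x : ℝ)| = N := by rcases hx with rfl | rfl <;> simp
    linarith
  simp only [r1, toR, Prod.fst_sub, Prod.snd_sub]
  rcases ha.2 with e | e | e | e
  · linarith [key hm.2 (Or.inl e), abs_nonneg ((m.1 : ℝ) - a.1)]
  · linarith [key hm.1 (Or.inr e), abs_nonneg ((m.2 : ℝ) - a.2)]
  · linarith [key hm.2 (Or.inr e), abs_nonneg ((m.1 : ℝ) - a.1)]
  · linarith [key hm.1 (Or.inl e), abs_nonneg ((m.2 : ℝ) - a.2)]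

variable {G : Measure ℝ} {M κ : ℝ}

/-- The frame of a geodesic chord through the middle of the box. -/
lemma chord_frame (hG : LawOK G M) (hS : ShortBound G κ) {t : Conf} (ht : InRange M t) {N : ℕ}
    (hN : 0 < N) {a b : V} {p : grid.Walk a b} (hpT : plen t p = T t a b) {n₀ : ℕ}
    (hn₀ : n₀ ≤ p.length) (ha : OnBd (N : ℤ) a) (hb : OnBd (N : ℤ) b)
    (hsmall : |((p.getVert n₀).1 : ℝ)| ≤ N / 64 ∧ |((p.getVert n₀).2 : ℝ)| ≤ N / 64)
    {ε' : ℝ} (hε' : ε' ≤ κ / 256)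
    (hshape : ∀ x y : V, InBox (1 * N) x → InBox (1 * N) y →
      |T t x y - mu G (toR y - toR x)| ≤ ε' * N) :
    ∃ (pc qc : ℝ) (σ : LatSym) (k : ℤ), σ ∈ frameSyms ∧ (k = 0 ∨ k = 1) ∧
      (∀ v, linR pc qc v ≤ mu G v) ∧ linR pc qc (toR b - toR a) = mu G (toR b - toR a) ∧
      T t a b ≤ mu G (toR b - toR a) + ε' * N ∧
      (∀ u w : V, mu G (toR w - toR u) - linR pc qc (toR w - toR u) ≤
          κ / 64 * r1 (toR w - toR u) →
        r1 (toR w - toR u) / 4 ≤ (frameVal σ k w : ℝ) - frameVal σ k u) ∧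
      (frameVal σ k a : ℝ) ≤ -(1 / 8) * N ∧ 1 / 8 * (N : ℝ) ≤ frameVal σ k b ∧
      N ≤ 2 * p.length := by
  have hκ := hS.1
  have hN' : (0 : ℝ) < N := by exact_mod_cast hN
  set m := p.getVert n₀ with hm
  have hbox : ∀ {x : V}, InSq (N : ℤ) x → InBox (1 * N) x := fun {x} hx => by
    obtain ⟨a1, a2, a3, a4⟩ := hx
    simp only [InBox, one_mul, abs_le]
    exact ⟨⟨a1, a2⟩, a3, a4⟩
  have hmbox : InBox (1 * N) m := by
    have c : ∀ x : ℤ, |(x : ℝ)| ≤ N / 64 → |x| ≤ ((1 * N : ℕ) : ℤ) := fun x hx => by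
      rw [← Int.cast_le (R := ℝ)]; push_cast; linarith
    exact ⟨c _ hsmall.1, c _ hsmall.2⟩
  have hda : 63 / 64 * (N : ℝ) ≤ r1 (toR m - toR a) := by
    have := r1_ge_of_onBd ha hsmall; linarith
  have hdb : 63 / 64 * (N : ℝ) ≤ r1 (toR b - toR m) := by
    have := r1_ge_of_onBd hb hsmall
    rw [← neg_sub (toR b), r1_neg] at this
    linarith
  obtain ⟨q₁, hq₁, h1⟩ := exists_seg t p (Nat.zero_le n₀)
  obtain ⟨q₂, hq₂, h2⟩ := exists_seg t p hn₀
  have hsplit : T t a m + T t m b ≤ T t a b := by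
    have e1 := T_le ht.nonneg q₁
    have e2 := T_le ht.nonneg q₂
    rw [h1 hn₀, rlen_zero, sub_zero] at e1
    rw [h2 le_rfl, ← plen_eq_rlen, hpT] at e2
    simp only [SimpleGraph.Walk.getVert_zero, SimpleGraph.Walk.getVert_length, ← hm] at e1 e2
    linarith
  have hNℓ : N ≤ 2 * p.length := by
    have h := r1_le_length q₁
    simp only [SimpleGraph.Walk.getVert_zero, ← hm] at h
    have h' : (q₁.length : ℝ) ≤ p.length := Nat.cast_le.2 (le_trans hq₁ (by omega))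
    have : (N : ℝ) ≤ 2 * p.length := by linarith
    exact_mod_cast this
  have s1 := abs_le.1 (hshape _ _ (hbox ha.1) hmbox)
  have s2 := abs_le.1 (hshape _ _ hmbox (hbox hb.1))
  have s3 := abs_le.1 (hshape _ _ (hbox ha.1) (hbox hb.1))
  have hκN : 0 < κ * (N : ℝ) := by positivity
  have hεN := mul_le_mul_of_nonneg_right hε' hN'.le
  have hmua := (mul_le_mul_of_nonneg_left hda hκ.le).trans (mu_lower hG hS _)
  have hmub := (mul_le_mul_of_nonneg_left hdb hκ.le).trans (mu_lower hG hS _)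
  have hD0 : toR b - toR a ≠ 0 := fun h => by
    rw [h, mu_zero hG] at s3
    linarith [s1.1, s2.1, s3.2]
  obtain ⟨pc, qc, hφ, hφD⟩ := exists_support hG hD0
  obtain ⟨σ, hσ, k, hk, hframe, hFbd⟩ := exists_frame hG hS hφ hD0 hφD
  have hDsum : linR pc qc (toR m - toR a) + linR pc qc (toR b - toR m) =
      linR pc qc (toR b - toR a) := by
    rw [← linR_add]; congr 1; abel
  have h3 : r1 (toR m) ≤ N / 32 := by
    simp only [r1, toR]; linarith [hsmall.1, hsmall.2]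
  refine ⟨pc, qc, σ, k, hσ, hk, hφ, hφD, by linarith [s3.2], hframe, ?_, ?_, hNℓ⟩
  · have h1 := hframe a m (by
      have := hφ (toR b - toR m)
      have := mul_le_mul_of_nonneg_left hda (show 0 ≤ κ / 64 by positivity)
      linarith [s1.1, s2.1, s3.2])
    have h2 := (abs_le.1 (hFbd m)).2
    linarith
  · have h1 := hframe m b (by
      have := hφ (toR m - toR a)
      have := mul_le_mul_of_nonneg_left hdb (show 0 ≤ κ / 64 by positivity)
      linarith [s1.1, s2.1, s3.2])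
    have h2 := (abs_le.1 (hFbd m)).1
    linarith

/-- The frame value after `m` steps. -/
def pathVal (σ : LatSym) (k : ℤ) {a b : V} (p : grid.Walk a b) (m : ℕ) : ℤ :=
  frameVal σ k (p.getVert m)

/-- The gain of the frame over the `j`-th piece of `r` steps. -/
def pieceGain (σ : LatSym) (k : ℤ) (r : ℕ) {a b : V} (p : grid.Walk a b) (j : ℕ) : ℤ :=
  ChordSteps.cutVal p.length r (pathVal σ k p) (j + 1) -
    ChordSteps.cutVal p.length r (pathVal σ k p) j

lemma cutVal_pathVal (σ : LatSym) (k : ℤ) (r : ℕ) {a b : V} (p : grid.Walk a b) (j : ℕ) :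
    ChordSteps.cutVal p.length r (pathVal σ k p) j = frameVal σ k (p.getVert (j * r)) := by
  simp only [ChordSteps.cutVal, pathVal]
  rcases le_total (j * r) p.length with h | h
  · rw [min_eq_left h]
  · rw [min_eq_right h, p.getVert_of_length_le h, p.getVert_of_length_le le_rfl]

lemma piece_le {t : Conf} (ht : InRange M t) {a b : V} {p : grid.Walk a b} (hpT : plen t p = T t a b) {r j : ℕ}
    (hj : j < p.length / r) :
    rlen t p.getVert ((j + 1) * r) - rlen t p.getVert (j * r) ≤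
      M * r1 (toR (p.getVert ((j + 1) * r)) - toR (p.getVert (j * r))) := by
  refine (geo_seg ht.nonneg hpT (Nat.mul_le_mul_right r (Nat.le_add_right j 1))
    ((Nat.mul_le_mul_right r hj).trans (Nat.div_mul_le_self _ r))).trans
      ((T_le_l1 ht _ _).trans (le_of_eq ?_))
  rw [← r1_neg (toR _ - toR _), neg_sub]
  simp [r1, toR]

open scoped Classical in
/-- Few cuts are bad; over a good one the frame grows at a positive rate. -/
lemma bad_cuts (hG : LawOK G M) (hκ : 0 < κ) {t : Conf} (ht : InRange M t) {a b : V}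
    {p : grid.Walk a b} (hpT : plen t p = T t a b) {r : ℕ} {r₁ θ E L : ℝ}
    (hr₁ : 0 < r₁) (hθ : 0 < θ) (hθr₁ : 2 * M * θ ≤ r₁)
    (hL : (hitCount (Set.Iio r₁) t p : ℝ) ≤ L) {pc qc : ℝ} (hφ : ∀ v, linR pc qc v ≤ mu G v)
    (hslope : ∑ j ∈ Finset.range (p.length / r + 1),
      (mu G (toR (p.getVert ((j + 1) * r)) - toR (p.getVert (j * r))) -
        linR pc qc (toR (p.getVert ((j + 1) * r)) - toR (p.getVert (j * r)))) ≤ E)
    {σ : LatSym} {k : ℤ}
    (hframe : ∀ u w : V, mu G (toR w - toR u) - linR pc qc (toR w - toR u) ≤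
          κ / 64 * r1 (toR w - toR u) →
        r1 (toR w - toR u) / 4 ≤ (frameVal σ k w : ℝ) - frameVal σ k u) :
    ∃ bad : Finset ℕ, (bad.card : ℝ) * r ≤ 2 * L + 64 * E / (κ * θ) + r ∧
      ∀ j ≤ p.length / r, j ∉ bad → j < p.length / r ∧
        θ * r / 4 ≤ (pieceGain σ k r p j : ℝ) ∧
        rlen t p.getVert ((j + 1) * r) - rlen t p.getVert (j * r) ≤
          4 * M * (pieceGain σ k r p j : ℝ) := by
  have hM := hG.M_nonneg
  set NN := p.length / r
  set d : ℕ → ℝ := fun j => r1 (toR (p.getVert ((j + 1) * r)) - toR (p.getVert (j * r))) with hd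
  set e : ℕ → ℝ := fun j => mu G (toR (p.getVert ((j + 1) * r)) - toR (p.getVert (j * r))) -
    linR pc qc (toR (p.getVert ((j + 1) * r)) - toR (p.getVert (j * r))) with he
  set Sm := (Finset.range NN).filter fun j => d j < θ * r with hSm
  set Ex := (Finset.range (NN + 1)).filter fun j => θ * r ≤ d j ∧ κ / 64 * d j < e j with hEx
  refine ⟨Sm ∪ Ex ∪ {NN}, ?_, fun j hj hjb => ?_⟩
  · have hcard : (((Sm ∪ Ex ∪ {NN}).card : ℕ) : ℝ) ≤ Sm.card + Ex.card + 1 := by
      have h1 := Finset.card_union_le (Sm ∪ Ex) {NN}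
      have h2 := Finset.card_union_le Sm Ex
      rw [Finset.card_singleton] at h1
      exact_mod_cast (show (Sm ∪ Ex ∪ {NN}).card ≤ Sm.card + Ex.card + 1 by omega)
    have hSm2 : (Sm.card : ℝ) * r ≤ 2 * L := by
      have h1 := pieces_weight ht.nonneg p (r := r) hr₁.le (S := Sm)
        (fun j hj => Finset.mem_range.1 (Finset.mem_filter.1 hj).1)
      have h2 : ∑ j ∈ Sm, (rlen t p.getVert ((j + 1) * r) - rlen t p.getVert (j * r)) ≤
          (Sm.card : ℝ) * (M * (θ * r)) := by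
        refine (Finset.sum_le_card_nsmul _ _ _ fun j hj => ?_).trans_eq (nsmul_eq_mul _ _)
        obtain ⟨hj1, hj2⟩ := Finset.mem_filter.1 hj
        exact (piece_le ht hpT (Finset.mem_range.1 hj1)).trans (mul_le_mul_of_nonneg_left hj2.le hM)
      have h3 : (Sm.card : ℝ) * r * (2 * M * θ) ≤ (Sm.card : ℝ) * r * r₁ :=
        mul_le_mul_of_nonneg_left hθr₁ (by positivity)
      have h4 := mul_le_mul_of_nonneg_left hL hr₁.le
      refine le_of_mul_le_mul_left (a := r₁) ?_ hr₁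
      linarith
    have hEx2 : (Ex.card : ℝ) * r ≤ 64 * E / (κ * θ) := by
      have h1 : (Ex.card : ℝ) * (κ / 64 * (θ * r)) ≤ E := by
        have hsub : Ex ⊆ Finset.range (NN + 1) := Finset.filter_subset _ _
        refine le_trans ?_ ((Finset.sum_le_sum_of_subset_of_nonneg hsub
          fun j _ _ => sub_nonneg.2 (hφ _)).trans hslope)
        rw [← nsmul_eq_mul]
        refine Finset.card_nsmul_le_sum _ _ _ fun j hj => ?_
        obtain ⟨-, hj1, hj2⟩ := Finset.mem_filter.1 hj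
        exact (mul_le_mul_of_nonneg_left hj1 (by positivity)).trans hj2.le
      rw [le_div_iff₀ (by positivity)]
      linarith
    have h5 := mul_le_mul_of_nonneg_right hcard (Nat.cast_nonneg r)
    linarith
  · simp only [Finset.mem_union, Finset.mem_singleton, not_or, hSm, hEx, Finset.mem_filter,
      Finset.mem_range, not_and, not_lt] at hjb
    obtain ⟨⟨hns, hne⟩, hjN⟩ := hjb
    have hlt : j < NN := lt_of_le_of_ne hj hjN
    have hd' := hns hlt
    have hg := hframe _ _ (hne (by omega) hd')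
    have hG2 : d j / 4 ≤ (pieceGain σ k r p j : ℝ) := by
      simp only [pieceGain, cutVal_pathVal]; push_cast; exact hg
    refine ⟨hlt, le_trans (by linarith) hG2, (piece_le ht hpT hlt).trans ?_⟩
    have := mul_le_mul_of_nonneg_left hG2 (show 0 ≤ 4 * M by linarith)
    linarith

open scoped Classical in
/-- The exceptional levels are few; all others are crossed quickly through a heavy edge. -/
lemma levels_ok {t : Conf} {a b : V} {p : grid.Walk a b} {σ : LatSym} {k : ℤ}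
    (hk : k = 0 ∨ k = 1) {r : ℕ} (hr : 0 < r) {r₁ θ : ℝ} (hθ : 0 < θ) {bad : Finset ℕ}
    (hgood : ∀ j ≤ p.length / r, j ∉ bad → j < p.length / r ∧
      θ * r / 4 ≤ (pieceGain σ k r p j : ℝ)) :
    ∃ W : Finset ℤ, (W.card : ℝ) ≤ (bad.card : ℝ) * (4 * r + 1) + hitCount (Set.Iio r₁) t p ∧
      ∀ c : ℤ, pathVal σ k p 0 < c → c < pathVal σ k p p.length → c ∉ W →
        ∃ i j : ℕ, 0 < i ∧ i ≤ j ∧ j < p.length ∧ pathVal σ k p i = c ∧ pathVal σ k p j = c ∧
          (∀ m < i, pathVal σ k p m < c) ∧ (∀ m, j < m → m ≤ p.length → c < pathVal σ k p m) ∧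
          ((j - i : ℕ) : ℝ) ≤ r * (8 / θ + 2) ∧
          r₁ ≤ wt t (p.getVert (i - 1)) (p.getVert i) := by
  set g := pathVal σ k p with hg
  set light := (Finset.range p.length).filter fun m =>
    wt t (p.getVert m) (p.getVert (m + 1)) < r₁ with hlight
  refine ⟨(bad.biUnion fun b => Finset.Icc (ChordSteps.cutVal p.length r g b - 2 * r)
    (ChordSteps.cutVal p.length r g b + 2 * r)) ∪ light.image fun m => g (m + 1), ?_,
    fun c hc0 hcl hcW => ?_⟩
  · have hlc : (light.card : ℝ) = hitCount (Set.Iio r₁) t p := by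
      rw [hitCount_eq_sum, hlight, Finset.natCast_card_filter]
      exact Finset.sum_congr rfl fun m _ => by simp only [Set.indicator_apply, Set.mem_Iio]
    rw [← hlc]
    refine le_trans (Nat.cast_le.2 (show _ ≤ bad.card * (4 * r + 1) + light.card from ?_))
      (by push_cast; linarith)
    refine (Finset.card_union_le _ _).trans (add_le_add ?_ Finset.card_image_le)
    refine (Finset.card_biUnion_le).trans
      ((Finset.sum_le_card_nsmul _ _ (4 * r + 1) fun b _ => ?_).trans_eq (smul_eq_mul _ _))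
    rw [Int.card_Icc]; omega
  · have hgl : ∀ m < p.length, |g (m + 1) - g m| ≤ 1 := fun m hm =>
      frameVal_adj σ hk (p.adj_getVert_succ hm)
    obtain ⟨i, j, hi0, hij, hjℓ, hgi, hgj, hbef, haft⟩ := ChordSteps.first_last hgl hc0 hcl
    have hfar : ∀ b ∈ bad, 2 * (r : ℤ) < |ChordSteps.cutVal p.length r g b - c| := by
      intro b hb
      by_contra hcon
      rw [not_lt, abs_le] at hcon
      exact hcW (Finset.mem_union_left _ (Finset.mem_biUnion.2
        ⟨b, hb, Finset.mem_Icc.2 ⟨by omega, by omega⟩⟩))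
    have hshort := ChordSteps.crossing_short hr (q := θ * r / 4) (by positivity) hgl
      (fun j hj hjb => by
        obtain ⟨h1, h2⟩ := hgood j hj hjb
        exact ⟨h1, by simpa [pieceGain] using h2⟩)
      hij hjℓ.le hgi hgj hfar
    rw [show 2 * (r : ℝ) / (θ * r / 4) = 8 / θ by field_simp; ring] at hshort
    refine ⟨i, j, hi0, hij, hjℓ, hgi, hgj, hbef, haft, hshort, ?_⟩
    by_contra hcon
    refine hcW (Finset.mem_union_right _ (Finset.mem_image.2 ⟨i - 1, ?_, ?_⟩))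
    · refine Finset.mem_filter.2 ⟨Finset.mem_range.2 (by omega), ?_⟩
      rw [Nat.sub_add_cancel hi0]; exact not_le.1 hcon
    · rw [Nat.sub_add_cancel hi0]; exact hgi

open scoped Classical in
/-- Few indices are far from every unexceptional level. -/
lemma indices_ok {t : Conf} (ht : InRange M t) (hM : 0 ≤ M) {a b : V} {p : grid.Walk a b}
    {σ : LatSym} {k : ℤ} (hk : k = 0 ∨ k = 1) {r : ℕ} (hr : 0 < r) {r₂ θ L : ℝ} (hr₂ : 0 < r₂)
    (hθ : 0 < θ) (hL : (hitCount (Set.Iio r₂) t p : ℝ) ≤ L) {bad : Finset ℕ}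
    (hgood : ∀ j ≤ p.length / r, j ∉ bad → j < p.length / r ∧
      θ * r / 4 ≤ (pieceGain σ k r p j : ℝ) ∧
      rlen t p.getVert ((j + 1) * r) - rlen t p.getVert (j * r) ≤
        4 * M * (pieceGain σ k r p j : ℝ)) (W : Finset ℤ) :
    ∃ cand : Finset ℕ,
      (cand.card : ℝ) ≤ (bad.card : ℝ) * r + 4 * M * ((W.card : ℝ) + r * bad.card) / r₂ + L ∧
      ∀ n ≤ p.length, n ∉ cand → ∃ (c : ℤ) (m : ℕ), c ∉ W ∧ m ≤ p.length ∧
        pathVal σ k p m = c ∧ |(m : ℤ) - n| ≤ r ∧ |c - pathVal σ k p n| ≤ r := by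
  set g := pathVal σ k p with hg
  set NN := p.length / r
  have hgl : ∀ m < p.length, |g (m + 1) - g m| ≤ 1 := fun m hm =>
    frameVal_adj σ hk (p.adj_getVert_succ hm)
  have hgood' : ∀ j ≤ p.length / r, j ∉ bad → j < p.length / r ∧ θ * r / 4 ≤
      (ChordSteps.cutVal p.length r g (j + 1) : ℝ) - ChordSteps.cutVal p.length r g j :=
    fun j hj hjb => ⟨(hgood j hj hjb).1, by simpa [pieceGain] using (hgood j hj hjb).2.1⟩
  set S := (Finset.range NN).filter fun j => j ∉ bad ∧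
    ∀ c : ℤ, ChordSteps.cutVal p.length r g j < c → c ≤ ChordSteps.cutVal p.length r g (j + 1) →
      c ∈ W with hSdef
  refine ⟨(bad ∪ S).biUnion fun j => Finset.Ico (j * r) (j * r + r), ?_, fun n hn hnc => ?_⟩
  · have hSc : (S.card : ℝ) * r ≤ 4 * M * ((W.card : ℝ) + r * bad.card) / r₂ + L := by
      have h1 := pieces_weight ht.nonneg p (r := r) hr₂.le (S := S)
        (fun j hj => Finset.mem_range.1 (Finset.mem_filter.1 hj).1)
      have hgs := ChordSteps.gain_le (show 0 ≤ θ * (r : ℝ) / 4 by positivity) hgl hgood' W S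
        (fun j hj => by
          obtain ⟨hj1, hj2, hj3⟩ := Finset.mem_filter.1 hj
          exact ⟨(Finset.mem_range.1 hj1).le, hj2, hj3⟩)
      have h3 : (∑ j ∈ S, (pieceGain σ k r p j : ℝ)) ≤ (W.card : ℝ) + r * bad.card := by
        have h := Int.cast_le (R := ℝ) |>.2 hgs
        push_cast at h
        simpa [pieceGain] using h
      have h2 : ∑ j ∈ S, (rlen t p.getVert ((j + 1) * r) - rlen t p.getVert (j * r)) ≤
          4 * M * ((W.card : ℝ) + r * bad.card) := by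
        refine le_trans ?_ (mul_le_mul_of_nonneg_left h3 (by linarith))
        rw [Finset.mul_sum]
        refine Finset.sum_le_sum fun j hj => ?_
        obtain ⟨hj1, hj2, -⟩ := Finset.mem_filter.1 hj
        exact (hgood j (Finset.mem_range.1 hj1).le hj2).2.2
      have h5 := mul_le_mul_of_nonneg_left hL hr₂.le
      rw [← sub_le_iff_le_add, le_div_iff₀ hr₂]
      linarith
    refine le_trans (Nat.cast_le.2 (show _ ≤ (bad.card + S.card) * r from ?_))
      (by push_cast; linarith)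
    refine (Finset.card_biUnion_le).trans
      (((Finset.sum_le_card_nsmul _ _ r fun j _ => by simp).trans_eq (smul_eq_mul _ _)).trans
        (Nat.mul_le_mul_right r (Finset.card_union_le _ _)))
  · have hnj0 : n / r * r ≤ n := Nat.div_mul_le_self n r
    have hnj : n < (n / r + 1) * r := by rw [mul_comm]; exact Nat.lt_mul_div_succ n hr
    have hadd : (n / r + 1) * r = n / r * r + r := by rw [Nat.add_mul, one_mul]
    have hnotin : n / r ∉ bad ∧ n / r ∉ S := by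
      rw [← not_or, ← Finset.mem_union]
      exact fun h => hnc (Finset.mem_biUnion.2 ⟨n / r, h, Finset.mem_Ico.2 ⟨hnj0, by omega⟩⟩)
    obtain ⟨hnb, hnS⟩ := hnotin
    have hlt : n / r < NN := (hgood (n / r) (Nat.div_le_div_right hn) hnb).1
    simp only [hSdef, Finset.mem_filter, Finset.mem_range, not_and, not_forall] at hnS
    obtain ⟨c, hc1, hc2, hcW⟩ := hnS hlt hnb
    have hm1' : (n / r + 1) * r ≤ p.length :=
      (Nat.mul_le_mul_right r hlt).trans (Nat.div_mul_le_self _ r)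
    have hm0' : n / r * r ≤ (n / r + 1) * r := by omega
    simp only [ChordSteps.cutVal, min_eq_left hm1', min_eq_left (hm0'.trans hm1')] at hc1 hc2
    obtain ⟨m, hm1, hm2, hmc⟩ := ChordSteps.hits hgl hm0' hm1' hc1 hc2
    refine ⟨c, m, hcW, by omega, hmc, abs_le.2 ⟨by omega, by omega⟩, ?_⟩
    rw [← hmc]
    rcases le_total n m with h | h
    · exact (ChordSteps.lip hgl h (by omega)).trans (by omega)
    · rw [abs_sub_comm]; exact (ChordSteps.lip hgl h hn).trans (by omega)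

/-- The bound on the length and the bound by the diameter of a chord. -/
lemma chord_length {t : Conf} (ht : InRange M t) (hκ : 0 < κ) {C N ℓ : ℕ} (hC : 4 * M ≤ κ * C)
    {v : ℕ → V} (hadj : ∀ m < ℓ, Adj (v m) (v (m + 1))) (hinj : Set.InjOn v {i | i ≤ ℓ})
    (hgeo : rlen t v ℓ = T t (v 0) (v ℓ)) (ha : InBox (1 * N) (v 0)) (hb : InBox (1 * N) (v ℓ))
    (hlong : t ∉ shortSet κ (v 0) (C * N + 1)) : ℓ ≤ C * N := by
  by_contra hcon
  have hM : 0 ≤ M := (ht ((0, 0), true)).1.trans (ht ((0, 0), true)).2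
  obtain ⟨q, hq, hql, -, hqlen⟩ := exists_seq_walk t (v := v) (C * N + 1)
    (fun m hm => hadj m (by omega)) (hinj.mono fun i hi => by
      simp only [Set.mem_ofPred_eq] at hi ⊢; omega)
  refine hlong ⟨_, q, hq, hql, ?_⟩
  rw [plen_eq_rlen, hql, hqlen _ le_rfl]
  refine lt_of_le_of_lt ((rlen_mono ht.nonneg v (show C * N + 1 ≤ ℓ by omega)).trans
    (hgeo.le.trans (T_le_l1 ht _ _))) ?_
  have e : |(v 0).1 - (v ℓ).1| + |(v 0).2 - (v ℓ).2| ≤ 4 * (N : ℤ) := by
    obtain ⟨a1, a2⟩ := ha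
    obtain ⟨b1, b2⟩ := hb
    have := abs_sub (v 0).1 (v ℓ).1
    have := abs_sub (v 0).2 (v ℓ).2
    omega
  have e' : ((|(v 0).1 - (v ℓ).1| + |(v 0).2 - (v ℓ).2| : ℤ) : ℝ) ≤ ((4 * N : ℤ) : ℝ) :=
    Int.cast_le.2 e
  have h1 := mul_le_mul_of_nonneg_left e' hM
  have h2 := mul_le_mul_of_nonneg_right hC (Nat.cast_nonneg N)
  push_cast at h1 h2 ⊢
  linarith

/-- A segment of a path indexed by the integers as a geodesic walk. -/
lemma seg_walk {t : Conf} {γ : ℤ → V} {i₀ i₁ : ℤ} (hseg : SegGeo t γ i₀ i₁) {ℓ : ℕ}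
    (hℓ : (ℓ : ℤ) = i₁ - i₀) :
    (∀ m < ℓ, Adj (γ (i₀ + m)) (γ (i₀ + (m + 1 : ℕ)))) ∧
      Set.InjOn (fun n : ℕ => γ (i₀ + n)) {i | i ≤ ℓ} ∧
      rlen t (fun n : ℕ => γ (i₀ + n)) ℓ = T t (γ (i₀ + (0 : ℕ))) (γ (i₀ + ℓ)) := by
  refine ⟨fun m hm => ?_, fun a ha b hb hab => ?_, ?_⟩
  · have := hseg.adj (i₀ + m) (by omega) (by omega)
    simpa [add_assoc] using this
  · simp only [Set.mem_ofPred_eq] at ha hb
    have := hseg.inj (Set.mem_Icc.2 ⟨by omega, by omega⟩) (Set.mem_Icc.2 ⟨by omega, by omega⟩) hab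
    omega
  · have h := hseg.geo
    rw [show i₁ = i₀ + ℓ by omega, sum_Ico_shift (fun m => wt t (γ m) (γ (m + 1)))] at h
    rw [Nat.cast_zero, add_zero, ← h]
    unfold rlen
    exact Finset.sum_congr rfl fun m _ => by simp [add_assoc]

/-- From the walk back to the integer indices. -/
lemma cross_of_walk {t : Conf} {σ : LatSym} {k : ℤ} {γ : ℤ → V} {i₀ i₁ : ℤ} {a b : V}
    {p : grid.Walk a b} (hℓ : (p.length : ℤ) = i₁ - i₀)
    (hget : ∀ n ≤ p.length, p.getVert n = γ (i₀ + n)) {c : ℤ} {R i j : ℕ} {r₁ : ℝ} (hi : 0 < i)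
    (hij : i ≤ j) (hj : j < p.length) (hgi : pathVal σ k p i = c) (hgj : pathVal σ k p j = c)
    (hbef : ∀ m < i, pathVal σ k p m < c)
    (haft : ∀ m, j < m → m ≤ p.length → c < pathVal σ k p m) (hR : j - i ≤ R)
    (hheavy : r₁ ≤ wt t (p.getVert (i - 1)) (p.getVert i)) :
    Cross k (σ.vmap ∘ γ) i₀ i₁ c R (i₀ + i) (i₀ + j) ∧
      r₁ ≤ wt t (γ (i₀ + i - 1)) (γ (i₀ + i)) := by
  have e : ∀ n ≤ p.length, lev k ((σ.vmap ∘ γ) (i₀ + n)) = pathVal σ k p n := fun n hn => by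
    simp only [pathVal, frameVal, hget n hn, Function.comp_apply]
  have hback : ∀ m : ℤ, i₀ ≤ m → m ≤ i₁ → ∃ n : ℕ, n ≤ p.length ∧ m = i₀ + n :=
    fun m h1 h2 => ⟨(m - i₀).toNat, by omega, by omega⟩
  refine ⟨⟨by omega, by omega, by omega, by omega, ?_, ?_, fun m h1 h2 => ?_, fun m h1 h2 => ?_⟩,
    ?_⟩
  · rw [e i (by omega)]; exact hgi
  · rw [e j (by omega)]; exact hgj
  · obtain ⟨n, hn, rfl⟩ := hback m h1 (by omega)
    rw [e n hn]; exact hbef n (by omega)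
  · obtain ⟨n, hn, rfl⟩ := hback m (by omega) h2
    rw [e n hn]; exact haft n (by omega) hn
  · rw [hget (i - 1) (by omega), hget i (by omega)] at hheavy
    rwa [show i₀ + ((i - 1 : ℕ) : ℤ) = i₀ + i - 1 by omega] at hheavy

/-- The deterministic part of the chord property. -/
theorem chord_det (hG : LawOK G M) (hS : ShortBound G κ) {t : Conf} (ht : InRange M t)
    {C N r R : ℕ} {r₁ r₂ θ lam₁ lam₂ ε' ε : ℝ} (hC : 4 * M ≤ κ * C) (hC1 : 1 ≤ C)
    (hr : 0 < r) (hr₁ : 0 < r₁) (hr₂ : 0 < r₂) (hθ : 0 < θ) (hθr₁ : 2 * M * θ ≤ r₁)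
    (hε'0 : 0 ≤ ε') (hε' : ε' ≤ κ / 256) (hrN : 32 * r ≤ N) (hR : (r : ℝ) * (8 / θ + 3) ≤ R)
    (hshape : ∀ x y : V, InBox (1 * N) x → InBox (1 * N) y →
      |T t x y - mu G (toR y - toR x)| ≤ ε' * N)
    (hblock : BlockGood G C r ε' N t)
    (hlong : ∀ a : V, InBox (1 * N) a → t ∉ shortSet κ a (C * N + 1))
    (hlight : ∀ (a b : V) (p : grid.Walk a b), InBox (1 * N) a → p.IsPath → N ≤ 2 * p.length →
      p.length ≤ C * N → (hitCount (Set.Iio r₁) t p : ℝ) ≤ lam₁ * ((C : ℝ) * N) ∧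
        (hitCount (Set.Iio r₂) t p : ℝ) ≤ lam₂ * ((C : ℝ) * N))
    {X : ℝ} (hX : 2 * lam₁ * ((C : ℝ) * N) + 192 * ε' * N / (κ * θ) + r ≤ X)
    (hA : 5 * X + lam₁ * ((C : ℝ) * N) ≤ ε * N)
    (hB : X + 4 * M * (6 * X + lam₁ * ((C : ℝ) * N)) / r₂ + lam₂ * ((C : ℝ) * N) ≤ ε * N) :
    ChordOK (1 / 8) C r₁ ε R N t := by
  classical
  have hM := hG.M_nonneg
  intro γ i₀ i₁ hseg hbd₀ hbd₁ hmid
  obtain ⟨mm, hmm₀, hmm₁, hmm⟩ := hmid
  have hN : 0 < N := by omega
  obtain ⟨ℓ, hℓ⟩ : ∃ ℓ : ℕ, (ℓ : ℤ) = i₁ - i₀ :=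
    ⟨(i₁ - i₀).toNat, Int.toNat_of_nonneg (by omega)⟩
  obtain ⟨hadj, hinj, hgeo⟩ := seg_walk hseg hℓ
  obtain ⟨p, hp, hpl, hpv, hplen⟩ := exists_seq_walk t ℓ hadj hinj
  have hℓ' : (p.length : ℤ) = i₁ - i₀ := by rw [hpl]; exact hℓ
  have hget : ∀ n ≤ p.length, p.getVert n = γ (i₀ + n) := fun n hn => by
    rw [hpv, min_eq_left (hpl ▸ hn)]
  have hpT : plen t p = T t (γ (i₀ + (0 : ℕ))) (γ (i₀ + ℓ)) := by
    rw [plen_eq_rlen, hpl, hplen _ le_rfl, hgeo]
  have hv0 : γ (i₀ + (0 : ℕ)) = γ i₀ := by simp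
  have hvℓ : γ (i₀ + ℓ) = γ i₁ := by congr 1; omega
  have hbox : ∀ {x : V}, InSq (N : ℤ) x → InBox (1 * N) x := fun {x} hx => by
    obtain ⟨a1, a2, a3, a4⟩ := hx
    simp only [InBox, one_mul, abs_le]
    exact ⟨⟨a1, a2⟩, a3, a4⟩
  have ha : InBox (1 * N) (γ (i₀ + (0 : ℕ))) := hv0.symm ▸ hbox hbd₀.1
  have hb : InBox (1 * N) (γ (i₀ + ℓ)) := hvℓ.symm ▸ hbox hbd₁.1
  have hlen : p.length ≤ C * N :=
    hpl.le.trans (chord_length ht hS.1 hC hadj hinj hgeo ha hb (hlong _ ha))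
  obtain ⟨n₀, hn₀, hn₀ℓ⟩ : ∃ n₀ : ℕ, mm = i₀ + n₀ ∧ n₀ ≤ p.length :=
    ⟨(mm - i₀).toNat, by omega, by omega⟩
  have hsmall : |((p.getVert n₀).1 : ℝ)| ≤ N / 64 ∧ |((p.getVert n₀).2 : ℝ)| ≤ N / 64 := by
    rw [hget n₀ hn₀ℓ, ← hn₀]
    have hfl := Int.floor_le ((1 / 8 : ℝ) * N / 8)
    obtain ⟨a1, a2, a3, a4⟩ := hmm
    have c1 : ((-⌊(1 / 8 : ℝ) * N / 8⌋ : ℤ) : ℝ) ≤ (γ mm).1 := Int.cast_le.2 a1
    have c2 : (((γ mm).1 : ℤ) : ℝ) ≤ ⌊(1 / 8 : ℝ) * N / 8⌋ := Int.cast_le.2 a2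
    have c3 : ((-⌊(1 / 8 : ℝ) * N / 8⌋ : ℤ) : ℝ) ≤ (γ mm).2 := Int.cast_le.2 a3
    have c4 : (((γ mm).2 : ℤ) : ℝ) ≤ ⌊(1 / 8 : ℝ) * N / 8⌋ := Int.cast_le.2 a4
    push_cast at c1 c3
    exact ⟨abs_le.2 ⟨by linarith, by linarith⟩, abs_le.2 ⟨by linarith, by linarith⟩⟩
  obtain ⟨pc, qc, σ, k, hσ, hk, hφ, hφD, hup, hframe, hFa, hFb, hNℓ⟩ :=
    chord_frame hG hS ht hN hpT hn₀ℓ (hv0.symm ▸ hbd₀) (hvℓ.symm ▸ hbd₁) hsmall hε' hshape
  obtain ⟨hl₁, hl₂⟩ := hlight _ _ p ha hp hNℓ hlen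
  have hslope := block_slope hblock hr (p := p)
    (show InBox (C * N) (γ (i₀ + (0 : ℕ))) from
      have h1 : ((1 * N : ℕ) : ℤ) ≤ ((C * N : ℕ) : ℤ) := by
        exact_mod_cast Nat.mul_le_mul_right N hC1
      ⟨ha.1.trans h1, ha.2.trans h1⟩)
    hp hlen hpT hup (pc • LinearMap.fst ℝ ℝ ℝ + qc • LinearMap.snd ℝ ℝ ℝ)
    (by
      simp only [LinearMap.add_apply, LinearMap.smul_apply, LinearMap.fst_apply,
        LinearMap.snd_apply, smul_eq_mul]
      simp only [linR] at hφD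
      linarith [mul_nonneg hε'0 (Nat.cast_nonneg N)])
  obtain ⟨bad, hbadc, hgood⟩ := bad_cuts hG hS.1 ht hpT (r := r) hr₁ hθ hθr₁ hl₁ hφ
    (E := 3 * ε' * N) (by simpa [linR] using hslope) hframe
  obtain ⟨W, hWc, hlev⟩ := levels_ok (t := t) (r₁ := r₁) hk hr hθ
    (fun j hj hjb => ⟨(hgood j hj hjb).1, (hgood j hj hjb).2.1⟩)
  obtain ⟨cand, hcc, hidx⟩ := indices_ok ht hM hk hr hr₂ hθ hl₂ hgood W
  have hbX : (bad.card : ℝ) * r ≤ X := by
    refine hbadc.trans (le_trans (le_of_eq ?_) hX)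
    ring
  have hWX : (W.card : ℝ) ≤ 5 * X + lam₁ * ((C : ℝ) * N) := by
    have h3 : (bad.card : ℝ) * 1 ≤ (bad.card : ℝ) * r :=
      mul_le_mul_of_nonneg_left (by exact_mod_cast hr) (Nat.cast_nonneg _)
    linarith
  have hlevel : ∀ c : ℤ, |(c : ℝ)| ≤ N / 16 → c ∉ W → ∃ i j : ℕ, i ≤ j ∧ j ≤ p.length ∧
      (∀ m < i, pathVal σ k p m < c) ∧
      (∀ m, j < m → m ≤ p.length → c < pathVal σ k p m) ∧
      j - i + r ≤ R ∧ Cross k (σ.vmap ∘ γ) i₀ i₁ c R (i₀ + i) (i₀ + j) ∧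
      r₁ ≤ wt t (γ (i₀ + i - 1)) (γ (i₀ + i)) := by
    intro c hc hcW
    obtain ⟨c1, c2⟩ := abs_le.1 hc
    have hN' : (0 : ℝ) < N := by exact_mod_cast hN
    have hc0 : pathVal σ k p 0 < c := by
      have e : pathVal σ k p 0 = frameVal σ k (γ (i₀ + (0 : ℕ))) := by
        simp only [pathVal]; rw [p.getVert_zero]
      have : (pathVal σ k p 0 : ℝ) < c := by
        rw [e]; exact lt_of_le_of_lt hFa (by linarith)
      exact_mod_cast this
    have hcl : c < pathVal σ k p p.length := by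
      have e : pathVal σ k p p.length = frameVal σ k (γ (i₀ + ℓ)) := by
        simp only [pathVal]; rw [p.getVert_length]
      have : (c : ℝ) < pathVal σ k p p.length := by
        rw [e]; exact lt_of_lt_of_le (by linarith) hFb
      exact_mod_cast this
    obtain ⟨i, j, hi0, hij, hjℓ, hgi, hgj, hbef, haft, hshort, hheavy⟩ := hlev c hc0 hcl hcW
    have hjR : j - i + r ≤ R := by
      have : ((j - i + r : ℕ) : ℝ) ≤ (R : ℝ) := by push_cast; linarith
      exact_mod_cast this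
    exact ⟨i, j, hij, hjℓ.le, hbef, haft, hjR,
      cross_of_walk hℓ' hget hi0 hij hjℓ hgi hgj hbef haft (by omega) hheavy⟩
  refine ⟨?_, σ, hσ, k, hk, ?_, ?_, ?_, ?_⟩
  · rw [← hℓ']; push_cast; exact_mod_cast hlen
  · rw [← hv0]; simpa [frameVal] using hFa
  · rw [← hvℓ]; simpa [frameVal] using hFb
  · refine le_trans ?_ (hWX.trans hA)
    rw [Nat.cast_le, ← Set.ncard_coe_finset]
    refine Set.ncard_le_ncard ?_ W.finite_toSet
    rintro c ⟨hc, hno⟩
    by_contra hcW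
    obtain ⟨i, j, -, -, -, -, -, hcr, hheavy⟩ := hlevel c (by linarith) hcW
    exact hno ⟨_, _, hcr, hheavy⟩
  · have hcard : (cand.card : ℝ) ≤ ε * N := by
      have h4 : 4 * M * ((W.card : ℝ) + r * bad.card) / r₂ ≤
          4 * M * (6 * X + lam₁ * ((C : ℝ) * N)) / r₂ :=
        div_le_div_of_nonneg_right (mul_le_mul_of_nonneg_left (by linarith) (by linarith)) hr₂.le
      linarith
    refine le_trans ?_ hcard
    refine le_trans ?_ (Nat.cast_le.2 (Finset.card_image_le (f := fun n : ℕ => i₀ + (n : ℤ))))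
    rw [Nat.cast_le, ← Set.ncard_coe_finset]
    refine Set.ncard_le_ncard ?_ (Finset.finite_toSet _)
    rintro m ⟨hm0, hm1, hmlev, hno⟩
    obtain ⟨n, hn, rfl⟩ : ∃ n : ℕ, n ≤ p.length ∧ m = i₀ + n :=
      ⟨(m - i₀).toNat, by omega, by omega⟩
    by_contra hnc
    obtain ⟨c, m', hcW, hm', hmc, hmn, hcn⟩ :=
      hidx n hn fun h => hnc (Finset.mem_coe.2 (Finset.mem_image.2 ⟨n, h, rfl⟩))
    have hcN : |(c : ℝ)| ≤ N / 16 := by
      have h1 : |((c - pathVal σ k p n : ℤ) : ℝ)| ≤ ((r : ℤ) : ℝ) := by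
        rw [← Int.cast_abs]; exact Int.cast_le.2 hcn
      push_cast at h1
      have h2 : |(pathVal σ k p n : ℝ)| ≤ 1 / 8 * N / 4 := by
        simpa [pathVal, frameVal, hget n hn] using hmlev
      have h3 : (32 : ℝ) * r ≤ N := by exact_mod_cast hrN
      have := abs_add_le ((c : ℝ) - pathVal σ k p n) (pathVal σ k p n)
      rw [sub_add_cancel] at this
      linarith
    obtain ⟨i, j, hij, hjl, hbef, haft, hjR, hcr, hheavy⟩ := hlevel c hcN hcW
    refine hno ⟨c, _, _, hcr, hheavy, ?_⟩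
    have hmi : i ≤ m' := by
      by_contra h
      exact (hbef m' (not_le.1 h)).ne hmc
    have hmj : m' ≤ j := by
      by_contra h
      exact (haft m' (not_le.1 h) hm').ne hmc.symm
    rw [abs_le] at hmn ⊢
    constructor <;> omega

end Vale.Agent.P158
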