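import Vale.Agent.P158.Defs

/-!
Auxiliary definitions for the proof. Frames: `k = 0` or `k = 1`; the level of a vertex is
`x + k y`, its height is `y`.
-/

open MeasureTheory Filter Topology

namespace Vale.Agent.P158

/-- Every weight lies in `[0, M]`. -/
def InRange (M : ℝ) (t : Conf) : Prop := ∀ e, t e ∈ Set.Icc 0 M

/-- The level of a vertex in frame `k`. -/
def lev (k : ℤ) (v : V) : ℤ := v.1 + k * v.2

/-- The vertex with level `c` and height `s` in frame `k`. -/
def pt (k c s : ℤ) : V := (c - k * s, s)

/-- First end of an edge. -/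
def eFst (e : Edge) : V := e.1

/-- Second end of an edge. -/
def eSnd (e : Edge) : V := if e.2 then (e.1.1, e.1.2 + 1) else (e.1.1 + 1, e.1.2)

/-- All edges of a walk lie in `S`. -/
def WalkIn (S : Set Edge) {x y : V} (p : grid.Walk x y) : Prop :=
  ∀ d ∈ p.darts, edgeOf d.toProd.1 d.toProd.2 ∈ S

/-- Passage time using only the edges of `S`. -/
noncomputable def TS (t : Conf) (S : Set Edge) (x y : V) : ℝ :=
  sInf (plen t '' {p : grid.Walk x y | WalkIn S p})

/-- `x` and `y` are joined inside `S`. -/
def ConnIn (S : Set Edge) (x y : V) : Prop := ∃ p : grid.Walk x y, WalkIn S p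

/-- No two distinct self-avoiding walks with the same ends have the same passage time. -/
def TieFree (t : Conf) : Prop :=
  ∀ (x y : V) (p q : grid.Walk x y), p.IsPath → q.IsPath → plen t p = plen t q → p = q

/-- The closed half-plane of edges left of level `L`. -/
def lefE (k L : ℤ) : Set Edge := {e | lev k (eFst e) ≤ L ∧ lev k (eSnd e) ≤ L}

/-- The closed half-plane of edges right of level `L`. -/
def rigE (k L : ℤ) : Set Edge := {e | L ≤ lev k (eFst e) ∧ L ≤ lev k (eSnd e)}

/-- Weight of the first `n` steps of a one-sided path. -/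
def rlen (t : Conf) (r : ℕ → V) (n : ℕ) : ℝ := ∑ i ∈ Finset.range n, wt t (r i) (r (i + 1))

/-- A geodesic ray for the passage time inside `S`. -/
structure IsRayIn (t : Conf) (S : Set Edge) (r : ℕ → V) : Prop where
  inj : Function.Injective r
  adj : ∀ i, Adj (r i) (r (i + 1))
  mem : ∀ i, edgeOf (r i) (r (i + 1)) ∈ S
  geo : ∀ i j, i ≤ j → rlen t r j - rlen t r i = TS t S (r i) (r j)

/-- The Busemann function of a one-sided path inside `S`, normalised at its start. -/
noncomputable def bus (t : Conf) (S : Set Edge) (r : ℕ → V) (z : V) : ℝ :=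
  ⨅ n : ℕ, (TS t S (r n) z - rlen t r n)

/-- A function with the properties of a Busemann function for the full plane. -/
structure IsBus (t : Conf) (A : V → ℝ) : Prop where
  lip : ∀ x y, |A x - A y| ≤ T t x y
  step : ∀ x, ∃ y, Adj x y ∧ A x = A y + wt t x y

/-- The forward ray of a doubly infinite path from index `i`. -/
def fwd (γ : ℤ → V) (i : ℤ) : ℕ → V := fun n => γ (i + n)

/-- The backward ray of a doubly infinite path from index `i`. -/
def bwd (γ : ℤ → V) (i : ℤ) : ℕ → V := fun n => γ (i - n)

/-- In frame `k`, the ray eventually (from index `R`) moves to the side `σ = 1` (right) or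
`σ = -1` (left) with slope between `a` and `b`, all seen from its start. -/
def InCone (k σ : ℤ) (a b : ℝ) (R : ℕ) (r : ℕ → V) : Prop :=
  ∀ n, R ≤ n → 0 < σ * (lev k (r n) - lev k (r 0)) ∧
    a * (σ * (lev k (r n) - lev k (r 0)) : ℤ) ≤ (σ * ((r n).2 - (r 0).2) : ℤ) ∧
    ((σ * ((r n).2 - (r 0).2) : ℤ) : ℝ) ≤ b * (σ * (lev k (r n) - lev k (r 0)) : ℤ)

/-- A bigeodesic through `γ 0` whose two ends lie in the slope cone `[a, b]` from index `R` on. -/
def ConeLine (t : Conf) (k : ℤ) (a b : ℝ) (R : ℕ) (γ : ℤ → V) : Prop :=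
  IsBigeodesic t γ ∧ InCone k 1 a b R (fwd γ 0) ∧ InCone k (-1) a b R (bwd γ 0)

/-- The lattice translation acting on edges. -/
def eShift (v : V) (e : Edge) : Edge := (e.1 + v, e.2)

/-- The translated configuration. -/
def shift (v : V) (t : Conf) : Conf := fun e => t (eShift v e)

/-- Lattice symmetry exchanging the coordinates, on configurations. -/
def swapConf (t : Conf) : Conf := fun e => t ((e.1.2, e.1.1), !e.2)

/-- Lattice symmetry reversing the second coordinate, on configurations. -/
def flipConf (t : Conf) : Conf :=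
  fun e => t (if e.2 then ((e.1.1, -e.1.2 - 1), true) else ((e.1.1, -e.1.2), false))

end Vale.Agent.P158
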