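import Vale.Agent.P158.Count2Pair

/-!
P158, second stage: the deterministic count.  Among any four lines of the certified blocks two
belong to one block or avoid each other's regions, so the count of `Count2Pair` applies.
-/

open Filter Topology

namespace Vale.Agent.P158

/-- Four points cannot be joined pairwise so that every point is entered at most once. -/
theorem four_orient {α : Type*} (f : Fin 4 → α) (Q : α → α → Prop)
    (hall : ∀ i j, i ≠ j → Q (f i) (f j) ∨ Q (f j) (f i))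
    (hkey : ∀ i v z, v ≠ z → v ≠ i → z ≠ i → Q (f v) (f i) → Q (f z) (f i) → False) : False := by
  rcases hall 0 1 (by decide) with a | a <;> rcases hall 0 2 (by decide) with b | b <;>
    rcases hall 0 3 (by decide) with c | c <;> rcases hall 1 2 (by decide) with d | d <;>
    rcases hall 1 3 (by decide) with e | e <;> rcases hall 2 3 (by decide) with g | g <;>
    first
      | exact hkey 0 1 2 (by decide) (by decide) (by decide) ‹_› ‹_›
      | exact hkey 0 1 3 (by decide) (by decide) (by decide) ‹_› ‹_›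
      | exact hkey 0 2 3 (by decide) (by decide) (by decide) ‹_› ‹_›
      | exact hkey 1 0 2 (by decide) (by decide) (by decide) ‹_› ‹_›
      | exact hkey 1 0 3 (by decide) (by decide) (by decide) ‹_› ‹_›
      | exact hkey 1 2 3 (by decide) (by decide) (by decide) ‹_› ‹_›
      | exact hkey 2 0 1 (by decide) (by decide) (by decide) ‹_› ‹_›
      | exact hkey 2 0 3 (by decide) (by decide) (by decide) ‹_› ‹_›
      | exact hkey 2 1 3 (by decide) (by decide) (by decide) ‹_› ‹_›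
      | exact hkey 3 0 1 (by decide) (by decide) (by decide) ‹_› ‹_›

variable {P : SiteP} {k : ℤ}

/-- A region lies in a box, strictly between the outer levels. -/
theorem reg2_box (hk : |k| ≤ 1) {C s : ℝ} (hs : |s| ≤ C) {c h : ℤ} {d : ℕ}
    (hc : |c| + P.L < (P.Lam : ℤ)) {H : ℕ}
    (hH : |(h : ℝ)| + d + 2 * P.w + C * P.L ≤ H) {v : V} (hv : InReg2 P k c s h d v) :
    InSq ((H : ℤ) + P.Lam) v ∧ -(P.Lam : ℤ) < lev k v ∧ lev k v < P.Lam := by
  obtain ⟨h1, h2, h3⟩ := hv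
  have hl : |lev k v| < (P.Lam : ℤ) :=
    lt_of_le_of_lt (by linarith [abs_sub_abs_le_abs_sub (lev k v) c]) hc
  obtain ⟨l1, l2⟩ := abs_lt.1 hl
  have e1 : |(lev k v : ℝ) - c| ≤ (P.L : ℝ) := by exact_mod_cast h1
  have e2 : |s * ((lev k v : ℝ) - c)| ≤ C * P.L := by
    rw [abs_mul]
    exact mul_le_mul hs e1 (abs_nonneg _) ((abs_nonneg _).trans hs)
  have hd : (0 : ℝ) ≤ d := Nat.cast_nonneg d
  have e3 : |(v.2 : ℝ)| ≤ (H : ℝ) := by
    rw [abs_le] at e2 ⊢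
    have := abs_le.1 (le_refl |(h : ℝ)|)
    constructor <;> linarith
  have e4 : |v.2| ≤ (H : ℤ) := by exact_mod_cast e3
  have e5 : |k * v.2| ≤ (H : ℤ) := by
    rw [abs_mul]
    exact (mul_le_of_le_one_left (abs_nonneg _) hk).trans e4
  rw [abs_le] at e4 e5
  refine ⟨?_, l1, l2⟩
  simp only [InSq, lev] at *
  omega

/-- Only middle edges of a site line lie in the regions. -/
theorem middle_of_mem {s : ℝ} {x : V} {t : Conf} {γ : ℤ → V} {iL jR : ℤ}
    (hl : LineSite P k s x t γ iL jR) {c h : ℤ} {s' : ℝ} {d : ℕ}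
    (hreg : ∀ v, InReg2 P k c s' h d v →
      InSq P.N v ∧ -(P.Lam : ℤ) < lev k v ∧ lev k v < P.Lam) {i : ℤ}
    (hi : edgeOf (γ i) (γ (i + 1)) ∈ regSet2 P k c s' h d) :
    iL ≤ i ∧ i ≤ jR ∧ InReg2 P k c s' h d (γ i) := by
  obtain ⟨j, hj, -⟩ := hl.left
  obtain ⟨i', hi', -⟩ := hl.right
  obtain ⟨h1, h2⟩ : InReg2 P k c s' h d (γ i) ∧ InReg2 P k c s' h d (γ (i + 1)) := by
    obtain ⟨a, b⟩ := hi
    rcases ends_edgeOf (hl.line.adj i) with ⟨e1, e2⟩ | ⟨e1, e2⟩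
    · exact ⟨e1 ▸ a, e2 ▸ b⟩
    · exact ⟨e2 ▸ b, e1 ▸ a⟩
  obtain ⟨a1, a2, a3⟩ := hreg _ h1
  refine ⟨?_, ?_, h1⟩
  · by_contra hlt
    have := hj.before i (not_le.1 hlt) a1
    omega
  · by_contra hlt
    have := hi'.after i (not_le.1 hlt) a1
    omega

/-- A line passing a region of another line of its unit has its origin near that block. -/
theorem pass_same {ε w : ℝ} {s ρ z a l c h h' y : ℝ} {d L : ℝ}
    (hρ : |ρ - s| ≤ ε) (hεL : ε * L ≤ w) (ht : |z - y - ρ * (l - c)| ≤ w) (hl : |l - c| ≤ L)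
    (ha : a = z - s * (l - c)) (h1 : h' - 2 * w ≤ a) (h2 : a ≤ h' + d + 2 * w) (h3 : h ≤ y)
    (h4 : y ≤ h + d) : |h' - h| ≤ d + 4 * w := by
  have e : |(ρ - s) * (l - c)| ≤ w := by
    rw [abs_mul]
    exact (mul_le_mul hρ hl (abs_nonneg _) ((abs_nonneg _).trans hρ)).trans hεL
  rw [abs_le] at ht e ⊢
  constructor <;> linarith

/-- A line passing the region of a line of another unit nearly passes its origin. -/
theorem pass_other {ε w C : ℝ} {ρ s s' z l c c' h y y' : ℝ} {d L : ℝ}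
    (hε : ε ≤ 1) (hρ : |ρ - s| ≤ ε) (hs : |s| ≤ C) (hs' : |s'| ≤ C)
    (ht : |z - y - ρ * (l - c)| ≤ w) (hl : |l - c'| ≤ L)
    (h1 : h - 2 * w ≤ z - s' * (l - c')) (h2 : z - s' * (l - c') ≤ h + d + 2 * w)
    (h3 : h ≤ y') (h4 : y' ≤ h + d) :
    |y' - y - ρ * (c' - c)| ≤ d + 3 * w + (2 * C + 1) * L := by
  have e1 : |ρ * (l - c')| ≤ (C + 1) * L := by
    rw [abs_mul]
    refine mul_le_mul ?_ hl (abs_nonneg _) (by linarith [abs_nonneg s])
    linarith [abs_sub_abs_le_abs_sub ρ s]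
  have e2 : |s' * (l - c')| ≤ C * L := by
    rw [abs_mul]
    exact mul_le_mul hs' hl (abs_nonneg _) ((abs_nonneg _).trans hs')
  rw [abs_le] at ht e1 e2 ⊢
  constructor <;> linarith

/-- Two lines of separated slopes passing near one point are apart elsewhere. -/
theorem pass_key {ε E ρ ρ' c c' c₀ y y' y₀ : ℝ} (hE : 0 < E) (hρ : 4 * ε ≤ |ρ' - ρ|)
    (hc : 5 * E ≤ ε * |c' - c₀|) (h1 : |y₀ - y - ρ * (c₀ - c)| ≤ E)
    (h2 : |y₀ - y' - ρ' * (c₀ - c')| ≤ E) (h3 : |y' - y - ρ * (c' - c)| ≤ E) : False := by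
  have e : |(ρ' - ρ) * (c' - c₀)| ≤ 3 * E := by
    rw [abs_le] at h1 h2 h3 ⊢
    constructor <;> linarith
  rw [abs_mul] at e
  have := mul_le_mul_of_nonneg_right hρ (abs_nonneg (c' - c₀))
  linarith

/-- The lines of blocks in separated units and separated heights. -/
structure SiteFam (P : SiteP) (B : BlockP) (k : ℤ) (C : ℝ) (D H : ℕ) (s : ℕ → ℝ) (c : ℕ → ℤ)
    {ι : Type*} (Y : ι → Conf) (G : ι → ℤ → V) (uu : ι → ℕ) (jj yy iL jR : ι → ℤ) : Prop where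
  hk : |k| ≤ 1
  eps : 0 < P.ε ∧ P.ε ≤ 1 ∧ P.ε * P.L ≤ P.w
  hC : 1 ≤ C
  hD : (B.d : ℝ) + 6 * P.w + 3 < D
  hLH : (H : ℤ) + P.Lam ≤ P.N
  site : ∀ p, LineSite P k (s (uu p)) (pt k (c (uu p)) (yy p)) (Y p) (G p) (iL p) (jR p)
  hy : ∀ p, jj p * D ≤ yy p ∧ yy p < jj p * D + B.d
  hs : ∀ p, |s (uu p)| ≤ C
  hc : ∀ p, |c (uu p)| + P.L < (P.Lam : ℤ)
  hH : ∀ p, |((jj p * D : ℤ) : ℝ)| + B.d + 2 * P.w + C * P.L ≤ H
  sep : ∀ p q, uu p < uu q → 6 * P.ε ≤ s (uu q) - s (uu p) ∧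
    (10 * C + 20) * P.L + 20 * P.w + 10 * B.d ≤ P.ε * ((c (uu q) : ℝ) - c (uu p))

/-- A family of certified lines satisfies the geometric hypotheses of the count. -/
theorem siteFam_mk {B : BlockP} (hk : k = 0 ∨ k = 1) {C : ℝ} (hε : 0 < P.ε) (hε1 : P.ε ≤ 1)
    (hC : 1 ≤ C) (hεL : P.ε * P.L ≤ P.w) {U : Finset ℕ} {s : ℕ → ℝ} {c : ℕ → ℤ}
    (hU : ∀ u ∈ U, |s u| ≤ C ∧ |c u| + P.L < (P.Lam : ℤ))
    (hsep : ∀ u ∈ U, ∀ v ∈ U, u < v → 6 * P.ε ≤ s v - s u ∧
      (10 * C + 20) * P.L + 20 * P.w + 10 * B.d ≤ P.ε * ((c v : ℝ) - c u))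
    {D : ℕ} (hD : (B.d : ℝ) + 6 * P.w + 3 < D) {J : Finset ℤ} {H : ℕ}
    (hH : ∀ j ∈ J, (|j * (D : ℤ)| : ℝ) + B.d + 6 * P.w + 8 * (C + 2) * P.Lam + P.R' + 2 ≤ H)
    (hN : 8 * (C + 2) * (P.Lam : ℝ) + 4 * H ≤ P.N) {ι : Type*} {Y : ι → Conf}
    {G : ι → ℤ → V} {uu : ι → ℕ} {jj yy iL jR : ι → ℤ} (hu : ∀ p, uu p ∈ U)
    (hj : ∀ p, jj p ∈ J)
    (hl : ∀ p, LineSite P k (s (uu p)) (pt k (c (uu p)) (yy p)) (Y p) (G p) (iL p) (jR p))
    (hy : ∀ p, jj p * D ≤ yy p ∧ yy p < jj p * D + B.d) :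
    SiteFam P B k C D H s c Y G uu jj yy iL jR := by
  have hw : 0 ≤ P.w := le_trans (by positivity) hεL
  have hLH : (H : ℤ) + P.Lam ≤ P.N := by
    have h1 : ((H : ℝ) + P.Lam) ≤ P.N := by
      nlinarith [Nat.cast_nonneg (α := ℝ) P.Lam, Nat.cast_nonneg (α := ℝ) H]
    exact_mod_cast h1
  refine ⟨by rcases hk with rfl | rfl <;> simp, ⟨hε, hε1, hεL⟩, hC, hD, hLH, hl, hy,
    fun p => (hU _ (hu p)).1, fun p => (hU _ (hu p)).2, fun p => ?_,
    fun p q h => hsep _ (hu p) _ (hu q) h⟩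
  have h1 := hH _ (hj p)
  have h2 : (P.L : ℤ) ≤ P.Lam := by
    have := (hU _ (hu p)).2; have := abs_nonneg (c (uu p)); omega
  have h3 : (P.L : ℝ) ≤ P.Lam := by exact_mod_cast h2
  have h4 : C * P.L ≤ 8 * (C + 2) * P.Lam :=
    mul_le_mul (by linarith) h3 (Nat.cast_nonneg _) (by linarith)
  have h5 : (0 : ℝ) ≤ P.R' := Nat.cast_nonneg _
  push_cast at h1 ⊢
  linarith

namespace SiteFam

variable {B : BlockP} {C : ℝ} {D H : ℕ} {s : ℕ → ℝ} {c : ℕ → ℤ} {ι : Type*} {Y : ι → Conf}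
  {G : ι → ℤ → V} {uu : ι → ℕ} {jj yy iL jR : ι → ℤ}
  (S : SiteFam P B k C D H s c Y G uu jj yy iL jR)
include S

theorem box (p : ι) {v : V} (hv : InReg2 P k (c (uu p)) (s (uu p)) (jj p * D) B.d v) :
    InSq ((H : ℤ) + P.Lam) v ∧ -(P.Lam : ℤ) < lev k v ∧ lev k v < P.Lam :=
  reg2_box S.hk (S.hs p) (S.hc p) (S.hH p) hv

theorem org (p : ι) : InSq ((H : ℤ) + P.Lam) (G p 0) := by
  rw [(S.site p).origin]
  have hw : 0 ≤ P.w := le_trans (mul_nonneg S.eps.1.le (Nat.cast_nonneg _)) S.eps.2.2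
  have h2 : |yy p| ≤ (H : ℤ) := by
    have e1 : |(yy p : ℝ)| ≤ H := by
      have a1 : ((jj p * D : ℤ) : ℝ) ≤ yy p := by exact_mod_cast (S.hy p).1
      have a2 : (yy p : ℝ) ≤ (jj p * D : ℤ) + B.d := by exact_mod_cast (S.hy p).2.le
      have a3 : 0 ≤ C * P.L := mul_nonneg (by linarith [S.hC]) (Nat.cast_nonneg _)
      have a4 := abs_le.1 (le_refl |((jj p * D : ℤ) : ℝ)|)
      have := S.hH p
      rw [abs_le]
      constructor <;> linarith [Nat.cast_nonneg (α := ℝ) B.d]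
    exact_mod_cast e1
  have h3 : |k * yy p| ≤ (H : ℤ) := by
    rw [abs_mul]; exact (mul_le_of_le_one_left (abs_nonneg _) S.hk).trans h2
  have h4 : |c (uu p)| ≤ (P.Lam : ℤ) := by have := S.hc p; omega
  rw [abs_le] at h2 h3 h4
  simp only [InSq, pt]
  omega

/-- A line passes the region of a block. -/
theorem pass {p q : ι} {i : ℤ} (hi : edgeOf (G p i) (G p (i + 1)) ∈
      regSet2 P k (c (uu q)) (s (uu q)) (jj q * D) B.d) :
    iL p ≤ i ∧ i ≤ jR p ∧ InReg2 P k (c (uu q)) (s (uu q)) (jj q * D) B.d (G p i) :=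
  middle_of_mem (S.site p) (fun _ hv => ⟨inBox_mono S.hLH (S.box q hv).1, (S.box q hv).2⟩) hi

/-- Among four lines two belong to one block or avoid each other's regions. -/
theorem four_free (F : ι → ι → Prop)
    (hsame : ∀ p q, p ≠ q → uu p = uu q → jj p = jj q → F p q)
    (havoid : ∀ p q, p ≠ q →
      (∀ i, edgeOf (G p i) (G p (i + 1)) ∉ regSet2 P k (c (uu q)) (s (uu q)) (jj q * D) B.d) →
      (∀ i, edgeOf (G q i) (G q (i + 1)) ∉ regSet2 P k (c (uu p)) (s (uu p)) (jj p * D) B.d) →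
      F p q) (T : Finset ι) (hT : 4 ≤ T.card) : ∃ p ∈ T, ∃ q ∈ T, p ≠ q ∧ F p q := by
  obtain ⟨hε, hε1, hεL⟩ := S.eps
  have hC := S.hC
  have hw : 0 ≤ P.w := le_trans (mul_nonneg hε.le (Nat.cast_nonneg _)) hεL
  let cc : ι → ℤ := fun p => c (uu p)
  let ss : ι → ℝ := fun p => s (uu p)
  let hh : ι → ℤ := fun p => jj p * D
  have hy : ∀ p : ι, hh p ≤ yy p ∧ yy p < hh p + B.d := S.hy
  have hρ : ∀ p : ι, ∃ ρ : ℝ, |ρ - ss p| ≤ P.ε ∧ ∀ i, iL p ≤ i → i ≤ jR p →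
      |((G p i).2 : ℝ) - yy p - ρ * ((lev k (G p i) : ℝ) - cc p)| ≤ P.w := fun p => by
    obtain ⟨ρ, h1, h2⟩ := (S.site p).tube
    refine ⟨ρ, h1, fun i a b => ?_⟩
    simpa [lev, pt] using h2 i a b
  choose ρ hρ using hρ
  let Pass : ι → ι → Prop := fun p q => ∃ i, edgeOf (G p i) (G p (i + 1)) ∈
    regSet2 P k (cc q) (ss q) (hh q) B.d
  have hpass : ∀ p q, Pass p q → ∃ i, (|((G p i).2 : ℝ) - yy p -
        ρ p * ((lev k (G p i) : ℝ) - cc p)| ≤ P.w) ∧ |(lev k (G p i) : ℝ) - cc q| ≤ P.L ∧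
      (hh q : ℝ) - 2 * P.w ≤ (G p i).2 - ss q * ((lev k (G p i) : ℝ) - cc q) ∧
      ((G p i).2 : ℝ) - ss q * ((lev k (G p i) : ℝ) - cc q) ≤ hh q + B.d + 2 * P.w := by
    rintro p q ⟨i, hi⟩
    obtain ⟨i1, i2, h1, h2, h3⟩ := S.pass hi
    exact ⟨i, (hρ p).2 i i1 i2, by exact_mod_cast h1, h2, h3⟩
  -- lines which are not free belong to different units
  have hnf : ∀ p q : ι, p ≠ q → ¬ F p q → uu p ≠ uu q ∧ (Pass p q ∨ Pass q p) := by
    intro p q hpq hF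
    have hor : Pass p q ∨ Pass q p := by
      by_contra hno
      rw [not_or] at hno
      exact hF (havoid p q hpq (fun i hi => hno.1 ⟨i, hi⟩) fun i hi => hno.2 ⟨i, hi⟩)
    refine ⟨fun hu => ?_, hor⟩
    have hj : jj p ≠ jj q := fun hj => hF (hsame p q hpq hu hj)
    have key : ∀ p q : ι, uu p = uu q → Pass p q →
        |(hh q : ℝ) - hh p| ≤ B.d + 4 * P.w := by
      intro p q hu hP
      obtain ⟨i, h1, h2, h3, h4⟩ := hpass p q hP
      simp only [cc, ss] at h1 h2 h3 h4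
      rw [← hu] at h2 h3 h4
      exact pass_same (hρ p).1 hεL h1 h2 rfl h3 h4 (by exact_mod_cast (hy p).1)
        (by exact_mod_cast (hy p).2.le)
    have hge : (D : ℝ) ≤ |(hh q : ℝ) - hh p| := by
      have h1 : (1 : ℝ) ≤ |(jj q : ℝ) - jj p| := by
        exact_mod_cast Int.one_le_abs (sub_ne_zero.2 (Ne.symm hj))
      simp only [hh]
      push_cast
      rw [← sub_mul, abs_mul, Nat.abs_cast]
      exact le_mul_of_one_le_left (Nat.cast_nonneg _) h1
    have hD := S.hD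
    rcases hor with h | h
    · linarith [key p q hu h]
    · have := key q p hu.symm h
      rw [abs_sub_comm] at this
      linarith
  by_contra hno
  simp only [not_exists, not_and] at hno
  obtain ⟨f, hf⟩ : ∃ f : Fin 4 → ι, Function.Injective f ∧ ∀ i, f i ∈ T :=
    ⟨fun i => (T.equivFin.symm (Fin.castLE hT i)).1,
      Subtype.val_injective.comp (T.equivFin.symm.injective.comp (Fin.castLE_injective hT)),
      fun i => (T.equivFin.symm (Fin.castLE hT i)).2⟩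
  have hu : ∀ i j, i ≠ j → uu (f i) ≠ uu (f j) ∧
      (Pass (f i) (f j) ∨ Pass (f j) (f i)) := fun i j hij =>
    hnf _ _ (hf.1.ne hij) (hno _ (hf.2 i) _ (hf.2 j) (hf.1.ne hij))
  have hline' : ∀ p q : ι, Pass p q → |(yy q : ℝ) - yy p - ρ p * ((cc q : ℝ) - cc p)| ≤
      B.d + 3 * P.w + (2 * C + 1) * P.L := by
    intro p q hP
    obtain ⟨i, h1, h2, h3, h4⟩ := hpass p q hP
    exact pass_other hε1 (hρ p).1 (S.hs p) (S.hs q) h1 h2 h3 h4
      (by exact_mod_cast (hy q).1) (by exact_mod_cast (hy q).2.le)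
  have hsep' : ∀ p q : ι, uu p ≠ uu q → 4 * P.ε ≤ |ρ q - ρ p| ∧
      5 * ((B.d : ℝ) + 3 * P.w + (2 * C + 1) * P.L) ≤ P.ε * |(cc q : ℝ) - cc p| := by
    intro p q hu
    have hd : (0 : ℝ) ≤ B.d := Nat.cast_nonneg _
    have hL : (0 : ℝ) ≤ P.L := Nat.cast_nonneg _
    have a := abs_le.1 (hρ p).1
    have b := abs_le.1 (hρ q).1
    rcases lt_or_gt_of_ne hu with hlt | hlt
    · obtain ⟨s1, s2⟩ := S.sep p q hlt
      have := mul_le_mul_of_nonneg_left (le_abs_self ((cc q : ℝ) - cc p)) hε.le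
      simp only [cc, ss] at *
      refine ⟨le_trans (by linarith) (le_abs_self _), by linarith⟩
    · obtain ⟨s1, s2⟩ := S.sep q p hlt
      have := mul_le_mul_of_nonneg_left (neg_le_abs ((cc q : ℝ) - cc p)) hε.le
      simp only [cc, ss] at *
      refine ⟨le_trans (by linarith) (neg_le_abs _), by linarith⟩
  have hE : 0 < (B.d : ℝ) + 3 * P.w + (2 * C + 1) * P.L := by
    have h1 : (1 : ℝ) ≤ B.d := by
      have := (hy (f 0)).1; have := (hy (f 0)).2
      exact_mod_cast (show 1 ≤ B.d by omega)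
    have : 0 ≤ (2 * C + 1) * (P.L : ℝ) := by positivity
    linarith
  refine four_orient f Pass (fun i j h => (hu i j h).2) fun i v z hvz hvi hzi hv hz => ?_
  obtain ⟨hs1, -⟩ := hsep' _ _ (hu v z hvz).1
  obtain ⟨-, hc1⟩ := hsep' _ _ (hu i z (Ne.symm hzi)).1
  rcases (hu v z hvz).2 with h | h
  · exact pass_key hE hs1 hc1 (hline' _ _ hv) (hline' _ _ hz) (hline' _ _ h)
  · obtain ⟨-, hc2⟩ := hsep' _ _ (hu i v (Ne.symm hvi)).1
    exact pass_key hE (by rwa [abs_sub_comm]) hc2 (hline' _ _ hz) (hline' _ _ hv)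
      (hline' _ _ h)

end SiteFam

theorem countProp2 {M κ : ℝ} (hκ : 0 < κ) : CountProp2 M κ := by
  classical
  intro GS hGS P B k hk hδ hg C hε hε1 hC hεL U s c hU hsep D hD J H hH hN t ht hG₀ n hblock
  have hk' : |k| ≤ 1 := by rcases hk with rfl | rfl <;> simp
  have hw : 0 ≤ P.w := le_trans (by positivity) hεL
  have hM : 0 ≤ M :=
    ((hGS t ht).good.nonneg ((0, 0), false)).trans ((hGS t ht).good.range _).2
  -- the objects
  obtain ⟨Bl, hBl⟩ : ∃ Bl : Finset (ℕ × ℤ),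
      Bl = (U ×ˢ J).filter fun w => 0 < n w.1 w.2 := ⟨_, rfl⟩
  have hBm : ∀ w : Bl, w.1.1 ∈ U ∧ w.1.2 ∈ J ∧ 0 < n w.1.1 w.1.2 := fun w => by
    have := (Finset.ext_iff.1 hBl w.1).1 w.2
    rw [Finset.mem_filter, Finset.mem_product] at this
    exact ⟨this.1.1, this.1.2, this.2⟩
  have hex : ∀ w : Bl, ∃ pre, Cert2 P B GS k (c w.1.1) (s w.1.1) (w.1.2 * D)
      (n w.1.1 w.1.2) pre t := fun w => hblock _ (hBm w).1 _ (hBm w).2.1 (hBm w).2.2
  choose pre hpre using hex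
  have hcert : ∀ w : Bl, ∃ (ys : Fin (n w.1.1 w.1.2) → ℤ) (γ : Fin (n w.1.1 w.1.2) → ℤ → V)
      (iL jR : Fin (n w.1.1 w.1.2) → ℤ), Function.Injective ys ∧
      (∀ i, w.1.2 * D ≤ ys i ∧ ys i < w.1.2 * D + B.d ∧
        LineSite P k (s w.1.1) (pt k (c w.1.1) (ys i)) (pre w) (γ i) (iL i) (jR i) ∧
        B.g ≤ ∑ m ∈ Finset.Ico (iL i) (jR i),
          (wt (pre w) (γ i m) (γ i (m + 1)) - wt t (γ i m) (γ i (m + 1)))) ∧
      ∀ i i', i ≠ i' → Wit4 (pre w) B.W B.G₀ (γ i) (γ i') := fun w => (hpre w).2.2.2.2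
  choose ys γ iL jR hinj hline hwit using hcert
  let ι := Σ w : Bl, Fin (n w.1.1 w.1.2)
  let X : ι → Conf := fun p => pre p.1
  let G : ι → ℤ → V := fun p => γ p.1 p.2
  let cc : ι → ℤ := fun p => c p.1.1.1
  let ss : ι → ℝ := fun p => s p.1.1.1
  let hh : ι → ℤ := fun p => p.1.1.2 * D
  let yy : ι → ℤ := fun p => ys p.1 p.2
  have hl : ∀ p : ι, LineSite P k (ss p) (pt k (cc p) (yy p)) (X p) (G p) (iL p.1 p.2)
      (jR p.1 p.2) := fun p => (hline p.1 p.2).2.2.1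
  have hy : ∀ p : ι, hh p ≤ yy p ∧ yy p < hh p + B.d := fun p =>
    ⟨(hline p.1 p.2).1, (hline p.1 p.2).2.1⟩
  have hcard : (∑ u ∈ U, ∑ j ∈ J, (n u j : ℝ)) = (Fintype.card ι : ℝ) := by
    rw [Fintype.card_sigma, Nat.cast_sum]
    simp only [Fintype.card_fin]
    rw [Finset.sum_coe_sort Bl (fun w => (n w.1 w.2 : ℝ)), hBl,
      ← Finset.sum_product' U J (fun u j => (n u j : ℝ))]
    exact (Finset.sum_filter_of_ne fun w _ hne =>
      Nat.pos_of_ne_zero fun h0 => hne (by rw [h0, Nat.cast_zero])).symm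
  rw [hcard]
  -- the box
  obtain ⟨R, hR⟩ : ∃ R : ℤ, R = 2 * (H : ℤ) + P.Lam + B.W + 2 := ⟨_, rfl⟩
  have hfam := siteFam_mk hk hε hε1 hC hεL hU hsep hD hH hN (uu := fun p : ι => p.1.1.1)
    (jj := fun p => p.1.1.2) (fun p => (hBm p.1).1) (fun p => (hBm p.1).2.1) hl hy
  have hout : ∀ (p : ι), ∀ e ∈ Out R, X p e = t e := fun p e he =>
    ((hpre p.1).2.2.2.1 e fun hr => he.1 (inBox_mono (by omega) (hfam.box p hr.1).1)).symm
  -- deep tails
  have hdeep : ∀ p : ι, ∃ m : ℕ, (∀ b, IsRayIn t Set.univ (eray m (G p) b) ∧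
      IsRayIn t (Out R) (eray m (G p) b)) ∧ (∀ q b, IsRayIn (X q) Set.univ (eray m (G p) b)) ∧
      -(m : ℤ) ≤ iL p.1 p.2 ∧ jR p.1 p.2 ≤ m := by
    intro p
    have hG := (hGS _ (hpre p.1).1).good
    have hr : ∀ b, IsRayIn (X p) Set.univ (bwd (ori b (G p)) 0) := fun b =>
      Rays.isRayIn_bwd ((hl p).line.ori b) hG.nonneg 0
    have h1 : ∀ᶠ m : ℕ in atTop, ∀ b, IsRayIn t Set.univ (eray m (G p) b) ∧
        IsRayIn t (Out R) (eray m (G p) b) :=
      eventually_all.2 fun b => eventually_deep hG hκ (hGS t ht).good.nonneg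
        (fun e he => (hout p e he).symm) (hr b)
    have h2 : ∀ᶠ m : ℕ in atTop, ∀ q b, IsRayIn (X q) Set.univ (eray m (G p) b) :=
      eventually_all.2 fun q => eventually_all.2 fun b =>
        (eventually_deep hG hκ (hGS _ (hpre q.1).1).good.nonneg
          (fun e he => (hout q e he).trans (hout p e he).symm) (hr b)).mono fun _ h => h.1
    have h3 : ∀ᶠ m : ℕ in atTop, -(m : ℤ) ≤ iL p.1 p.2 ∧ jR p.1 p.2 ≤ m :=
      eventually_atTop.2 ⟨(-iL p.1 p.2).toNat + (jR p.1 p.2).toNat, fun m hm => by omega⟩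
    exact (h1.and (h2.and h3)).exists
  choose m hm using hdeep
  have horg : ∀ p : ι, InSq R (G p 0) := fun p => inBox_mono (by omega) (hfam.org p)
  have hgain : ∀ p : ι, B.g ≤ Rays.seg (X p) (G p) (-(m p : ℤ)) (m p) -
      Rays.seg t (G p) (-(m p : ℤ)) (m p) := fun p => by
      refine (hline p.1 p.2).2.2.2.trans ?_
      rw [Rays.seg, Rays.seg, ← Finset.sum_sub_distrib]
      exact Finset.sum_le_sum_of_subset_of_nonneg
        (Finset.Ico_subset_Ico (hm p).2.2.1 (hm p).2.2.2)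
        fun i _ _ => sub_nonneg.2 ((hpre p.1).2.2.1 _)
  have hnice : ∀ q : ι, NiceG κ (X q) := fun q =>
    ⟨(hGS _ (hpre q.1).1).good.gen, (hGS _ (hpre q.1).1).fork, (hGS _ (hpre q.1).1).matched⟩
  have S : Sys2 κ R t X G m :=
    ⟨(hGS t ht).good.nonneg, hnice, hout, fun p => (hl p).line, horg,
      fun p b => ((hm p).1 b).2, fun p b => ((hm p).1 b).1, fun q p b => (hm p).2.1 q b⟩
  have hfour : ∀ S : Finset ι, 4 ≤ S.card →
      ∃ p ∈ S, ∃ q ∈ S, p ≠ q ∧ Free2 B.g R X G m p q := by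
    refine hfam.four_free _ (fun p q hpq hu hj => ?_) (fun p q _ hp hq => ?_)
    · have he : p.1 = q.1 := Subtype.ext (Prod.ext hu hj)
      obtain ⟨w, i⟩ := p
      obtain ⟨w', i'⟩ := q
      subst he
      refine .inr ⟨rfl, B.G₀, ?_, fun a b => ?_⟩
      · refine lt_of_le_of_lt (add_le_add_left (T_le_l1 (hGS _ (hpre w).1).good.range _ _) _) ?_
        have hdy : |ys w i - ys w i'| ≤ (B.d : ℤ) := by
          have := (hline w i).1; have := (hline w i).2.1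
          have := (hline w i').1; have := (hline w i').2.1
          rw [abs_le]; omega
        have hdist : |(G ⟨w, i⟩ 0).1 - (G ⟨w, i'⟩ 0).1| + |(G ⟨w, i⟩ 0).2 - (G ⟨w, i'⟩ 0).2| ≤
            2 * (B.d : ℤ) := by
          rw [(hl ⟨w, i⟩).origin, (hl ⟨w, i'⟩).origin]
          simp only [pt, cc, yy]
          have hky : |k * ys w i' - k * ys w i| ≤ (B.d : ℤ) := by
            rw [← mul_sub, abs_mul, abs_sub_comm]
            exact (mul_le_of_le_one_left (abs_nonneg _) hk').trans hdy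
          rw [show c w.1.1 - k * ys w i - (c w.1.1 - k * ys w i') =
            k * ys w i' - k * ys w i by ring]
          omega
        have hd' : M * (((|(G ⟨w, i⟩ 0).1 - (G ⟨w, i'⟩ 0).1| +
            |(G ⟨w, i⟩ 0).2 - (G ⟨w, i'⟩ 0).2| : ℤ)) : ℝ) ≤ M * (2 * B.d) :=
          mul_le_mul_of_nonneg_left (by exact_mod_cast hdist) hM
        have e1 : 0 ≤ M * (4 * (2 * P.L + 2) * (B.d + 4 * P.w + 3) + 1) := by positivity
        linarith
      · have hne : i ≠ i' := fun h => hpq (by rw [h])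
        obtain ⟨w1, w2, w3, w4⟩ := wit4_mono (W' := R) (by omega) (hwit w i i' hne)
        cases a <;> cases b
        · simpa [ori, fwd_revLine, bwd_revLine] using w2
        · simpa [ori, fwd_revLine, bwd_revLine] using w4
        · simpa [ori, fwd_revLine, bwd_revLine] using w3
        · simpa [ori, fwd_revLine, bwd_revLine] using w1
    · have hav : ∀ p q : ι, (∀ i, edgeOf (G q i) (G q (i + 1)) ∉
          regSet2 P k (cc p) (ss p) (hh p) B.d) → Rays.seg (X p) (G q) (-(m q : ℤ)) (m q) + B.g ≤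
            Rays.seg (X q) (G q) (-(m q : ℤ)) (m q) := fun p q hP => by
        have e : Rays.seg (X p) (G q) (-(m q : ℤ)) (m q) = Rays.seg t (G q) (-(m q : ℤ)) (m q) :=
          Finset.sum_congr rfl fun i _ => ((hpre p.1).2.2.2.1 _ (hP i)).symm
        linarith [hgain q]
      exact .inl ⟨hav p q hq, hav q p hp⟩
  have hcyc : ∑ l ∈ Finset.Ico 0 (8 * R).toNat, wt t (bdPt R l) (bdPt R (l + 1)) ≤ 8 * M * R := by
    refine (Finset.sum_le_card_nsmul _ _ M fun l _ => ((hGS t ht).good.range _).2).trans_eq ?_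
    have e : (((8 * R).toNat : ℕ) : ℝ) = ((8 * R : ℤ) : ℝ) := by
      exact_mod_cast Int.toNat_of_nonneg (show (0 : ℤ) ≤ 8 * R by omega)
    rw [Nat.card_Ico, Nat.sub_zero, nsmul_eq_mul, e]
    push_cast
    ring
  have hfin := S.count hκ hg (by omega) hcyc hfour
  refine hfin.trans ?_
  have e : (R : ℝ) ≤ 2 * ((H : ℝ) + P.Lam + B.W + 1) := by
    rw [hR]; push_cast
    linarith [Nat.cast_nonneg (α := ℝ) P.Lam, Nat.cast_nonneg (α := ℝ) B.W]
  have e0 : 0 ≤ M * ((H : ℝ) + P.Lam + B.W + 1) := by positivity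
  nlinarith [mul_le_mul_of_nonneg_left e hM]

end Vale.Agent.P158
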