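import Vale.Agent.P158.MainBlock
import Vale.Agent.P158.Order

/-!
P158, deterministic count of the main argument: one cone line through an entrance site, its
tails at the columns `-L`, `L`, and the margin it gains from the lowered tube.
-/

open Filter Topology

namespace Vale.Agent.P158

variable {t pre : Conf} {R L : ℕ} {a b : ℝ} {y : ℤ} {γ : ℤ → V}

lemma lev_zero (v : V) : lev 0 v = v.1 := by simp [lev]

/-- Positions along a cone line. -/
lemma coneLine_bound (hc : ConeLine t 0 a b R γ) (h0 : γ 0 = (0, y)) (i : ℤ) :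
    (|i| < R → |(γ i).1| < R ∧ |(γ i).2 - y| < R) ∧
      ((R : ℤ) ≤ i → 0 < (γ i).1 ∧ a * ((γ i).1 : ℝ) ≤ ((γ i).2 : ℝ) - y ∧
        ((γ i).2 : ℝ) - y ≤ b * ((γ i).1 : ℝ)) ∧
      (i ≤ -(R : ℤ) → (γ i).1 < 0 ∧ b * ((γ i).1 : ℝ) ≤ ((γ i).2 : ℝ) - y ∧
        ((γ i).2 : ℝ) - y ≤ a * ((γ i).1 : ℝ)) := by
  obtain ⟨hgeo, hf, hb⟩ := hc
  refine ⟨fun hi => ?_, fun hi => ?_, fun hi => ?_⟩
  · rw [abs_lt] at hi
    rcases le_total 0 i with h | h
    · obtain ⟨n, rfl⟩ : ∃ n : ℕ, i = (n : ℤ) := ⟨i.toNat, by omega⟩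
      have h1 := abs_path_le (fwd_adj hgeo 0) n
      simp only [fwd, Nat.cast_zero, add_zero, zero_add, h0, sub_zero] at h1
      simp only [abs_le, abs_lt] at h1 ⊢
      omega
    · obtain ⟨n, rfl⟩ : ∃ n : ℕ, i = -(n : ℤ) := ⟨(-i).toNat, by omega⟩
      have h1 := abs_path_le (bwd_adj hgeo 0) n
      simp only [bwd, Nat.cast_zero, sub_zero, zero_sub, h0] at h1
      simp only [abs_le, abs_lt] at h1 ⊢
      omega
  · obtain ⟨n, rfl⟩ : ∃ n : ℕ, i = (n : ℤ) := ⟨i.toNat, by omega⟩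
    obtain ⟨h1, h2, h3⟩ := hf n (by omega)
    simp only [fwd, lev_zero, Nat.cast_zero, add_zero, zero_add, h0, one_mul, sub_zero] at h1 h2 h3
    push_cast at h2 h3
    exact ⟨h1, h2, h3⟩
  · obtain ⟨n, rfl⟩ : ∃ n : ℕ, i = -(n : ℤ) := ⟨(-i).toNat, by omega⟩
    obtain ⟨h1, h2, h3⟩ := hb n (by omega)
    simp only [bwd, lev_zero, Nat.cast_zero, sub_zero, zero_sub, h0] at h1 h2 h3
    push_cast at h2 h3
    exact ⟨by linarith, by linarith, by linarith⟩

/-- In the strip, a cone line stays in the tube of its block. -/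
lemma coneLine_inTube (hc : ConeLine t 0 a b R γ) (h0 : γ 0 = (0, y))
    (h8 : -8 ≤ a ∧ a ≤ b ∧ b ≤ 8) {h : ℤ} {d : ℕ} (hy : h ≤ y ∧ y < h + d) (i : ℤ)
    (hi : |(γ i).1| ≤ (L : ℤ)) : InTube L R a b h d (γ i) := by
  obtain ⟨c1, c2, c3⟩ := coneLine_bound hc h0 i
  have hy1 : (h : ℝ) ≤ y := by exact_mod_cast hy.1
  have hy2 : (y : ℝ) ≤ h + d := by exact_mod_cast hy.2.le
  have hR : (0 : ℝ) ≤ R := Nat.cast_nonneg R
  refine ⟨hi, ?_⟩
  have m1 := min_le_left (a * ((γ i).1 : ℝ)) (b * (γ i).1)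
  have m2 := min_le_right (a * ((γ i).1 : ℝ)) (b * (γ i).1)
  have m3 := le_max_left (a * ((γ i).1 : ℝ)) (b * (γ i).1)
  have m4 := le_max_right (a * ((γ i).1 : ℝ)) (b * (γ i).1)
  by_cases hs : |i| < (R : ℤ)
  · obtain ⟨d1, d2⟩ := c1 hs
    have d1' : |((γ i).1 : ℝ)| ≤ R := by exact_mod_cast d1.le
    have d2' : |((γ i).2 : ℝ) - y| ≤ R := by exact_mod_cast d2.le
    have ha : |a * ((γ i).1 : ℝ)| ≤ 8 * R := by
      rw [abs_mul]; exact mul_le_mul (abs_le.2 ⟨h8.1, h8.2.1.trans h8.2.2⟩) d1'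
        (abs_nonneg _) (by norm_num)
    rw [abs_le] at d2' ha
    constructor <;> linarith
  · rw [abs_lt] at hs
    rcases le_or_gt (R : ℤ) i with h' | h'
    · obtain ⟨-, q2, q3⟩ := c2 h'
      constructor <;> linarith
    · obtain ⟨-, q2, q3⟩ := c3 (by omega)
      constructor <;> linarith

/-- Tubes of blocks far apart are disjoint. -/
lemma inTube_disjoint {h h' : ℤ} {d D : ℕ} (hD : (d : ℝ) + 18 * R + (b - a) * L + 2 < D)
    (hab : a ≤ b) (hh : h + D ≤ h') {v : V} (h1 : InTube L R a b h d v)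
    (h2 : InTube L R a b h' d v) : False := by
  obtain ⟨hx, -, u1⟩ := h1
  obtain ⟨-, l2, -⟩ := h2
  have hh' : (h : ℝ) + D ≤ h' := by exact_mod_cast hh
  have hx' : |(v.1 : ℝ)| ≤ (L : ℝ) := by exact_mod_cast hx
  rw [abs_le] at hx'
  have h3 : max (a * (v.1 : ℝ)) (b * v.1) - min (a * (v.1 : ℝ)) (b * v.1) ≤ (b - a) * L := by
    rw [max_sub_min_eq_abs', abs_le]
    have e1 := mul_le_mul_of_nonneg_left hx'.1 (by linarith : 0 ≤ b - a)
    have e2 := mul_le_mul_of_nonneg_left hx'.2 (by linarith : 0 ≤ b - a)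
    constructor <;> linarith
  linarith

lemma regSet_finite (L R : ℕ) (a b : ℝ) (h : ℤ) (d : ℕ) : (regSet L R a b h d).Finite := by
  obtain ⟨B, hB⟩ : ∃ B : ℝ, B = |(h : ℝ)| + d + (|a| + |b|) * L + 9 * R := ⟨_, rfl⟩
  refine ((((Set.finite_Icc (-(L : ℤ)) L).prod
    (Set.finite_Icc (-⌈B⌉) ⌈B⌉)).prod (Set.finite_univ : (Set.univ : Set Bool).Finite))).subset ?_
  intro e he
  obtain ⟨hx, h1, h2⟩ := he.1
  have hx' : |((eFst e).1 : ℝ)| ≤ (L : ℝ) := by exact_mod_cast hx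
  have ha : |a * ((eFst e).1 : ℝ)| ≤ |a| * L := by
    rw [abs_mul]; exact mul_le_mul_of_nonneg_left hx' (abs_nonneg a)
  have hb : |b * ((eFst e).1 : ℝ)| ≤ |b| * L := by
    rw [abs_mul]; exact mul_le_mul_of_nonneg_left hx' (abs_nonneg b)
  rw [abs_le] at ha hb
  have hh := le_abs_self (h : ℝ)
  have hh' := neg_abs_le (h : ℝ)
  have n1 : 0 ≤ |a| * L := by positivity
  have n2 : 0 ≤ |b| * L := by positivity
  have hd : (0 : ℝ) ≤ d := Nat.cast_nonneg d
  have l1 : -(|a| * L + |b| * L) ≤ min (a * ((eFst e).1 : ℝ)) (b * (eFst e).1) :=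
    le_min (by linarith) (by linarith)
  have l2 : max (a * ((eFst e).1 : ℝ)) (b * (eFst e).1) ≤ |a| * L + |b| * L :=
    max_le (by linarith) (by linarith)
  refine ⟨⟨abs_le.1 hx, ?_, ?_⟩, trivial⟩
  · have : -(⌈B⌉ : ℝ) ≤ ((eFst e).2 : ℝ) :=
      le_trans (neg_le_neg (Int.le_ceil B)) (by rw [hB]; linarith)
    exact_mod_cast this
  · have : ((eFst e).2 : ℝ) ≤ (⌈B⌉ : ℝ) := le_trans (by rw [hB]; linarith) (Int.le_ceil B)
    exact_mod_cast this

lemma eq_off_halves {h : ℤ} {d : ℕ}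
    (hoff : ∀ e, e ∉ regSet L R a b h d → t e = pre e) :
    (∀ e ∈ lefE 0 (-(L : ℤ)), t e = pre e) ∧ ∀ e ∈ rigE 0 (L : ℤ), t e = pre e := by
  constructor <;> intro e he <;> refine hoff e fun hr => ?_ <;>
    obtain ⟨⟨h1, -⟩, ⟨h2, -⟩, h3⟩ := hr <;>
    simp only [lefE, rigE, Set.mem_ofPred_eq, lev_zero] at he <;>
    simp only [abs_le, abs_lt] at h1 h2 h3 <;> omega

/-! ### The two tails -/

lemma coneLine_lim (hc : ConeLine t 0 a b R γ) (h0 : γ 0 = (0, y)) (B : ℤ) :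
    ∃ N : ℕ, ∀ i : ℤ, ((N : ℤ) ≤ i → B < (γ i).1) ∧ (i ≤ -(N : ℤ) → (γ i).1 < -B) := by
  obtain ⟨hgeo, hf, hb⟩ := hc
  obtain ⟨N1, h1⟩ := eventually_atTop.1 (exists_col_ge (fwd_injective hgeo 0) hf B)
  obtain ⟨N2, h2⟩ := eventually_atTop.1 (exists_col_ge (bwd_injective hgeo 0) hb B)
  simp only [fwd, bwd, Nat.cast_zero, add_zero, zero_add, sub_zero, zero_sub, h0, one_mul] at h1 h2
  refine ⟨max N1 N2, fun i => ⟨fun hi => ?_, fun hi => ?_⟩⟩
  · obtain ⟨n, rfl⟩ : ∃ n : ℕ, i = (n : ℤ) := ⟨i.toNat, by omega⟩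
    exact h1 n (by omega)
  · obtain ⟨n, rfl⟩ : ∃ n : ℕ, i = -(n : ℤ) := ⟨(-i).toNat, by omega⟩
    have := h2 n (by omega)
    omega

lemma lftIdx_cl (hc : ConeLine t 0 a b R γ) (h0 : γ 0 = (0, y)) :
    (γ (lftIdx L γ)).1 = -(L : ℤ) ∧ lftIdx L γ ≤ 0 ∧
      ∀ i, i < lftIdx L γ → (γ i).1 < -(L : ℤ) := by
  obtain ⟨N, hN⟩ := coneLine_lim hc h0 (L : ℤ)
  have hbdd : BddBelow {i : ℤ | -(L : ℤ) ≤ (γ i).1} := ⟨-(N : ℤ), fun i hi => by
    by_contra hlt
    have := (hN i).2 (by omega)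
    simp only [Set.mem_ofPred_eq] at hi
    omega⟩
  have hne : {i : ℤ | -(L : ℤ) ≤ (γ i).1}.Nonempty := ⟨0, by simp [h0]⟩
  have hmem : -(L : ℤ) ≤ (γ (lftIdx L γ)).1 := Int.csInf_mem hne hbdd
  have hlt : ∀ i, i < lftIdx L γ → (γ i).1 < -(L : ℤ) := fun i hi =>
    not_le.1 fun h => absurd (csInf_le hbdd h) (not_le.2 hi)
  refine ⟨?_, csInf_le hbdd (by simp [h0]), hlt⟩
  have h1 := hlt (lftIdx L γ - 1) (by omega)
  have h2 := hc.1.adj (lftIdx L γ - 1)
  rw [sub_add_cancel] at h2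
  have h3 := (fst_step_le h2).1
  rw [abs_le] at h3
  omega

lemma rgtIdx_cl (hc : ConeLine t 0 a b R γ) (h0 : γ 0 = (0, y)) :
    (γ (rgtIdx L γ)).1 = (L : ℤ) ∧ 0 ≤ rgtIdx L γ ∧
      ∀ i, rgtIdx L γ < i → (L : ℤ) < (γ i).1 := by
  obtain ⟨N, hN⟩ := coneLine_lim hc h0 (L : ℤ)
  have hbdd : BddAbove {i : ℤ | (γ i).1 ≤ (L : ℤ)} := ⟨(N : ℤ), fun i hi => by
    by_contra hlt
    have := (hN i).1 (by omega)
    simp only [Set.mem_ofPred_eq] at hi
    omega⟩
  have hne : {i : ℤ | (γ i).1 ≤ (L : ℤ)}.Nonempty := ⟨0, by simp [h0]⟩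
  have hmem : (γ (rgtIdx L γ)).1 ≤ (L : ℤ) := Int.csSup_mem hne hbdd
  have hlt : ∀ i, rgtIdx L γ < i → (L : ℤ) < (γ i).1 := fun i hi =>
    not_le.1 fun h => absurd (le_csSup hbdd h) (not_le.2 hi)
  refine ⟨?_, le_csSup hbdd (by simp [h0]), hlt⟩
  have h1 := hlt (rgtIdx L γ + 1) (by omega)
  have h3 := (fst_step_le (hc.1.adj (rgtIdx L γ))).1
  rw [abs_le] at h3
  omega

lemma lTail_zero : lTail (L : ℤ) γ 0 = γ (lftIdx L γ) := by simp [lTail, bwd]

lemma rTail_zero : rTail (L : ℤ) γ 0 = γ (rgtIdx L γ) := by simp [rTail, fwd]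

lemma lTail_ray (hc : ConeLine t 0 a b R γ) (h0 : γ 0 = (0, y)) (hnn : ∀ e, 0 ≤ t e) :
    IsRayIn t (lefE 0 (-(L : ℤ))) (lTail L γ) ∧
      Tendsto (fun n => (1 : ℤ) * lev 0 (lTail L γ n)) atTop atBot := by
  obtain ⟨h1, -, h2⟩ := lftIdx_cl (L := L) hc h0
  have hle : ∀ n : ℕ, (lTail L γ n).1 ≤ -(L : ℤ) := fun n => by
    rcases Nat.eq_zero_or_pos n with rfl | hn
    · rw [lTail_zero]; exact h1.le
    · exact (h2 _ (by omega)).le
  refine ⟨(Rays.isRayIn_bwd hc.1 hnn _).mono_set hnn fun i => ?_, tendsto_atBot.2 fun B => ?_⟩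
  · have hi := hle i
    have hi' := hle (i + 1)
    simp only [lTail] at hi hi'
    rcases ends_edgeOf (bwd_adj hc.1 (lftIdx L γ) i) with ⟨e1, e2⟩ | ⟨e1, e2⟩ <;>
      simp only [lefE, lTail, Set.mem_ofPred_eq, lev_zero, e1, e2] <;> exact ⟨by omega, by omega⟩
  · obtain ⟨N, hN⟩ := coneLine_lim hc h0 (-B)
    refine eventually_atTop.2 ⟨(lftIdx L γ + N).toNat, fun n hn => ?_⟩
    have := (hN (lftIdx L γ - n)).2 (by omega)
    simp only [one_mul, lev_zero, lTail, bwd]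
    omega

lemma rTail_ray (hc : ConeLine t 0 a b R γ) (h0 : γ 0 = (0, y)) (hnn : ∀ e, 0 ≤ t e) :
    IsRayIn t (rigE 0 (L : ℤ)) (rTail L γ) ∧
      Tendsto (fun n => (-1 : ℤ) * lev 0 (rTail L γ n)) atTop atBot := by
  obtain ⟨h1, -, h2⟩ := rgtIdx_cl (L := L) hc h0
  have hle : ∀ n : ℕ, (L : ℤ) ≤ (rTail L γ n).1 := fun n => by
    rcases Nat.eq_zero_or_pos n with rfl | hn
    · rw [rTail_zero]; exact h1.ge
    · exact (h2 _ (by omega)).le
  refine ⟨(Rays.isRayIn_fwd hc.1 hnn _).mono_set hnn fun i => ?_, tendsto_atBot.2 fun B => ?_⟩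
  · have hi := hle i
    have hi' := hle (i + 1)
    simp only [rTail] at hi hi'
    rcases ends_edgeOf (fwd_adj hc.1 (rgtIdx L γ) i) with ⟨e1, e2⟩ | ⟨e1, e2⟩ <;>
      simp only [rigE, rTail, Set.mem_ofPred_eq, lev_zero, e1, e2] <;> exact ⟨by omega, by omega⟩
  · obtain ⟨N, hN⟩ := coneLine_lim hc h0 (-B)
    refine eventually_atTop.2 ⟨((N : ℤ) - rgtIdx L γ).toNat, fun n hn => ?_⟩
    have := (hN (rgtIdx L γ + n)).1 (by omega)
    simp only [neg_mul, one_mul, lev_zero, rTail, fwd]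
    omega

/-! ### Transfer to an equal configuration, and the margin -/

lemma TS_congr_set {S : Set Edge} (h : ∀ e ∈ S, t e = pre e) (x z : V) :
    TS t S x z = TS pre S x z := by
  unfold TS
  congr 1
  exact Set.image_congr fun p hp => Rays.plen_congr hp h

lemma rlen_congr_set {S : Set Edge} {r : ℕ → V} (hmem : ∀ i, edgeOf (r i) (r (i + 1)) ∈ S)
    (h : ∀ e ∈ S, t e = pre e) (n : ℕ) : rlen t r n = rlen pre r n :=
  Finset.sum_congr rfl fun i _ => h _ (hmem i)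

lemma bus_congr_set {S : Set Edge} {r : ℕ → V} (hmem : ∀ i, edgeOf (r i) (r (i + 1)) ∈ S)
    (h : ∀ e ∈ S, t e = pre e) (z : V) : bus t S r z = bus pre S r z := by
  unfold bus
  exact iInf_congr fun n => by rw [TS_congr_set h, rlen_congr_set hmem h]

lemma isRayIn_congr {S : Set Edge} {r : ℕ → V} (hr : IsRayIn pre S r)
    (h : ∀ e ∈ S, t e = pre e) : IsRayIn t S r where
  inj := hr.inj
  adj := hr.adj
  mem := hr.mem
  geo i j hij := by
    rw [rlen_congr_set hr.mem h, rlen_congr_set hr.mem h, TS_congr_set h]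
    exact hr.geo i j hij

/-- Vertices of one column are joined inside the closed half-planes ending there. -/
lemma conn_column {S : Set Edge} {x : ℤ} (hS : ∀ z : ℤ, edgeOf (x, z) (x, z + 1) ∈ S) (z z' : ℤ) :
    ConnIn S (x, z) (x, z') := by
  have step : ∀ z : ℤ, ConnIn S (x, z) (x, z + 1) := fun z =>
    Rays.connIn_adj (by simp [Adj]) (hS z)
  have up : ∀ (z : ℤ) (n : ℕ), ConnIn S (x, z) (x, z + n) := fun z n => by
    induction n with
    | zero => rw [Nat.cast_zero, add_zero]; exact ConnIn.refl _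
    | succ n ih => rw [Nat.cast_succ, ← add_assoc]; exact ih.trans (step _)
  rcases le_total z z' with h | h
  · have := up z (z' - z).toNat
    rwa [show z + ((z' - z).toNat : ℤ) = z' by omega] at this
  · have := (up z' (z - z').toNat).symm
    rwa [show z' + ((z - z').toNat : ℤ) = z by omega] at this

lemma column_mem_lefE (L z : ℤ) : edgeOf ((L : ℤ), z) (L, z + 1) ∈ lefE 0 L := by
  simp [lefE, lev, edgeOf, eFst, eSnd]

lemma column_mem_rigE (L z : ℤ) : edgeOf ((L : ℤ), z) (L, z + 1) ∈ rigE 0 L := by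
  simp [rigE, lev, edgeOf, eFst, eSnd]

/-- The margin: joining the two half-plane tails of a line through any other crossing costs at
least the gain more than the line's own middle part. -/
theorem margin_le (hc : ConeLine pre 0 a b R γ) (h0 : γ 0 = (0, y)) (hnn : ∀ e, 0 ≤ t e)
    (hle : ∀ e, t e ≤ pre e) (hl : ∀ e ∈ lefE 0 (-(L : ℤ)), t e = pre e)
    (hr : ∀ e ∈ rigE 0 (L : ℤ), t e = pre e) {g : ℝ}
    (hg : g ≤ ∑ e ∈ midEdges L γ, (pre e - t e)) {δ : ℤ → V}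
    (hadj : ∀ i, Adj (δ i) (δ (i + 1))) {i j : ℤ} (hij : i ≤ j) (hi : (δ i).1 = -(L : ℤ))
    (hj : (δ j).1 = (L : ℤ))
    (hδ : ∀ k, i ≤ k → k < j → t (edgeOf (δ k) (δ (k + 1))) = pre (edgeOf (δ k) (δ (k + 1)))) :
    Rays.seg t γ (lftIdx L γ) (rgtIdx L γ) + g ≤
      bus t (lefE 0 (-(L : ℤ))) (lTail L γ) (δ i) + bus t (rigE 0 (L : ℤ)) (rTail L γ) (δ j) +
        Rays.seg t δ i j := by
  have hnn' : ∀ e, 0 ≤ pre e := fun e => (hnn e).trans (hle e)
  obtain ⟨hl1, hl0, -⟩ := lftIdx_cl (L := L) hc h0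
  obtain ⟨hr1, hr0, -⟩ := rgtIdx_cl (L := L) hc h0
  set l := lftIdx L γ with hldef
  set r := rgtIdx L γ with hrdef
  have hlr : l ≤ r := le_trans hl0 hr0
  obtain ⟨rl, -⟩ := lTail_ray (L := L) hc h0 hnn'
  obtain ⟨rr, -⟩ := rTail_ray (L := L) hc h0 hnn'
  have hgeo := hc.1
  -- the line in its own configuration
  have h1 := Rays.bus_line_nonneg hgeo hnn' l (δ i)
  have h2 : bus pre Set.univ (fwd γ l) (δ i) ≤
      bus pre Set.univ (fwd γ l) (δ j) + T pre (δ i) (δ j) := by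
    have := Rays.bus_lip hnn' (Rays.isRayIn_fwd hgeo hnn' l) (connIn_univ _ (δ i))
      (connIn_univ (δ i) (δ j))
    rw [Rays.TS_univ] at this
    linarith [(abs_le.1 this).2]
  have h3 : bus pre Set.univ (fwd γ r) (δ j) =
      bus pre Set.univ (fwd γ l) (δ j) + Rays.seg pre γ l r := by
    have e1 : Rays.tail (r - l).toNat (fwd γ l) = fwd γ r := by
      funext n
      simp only [Rays.tail, fwd]
      congr 1
      push_cast
      omega
    have := Rays.bus_tail hnn' (Rays.isRayIn_fwd hgeo hnn' l) (connIn_univ _ (δ j)) (r - l).toNat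
    rw [e1, Rays.rlen_fwd] at this
    rwa [show l + ((r - l).toNat : ℤ) = r by omega] at this
  -- restricting to the half-planes
  have mono : ∀ (S : Set Edge) (ρ : ℕ → V) (z : V), IsRayIn pre Set.univ ρ → IsRayIn pre S ρ →
      ConnIn S (ρ 0) z → bus pre Set.univ ρ z ≤ bus pre S ρ z := fun S ρ z hu hS hz =>
    Rays.le_bus fun n => (Rays.bus_le hnn' hu (connIn_univ _ _) n).trans
      (sub_le_sub_right (TS_mono hnn' (Set.subset_univ _) ((hS.conn n 0).trans hz)) _)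
  have hci : ConnIn (lefE 0 (-(L : ℤ))) (lTail L γ 0) (δ i) := by
    have e1 : lTail L γ 0 = (-(L : ℤ), (γ l).2) := Prod.ext (by rw [lTail_zero]; exact hl1) (by
      rw [lTail_zero])
    have e2 : δ i = (-(L : ℤ), (δ i).2) := Prod.ext hi rfl
    rw [e1, e2]
    exact conn_column (column_mem_lefE _) _ _
  have hcj : ConnIn (rigE 0 (L : ℤ)) (rTail L γ 0) (δ j) := by
    have e1 : rTail L γ 0 = ((L : ℤ), (γ r).2) := Prod.ext (by rw [rTail_zero]; exact hr1) (by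
      rw [rTail_zero])
    have e2 : δ j = ((L : ℤ), (δ j).2) := Prod.ext hj rfl
    rw [e1, e2]
    exact conn_column (column_mem_rigE _) _ _
  have h4 := mono _ (bwd γ l) (δ i) (Rays.isRayIn_bwd hgeo hnn' l) rl hci
  have h5 := mono _ (fwd γ r) (δ j) (Rays.isRayIn_fwd hgeo hnn' r) rr hcj
  have hlT : lTail L γ = bwd γ l := rfl
  have hrT : rTail L γ = fwd γ r := rfl
  rw [bus_congr_set rl.mem hl, bus_congr_set rr.mem hr, hlT, hrT]
  -- the other crossing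
  have h6 : T pre (δ i) (δ j) ≤ Rays.seg t δ i j := by
    have := Rays.TS_path_le (S := Set.univ) (r := fwd δ i) hnn'
      (fun n => by
        have := hadj (i + n)
        simp only [fwd, Nat.cast_succ, ← add_assoc]
        exact this)
      (fun _ => trivial) (Nat.zero_le (j - i).toNat)
    rw [Rays.TS_univ, Rays.rlen_fwd, Rays.rlen_fwd] at this
    simp only [fwd, Nat.cast_zero, add_zero, show i + ((j - i).toNat : ℤ) = j by omega] at this
    have e : Rays.seg pre δ i j = Rays.seg t δ i j := Finset.sum_congr rfl fun k hk => by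
      obtain ⟨k1, k2⟩ := Finset.mem_Ico.1 hk
      exact (hδ k k1 k2).symm
    have e0 : Rays.seg pre δ i i = 0 := by simp [Rays.seg]
    linarith
  -- the gain
  have h7 : Rays.seg t γ l r + g ≤ Rays.seg pre γ l r := by
    have := Finset.sum_image_le_of_nonneg (s := Finset.Ico l r)
      (g := fun k => edgeOf (γ k) (γ (k + 1))) (f := fun e => pre e - t e)
      fun e _ => sub_nonneg.2 (hle e)
    have hg' : g ≤ ∑ x ∈ (Finset.Ico l r).image (fun k => edgeOf (γ k) (γ (k + 1))),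
        (pre x - t x) := hg
    simp only [Finset.sum_sub_distrib] at this hg'
    simp only [Rays.seg, wt]
    linarith
  linarith

end Vale.Agent.P158
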