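import Vale.Agent.P158.OrderBox
import Vale.Agent.P158.MainClass
import Vale.Agent.P158.MainCountLine

/-!
P158, second stage, order module: rays with arbitrary ends.

Tails outside a box have the same Busemann function, inside the outer edge set, in every
configuration which is changed only inside the box.  If two of these functions differ by nearly
a constant on the boundary, then so do the full plane Busemann functions inside the box.  The
ends of lines which are pairwise interleaved on far boxes can be listed so that both ends move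
monotonically, and then the variations along the boundary cycle add up to at most six passage
times per edge.
-/

open Filter Topology

namespace Vale.Agent.P158

variable {t X : Conf} {M κ : ℝ} {R : ℤ}

/-! ### The outer edge set and the boundary cycle -/

/-- The edges without an end strictly inside the box of radius `R`. -/
def Out (R : ℤ) : Set Edge := {e | ¬ InSq (R - 1) (eFst e) ∧ ¬ InSq (R - 1) (eSnd e)}

theorem mem_out {x y : V} (h : Adj x y) :
    edgeOf x y ∈ Out R ↔ ¬ InSq (R - 1) x ∧ ¬ InSq (R - 1) y := by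
  rcases ends_edgeOf h with ⟨e1, e2⟩ | ⟨e1, e2⟩ <;>
    simp only [Out, Set.mem_ofPred_eq, e1, e2]
  exact and_comm

theorem out_compl_finite (R : ℤ) : (Out R)ᶜ.Finite := by
  refine (((Set.finite_Icc (-R) R).prod (Set.finite_Icc (-R) R)).prod
    (Set.finite_univ : (Set.univ : Set Bool).Finite)).subset ?_
  rintro ⟨⟨a, b⟩, v⟩ he
  simp only [Out, Set.mem_compl_iff, Set.mem_ofPred_eq, not_and_or, not_not] at he
  refine ⟨⟨?_, ?_⟩, trivial⟩ <;> cases v <;>
    simp only [InSq, eFst, eSnd, Bool.false_eq_true, if_false, if_true] at he <;>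
    simp only [Set.mem_Icc] <;> omega

theorem onBd_of_not {v : V} (h : InSq R v) (h' : ¬ InSq (R - 1) v) : OnBd R v := by
  refine ⟨h, ?_⟩
  simp only [InSq] at h h'
  omega

theorem not_inner_of_onBd {v : V} (h : OnBd R v) : ¬ InSq (R - 1) v := by
  obtain ⟨-, h2⟩ := h
  simp only [InSq]
  omega

/-- The vertex with a given position on the boundary. -/
def bdPt (R : ℤ) (i : ℕ) : V :=
  if (i : ℤ) ≤ 2 * R then (-R + i, -R)
  else if (i : ℤ) ≤ 4 * R then (R, i - 3 * R)
  else if (i : ℤ) ≤ 6 * R then (5 * R - i, R)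
  else (-R, 7 * R - i)

theorem bdPt_onBd (hR : 0 ≤ R) {i : ℕ} (hi : (i : ℤ) ≤ 8 * R) : OnBd R (bdPt R i) := by
  unfold bdPt
  split_ifs <;> simp only [OnBd, InSq, true_or, or_true, and_true] <;> omega

theorem bdPt_adj {i : ℕ} (hi : (i : ℤ) < 8 * R) :
    Adj (bdPt R i) (bdPt R (i + 1)) := by
  rw [adj_iff]
  unfold bdPt
  push_cast
  split_ifs <;> simp only [true_and] <;> omega

theorem bdPt_edge (hR : 0 < R) {i : ℕ} (hi : (i : ℤ) < 8 * R) :
    edgeOf (bdPt R i) (bdPt R (i + 1)) ∈ Out R :=
  (mem_out (bdPt_adj hi)).2 ⟨not_inner_of_onBd (bdPt_onBd hR.le hi.le),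
    not_inner_of_onBd (bdPt_onBd hR.le (by push_cast; omega))⟩

theorem exists_bdPt {v : V} (h : OnBd R v) : ∃ i : ℕ, (i : ℤ) ≤ 8 * R ∧ bdPt R i = v := by
  obtain ⟨⟨h1, h2, h3, h4⟩, h5⟩ := id h
  have hm := bdPos_mem h
  refine ⟨(bdPos R v).toNat, by omega, ?_⟩
  unfold bdPt
  rw [Int.toNat_of_nonneg hm.1]
  unfold bdPos
  refine Prod.ext ?_ ?_ <;> split_ifs <;> simp only <;> omega

theorem conn_out (hR : 0 < R) {x y : V} (hx : ¬ InSq (R - 1) x) (hy : ¬ InSq (R - 1) y) :
    ConnIn (Out R) x y := by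
  have hcyc : ∀ i : ℕ, (i : ℤ) ≤ 8 * R → ConnIn (Out R) (bdPt R 0) (bdPt R i) := by
    intro i
    induction i with
    | zero => exact fun _ => ConnIn.refl _
    | succ i ih =>
      intro hi
      exact (ih (by omega)).trans
        (Rays.connIn_adj (bdPt_adj (by omega)) (bdPt_edge hR (by omega)))
  have key : ∀ (n : ℕ) (x : V), (x.1 - R).toNat + (-R - x.1).toNat + (x.2 - R).toNat + (-R - x.2).toNat ≤ n → ¬ InSq (R - 1) x →
      ConnIn (Out R) x (bdPt R 0) := by
    intro n
    induction n with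
    | zero =>
      intro x hn hx
      obtain ⟨i, hi, rfl⟩ := exists_bdPt (onBd_of_not (R := R) (v := x) (by
        simp only [InSq]; omega) hx)
      exact (hcyc i hi).symm
    | succ n ih =>
      intro x hn hx
      by_cases hin : InSq R x
      · obtain ⟨i, hi, rfl⟩ := exists_bdPt (onBd_of_not hin hx)
        exact (hcyc i hi).symm
      obtain ⟨y, hadj, hy1, hy2⟩ : ∃ y, Adj x y ∧ ¬ InSq (R - 1) y ∧
          (y.1 - R).toNat + (-R - y.1).toNat + (y.2 - R).toNat + (-R - y.2).toNat ≤ n := by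
        simp only [InSq] at hin
        by_cases h1 : R < x.1
        · exact ⟨(x.1 - 1, x.2), by simp [adj_iff], by simp only [InSq]; omega,
            by simp only; omega⟩
        by_cases h2 : x.1 < -R
        · exact ⟨(x.1 + 1, x.2), by simp [adj_iff], by simp only [InSq]; omega,
            by simp only; omega⟩
        by_cases h3 : R < x.2
        · exact ⟨(x.1, x.2 - 1), by simp [adj_iff], by simp only [InSq]; omega,
            by simp only; omega⟩
        exact ⟨(x.1, x.2 + 1), by simp [adj_iff], by simp only [InSq]; omega,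
          by simp only; omega⟩
      exact (Rays.connIn_adj hadj ((mem_out hadj).2 ⟨hx, hy1⟩)).trans (ih y hy2 hy1)
  exact (key _ x le_rfl hx).trans (key _ y le_rfl hy).symm

theorem out_ray_notMem {r : ℕ → V} (hr : IsRayIn t (Out R) r) (n : ℕ) :
    ¬ InSq (R - 1) (r n) :=
  ((mem_out (hr.adj n)).1 (hr.mem n)).1

/-! ### The maximum principle -/

/-- A walk into the box has a first vertex on its boundary. -/
theorem split_box (t : Conf) {x z : V} (p : grid.Walk x z) (hx : ¬ InSq (R - 1) x)
    (hz : InSq R z) : ∃ (u : V) (p1 : grid.Walk x u) (p2 : grid.Walk u z),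
      OnBd R u ∧ WalkIn (Out R) p1 ∧ plen t p = plen t p1 + plen t p2 := by
  induction p with
  | nil => exact ⟨_, .nil, .nil, onBd_of_not hz hx, walkIn_nil, by simp⟩
  | @cons a b c h q ih =>
    by_cases ha : InSq R a
    · exact ⟨a, .nil, .cons h q, onBd_of_not ha hx, walkIn_nil, by simp⟩
    · have hb : ¬ InSq (R - 1) b := by
        have h' : Adj a b := h
        rw [adj_iff] at h'
        simp only [InSq] at ha ⊢
        omega
      obtain ⟨u, p1, p2, h1, h2, h3⟩ := ih hb hz
      exact ⟨u, .cons h p1, p2, h1,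
        (walkIn_cons_iff _ _).2 ⟨(mem_out h).2 ⟨hx, hb⟩, h2⟩, by simp [h3]; ring⟩

/-- Maximum principle: an inequality between the outer Busemann functions on the boundary holds
for the full Busemann functions inside. -/
theorem bus_inside_le (hR : 0 < R) (h0 : ∀ e, 0 ≤ X e) {r s : ℕ → V}
    (hsu : IsRayIn X Set.univ s) (hrS : IsRayIn X (Out R) r)
    (hsS : IsRayIn X (Out R) s) {a : ℝ}
    (hbd : ∀ u, OnBd R u → bus X (Out R) s u ≤ bus X (Out R) r u + a) {v : V} (hv : InSq R v) :
    bus X Set.univ s v ≤ bus X Set.univ r v + a := by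
  rw [← sub_le_iff_le_add]
  refine Rays.le_bus fun n => ?_
  rw [le_sub_iff_add_le, Rays.TS_univ]
  refine le_T fun p => ?_
  obtain ⟨u, p1, p2, hu, hp1, hs⟩ := split_box X p (out_ray_notMem hrS n) hv
  have hcu : ∀ {w : ℕ → V}, IsRayIn X (Out R) w → ConnIn (Out R) (w 0) u := fun hw =>
    conn_out hR (out_ray_notMem hw 0) (not_inner_of_onBd hu)
  have h1 := Rays.bus_le h0 hrS (hcu hrS) n
  have h2 := TS_le h0 hp1
  have h3 := hbd u hu
  have h4 := bus_univ_le h0 hsS hsu (hcu hsS)
  have h5 := (abs_le.1 ((Rays.isBus_bus h0 hsu).lip u v)).1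
  have h6 := T_le h0 p2
  linarith

/-- The variation of a function along the boundary cycle. -/
noncomputable def cycVar (R : ℤ) (f : V → ℝ) : ℝ :=
  tvOn (fun i => f (bdPt R i)) 0 (8 * R).toNat

theorem cycVar_nonneg (R : ℤ) (f : V → ℝ) : 0 ≤ cycVar R f := tvOn_nonneg _ _ _

theorem abs_sub_le_cycVar (f : V → ℝ) {v : V} (hv : OnBd R v) :
    |f v - f (bdPt R 0)| ≤ cycVar R f := by
  obtain ⟨i, hi, rfl⟩ := exists_bdPt hv
  refine (abs_le_tvOn (fun i => f (bdPt R i)) (Nat.zero_le i)).trans ?_
  rw [cycVar, tvOn_split (fun i => f (bdPt R i)) (Nat.zero_le i)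
    (show i ≤ (8 * R).toNat by omega)]
  exact le_add_of_nonneg_right (tvOn_nonneg _ _ _)

/-- A small variation on the boundary cycle gives a nearly constant difference inside, with the
same constant in all configurations agreeing with `t` outside. -/
theorem bus_inside_close (hR : 0 < R) (h0 : ∀ e, 0 ≤ X e) (heq : ∀ e ∈ Out R, X e = t e)
    {r s : ℕ → V} (hru : IsRayIn X Set.univ r) (hsu : IsRayIn X Set.univ s)
    (hrS : IsRayIn X (Out R) r) (hsS : IsRayIn X (Out R) s) {v : V} (hv : InSq R v) :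
    |bus X Set.univ r v - bus X Set.univ s v -
        (bus t (Out R) r (bdPt R 0) - bus t (Out R) s (bdPt R 0))| ≤
      cycVar R (fun u => bus t (Out R) r u - bus t (Out R) s u) := by
  obtain ⟨D, hD⟩ : ∃ D : V → ℝ, D = fun u => bus t (Out R) r u - bus t (Out R) s u := ⟨_, rfl⟩
  rw [← hD, ← congrFun hD (bdPt R 0)]
  have hb : ∀ u, OnBd R u → |bus X (Out R) r u - bus X (Out R) s u - D (bdPt R 0)| ≤
      cycVar R D := fun u hu => by
    rw [bus_congr_set hrS.mem heq, bus_congr_set hsS.mem heq, ← congrFun hD u]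
    exact abs_sub_le_cycVar D hu
  have h1 := bus_inside_le hR h0 hsu hrS hsS (a := -D (bdPt R 0) + cycVar R D)
    (fun u hu => by linarith [(abs_le.1 (hb u hu)).1]) hv
  have h2 := bus_inside_le hR h0 hru hsS hrS (a := D (bdPt R 0) + cycVar R D)
    (fun u hu => by linarith [(abs_le.1 (hb u hu)).2]) hv
  rw [abs_le]
  constructor <;> linarith

/-- Deep tails are rays outside the box, and geodesic rays of a configuration which agrees
outside it. -/
theorem eventually_deep {Y : Conf} (hX : Good M κ X) (hκ : 0 < κ) (hY : ∀ e, 0 ≤ Y e)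
    (heq : ∀ e ∈ Out R, Y e = X e) {r : ℕ → V} (hr : IsRayIn X Set.univ r) :
    ∀ᶠ m in atTop, IsRayIn Y Set.univ (Rays.tail m r) ∧ IsRayIn Y (Out R) (Rays.tail m r) := by
  have hoff : ∀ e, e ∉ (out_compl_finite R).toFinset → Y e = X e := fun e he =>
    heq e (by simpa using he)
  obtain ⟨N, hN⟩ := Rays.exists_tail (S := Set.univ) hX.nonneg hY hoff hr
    (Rays.tendsto_rlen hX hκ hr.inj hr.adj)
  refine eventually_atTop.2 ⟨N, fun m hm => ?_⟩
  obtain ⟨h1, h2⟩ := hN m hm
  exact ⟨h1, h1.mono_set hY fun i => by simpa using h2 i⟩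

/-- An exact difference of two Busemann functions is seen in every configuration below, far out
on one of the rays. -/
theorem exact_far (hX : Good M κ X) (hκ : 0 < κ) (h0 : ∀ e, 0 ≤ t e) (hle : ∀ e, t e ≤ X e)
    (heq : ∀ e ∈ Out R, t e = X e) {r s : ℕ → V} (hr : IsRayIn X Set.univ r)
    (hrS : IsRayIn X (Out R) r) (hr' : IsRayIn t Set.univ r) (hs : IsRayIn X Set.univ s)
    (hsS : IsRayIn X (Out R) s) (hs' : IsRayIn t Set.univ s) {α : ℝ}
    (hα : ∀ z, bus X Set.univ s z - bus X Set.univ r z = α) :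
    ∀ᶠ n in atTop, bus t Set.univ s (r n) - bus t Set.univ r (r n) = α := by
  have hX0 := hX.nonneg
  have hoff : ∀ e, e ∉ (out_compl_finite R).toFinset → t e = X e := fun e he =>
    heq e (by simpa using he)
  have hav : ∀ i, edgeOf (s i) (s (i + 1)) ∉ (out_compl_finite R).toFinset := fun i => by
    simpa using hsS.mem i
  have hrl : ∀ n, rlen t r n = rlen X r n := rlen_congr_set hrS.mem heq
  obtain ⟨C, hC⟩ : ∃ C : ℝ, ∀ u ∈ Rays.ends (out_compl_finite R).toFinset,
      T t (r 0) u - bus X Set.univ s u ≤ C := by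
    obtain ⟨C, hC⟩ := ((Rays.ends (out_compl_finite R).toFinset).image
      fun u => T t (r 0) u - bus X Set.univ s u).finite_toSet.bddAbove
    exact ⟨C, fun u hu => hC (Finset.mem_coe.2 (Finset.mem_image_of_mem _ hu))⟩
  filter_upwards [(Rays.tendsto_rlen hX.gen hκ hr.inj hr.adj).eventually_gt_atTop
    ((α + C) / 2)] with n hn
  obtain ⟨h1, -, h3⟩ := Rays.bus_lower (z := r n) hX0 h0 hoff hle hs hs' hav (connIn_univ _ _)
  have e1 := Rays.bus_ray h0 hr' n
  have e2 := Rays.bus_ray hX0 hr n
  have e3 := hα (r n)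
  rw [hrl] at e1
  rcases h3 with h3 | ⟨u, hu, -, h3⟩
  · rw [h3]
    linarith
  · have h4 := hC u hu
    have h5 : rlen t r n = T t (r 0) (r n) := by
      have := hr'.geo 0 n (Nat.zero_le n)
      rw [Rays.TS_univ] at this
      simpa [rlen] using this
    have h6 := T_triangle h0 (r 0) u (r n)
    rw [Rays.TS_univ] at h3
    rw [hrl] at h5
    linarith

/-! ### Orientation and order -/

/-- Ends of pairs which are pairwise interleaved on far boxes can be listed monotonically. -/
theorem exists_order {ι : Type*} [Fintype ι] (b f : ι → ℕ → V)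
    (halt : ∀ i j, i ≠ j → ∀ᶠ N in atTop,
      Alt (exitPos N (b i)) (exitPos N (f i)) (exitPos N (b j)) (exitPos N (f j))) :
    ∃ (e : Fin (Fintype.card ι) ≃ ι) (σ : ι → Bool), ∃ᶠ N in atTop,
      ∀ i j : Fin (Fintype.card ι), i ≤ j →
        exitPos N (if σ (e i) then b (e i) else f (e i)) ≤
          exitPos N (if σ (e j) then b (e j) else f (e j)) ∧
        exitPos N (if σ (e i) then f (e i) else b (e i)) ≤
          exitPos N (if σ (e j) then f (e j) else b (e j)) := by
  classical
  have hall : ∀ᶠ N in (atTop : Filter ℤ), ∀ i j, i ≠ j →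
      Alt (exitPos N (b i)) (exitPos N (f i)) (exitPos N (b j)) (exitPos N (f j)) :=
    eventually_all.2 fun i => eventually_all.2 fun j => by
      by_cases h : i = j
      · exact Eventually.of_forall fun N h' => absurd h h'
      · exact (halt i j h).mono fun N hN _ => hN
  let e₀ : ι ≃ Fin (Fintype.card ι) := Fintype.equivFin ι
  let sig : ℤ → ι → Bool := fun N x => decide (exitPos N (b x) ≤ exitPos N (f x))
  let key : ℤ → Fin (Fintype.card ι) → ℤ ×ₗ ℤ := fun N i =>
    toLex (min (exitPos N (b (e₀.symm i))) (exitPos N (f (e₀.symm i))),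
      max (exitPos N (b (e₀.symm i))) (exitPos N (f (e₀.symm i))))
  obtain ⟨v, hv⟩ : ∃ v : Equiv.Perm (Fin (Fintype.card ι)) × (ι → Bool),
      ∃ᶠ N in (atTop : Filter ℤ), (Tuple.sort (key N), sig N) = v := by
    by_contra h
    simp only [not_exists, not_frequently] at h
    obtain ⟨N, hN⟩ := (eventually_all.2 h).exists
    exact hN _ rfl
  refine ⟨v.1.trans e₀.symm, v.2, (hv.and_eventually hall).mono ?_⟩
  rintro N ⟨hN, hA⟩ i j hij
  subst hN
  have hmono := Tuple.monotone_sort (key N) hij
  simp only [Function.comp_apply, key, Prod.Lex.toLex_le_toLex] at hmono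
  obtain ⟨x, hx⟩ : ∃ x, x = e₀.symm (Tuple.sort (key N) i) := ⟨_, rfl⟩
  obtain ⟨y, hy⟩ : ∃ y, y = e₀.symm (Tuple.sort (key N) j) := ⟨_, rfl⟩
  replace hmono : min (exitPos N (b x)) (exitPos N (f x)) <
        min (exitPos N (b y)) (exitPos N (f y)) ∨
      min (exitPos N (b x)) (exitPos N (f x)) = min (exitPos N (b y)) (exitPos N (f y)) ∧
        max (exitPos N (b x)) (exitPos N (f x)) ≤ max (exitPos N (b y)) (exitPos N (f y)) := by
    subst hx hy
    exact hmono
  have lo : ∀ z, exitPos N (if sig N z then b z else f z) =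
      min (exitPos N (b z)) (exitPos N (f z)) := fun z => by
    simp only [sig, decide_eq_true_eq]
    split_ifs <;> omega
  have hi : ∀ z, exitPos N (if sig N z then f z else b z) =
      max (exitPos N (b z)) (exitPos N (f z)) := fun z => by
    simp only [sig, decide_eq_true_eq]
    split_ifs <;> omega
  suffices exitPos N (if sig N x then b x else f x) ≤ exitPos N (if sig N y then b y else f y) ∧
      exitPos N (if sig N x then f x else b x) ≤ exitPos N (if sig N y then f y else b y) by
    subst hx hy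
    exact this
  rw [lo, lo, hi, hi]
  rcases eq_or_ne x y with rfl | hne
  · exact ⟨le_rfl, le_rfl⟩
  · have h := hA x y hne
    unfold Alt at h
    omega

/-- Rays in the order of their exits from far boxes: the increments over an edge have total
variation at most six times its passage time. -/
theorem tv_exits {S : Set Edge} (h0 : ∀ e, 0 ≤ t e) (r : ℕ → ℕ → V) (n : ℕ)
    (hr : ∀ i ≤ n, IsRayIn t S (r i)) {x y : V} (hxy : ConnIn S x y)
    (hx : ∀ i ≤ n, ConnIn S (r i 0) x)
    (hord : ∃ᶠ N in atTop, ∀ i j, i ≤ j → j ≤ n → exitPos N (r i) ≤ exitPos N (r j)) :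
    tvOn (fun i => bus t S (r i) x - bus t S (r i) y) 0 n ≤ 6 * TS t S x y := by
  have hna : NoAlt fun i : Fin (n + 1) => bus t S (r i) x - bus t S (r i) y := by
    intro a b c d hab hbc hcd
    have hd : (d : ℕ) ≤ n := d.is_le
    have hab' : (a : ℕ) ≤ b := le_of_lt hab
    have hbc' : (b : ℕ) ≤ c := le_of_lt hbc
    have hcd' : (c : ℕ) ≤ d := le_of_lt hcd
    have hy : ∀ i ≤ n, ConnIn S (r i 0) y := fun i hi => (hx i hi).trans hxy
    have hr4 : ∀ i : Fin 4, IsRayIn t S (![r a, r b, r c, r d] i) :=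
      Fin.forall_fin_succ.2 ⟨hr _ (by omega), Fin.forall_fin_succ.2 ⟨hr _ (by omega),
        Fin.forall_fin_two.2 ⟨hr _ (by omega), hr _ hd⟩⟩⟩
    have c4 : ∀ z, (∀ i ≤ n, ConnIn S (r i 0) z) →
        ∀ i : Fin 4, ConnIn S (![r a, r b, r c, r d] i 0) z := fun z hz =>
      Fin.forall_fin_succ.2 ⟨hz _ (by omega), Fin.forall_fin_succ.2 ⟨hz _ (by omega),
        Fin.forall_fin_two.2 ⟨hz _ (by omega), hz _ hd⟩⟩⟩
    have ho : ∃ᶠ N in (atTop : Filter ℤ), exitPos N (r a) ≤ exitPos N (r b) ∧
        exitPos N (r b) ≤ exitPos N (r c) ∧ exitPos N (r c) ≤ exitPos N (r d) :=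
      hord.mono fun N hN => ⟨hN _ _ hab' (by omega), hN _ _ hbc' (by omega), hN _ _ hcd' hd⟩
    have h2 := bus_noAlt_box h0 ![r a, r b, r c, r d] hr4 x y (c4 x hx) (c4 y hy) ho
    have h3 := bus_noAlt_box h0 ![r a, r b, r c, r d] hr4 y x (c4 y hy) (c4 x hx) ho
    simp only [Matrix.cons_val_zero, Matrix.cons_val_one, Matrix.cons_val] at h2 h3
    refine ⟨h2, ?_⟩
    simp only [min_le_iff, le_max_iff] at h3 ⊢
    rcases h3 with (o | o) | (o | o)
    · exact Or.inl (Or.inl (by linarith))
    · exact Or.inr (Or.inl (by linarith))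
    · exact Or.inl (Or.inr (by linarith))
    · exact Or.inr (Or.inr (by linarith))
  have hb : ∀ i ≤ n, |bus t S (r i) x - bus t S (r i) y| ≤ TS t S x y := fun i hi =>
    Rays.bus_lip h0 (hr i hi) (hx i hi) hxy
  refine (tvOn_le_of_noAlt _ n hna (-TS t S x y) (TS t S x y) (fun i hi => (abs_le.1 (hb i hi)).1)
    fun i hi => (abs_le.1 (hb i hi)).2).trans_eq (by ring)

/-- The variations along the boundary cycle of the differences of neighbours add up to at most
six passage times per edge. -/
theorem sum_cycVar_le (hR : 0 < R) (h0 : ∀ e, 0 ≤ t e) (hM : ∀ e, t e ≤ M) (r : ℕ → ℕ → V)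
    (n : ℕ) (hr : ∀ i ≤ n, IsRayIn t (Out R) (r i))
    (hord : ∃ᶠ N in atTop, ∀ i j, i ≤ j → j ≤ n → exitPos N (r i) ≤ exitPos N (r j)) :
    ∑ i ∈ Finset.Ico 0 n,
        cycVar R (fun u => bus t (Out R) (r (i + 1)) u - bus t (Out R) (r i) u) ≤
      6 * M * (8 * R : ℤ) := by
  simp only [cycVar, tvOn]
  rw [Finset.sum_comm]
  refine (Finset.sum_le_sum (g := fun _ : ℕ => 6 * M) fun l hl => ?_).trans ?_
  · have hl' : (l : ℤ) < 8 * R := by
      have := (Finset.mem_Ico.1 hl).2
      omega
    have hadj := bdPt_adj hl'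
    have hmem := bdPt_edge hR hl'
    have hc := Rays.connIn_adj hadj.symm (by rw [edgeOf_comm]; exact hmem)
    have h := tv_exits h0 r n hr (x := bdPt R (l + 1)) (y := bdPt R l) hc
      (fun i hi => conn_out hR (out_ray_notMem (hr i hi) 0)
        (not_inner_of_onBd (bdPt_onBd hR.le (by push_cast; omega)))) hord
    have hT : TS t (Out R) (bdPt R (l + 1)) (bdPt R l) ≤ M := by
      refine (Rays.TS_adj_le h0 hadj.symm (by rw [edgeOf_comm]; exact hmem)).trans ?_
      exact hM _
    refine le_trans (le_of_eq ?_) (h.trans (mul_le_mul_of_nonneg_left hT (by norm_num)))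
    refine Finset.sum_congr rfl fun i _ => ?_
    congr 1
    ring
  · rw [Finset.sum_const, Nat.card_Ico, nsmul_eq_mul, Nat.sub_zero]
    have e : (((8 * R).toNat : ℕ) : ℝ) = ((8 * R : ℤ) : ℝ) := by
      exact_mod_cast Int.toNat_of_nonneg (show (0 : ℤ) ≤ 8 * R by omega)
    rw [e, mul_comm]

/-- The difference over a window is controlled by the differences of neighbours inside. -/
theorem cycVar_window (f : ℕ → V → ℝ) {i j : ℕ} (hij : i ≤ j) :
    cycVar R (fun u => f j u - f i u) ≤
      ∑ l ∈ Finset.Ico i j, cycVar R (fun u => f (l + 1) u - f l u) := by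
  simp only [cycVar, tvOn]
  rw [Finset.sum_comm]
  refine Finset.sum_le_sum fun q _ => ?_
  refine le_trans (le_of_eq ?_) (le_of_le_of_eq
    (abs_le_tvOn (fun l => f l (bdPt R (q + 1)) - f l (bdPt R q)) hij) ?_)
  · congr 1; ring
  · refine Finset.sum_congr rfl fun l _ => ?_
    congr 1
    ring

theorem cycVar_comm (g h : V → ℝ) :
    cycVar R (fun u => g u - h u) = cycVar R (fun u => h u - g u) := by
  simp only [cycVar, tvOn]
  refine Finset.sum_congr rfl fun q _ => ?_
  rw [← abs_neg]
  congr 1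
  ring

end Vale.Agent.P158
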