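import Vale.Agent.P158.Class2
import Vale.Agent.P158.Order2
import Vale.Agent.P158.Gen.Law

/-!
P158, second stage, deterministic count: finitely many lines, each gaining `g` above one
configuration; no upper bound on the weights is needed.  If two lines which avoid each other's changes, or which have witnesses in one
configuration, had Busemann functions differing by nearly a constant inside a box, then `g` would
be small.  Hence the variations along the boundary of the box count the lines.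
-/

open Filter Topology

namespace Vale.Agent.P158

variable {M κ : ℝ} {t Y : Conf}

/-! ### Rays when only long paths are known to be heavy -/

/-- The length of an injective path tends to infinity. -/
theorem tendsto_rlen_lenBound (h : LenBound κ t) (hκ : 0 < κ) {r : ℕ → V}
    (hinj : Function.Injective r) (hadj : ∀ i, Adj (r i) (r (i + 1))) :
    Tendsto (rlen t r) atTop atTop := by
  have hwalk : ∀ n, ∃ p : grid.Walk (r 0) (r n), p.length = n ∧ plen t p = rlen t r n ∧
      p.support = (List.range (n + 1)).map r := by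
    intro n
    induction n with
    | zero => exact ⟨.nil, rfl, by simp [rlen], by simp⟩
    | succ n ih =>
      obtain ⟨p, h1, h2, h3⟩ := ih
      refine ⟨p.concat (show grid.Adj _ _ from hadj n), by simp [h1], ?_, ?_⟩
      · rw [Rays.rlen_succ, SimpleGraph.Walk.concat_eq_append, plen_append, h2]; simp
      · rw [SimpleGraph.Walk.support_concat, h3, List.range_succ (n := n + 1)]
        simp
  refine tendsto_atTop_mono' atTop ?_ (tendsto_natCast_atTop_atTop.const_mul_atTop hκ)
  filter_upwards [h (r 0)] with n hn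
  obtain ⟨p, h1, h2, h3⟩ := hwalk n
  refine h2 ▸ hn _ p ?_ h1
  rw [SimpleGraph.Walk.isPath_def, h3]
  exact List.nodup_range.map hinj

/-- Deep tails are rays outside a box and in any configuration equal outside it. -/
theorem eventually_deep_lenBound {Z : Conf} {R : ℤ} (h0 : ∀ e, 0 ≤ t e) (hl : LenBound κ t)
    (hκ : 0 < κ) (hZ : ∀ e, 0 ≤ Z e) (heq : ∀ e ∈ Out R, Z e = t e) {r : ℕ → V}
    (hr : IsRayIn t Set.univ r) :
    ∀ᶠ m in atTop, IsRayIn Z Set.univ (Rays.tail m r) ∧ IsRayIn Z (Out R) (Rays.tail m r) := by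
  have hoff : ∀ e, e ∉ (out_compl_finite R).toFinset → Z e = t e := fun e he =>
    heq e (by simpa using he)
  obtain ⟨N, hN⟩ := Rays.exists_tail (S := Set.univ) h0 hZ hoff hr
    (tendsto_rlen_lenBound hl hκ hr.inj hr.adj)
  refine eventually_atTop.2 ⟨N, fun m hm => ?_⟩
  obtain ⟨h1, h2⟩ := hN m hm
  exact ⟨h1, h1.mono_set hZ fun i => by simpa using h2 i⟩

/-! ### The two ends of a line -/

/-- A line or its reversal. -/
def ori (b : Bool) (γ : ℤ → V) : ℤ → V := if b then γ else revLine γ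

theorem fwd_ori (b : Bool) (γ : ℤ → V) : fwd (ori b γ) 0 = bwd (ori (!b) γ) 0 := by
  cases b <;> simp [ori, fwd_revLine, bwd_revLine]

theorem ori_zero (b : Bool) (γ : ℤ → V) : ori b γ 0 = γ 0 := by
  cases b <;> simp [ori, revLine]

theorem IsBigeodesic.ori {γ : ℤ → V} (h : IsBigeodesic t γ) (b : Bool) :
    IsBigeodesic t (Vale.Agent.P158.ori b γ) := by
  cases b
  · exact h.rev
  · exact h

/-- The tail beyond `m` steps of one end of a line. -/
def eray (m : ℕ) (γ : ℤ → V) (b : Bool) : ℕ → V := Rays.tail m (bwd (ori b γ) 0)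

theorem eray_bus {γ : ℤ → V} (hγ : IsBigeodesic t γ) (h0 : ∀ e, 0 ≤ t e) (m : ℕ) (b : Bool)
    (z : V) : bus t Set.univ (eray m γ b) z =
      bus t Set.univ (bwd (ori b γ) 0) z + rlen t (bwd (ori b γ) 0) m :=
  Rays.bus_tail h0 (Rays.isRayIn_bwd (hγ.ori b) h0 0) (connIn_univ _ z) m

theorem rlen_ori (t : Conf) (γ : ℤ → V) (m : ℕ) (b : Bool) :
    rlen t (bwd (ori b γ) 0) m + rlen t (bwd (ori (!b) γ) 0) m =
      Rays.seg t γ (-(m : ℤ)) m := by
  have h : rlen t (bwd γ 0) m + rlen t (fwd γ 0) m = Rays.seg t γ (-(m : ℤ)) m := by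
    rw [Rays.rlen_bwd, Rays.rlen_fwd, zero_sub, zero_add,
      ← Rays.seg_add (show -(m : ℤ) ≤ 0 by omega) (show (0 : ℤ) ≤ m by omega)]
  cases b <;> simp [ori, bwd_revLine] <;> linarith

theorem eray_sum {γ : ℤ → V} (hγ : IsBigeodesic t γ) (h0 : ∀ e, 0 ≤ t e) (m : ℕ) (b : Bool)
    (z : V) :
    bus t Set.univ (eray m γ b) z + bus t Set.univ (eray m γ (!b)) z =
      bus t Set.univ (bwd (ori b γ) 0) z + bus t Set.univ (fwd (ori b γ) 0) z +
        Rays.seg t γ (-(m : ℤ)) m := by
  rw [eray_bus hγ h0, eray_bus hγ h0, fwd_ori, ← rlen_ori t γ m b]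
  ring

theorem eray_upper {γ : ℤ → V} (hadj : ∀ i, Adj (γ i) (γ (i + 1))) (h0 : ∀ e, 0 ≤ t e) (m : ℕ)
    (b : Bool) (hr : ∀ b, IsRayIn t Set.univ (eray m γ b)) :
    bus t Set.univ (eray m γ b) (γ 0) + bus t Set.univ (eray m γ (!b)) (γ 0) ≤
      Rays.seg t γ (-(m : ℤ)) m := by
  have key : ∀ b, bus t Set.univ (eray m γ b) (γ 0) ≤ rlen t (bwd (ori b γ) 0) m := fun b => by
    have ha : ∀ n, Adj (bwd (ori b γ) 0 n) (bwd (ori b γ) 0 (n + 1)) := fun n => by
      cases b
      · have := hadj n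
        simpa [ori, bwd_revLine, fwd] using this
      · have := (hadj (-(n : ℤ) - 1)).symm
        simpa [ori, bwd, sub_eq_add_neg, add_comm, add_left_comm] using this
    have h1 := Rays.bus_le h0 (hr b) (connIn_univ _ (γ 0)) 0
    have h2 := Rays.TS_path_le (S := Set.univ) h0 ha (fun _ => trivial) (Nat.zero_le m)
    have e1 : eray m γ b 0 = bwd (ori b γ) 0 m := rfl
    have e2 : bwd (ori b γ) 0 0 = γ 0 := by simp [bwd, ori_zero]
    rw [rlen_zero, sub_zero] at h1 h2
    rw [e2] at h2
    rw [e1, TS_comm] at h1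
    linarith
  linarith [key b, key (!b), rlen_ori t γ m b]

theorem eray_exact (hN : NiceG κ t) {γ : ℤ → V} (hγ : IsBigeodesic t γ) {r : ℕ → V}
    (hr : IsRayIn t Set.univ r) {m : ℕ} {b : Bool}
    (h : ∃ C : ℝ, ∀ z, -C ≤ bus t Set.univ r z + bus t Set.univ (eray m γ (!b)) z) :
    ∃ c : ℝ, ∀ z, bus t Set.univ r z - bus t Set.univ (eray m γ b) z = c := by
  have h0 := hN.good.nonneg
  obtain ⟨C, hC⟩ := h
  obtain ⟨c, hc⟩ := hN.matched _ (hγ.ori b) r hr
    ⟨C + rlen t (bwd (ori (!b) γ) 0) m, fun z => by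
      rw [fwd_ori]
      linarith [hC z, eray_bus hγ h0 m (!b) z]⟩
  exact ⟨c - rlen t (bwd (ori b γ) 0) m, fun z => by linarith [hc z, eray_bus hγ h0 m b z]⟩

/-! ### The variation along the boundary cycle -/

/-- The variations along the boundary cycle of the differences of neighbours add up to at most
six times the weight of the cycle. -/
theorem sum_cycVar_edges {R : ℤ} (hR : 0 < R) (h0 : ∀ e, 0 ≤ t e) (r : ℕ → ℕ → V) (n : ℕ)
    (hr : ∀ i ≤ n, IsRayIn t (Out R) (r i))
    (hord : ∃ᶠ N in atTop, ∀ i j, i ≤ j → j ≤ n → exitPos N (r i) ≤ exitPos N (r j)) :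
    ∑ i ∈ Finset.Ico 0 n,
        cycVar R (fun u => bus t (Out R) (r (i + 1)) u - bus t (Out R) (r i) u) ≤
      6 * ∑ l ∈ Finset.Ico 0 (8 * R).toNat, wt t (bdPt R l) (bdPt R (l + 1)) := by
  simp only [cycVar, tvOn]
  rw [Finset.sum_comm, Finset.mul_sum]
  refine Finset.sum_le_sum fun l hl => ?_
  have hl' : (l : ℤ) < 8 * R := by
    have := (Finset.mem_Ico.1 hl).2
    omega
  have hadj := bdPt_adj hl'
  have hmem := bdPt_edge hR hl'
  have hmem' : edgeOf (bdPt R (l + 1)) (bdPt R l) ∈ Out R := by rw [edgeOf_comm]; exact hmem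
  have h := tv_exits h0 r n hr (x := bdPt R (l + 1)) (y := bdPt R l)
    (Rays.connIn_adj hadj.symm hmem') (fun i hi => conn_out hR (out_ray_notMem (hr i hi) 0)
      (not_inner_of_onBd (bdPt_onBd hR.le (by push_cast; omega)))) hord
  have hT := Rays.TS_adj_le h0 hadj.symm hmem'
  rw [wt_comm t] at hT
  refine le_trans (le_of_eq ?_) (h.trans (mul_le_mul_of_nonneg_left hT (by norm_num)))
  refine Finset.sum_congr rfl fun i _ => ?_
  congr 1
  ring

/-! ### Systems of lines above one configuration -/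

variable {g A : ℝ} {R : ℤ} {ι : Type*} {X : ι → Conf} {G : ι → ℤ → V} {m : ι → ℕ}

/-- Lines in configurations equal to `t` outside a box, the deep tails being rays in all these
configurations. -/
structure Sys2 (κ : ℝ) (R : ℤ) (t : Conf) (X : ι → Conf) (G : ι → ℤ → V) (m : ι → ℕ) :
    Prop where
  nt : ∀ e, 0 ≤ t e
  nX : ∀ p, NiceG κ (X p)
  out : ∀ p, ∀ e ∈ Out R, X p e = t e
  line : ∀ p, IsBigeodesic (X p) (G p)
  org : ∀ p, InSq R (G p 0)
  rayO : ∀ p b, IsRayIn t (Out R) (eray (m p) (G p) b)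
  rayT : ∀ p b, IsRayIn t Set.univ (eray (m p) (G p) b)
  rayX : ∀ q p b, IsRayIn (X q) Set.univ (eray (m p) (G p) b)

/-- Each line gains in the configuration of the other, or they live in one configuration and have
witnesses. -/
def Free2 (g : ℝ) (R : ℤ) (X : ι → Conf) (G : ι → ℤ → V) (m : ι → ℕ) (p q : ι) : Prop :=
  (Rays.seg (X p) (G q) (-(m q : ℤ)) (m q) + g ≤ Rays.seg (X q) (G q) (-(m q : ℤ)) (m q) ∧
    Rays.seg (X q) (G p) (-(m p : ℤ)) (m p) + g ≤ Rays.seg (X p) (G p) (-(m p : ℤ)) (m p)) ∨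
  (X p = X q ∧ ∃ G₀, T (X p) (G p 0) (G q 0) + 2 * g < G₀ ∧
    ∀ a b, Wit (X p) R G₀ (bwd (ori a (G p)) 0) (fwd (ori b (G q)) 0))

/-- The Busemann function, outside the box, of one end. -/
noncomputable def endBus (R : ℤ) (t : Conf) (G : ι → ℤ → V) (m : ι → ℕ) (p : ι) (b : Bool) :
    V → ℝ := fun u => bus t (Out R) (eray (m p) (G p) b) u

/-- Two lines have both ends in one class. -/
def Cls2 (t : Conf) (G : ι → ℤ → V) (m : ι → ℕ) (p q : ι) : Prop :=
  ∃ b, Bd t (eray (m p) (G p) true) (eray (m q) (G q) b) ∧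
    Bd t (eray (m p) (G p) false) (eray (m q) (G q) (!b))

theorem cls2_equiv : Equivalence (Cls2 t G m) where
  refl _ := ⟨true, bd_refl _ _, bd_refl _ _⟩
  symm := by
    rintro p q ⟨b, h1, h2⟩
    cases b
    · exact ⟨false, bd_symm h2, bd_symm h1⟩
    · exact ⟨true, bd_symm h1, bd_symm h2⟩
  trans := by
    rintro p q r ⟨b, h1, h2⟩ ⟨b', h1', h2'⟩
    cases b
    · exact ⟨!b', bd_trans h1 h2', by rw [Bool.not_not]; exact bd_trans h2 h1'⟩
    · exact ⟨b', bd_trans h1 h1', bd_trans h2 h2'⟩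

namespace Sys2

variable (S : Sys2 κ R t X G m)
include S

theorem nonneg (p : ι) : ∀ e, 0 ≤ X p e := (S.nX p).good.nonneg

theorem rayXO (q p : ι) (b : Bool) : IsRayIn (X q) (Out R) (eray (m p) (G p) b) :=
  isRayIn_congr (S.rayO p b) (S.out q)

theorem avoid (p : ι) (b : Bool) (i : ℕ) :
    edgeOf (eray (m p) (G p) b i) (eray (m p) (G p) b (i + 1)) ∉
      (out_compl_finite R).toFinset := by
  simpa using (S.rayO p b).mem i

theorem off (q : ι) : ∀ e, e ∉ (out_compl_finite R).toFinset → X q e = t e := fun e he =>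
  S.out q e (by simpa using he)

/-- The two full functions in the configuration of a line change by a bounded amount in `t`. -/
theorem change (q p : ι) (b : Bool) : ∃ K : ℝ, ∀ z,
    |bus (X q) Set.univ (eray (m p) (G p) b) z - bus t Set.univ (eray (m p) (G p) b) z| ≤ K :=
  ⟨_, fun z => Rays.bus_change S.nt (S.nonneg q) (S.off q) (S.rayT p b)
    (S.rayX q p b) (S.avoid p b) (connIn_univ _ z)⟩

/-- Nearly constant differences in both configurations make the gain small. -/
theorem gap {p q : ι} (hF : Free2 g R X G m p q) (a b : Bool) {α β η₁ η₂ : ℝ}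
    (h : ∀ Y, (Y = X p ∨ Y = X q) → ∀ v, InSq R v →
      |bus Y Set.univ (eray (m p) (G p) a) v - bus Y Set.univ (eray (m q) (G q) b) v - α| ≤ η₁ ∧
      |bus Y Set.univ (eray (m p) (G p) (!a)) v - bus Y Set.univ (eray (m q) (G q) (!b)) v - β|
        ≤ η₂) : g ≤ η₁ + η₂ := by
  have hnn := Rays.bus_line_nonneg ((S.line p).ori a) (S.nonneg p) 0
  rcases hF with ⟨hpq, hqp⟩ | ⟨hX, G₀, hG, hW⟩
  · have u1 := eray_upper (S.line q).adj (S.nonneg p) (m q) b (S.rayX p q)
    have u2 := eray_upper (S.line p).adj (S.nonneg q) (m p) a (S.rayX q p)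
    have s1 := eray_sum (S.line p) (S.nonneg p) (m p) a (G q 0)
    have s2 := eray_sum (S.line q) (S.nonneg q) (m q) b (G p 0)
    have n2 := Rays.bus_line_nonneg ((S.line q).ori b) (S.nonneg q) 0 (G p 0)
    obtain ⟨a1, a2⟩ := h _ (.inl rfl) _ (S.org q)
    obtain ⟨b1, b2⟩ := h _ (.inr rfl) _ (S.org p)
    rw [abs_le] at a1 a2 b1 b2
    linarith [hnn (G q 0)]
  · have hq : IsBigeodesic (X p) (G q) := hX ▸ S.line q
    have h0 := S.nonneg p
    obtain ⟨z, hz, hw⟩ := hW a b
    obtain ⟨a1, a2⟩ := h _ (.inl rfl) _ (S.org q)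
    obtain ⟨b1, -⟩ := h _ (.inl rfl) _ hz
    have hη : 0 ≤ η₂ := (abs_nonneg _).trans a2
    rw [eray_bus (S.line p) h0, eray_bus hq h0, abs_le] at a1 b1
    have hr := Rays.isRayIn_bwd ((S.line p).ori a) h0 0
    have e0 : bus (X p) Set.univ (bwd (ori b (G q)) 0) (G q 0) = 0 := by
      have := Rays.bus_zero h0 (Rays.isRayIn_bwd (hq.ori b) h0 0)
      simpa [bwd, ori_zero] using this
    have l1 := Rays.bus_lip h0 hr (x := bwd (ori a (G p)) 0 0) (y := G q 0) (ConnIn.refl _)
      (connIn_univ _ _)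
    rw [Rays.bus_zero h0 hr, Rays.TS_univ, abs_le] at l1
    simp only [bwd, Nat.cast_zero, sub_zero, ori_zero] at l1
    have n2 := Rays.bus_line_nonneg (hq.ori b) h0 0 z
    linarith

/-- Ends of one class differ by the same constants in both configurations. -/
theorem exact (hκ : 0 < κ) {p q : ι} {a b : Bool}
    (h : Bd t (eray (m p) (G p) a) (eray (m q) (G q) b)) :
    ∃ c : ℝ, ∀ Y, (Y = X p ∨ Y = X q) → ∀ z,
      bus Y Set.univ (eray (m p) (G p) a) z - bus Y Set.univ (eray (m q) (G q) b) z = c := by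
  have key : ∀ (p q : ι) (a b : Bool), Bd t (eray (m p) (G p) a) (eray (m q) (G q) b) →
      ∃ c : ℝ, ∀ z, bus (X p) Set.univ (eray (m q) (G q) b) z -
        bus (X p) Set.univ (eray (m p) (G p) a) z = c := by
    intro p q a b h
    obtain ⟨C, hC⟩ := bd_transfer S.nt (S.nonneg p) (S.off p) (S.rayT p a) (S.rayT q b)
      (S.rayX p p a) (S.rayX p q b) (S.avoid p a) (S.avoid q b) h
    refine eray_exact (S.nX p) (S.line p) (S.rayX p q b)
      ⟨C - Rays.seg (X p) (G p) (-(m p : ℤ)) (m p), fun z => ?_⟩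
    have := eray_sum (S.line p) (S.nonneg p) (m p) a z
    linarith [(abs_le.1 (hC z)).2,
      Rays.bus_line_nonneg ((S.line p).ori a) (S.nonneg p) 0 z]
  obtain ⟨c, hc⟩ := key p q a b h
  obtain ⟨c', hc'⟩ := key q p b a (bd_symm h)
  have hoff : ∀ e, e ∉ (out_compl_finite R).toFinset → X q e = X p e := fun e he => by
    rw [S.off q e he, S.off p e he]
  have hlim := tendsto_rlen_lenBound (S.nX p).good.lenBound hκ (S.rayX p p a).inj (S.rayX p p a).adj
  have hcc := const_transfer (S.nonneg p) (S.nonneg q) hoff (S.rayX p p a) (S.rayX p q b)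
    (S.rayX q p a) (S.rayX q q b) hlim (S.avoid p a) (S.avoid q b)
    (c := -c) (fun z => by linarith [hc z]) hc'
  refine ⟨c', ?_⟩
  rintro Y (rfl | rfl) z
  · linarith [hc z]
  · exact hc' z

/-- Free lines lie in different classes. -/
theorem not_cls (hκ : 0 < κ) (hg : 0 < g) {p q : ι} (hF : Free2 g R X G m p q) :
    ¬ Cls2 t G m p q := by
  rintro ⟨b, h1, h2⟩
  obtain ⟨α, hα⟩ := S.exact hκ h1
  obtain ⟨β, hβ⟩ := S.exact hκ h2
  have := S.gap hF true b (η₁ := 0) (η₂ := 0) (α := α) (β := β)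
    fun Y hY v _ => ⟨by rw [hα Y hY v]; simp, by
      rw [show (!true) = false from rfl, hβ Y hY v]; simp⟩
  linarith

/-- Free lines differ by the gain along the boundary of the box. -/
theorem gap_cycVar (hR : 0 < R) {p q : ι} (hF : Free2 g R X G m p q) (a b : Bool) :
    g ≤ cycVar R (fun u => endBus R t G m p a u - endBus R t G m q b u) +
      cycVar R (fun u => endBus R t G m p (!a) u - endBus R t G m q (!b) u) := by
  refine S.gap hF a b (α := endBus R t G m p a (bdPt R 0) - endBus R t G m q b (bdPt R 0))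
    (β := endBus R t G m p (!a) (bdPt R 0) - endBus R t G m q (!b) (bdPt R 0))
    (fun Y hY v hv => ?_)
  rcases hY with rfl | rfl <;>
    exact ⟨bus_inside_close hR (S.nonneg _) (S.out _) (S.rayX _ p a) (S.rayX _ q b)
        (S.rayXO _ p a) (S.rayXO _ q b) hv,
      bus_inside_close hR (S.nonneg _) (S.out _) (S.rayX _ p (!a)) (S.rayX _ q (!b))
        (S.rayXO _ p (!a)) (S.rayXO _ q (!b)) hv⟩

/-- The two ends of a line have a sum bounded below in `t`. -/
theorem sum_low (p : ι) : ∃ e : ℝ, ∀ z, e ≤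
    bus t Set.univ (eray (m p) (G p) true) z + bus t Set.univ (eray (m p) (G p) false) z := by
  obtain ⟨K, hK⟩ := S.change p p true
  obtain ⟨K', hK'⟩ := S.change p p false
  refine ⟨Rays.seg (X p) (G p) (-(m p : ℤ)) (m p) - K - K', fun z => ?_⟩
  have h := eray_sum (S.line p) (S.nonneg p) (m p) true z
  rw [show (!true) = false from rfl] at h
  linarith [(abs_le.1 (hK z)).2, (abs_le.1 (hK' z)).2,
    Rays.bus_line_nonneg ((S.line p).ori true) (S.nonneg p) 0 z]

/-- A ray with a sum bounded below with one end of a line is in the class of the other end. -/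
theorem bd_of_sum {p q : ι} {a b : Bool}
    (h : ∃ C : ℝ, ∀ z, C ≤ bus t Set.univ (eray (m q) (G q) b) z +
      bus t Set.univ (eray (m p) (G p) (!a)) z) :
    Bd t (eray (m p) (G p) a) (eray (m q) (G q) b) := by
  obtain ⟨C, hC⟩ := h
  obtain ⟨K, hK⟩ := S.change p q b
  obtain ⟨K', hK'⟩ := S.change p p (!a)
  obtain ⟨c, hc⟩ := eray_exact (S.nX p) (S.line p) (S.rayX p q b) (m := m p) (b := a)
    ⟨-C + K + K', fun z => by linarith [hC z, (abs_le.1 (hK z)).1, (abs_le.1 (hK' z)).1]⟩
  refine bd_transfer (S.nonneg p) S.nt (fun e he => (S.off p e he).symm) (S.rayX p p a)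
    (S.rayX p q b) (S.rayT p a) (S.rayT q b) (S.avoid p a) (S.avoid q b)
    ⟨|c|, fun z => by rw [abs_sub_comm, hc z]⟩

/-- Lines of different classes are interleaved on far boxes. -/
theorem alt_of_not_cls {p q : ι} (h : ¬ Cls2 t G m p q) :
    ∀ᶠ N in atTop, Alt (exitPos N (eray (m p) (G p) true)) (exitPos N (eray (m p) (G p) false))
      (exitPos N (eray (m q) (G q) true)) (exitPos N (eray (m q) (G q) false)) := by
  by_contra hcon
  have key : ∀ s, (∃ᶠ N in atTop, Alt (exitPos N (eray (m p) (G p) true))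
      (exitPos N (eray (m q) (G q) s)) (exitPos N (eray (m p) (G p) false))
      (exitPos N (eray (m q) (G q) (!s)))) → False := by
    intro s hs
    obtain ⟨ep, hep⟩ := S.sum_low p
    obtain ⟨eq', heq⟩ := S.sum_low q
    have hsum := crossed_excess_box S.nt (eray (m p) (G p) true)
      (eray (m q) (G q) (!s)) (eray (m p) (G p) false) (eray (m q) (G q) s)
      (S.rayT p true) (S.rayT q (!s)) (S.rayT p false) (S.rayT q s) connIn_univ ep eq' hep
      (fun z => by cases s <;> simp only [Bool.not_true, Bool.not_false] <;> linarith [heq z])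
      (hs.mono fun N hN => by unfold Alt at hN ⊢; omega)
    refine h ⟨!s, S.bd_of_sum (a := true) ?_, S.bd_of_sum (a := false) ?_⟩
    · exact ⟨_, fun w => sub_le_iff_le_add'.2 (hsum (0, 0) w)⟩
    · refine ⟨ep + eq' - (bus t Set.univ (eray (m q) (G q) (!s)) (0, 0) +
        bus t Set.univ (eray (m p) (G p) false) (0, 0)), fun z => ?_⟩
      rw [Bool.not_not, show (!false) = true from rfl]
      have := hsum z (0, 0)
      linarith
  rw [not_eventually] at hcon
  have hd : ∃ᶠ N in atTop,
      Alt (exitPos N (eray (m p) (G p) true)) (exitPos N (eray (m q) (G q) true))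
        (exitPos N (eray (m p) (G p) false)) (exitPos N (eray (m q) (G q) false)) ∨
      Alt (exitPos N (eray (m p) (G p) true)) (exitPos N (eray (m q) (G q) false))
        (exitPos N (eray (m p) (G p) false)) (exitPos N (eray (m q) (G q) true)) :=
    hcon.mono fun N hN => (alt_trichotomy _ _ _ _).resolve_left hN
  rcases frequently_or_distrib.1 hd with h1 | h1
  exacts [key true h1, key false h1]

/-- The lines are few, if among any four of them two are free. -/
theorem count [Fintype ι] (hκ : 0 < κ) (hg : 0 < g) (hR : 0 < R)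
    (hcyc : ∑ l ∈ Finset.Ico 0 (8 * R).toNat, wt t (bdPt R l) (bdPt R (l + 1)) ≤ A)
    (h4 : ∀ s : Finset ι, 4 ≤ s.card → ∃ p ∈ s, ∃ q ∈ s, p ≠ q ∧ Free2 g R X G m p q) :
    g * Fintype.card ι ≤ 144 * A + 9 * g := by
  classical
  have hA0 : 0 ≤ A := (Finset.sum_nonneg fun l _ => S.nt _).trans hcyc
  let st : Setoid ι := ⟨Cls2 t G m, cls2_equiv⟩
  -- at most three lines in a class
  have h3 : Fintype.card ι ≤ 3 * Fintype.card (Quotient st) := by
    refine (Finset.card_le_mul_card_image (f := Quotient.mk st) (Finset.univ : Finset ι) 3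
      fun x _ => ?_).trans (Nat.mul_le_mul_left _ (Finset.card_le_univ _))
    by_contra hlt
    obtain ⟨p, hp, q, hq, -, hF⟩ := h4 _ (Nat.succ_le_of_lt (not_le.1 hlt))
    rw [Finset.mem_filter] at hp hq
    exact S.not_cls hκ hg hF (Quotient.exact (hp.2.trans hq.2.symm))
  obtain ⟨n, hn⟩ : ∃ n, n = Fintype.card (Quotient st) := ⟨_, rfl⟩
  suffices hq : g * n ≤ 48 * A + 3 * g by
    have : (Fintype.card ι : ℝ) ≤ 3 * n := by exact_mod_cast hn ▸ h3
    nlinarith
  rcases Nat.eq_zero_or_pos n with h0 | hpos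
  · rw [h0, Nat.cast_zero, mul_zero]
    positivity
  obtain ⟨e, σ, hord⟩ := exists_order (fun x : Quotient st => eray (m x.out) (G x.out) true)
    (fun x => eray (m x.out) (G x.out) false) fun x y hxy => S.alt_of_not_cls fun hc =>
      hxy (by rw [← Quotient.out_eq x, ← Quotient.out_eq y]; exact Quotient.sound hc)
  obtain ⟨idx, hidx⟩ : ∃ idx : ℕ → Quotient st,
      idx = fun i => e ⟨min i (n - 1), by omega⟩ := ⟨_, rfl⟩
  obtain ⟨f, hf⟩ : ∃ f : Bool → ℕ → V → ℝ, f = fun b i => endBus R t G m (idx i).out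
      (if b then σ (idx i) else !σ (idx i)) := ⟨_, rfl⟩
  obtain ⟨v, hv⟩ : ∃ v : ℕ → ℝ, v = fun l => cycVar R (fun u => f true (l + 1) u - f true l u) +
      cycVar R (fun u => f false (l + 1) u - f false l u) := ⟨_, rfl⟩
  have hv0 : ∀ l, 0 ≤ v l := fun l => by
    rw [hv]; exact add_nonneg (cycVar_nonneg _ _) (cycVar_nonneg _ _)
  have htot : ∑ l ∈ Finset.Ico 0 n, v l ≤ 12 * A := by
    have key : ∀ b : Bool, ∑ l ∈ Finset.Ico 0 n,
        cycVar R (fun u => f b (l + 1) u - f b l u) ≤ 6 * A := by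
      intro b
      rw [hf]
      refine (sum_cycVar_edges hR S.nt (fun i => eray (m (idx i).out) (G (idx i).out)
        (if b then σ (idx i) else !σ (idx i))) n (fun i _ => S.rayO _ _) ?_).trans
        (mul_le_mul_of_nonneg_left hcyc (by norm_num))
      refine hord.mono fun N hN i j hij _ => ?_
      have h := hN ⟨min i (n - 1), by omega⟩ ⟨min j (n - 1), by omega⟩ (Fin.mk_le_mk.2 (by omega))
      rw [hidx]
      cases b
      · convert h.2 using 2 <;> simp only [Bool.false_eq_true, if_false] <;> split_ifs with hs <;>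
          simp [hs]
      · convert h.1 using 2 <;> simp only [if_true] <;> split_ifs with hs <;> simp [hs]
    rw [hv]
    simp only [Finset.sum_add_distrib]
    have := key true
    have := key false
    linarith
  -- four neighbours contain a free pair
  have hgrp : ∀ k, 4 * k + 4 ≤ n → g ≤ ∑ l ∈ Finset.Ico (4 * k) (4 * k + 4), v l := by
    intro k hk
    obtain ⟨p, hp, q, hq, hne, hF⟩ := h4 ((Finset.Ico (4 * k) (4 * k + 4)).image
        fun i => (idx i).out) (by
      rw [Finset.card_image_of_injOn]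
      · simp
      · intro i hi j hj hij
        have h1 := Quotient.out_inj.1 hij
        rw [hidx] at h1
        have h2 := congrArg Fin.val (e.injective h1)
        simp only [Finset.coe_Ico, Set.mem_Ico] at hi hj h2
        omega)
    obtain ⟨i, hi, rfl⟩ := Finset.mem_image.1 hp
    obtain ⟨j, hj, rfl⟩ := Finset.mem_image.1 hq
    rw [Finset.mem_Ico] at hi hj
    have hgap : g ≤ cycVar R (fun u => f true i u - f true j u) +
        cycVar R (fun u => f false i u - f false j u) := by
      rw [hf]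
      exact S.gap_cycVar hR hF (σ (idx i)) (σ (idx j))
    refine hgap.trans ?_
    have win : ∀ b i j, i ≤ j → 4 * k ≤ i → j ≤ 4 * k + 4 →
        cycVar R (fun u => f b j u - f b i u) ≤ ∑ l ∈ Finset.Ico (4 * k) (4 * k + 4),
          cycVar R (fun u => f b (l + 1) u - f b l u) := fun b i j hij h1 h2 =>
      (cycVar_window (f b) hij).trans (Finset.sum_le_sum_of_subset_of_nonneg
        (Finset.Ico_subset_Ico h1 h2) fun l _ _ => cycVar_nonneg _ _)
    rw [hv]
    simp only [Finset.sum_add_distrib]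
    rcases le_total i j with hij | hij
    · rw [cycVar_comm (f true i), cycVar_comm (f false i)]
      exact add_le_add (win true i j hij hi.1 (by omega)) (win false i j hij hi.1 (by omega))
    · exact add_le_add (win true j i hij hj.1 (by omega)) (win false j i hij hj.1 (by omega))
  have hall : ∀ K, 4 * K ≤ n → g * K ≤ ∑ l ∈ Finset.Ico 0 (4 * K), v l := by
    intro K
    induction K with
    | zero => simp
    | succ K ih =>
      intro hK
      rw [show 4 * (K + 1) = 4 * K + 4 by ring,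
        ← Finset.sum_Ico_consecutive v (Nat.zero_le (4 * K)) (Nat.le_add_right _ 4)]
      push_cast
      nlinarith [ih (by omega), hgrp K (by omega)]
  have h5 := (hall (n / 4) (by omega)).trans ((Finset.sum_le_sum_of_subset_of_nonneg
    (Finset.Ico_subset_Ico le_rfl (by omega)) fun l _ _ => hv0 l).trans htot)
  have h6 : (n : ℝ) ≤ 4 * ((n / 4 : ℕ) : ℝ) + 3 := by
    exact_mod_cast (show n ≤ 4 * (n / 4) + 3 by omega)
  nlinarith

end Sys2

end Vale.Agent.P158
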