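import Mathlib

/-!
Definitions used in the statements for P158 (bigeodesics of planar first-passage percolation).
-/

open MeasureTheory Filter Topology

namespace Vale.Agent.P158

/-- Vertices of the square lattice. -/
abbrev V := ℤ × ℤ

/-- Nearest-neighbour relation on the square lattice. -/
def Adj (x y : V) : Prop := |x.1 - y.1| + |x.2 - y.2| = 1

/-- The square lattice as a graph. -/
def grid : SimpleGraph V where
  Adj x y := Adj x y
  symm := ⟨fun x y h => by
    simp only [Adj] at *; rwa [abs_sub_comm y.1 x.1, abs_sub_comm y.2 x.2]⟩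
  loopless := ⟨fun x h => by simp [Adj] at h⟩

/-- An unoriented edge, coded by its lexicographically smaller end and the flag telling
whether it is vertical. -/
abbrev Edge := V × Bool

/-- The code of the edge between two adjacent vertices. -/
def edgeOf (x y : V) : Edge := ((min x.1 y.1, min x.2 y.2), decide (x.1 = y.1))

/-- A configuration of edge weights. -/
abbrev Conf := Edge → ℝ

/-- The weight of the edge between two adjacent vertices. -/
def wt (t : Conf) (x y : V) : ℝ := t (edgeOf x y)

/-- The sum of the weights of the traversed edges of a walk. -/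
def plen (t : Conf) {x y : V} (p : grid.Walk x y) : ℝ :=
  (p.darts.map fun d => wt t d.toProd.1 d.toProd.2).sum

/-- The passage time. -/
noncomputable def T (t : Conf) (x y : V) : ℝ :=
  sInf (Set.range fun p : grid.Walk x y => plen t p)

/-- A bigeodesic: pairwise distinct vertices indexed by `ℤ`, consecutive ones adjacent,
all of whose finite segments achieve the passage time. -/
structure IsBigeodesic (t : Conf) (γ : ℤ → V) : Prop where
  inj : Function.Injective γ
  adj : ∀ i, Adj (γ i) (γ (i + 1))
  geo : ∀ i j, i < j →
    ∑ k ∈ Finset.Ico i j, wt t (γ k) (γ (k + 1)) = T t (γ i) (γ j)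

/-- A vertex as a point of the Euclidean plane. -/
def toPlane (v : V) : ℂ := ⟨v.1, v.2⟩

/-- Both ends of the doubly infinite path `γ` have asymptotic directions. -/
def HasDirections (γ : ℤ → V) : Prop :=
  (∃ θ : ℂ, Tendsto (fun n : ℕ => ‖toPlane (γ n)‖⁻¹ • toPlane (γ n)) atTop (𝓝 θ)) ∧
  ∃ θ : ℂ, Tendsto (fun n : ℕ => ‖toPlane (γ (-(n : ℤ)))‖⁻¹ • toPlane (γ (-(n : ℤ)))) atTop (𝓝 θ)

/-- The law of i.i.d. edge weights with common law `G`. -/
noncomputable def law (G : Measure ℝ) : Measure Conf :=
  Measure.infinitePi fun _ : Edge => G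

end Vale.Agent.P158
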