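import Vale.Agent.P158.Core

/-!
The mean ergodic theorem for i.i.d. weights along one lattice direction, for indicators, in the
form: block frequencies converge to the probability in probability.
-/

open MeasureTheory Filter Topology ProbabilityTheory
open scoped symmDiff ENNReal

namespace Vale.Agent.P158

/-- The translation of edges as an equivalence. -/
def eShiftEquiv (v : V) : Edge ≃ Edge where
  toFun := eShift v
  invFun := eShift (-v)
  left_inv e := by simp [eShift, add_assoc]
  right_inv e := by simp [eShift, add_assoc]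

lemma measurable_shift (v : V) : Measurable (shift v) := by
  unfold shift; fun_prop

lemma ind_cases (B : Set Conf) (t : Conf) :
    (t ∈ B ∧ B.indicator (fun _ => (1 : ℝ)) t = 1) ∨
      (t ∉ B ∧ B.indicator (fun _ => (1 : ℝ)) t = 0) := by
  by_cases h : t ∈ B
  · exact Or.inl ⟨h, Set.indicator_of_mem h _⟩
  · exact Or.inr ⟨h, Set.indicator_of_notMem h _⟩

variable (G : Measure ℝ) [IsProbabilityMeasure G]

lemma law_prob : IsProbabilityMeasure (law G) := by unfold law; infer_instance

lemma shift_measurePreserving' (v : V) : MeasurePreserving (shift v) (law G) (law G) where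
  measurable := measurable_shift v
  map_eq := by
    unfold law
    refine Measure.eq_infinitePi _ fun s t ht => ?_
    rw [Measure.map_apply (measurable_shift v) (.pi s.countable_toSet fun i _ => ht i)]
    have h : shift v ⁻¹' ((s : Set Edge).pi t) =
        ((s.map (eShiftEquiv v).toEmbedding : Finset Edge) : Set Edge).pi
          (fun i => t ((eShiftEquiv v).symm i)) := by
      ext x
      simp only [Set.mem_preimage, Set.mem_pi, Finset.mem_coe, Finset.mem_map]
      constructor
      · rintro hx i ⟨a, ha, rfl⟩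
        simp only [Equiv.coe_toEmbedding, Equiv.symm_apply_apply]
        exact hx a ha
      · intro hx i hi
        have := hx _ ⟨i, hi, rfl⟩
        simp only [Equiv.coe_toEmbedding, Equiv.symm_apply_apply] at this
        exact this
    rw [h, Measure.infinitePi_pi _ (fun i _ => ht _), Finset.prod_map]
    simp

/-- Two events that depend on disjoint finite sets of edges are independent. -/
lemma indep_cylinders {I J : Finset Edge} (hIJ : Disjoint I J) {S : Set (I → ℝ)}
    (hS : MeasurableSet S) {T : Set (J → ℝ)} (hT : MeasurableSet T) :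
    law G (cylinder (α := fun _ : Edge => ℝ) I S ∩ cylinder (α := fun _ : Edge => ℝ) J T) = law G (cylinder (α := fun _ : Edge => ℝ) I S) * law G (cylinder (α := fun _ : Edge => ℝ) J T) := by
  have h1 : iIndepFun (fun (e : Edge) (t : Conf) => t e) (law G) :=
    iIndepFun_infinitePi (P := fun _ : Edge => G) (X := fun _ (x : ℝ) => x) fun _ => measurable_id
  have h2 := h1.indepFun_finset I J hIJ fun e => measurable_pi_apply e
  exact h2.measure_inter_preimage_eq_mul _ _ hS hT

omit [IsProbabilityMeasure G] in
lemma shift_preimage_cylinder (v : V) (I : Finset Edge) (S : Set (I → ℝ)) :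
    ∃ S' : Set ((I.map (eShiftEquiv v).toEmbedding : Finset Edge) → ℝ),
      (MeasurableSet S → MeasurableSet S') ∧
      shift v ⁻¹' cylinder (α := fun _ : Edge => ℝ) I S = cylinder (α := fun _ : Edge => ℝ) (I.map (eShiftEquiv v).toEmbedding) S' := by
  refine ⟨(fun (x : (I.map (eShiftEquiv v).toEmbedding : Finset Edge) → ℝ) (i : I) =>
    x ⟨eShiftEquiv v i.1, by simp⟩) ⁻¹' S, fun hS => hS.preimage (by fun_prop), ?_⟩
  ext t
  rfl

lemma cylinder_avg {I : Finset Edge} {S : Set (I → ℝ)} (hS : MeasurableSet S) :
    ∃ K : ℕ, ∀ N : ℕ, ∫ t, (∑ i ∈ Finset.range N,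
      ((cylinder (α := fun _ : Edge => ℝ) I S).indicator (fun _ => (1 : ℝ)) (shift (0, (i : ℤ)) t)
        - (law G).real (cylinder (α := fun _ : Edge => ℝ) I S))) ^ 2 ∂law G ≤ K * N := by
  haveI := law_prob G
  set B := cylinder (α := fun _ : Edge => ℝ) I S
  have hB : MeasurableSet B := MeasurableSet.cylinder _ hS
  set p := (law G).real B
  set K := I.sup (fun e => e.1.2.natAbs)
  refine ⟨4 * (4 * K + 2), fun N => ?_⟩
  set f : ℕ → Conf → ℝ := fun i t => B.indicator (fun _ => (1 : ℝ)) (shift (0, (i : ℤ)) t) - p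
  have hp : 0 ≤ p ∧ p ≤ 1 := ⟨measureReal_nonneg, measureReal_le_one⟩
  have hfm : ∀ i, Measurable (f i) := fun i =>
    ((measurable_const.indicator hB).comp (measurable_shift _)).sub_const p
  have hfb : ∀ i t, |f i t| ≤ 2 := fun i t => by
    have : 0 ≤ B.indicator (fun _ => (1 : ℝ)) (shift (0, (i : ℤ)) t) ∧
        B.indicator (fun _ => (1 : ℝ)) (shift (0, (i : ℤ)) t) ≤ 1 :=
      ⟨Set.indicator_nonneg (fun _ _ => zero_le_one) _, Set.indicator_le_self' (fun _ _ => zero_le_one) _⟩
    rw [abs_le]; simp only [f]; constructor <;> linarith [hp.1, hp.2, this.1, this.2]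
  have hint : ∀ i j, Integrable (fun t => f i t * f j t) (law G) := fun i j =>
    Integrable.of_bound ((hfm i).mul (hfm j)).aestronglyMeasurable 4
      (ae_of_all _ fun t => by
        rw [Real.norm_eq_abs, abs_mul]
        nlinarith [hfb i t, hfb j t, abs_nonneg (f i t), abs_nonneg (f j t)])
  have hfar : ∀ i j : ℕ, 2 * K < max i j - min i j → ∫ t, f i t * f j t ∂law G = 0 := by
    intro i j hij
    obtain ⟨Si, hSi, hi⟩ := shift_preimage_cylinder (0, (i : ℤ)) I S
    obtain ⟨Sj, hSj, hj⟩ := shift_preimage_cylinder (0, (j : ℤ)) I S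
    have hd : Disjoint (I.map (eShiftEquiv (0, (i : ℤ))).toEmbedding)
        (I.map (eShiftEquiv (0, (j : ℤ))).toEmbedding) := by
      rw [Finset.disjoint_left]
      intro e he he'
      obtain ⟨a, ha, rfl⟩ := Finset.mem_map.1 he
      obtain ⟨b, hb, hab⟩ := Finset.mem_map.1 he'
      have h1 : a.1.2.natAbs ≤ K := Finset.le_sup (f := fun e : Edge => e.1.2.natAbs) ha
      have h2 : b.1.2.natAbs ≤ K := Finset.le_sup (f := fun e : Edge => e.1.2.natAbs) hb
      have h3 := congrArg (fun e : Edge => e.1.2) hab
      simp [eShiftEquiv, eShift] at h3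
      omega
    have e1 : ∀ k : ℕ, (law G).real (shift (0, (k : ℤ)) ⁻¹' B) = p := fun k => by
      simp only [p, measureReal_def]
      rw [(shift_measurePreserving' G _).measure_preimage hB.nullMeasurableSet]
    have e2 : (law G).real (shift (0, (i : ℤ)) ⁻¹' B ∩ shift (0, (j : ℤ)) ⁻¹' B) = p * p := by
      have := indep_cylinders G hd (hSi hS) (hSj hS)
      rw [← hi, ← hj] at this
      rw [measureReal_def, this, ENNReal.toReal_mul, ← measureReal_def, ← measureReal_def, e1, e1]
    have hm : ∀ k : ℕ, MeasurableSet (shift (0, (k : ℤ)) ⁻¹' B) := fun k =>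
      measurable_shift _ hB
    have hi1 : ∀ A : Set Conf, MeasurableSet A →
        Integrable (A.indicator fun _ => (1 : ℝ)) (law G) :=
      fun A hA => (integrable_const 1).indicator hA
    have heq : (fun t => f i t * f j t) = fun t =>
        (shift (0, (i : ℤ)) ⁻¹' B ∩ shift (0, (j : ℤ)) ⁻¹' B).indicator (fun _ => (1 : ℝ)) t
        - p * (shift (0, (i : ℤ)) ⁻¹' B).indicator (fun _ => (1 : ℝ)) t
        - p * (shift (0, (j : ℤ)) ⁻¹' B).indicator (fun _ => (1 : ℝ)) t + p * p := by
      funext t
      simp only [f]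
      by_cases ha : shift (0, (i : ℤ)) t ∈ B <;> by_cases hb : shift (0, (j : ℤ)) t ∈ B <;>
        simp [ha, hb] <;> ring
    have h3 := (hi1 _ ((hm i).inter (hm j)))
    have h4 := ((hi1 _ (hm i)).const_mul p)
    have h5 := ((hi1 _ (hm j)).const_mul p)
    rw [heq, integral_add ((h3.sub' h4).sub' h5) (integrable_const _),
      integral_sub (h3.sub' h4) h5, integral_sub h3 h4, integral_const_mul, integral_const_mul,
      integral_indicator_const _ ((hm i).inter (hm j)), integral_indicator_const _ (hm i),
      integral_indicator_const _ (hm j), integral_const]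
    simp [e1, e2]
  calc ∫ t, (∑ i ∈ Finset.range N, f i t) ^ 2 ∂law G
      = ∑ i ∈ Finset.range N, ∑ j ∈ Finset.range N, ∫ t, f i t * f j t ∂law G := by
        simp_rw [pow_two, Finset.sum_mul, Finset.mul_sum]
        rw [integral_finsetSum _ fun i _ => integrable_finsetSum _ fun j _ => hint i j]
        exact Finset.sum_congr rfl fun i _ => integral_finsetSum _ fun j _ => hint i j
    _ ≤ ∑ i ∈ Finset.range N, ((4 * (4 * K + 2) : ℕ) : ℝ) := by
        refine Finset.sum_le_sum fun i _ => ?_
        classical
        set F := (Finset.range N).filter (fun j => max i j - min i j ≤ 2 * K)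
        have hF : F.card ≤ 4 * K + 2 := by
          calc F.card ≤ (Finset.Icc (i - 2 * K) (i + 2 * K)).card := Finset.card_le_card (by
                intro j hj
                simp only [F, Finset.mem_filter] at hj
                simp only [Finset.mem_Icc]; omega)
            _ ≤ _ := by simp; omega
        rw [← Finset.sum_filter_add_sum_filter_not (Finset.range N)
          (fun j => max i j - min i j ≤ 2 * K)]
        rw [Finset.sum_eq_zero (s := Finset.filter (fun j => ¬ _) _) (fun j hj => hfar i j (by
          simp only [Finset.mem_filter] at hj; omega)), add_zero]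
        calc ∑ j ∈ F, ∫ t, f i t * f j t ∂law G ≤ ∑ j ∈ F, (4 : ℝ) := by
              refine Finset.sum_le_sum fun j _ => ?_
              refine (integral_mono (hint i j) (integrable_const 4) fun t => ?_).trans (by simp)
              have := abs_mul (f i t) (f j t)
              nlinarith [le_abs_self (f i t * f j t), hfb i t, hfb j t, abs_nonneg (f i t),
                abs_nonneg (f j t)]
          _ ≤ _ := by
              rw [Finset.sum_const, nsmul_eq_mul]
              have : (F.card : ℝ) ≤ ((4 * K + 2 : ℕ) : ℝ) := by exact_mod_cast hF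
              push_cast at this ⊢; linarith
    _ = _ := by simp [mul_comm]

/-- Frequencies of an event along translations converge to its probability, in probability. -/
theorem ergodic_avg {A : Set Conf} (hA : NullMeasurableSet A (law G)) {ε : ℝ} (hε : 0 < ε) :
    ∀ᶠ N : ℕ in atTop, law G {t | ε ≤ |(∑ i ∈ Finset.range N,
      A.indicator (fun _ => (1 : ℝ)) (shift (0, (i : ℤ)) t)) / N - (law G).real A|}
        ≤ ENNReal.ofReal ε := by
  haveI := law_prob G
  -- replace `A` by a measurable set
  obtain ⟨A₁, -, hA₁, hAA⟩ := hA.exists_measurable_superset_ae_eq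
  have hsame : ∀ᵐ t ∂law G, ∀ i : ℕ, (shift (0, (i : ℤ)) t ∈ A ↔ shift (0, (i : ℤ)) t ∈ A₁) := by
    rw [ae_all_iff]
    intro i
    have := (shift_measurePreserving' G (0, (i : ℤ))).quasiMeasurePreserving.ae
      (Filter.eventuallyEq_set.1 hAA)
    filter_upwards [this] with t ht using ht.symm
  have hreal : (law G).real A = (law G).real A₁ := by
    simp only [measureReal_def, measure_congr hAA]
  -- approximate by a cylinder
  set δ := min (ε / 4) (ε ^ 2 / 12)
  have hδ : 0 < δ := lt_min (by positivity) (by positivity)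
  obtain ⟨B, hBc, hB⟩ := (Measure.MeasureDense.of_generateFrom_isSetAlgebra_finite (μ := law G)
    isSetAlgebra_measurableCylinders generateFrom_measurableCylinders.symm).approx A₁ hA₁
    (measure_ne_top _ _) δ hδ
  obtain ⟨I, S, hS, rfl⟩ := (mem_measurableCylinders _).1 hBc
  obtain ⟨K, hK⟩ := cylinder_avg G hS
  set B := cylinder (α := fun _ : Edge => ℝ) I S
  have hBm : MeasurableSet B := MeasurableSet.cylinder _ hS
  set D := A₁ ∆ B with hD
  have hDm : MeasurableSet D := hA₁.symmDiff hBm
  have hDp : (law G).real D ≤ δ := by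
    rw [measureReal_def]
    exact ENNReal.toReal_le_of_le_ofReal hδ.le hB.le
  have hpp : |(law G).real A - (law G).real B| ≤ δ := by
    rw [hreal]
    exact (abs_measureReal_sub_le_measureReal_symmDiff hA₁.nullMeasurableSet hBm.nullMeasurableSet).trans hDp
  obtain ⟨N₀, hN₀⟩ := exists_nat_gt (32 * K / (ε ^ 3))
  filter_upwards [eventually_gt_atTop N₀] with N hN
  have hNpos : (0 : ℝ) < N := by exact_mod_cast (Nat.zero_le _).trans_lt hN
  set SD : Conf → ℝ := fun t => ∑ i ∈ Finset.range N, D.indicator (fun _ => 1) (shift (0, (i : ℤ)) t)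
  set SB : Conf → ℝ := fun t => ∑ i ∈ Finset.range N,
      (B.indicator (fun _ => 1) (shift (0, (i : ℤ)) t) - (law G).real B)
  have hsub : ∀ᵐ t ∂law G, t ∈ {t : Conf | ε ≤ |(∑ i ∈ Finset.range N,
      A.indicator (fun _ => (1 : ℝ)) (shift (0, (i : ℤ)) t)) / N - (law G).real A|} →
      ε / 4 * N ≤ SD t ∨ ε / 2 * N ≤ |SB t| := by
    filter_upwards [hsame] with t ht hbad
    change ε ≤ _ at hbad
    by_contra hc
    push_neg at hc
    have h1 : |(∑ i ∈ Finset.range N, A.indicator (fun _ => (1 : ℝ)) (shift (0, (i : ℤ)) t))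
        - ∑ i ∈ Finset.range N, B.indicator (fun _ => (1 : ℝ)) (shift (0, (i : ℤ)) t)| ≤ SD t := by
      rw [← Finset.sum_sub_distrib]
      refine (Finset.abs_sum_le_sum_abs _ _).trans (Finset.sum_le_sum fun i _ => ?_)
      rcases ind_cases A (shift (0, (i : ℤ)) t) with ⟨ha, ea⟩ | ⟨ha, ea⟩ <;>
        rcases ind_cases B (shift (0, (i : ℤ)) t) with ⟨hb, eb⟩ | ⟨hb, eb⟩ <;>
        rcases ind_cases D (shift (0, (i : ℤ)) t) with ⟨hd, ed⟩ | ⟨hd, ed⟩ <;>
        rw [ea, eb, ed] <;> simp [hD, Set.mem_symmDiff, ← ht i, ha, hb] at hd ⊢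
    have h2 : SB t = ∑ i ∈ Finset.range N, B.indicator (fun _ => (1 : ℝ)) (shift (0, (i : ℤ)) t)
        - N * (law G).real B := by
      simp [SB, Finset.sum_sub_distrib]
    rw [h2] at hc
    set a := ∑ i ∈ Finset.range N, A.indicator (fun _ => (1 : ℝ)) (shift (0, (i : ℤ)) t)
    set b := ∑ i ∈ Finset.range N, B.indicator (fun _ => (1 : ℝ)) (shift (0, (i : ℤ)) t)
    have hδ' : δ ≤ ε / 4 := min_le_left _ _
    have h3 : ε * N ≤ |a - N * (law G).real A| := by
      have : |a / N - (law G).real A| * N = |a - N * (law G).real A| := by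
        rw [← abs_of_pos hNpos, ← abs_mul, abs_of_pos hNpos]
        congr 1; field_simp
      nlinarith
    have h4 : |a - N * (law G).real A| ≤ |a - b| + |b - N * (law G).real B|
        + N * |(law G).real B - (law G).real A| := by
      have : a - N * (law G).real A =
          (a - b) + (b - N * (law G).real B) + N * ((law G).real B - (law G).real A) := by ring
      rw [this]
      refine (abs_add_three _ _ _).trans ?_
      rw [abs_mul, abs_of_pos hNpos]
    rw [abs_sub_comm] at hpp
    nlinarith [hc.1, hc.2]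
  have hsum : law G {t | ε / 4 * N ≤ SD t} ≤ ENNReal.ofReal (ε / 2) := by
    have hi : ∀ i : ℕ, Integrable (fun t => D.indicator (fun _ => (1 : ℝ)) (shift (0, (i : ℤ)) t))
        (law G) := fun i =>
      Integrable.of_bound ((measurable_const.indicator hDm).comp
        (measurable_shift _)).aestronglyMeasurable 1 (ae_of_all _ fun t => by
          rcases ind_cases D (shift (0, (i : ℤ)) t) with ⟨-, e⟩ | ⟨-, e⟩ <;> rw [e] <;> simp)
    have hIn : ∫ t, SD t ∂law G ≤ N * δ := by
      simp only [SD]
      rw [integral_finsetSum _ fun i _ => hi i]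
      calc ∑ i ∈ Finset.range N, ∫ t, D.indicator (fun _ => (1 : ℝ)) (shift (0, (i : ℤ)) t) ∂law G
          ≤ ∑ i ∈ Finset.range N, δ := Finset.sum_le_sum fun i _ => by
            rw [show (fun t => D.indicator (fun _ => (1 : ℝ)) (shift (0, (i : ℤ)) t)) =
              (shift (0, (i : ℤ)) ⁻¹' D).indicator (fun _ => (1 : ℝ)) from rfl,
              integral_indicator_const _ (measurable_shift _ hDm), smul_eq_mul, mul_one,
              measureReal_def,
              (shift_measurePreserving' G _).measure_preimage hDm.nullMeasurableSet,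
              ← measureReal_def]
            exact hDp
        _ = N * δ := by simp
    have hmk := mul_meas_ge_le_integral_of_nonneg (μ := law G) (f := SD)
      (ae_of_all _ fun t => Finset.sum_nonneg fun i _ =>
        Set.indicator_nonneg (fun _ _ => zero_le_one) _)
      (integrable_finsetSum _ fun i _ => hi i) (ε / 4 * N)
    rw [← ofReal_measureReal (measure_ne_top _ _)]
    refine ENNReal.ofReal_le_ofReal ?_
    have hδ2 : δ ≤ ε ^ 2 / 12 := min_le_right _ _
    have : 0 < ε / 4 * N := by positivity
    have h1 := hmk.trans hIn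
    nlinarith [mul_le_mul_of_nonneg_left hδ2 hNpos.le]
  have hvar : law G {t | ε / 2 * N ≤ |SB t|} ≤ ENNReal.ofReal (ε / 2) := by
    have hset : {t | ε / 2 * N ≤ |SB t|} = {t | (ε / 2 * N) ^ 2 ≤ SB t ^ 2} := by
      ext t
      change ε / 2 * N ≤ |SB t| ↔ (ε / 2 * N) ^ 2 ≤ SB t ^ 2
      rw [← sq_abs (SB t)]
      constructor
      · exact fun h => pow_le_pow_left₀ (by positivity) h 2
      · exact fun h => (abs_le_of_sq_le_sq h (abs_nonneg _)).trans' (le_abs_self _)
    have hm : Measurable SB := Finset.measurable_sum _ fun i _ =>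
      ((measurable_const.indicator hBm).comp (measurable_shift _)).sub_const _
    have hb : ∀ t, |SB t| ≤ 2 * N := fun t => by
      refine (Finset.abs_sum_le_sum_abs _ _).trans ?_
      refine (Finset.sum_le_sum (g := fun _ => (2 : ℝ)) fun i _ => ?_).trans (by simp [mul_comm])
      have h0 : 0 ≤ (law G).real B ∧ (law G).real B ≤ 1 := ⟨measureReal_nonneg, measureReal_le_one⟩
      rcases ind_cases B (shift (0, (i : ℤ)) t) with ⟨-, e⟩ | ⟨-, e⟩ <;> rw [e, abs_le] <;>
        constructor <;> linarith [h0.1, h0.2]
    have hint : Integrable (fun t => SB t ^ 2) (law G) :=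
      Integrable.of_bound (hm.pow_const 2).aestronglyMeasurable ((2 * N) ^ 2)
        (ae_of_all _ fun t => by
          rw [Real.norm_eq_abs, abs_pow]
          exact pow_le_pow_left₀ (abs_nonneg _) (hb t) 2)
    have hmk := mul_meas_ge_le_integral_of_nonneg (μ := law G) (f := fun t => SB t ^ 2)
      (ae_of_all _ fun t => sq_nonneg _) hint ((ε / 2 * N) ^ 2)
    rw [hset, ← ofReal_measureReal (measure_ne_top _ _)]
    refine ENNReal.ofReal_le_ofReal ?_
    have h1 := hmk.trans (hK N)
    have hN' : (32 * K / ε ^ 3 : ℝ) < N := hN₀.trans (by exact_mod_cast hN)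
    rw [div_lt_iff₀ (by positivity)] at hN'
    have h2 : 0 ≤ (law G).real {t | (ε / 2 * N) ^ 2 ≤ SB t ^ 2} := measureReal_nonneg
    nlinarith [mul_lt_mul_of_pos_left hN' hNpos]
  calc law G _ ≤ law G ({t | ε / 4 * N ≤ SD t} ∪ {t | ε / 2 * N ≤ |SB t|}) :=
        measure_mono_ae (hsub.mono fun t ht => ht)
    _ ≤ _ := measure_union_le _ _
    _ ≤ ENNReal.ofReal (ε / 2) + ENNReal.ofReal (ε / 2) := add_le_add hsum hvar
    _ = _ := by rw [← ENNReal.ofReal_add (by positivity) (by positivity)]; ring_nf

end Vale.Agent.P158
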