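import Vale.Agent.P158.Fork.Prob

/-!
Almost surely two bigeodesics with directions do not share a forward half from a vertex at which
they arrive from different neighbours.
-/

open MeasureTheory Filter Topology

namespace Vale.Agent.P158

namespace Fork

variable {G : Measure ℝ} {t : Conf} {M a b : ℝ} {θ : ℂ}

/-- A ray with a direction inside the open sector is eventually inside the cone. -/
lemma exists_inCone {r : ℕ → V} (hr : Function.Injective r) (h : RayDir r θ) {σ : ℤ}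
    (h1 : 0 < (σ : ℝ) * θ.re) (h2 : a * (σ * θ.re) < σ * θ.im)
    (h3 : (σ : ℝ) * θ.im < b * (σ * θ.re)) : ∃ N, ∀ R, N ≤ R → InCone 0 σ a b R r := by
  have hr' : Function.Injective fun n => r n + -r 0 := (add_left_injective (-r 0)).comp hr
  set u : ℕ → ℂ := fun n => ‖toPlane (r n + -r 0)‖⁻¹ • toPlane (r n + -r 0) with hu
  have hlim : Tendsto u atTop (𝓝 θ) := h.add hr (-r 0)
  have hre : Tendsto (fun n => (σ : ℝ) * (u n).re) atTop (𝓝 (σ * θ.re)) :=
    ((Complex.continuous_re.tendsto θ).comp hlim).const_mul _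
  have him : Tendsto (fun n => (σ : ℝ) * (u n).im) atTop (𝓝 (σ * θ.im)) :=
    ((Complex.continuous_im.tendsto θ).comp hlim).const_mul _
  obtain ⟨N, hN⟩ := eventually_atTop.1 ((hre.eventually_const_lt h1).and
    (((hre.const_mul a).eventually_lt him h2).and ((him.eventually_lt (hre.const_mul b) h3).and
      ((tendsto_norm_toPlane hr').eventually_gt_atTop 0))))
  refine ⟨N, fun R hR n hn => ?_⟩
  obtain ⟨e1, e2, e3, e4⟩ := hN n (hR.trans hn)
  have i4 := inv_pos.2 e4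
  have hx : (u n).re = ‖toPlane (r n + -r 0)‖⁻¹ * (((r n).1 - (r 0).1 : ℤ) : ℝ) := by
    simp [hu, toPlane, sub_eq_add_neg]
  have hy : (u n).im = ‖toPlane (r n + -r 0)‖⁻¹ * (((r n).2 - (r 0).2 : ℤ) : ℝ) := by
    simp [hu, toPlane, sub_eq_add_neg]
  rw [hx] at e1 e2 e3
  rw [hy] at e2 e3
  simp only [lev, zero_mul, add_zero]
  set c := ‖toPlane (r n + -r 0)‖⁻¹
  push_cast at e1 e2 e3 ⊢
  have f1 : (0 : ℝ) < (σ : ℝ) * (((r n).1 : ℝ) - (r 0).1) := by
    refine pos_of_mul_pos_right (a := c) ?_ i4.le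
    linarith
  refine ⟨by exact_mod_cast f1, ?_, ?_⟩
  · refine (lt_of_mul_lt_mul_left (a := c) ?_ i4.le).le
    linarith
  · refine (lt_of_mul_lt_mul_left (a := c) ?_ i4.le).le
    linarith

/-- Two lines with opposite directions `±θ` that fork at the origin. -/
def DirFork (t : Conf) (θ : ℂ) : Prop :=
  ∃ γ δ, IsBigeodesic t γ ∧ IsBigeodesic t δ ∧ γ 0 = (0, 0) ∧ (∀ n : ℕ, γ n = δ n) ∧
    γ (-1) ≠ δ (-1) ∧ RayDir (fwd γ 0) θ ∧ RayDir (bwd γ 0) (-θ) ∧ RayDir (bwd δ 0) (-θ)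

/-- A directed fork towards the east lies in the grid event of any mesh. -/
lemma mem_gridFork (h : DirFork t θ) (hre : 0 < θ.re) (him : |θ.im| ≤ θ.re) {N : ℕ} (hN : 9 ≤ N) :
    t ∈ gridFork N := by
  obtain ⟨γ, δ, hγ, hδ, h0, hcom, hne, hf, hb, hb'⟩ := h
  have hN' : (9 : ℝ) ≤ N := by exact_mod_cast hN
  set σ := θ.im / θ.re with hσdef
  have hσ : |σ| ≤ 1 := by rw [hσdef, abs_div, abs_of_pos hre, div_le_one hre]; exact him
  obtain ⟨hσ1, hσ2⟩ := abs_le.1 hσ
  have hy0 : (0 : ℝ) ≤ (σ + 1) * N + 1 / 2 := by nlinarith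
  set l := ⌊(σ + 1) * N + 1 / 2⌋₊
  have hl1 : (l : ℝ) ≤ (σ + 1) * N + 1 / 2 := Nat.floor_le hy0
  have hl2 : (σ + 1) * N + 1 / 2 < l + 1 := Nat.lt_floor_add_one _
  have hl : l < 2 * N + 1 := by
    refine Nat.floor_lt hy0 |>.2 ?_
    push_cast
    nlinarith
  have hNinv : (0 : ℝ) < 1 / N := by positivity
  have hlo : slope N l - 1 / N < σ := by
    rw [slope, sub_sub, sub_lt_iff_lt_add, div_lt_iff₀ (by linarith)]
    have : 1 / (N : ℝ) * N = 1 := by field_simp
    nlinarith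
  have hhi : σ < slope N l + 1 / N := by
    rw [slope, sub_add_eq_add_sub, lt_sub_iff_add_lt, ← add_div, lt_div_iff₀ (by linarith)]
    linarith
  have c1 : (slope N l - 1 / N) * θ.re < θ.im := by
    rwa [hσdef, lt_div_iff₀ hre] at hlo
  have c2 : θ.im < (slope N l + 1 / N) * θ.re := by
    rwa [hσdef, div_lt_iff₀ hre] at hhi
  obtain ⟨R₁, hR₁⟩ := exists_inCone (injective_fwd hγ.inj 0) hf (σ := 1)
    (a := slope N l - 1 / N) (b := slope N l + 1 / N)
    (by simpa using hre) (by simpa using c1) (by simpa using c2)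
  obtain ⟨R₂, hR₂⟩ := exists_inCone (injective_bwd hγ.inj 0) hb (σ := -1)
    (a := slope N l - 1 / N) (b := slope N l + 1 / N)
    (by simpa using hre) (by simpa using c1) (by simpa using c2)
  obtain ⟨R₃, hR₃⟩ := exists_inCone (injective_bwd hδ.inj 0) hb' (σ := -1)
    (a := slope N l - 1 / N) (b := slope N l + 1 / N)
    (by simpa using hre) (by simpa using c1) (by simpa using c2)
  have hfeq : fwd δ 0 = fwd γ 0 := funext fun n => by simp [fwd, hcom n]
  refine Set.mem_iUnion.2 ⟨max R₁ (max R₂ R₃), Set.mem_iUnion₂.2 ⟨l, Finset.mem_range.2 hl,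
    γ, δ, ⟨hγ, hR₁ _ (by omega), hR₂ _ (by omega)⟩, ⟨hδ, ?_, hR₃ _ (by omega)⟩, h0, hcom, hne⟩⟩
  rw [hfeq]
  exact hR₁ _ (by omega)

lemma DirFork.swap (h : DirFork t θ) : DirFork (swapConf t) ⟨θ.im, θ.re⟩ := by
  obtain ⟨γ, δ, hγ, hδ, h0, hcom, hne, hf, hb, hb'⟩ := h
  have hθ : -(⟨θ.im, θ.re⟩ : ℂ) = ⟨(-θ).im, (-θ).re⟩ := by apply Complex.ext <;> simp
  refine ⟨fun i => ((γ i).2, (γ i).1), fun i => ((δ i).2, (δ i).1),
    (isBigeodesic_swapConf t _).2 hγ, (isBigeodesic_swapConf t _).2 hδ, ?_, fun n => ?_,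
    fun he => hne ?_, hf.swap, hθ ▸ hb.swap, hθ ▸ hb'.swap⟩
  · simp [h0]
  · simp [hcom n]
  · simp only [Prod.mk.injEq] at he
    exact Prod.ext he.2 he.1

lemma DirFork.flip (h : DirFork t θ) : DirFork (flipConf t) ⟨θ.re, -θ.im⟩ := by
  obtain ⟨γ, δ, hγ, hδ, h0, hcom, hne, hf, hb, hb'⟩ := h
  have hθ : -(⟨θ.re, -θ.im⟩ : ℂ) = ⟨(-θ).re, -(-θ).im⟩ := by apply Complex.ext <;> simp
  refine ⟨fun i => ((γ i).1, -(γ i).2), fun i => ((δ i).1, -(δ i).2),
    (isBigeodesic_flipConf t _).2 (by simpa using hγ),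
    (isBigeodesic_flipConf t _).2 (by simpa using hδ), ?_, fun n => ?_,
    fun he => hne ?_, hf.flip, hθ ▸ hb.flip, hθ ▸ hb'.flip⟩
  · simp [h0]
  · simp [hcom n]
  · simp only [Prod.mk.injEq, neg_inj] at he
    exact Prod.ext he.1 he.2

/-- Configurations with a directed fork towards the east. -/
def eastFork : Set Conf := {t | ∃ θ : ℂ, 0 < θ.re ∧ |θ.im| ≤ θ.re ∧ DirFork t θ}

lemma eastFork_null (hG : LawOK G M) (hU : UnitBound G) : ∀ᵐ t ∂law G, t ∉ eastFork := by
  have := law_isProb hG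
  obtain ⟨K, hK⟩ := gridFork_small hG hU
  refine measure_eq_zero_iff_ae_notMem.1 ((measureReal_eq_zero_iff (measure_ne_top _ _)).1
    (le_antisymm (ge_of_tendsto (tendsto_const_div_atTop_nhds_zero_nat K) ?_) measureReal_nonneg))
  filter_upwards [eventually_ge_atTop 9] with N hN
  refine (measureReal_mono ?_).trans (hK N hN)
  rintro t ⟨θ, h1, h2, h⟩
  exact mem_gridFork h h1 h2 hN

/-- One of four symmetric images turns a directed fork into one towards the east. -/
lemma exists_eastFork (h : DirFork t θ) (hθ : θ ≠ 0) :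
    t ∈ eastFork ∨ swapConf (flipConf (swapConf t)) ∈ eastFork ∨ swapConf t ∈ eastFork ∨
      swapConf (flipConf (swapConf (swapConf t))) ∈ eastFork := by
  have h0 : θ.re ≠ 0 ∨ θ.im ≠ 0 := by
    by_contra hc
    push Not at hc
    exact hθ (Complex.ext hc.1 hc.2)
  rcases le_or_gt |θ.im| |θ.re| with hc | hc
  · have hr : θ.re ≠ 0 := fun hr => by
      rcases h0 with h0 | h0
      · exact h0 hr
      · rw [hr, abs_zero] at hc
        exact h0 (abs_nonpos_iff.1 hc)
    rcases hr.lt_or_gt with hr | hr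
    · exact Or.inr (Or.inl ⟨_, by simpa using neg_pos.2 hr,
        by simpa [abs_of_neg hr] using hc, h.swap.flip.swap⟩)
    · exact Or.inl ⟨θ, hr, by rwa [abs_of_pos hr] at hc, h⟩
  · have hi : θ.im ≠ 0 := fun hi => by
      rw [hi, abs_zero] at hc
      exact absurd hc (not_lt.2 (abs_nonneg _))
    rcases hi.lt_or_gt with hi | hi
    · exact Or.inr (Or.inr (Or.inr ⟨_, by simpa using neg_pos.2 hi,
        by simpa [abs_of_neg hi] using hc.le, h.swap.swap.flip.swap⟩))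
    · exact Or.inr (Or.inr (Or.inl ⟨_, hi,
        by simpa [abs_of_pos hi] using hc.le, h.swap⟩))

lemma RayDir.ne_zero {r : ℕ → V} (hr : Function.Injective r) (h : RayDir r θ) : θ ≠ 0 := by
  rintro rfl
  have h1 := h.norm
  rw [norm_zero] at h1
  refine one_ne_zero (tendsto_nhds_unique (tendsto_const_nhds.congr' ?_) h1)
  filter_upwards [(tendsto_norm_toPlane hr).eventually_gt_atTop 0] with n hn
  rw [norm_smul, norm_inv, norm_norm, inv_mul_cancel₀ hn.ne']

end Fork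

open Fork in
/-- No two directed bigeodesics fork. -/
theorem forkNull {G : Measure ℝ} {M : ℝ} (hG : LawOK G M) (hS : StraightProp G)
    (hU : UnitBound G) : ForkNull G := by
  have := hG.prob
  have h1 := (eastFork_null hG hU).and
    (ae_swapConf (ae_flipConf (ae_swapConf (eastFork_null hG hU))))
  have h2 := ae_shift (h1.and (ae_swapConf h1))
  filter_upwards [hS, h2] with t hSt ht
  rintro ⟨γ, δ, hγ, hγd, hδ, hδd, hcom, hne⟩
  obtain ⟨⟨θ, hf⟩, θ', hb⟩ := (hasDirections_iff γ).1 hγd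
  obtain ⟨-, θ'', hb'⟩ := (hasDirections_iff δ).1 hδd
  have hfeq : fwd δ 0 = fwd γ 0 := funext fun n => by simp [fwd, hcom n]
  rw [hSt γ θ θ' hγ hf hb] at hb
  rw [hSt δ θ θ'' hδ (hfeq ▸ hf) hb'] at hb'
  have hv : DirFork (shift (γ 0) t) θ := by
    refine ⟨fun i => γ i + -γ 0, fun i => δ i + -γ 0,
      (isBigeodesic_shift _ t _).2 (by simpa using hγ),
      (isBigeodesic_shift _ t _).2 (by simpa using hδ), ?_, fun n => ?_,
      fun he => hne (add_right_cancel he), hf.add (injective_fwd hγ.inj 0) _,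
      hb.add (injective_bwd hγ.inj 0) _, hb'.add (injective_bwd hδ.inj 0) _⟩
    · simp
      rfl
    · simp [hcom n]
  obtain ⟨⟨h1, h2⟩, h3, h4⟩ := ht (γ 0)
  rcases exists_eastFork hv (RayDir.ne_zero (injective_fwd hγ.inj 0) hf) with h | h | h | h
  · exact h1 h
  · exact h2 h
  · exact h3 h
  · exact h4 h

end Vale.Agent.P158
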