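import Vale.Agent.P158.Spec4
import Vale.Agent.P158.BasicLaw
import Vale.Agent.P158.ForkAll.Count

/-!
Almost surely two bigeodesics never share a forward half from a vertex at which they arrive from
different neighbours.
-/

open MeasureTheory Filter Topology
open scoped ENNReal

namespace Vale.Agent.P158

namespace ForkAll

variable {G : Measure ℝ}

/-- The square of radius `r`. -/
noncomputable def box (r : ℕ) : Finset V := Finset.Icc (-(r : ℤ)) r ×ˢ Finset.Icc (-(r : ℤ)) r

lemma card_box (r : ℕ) : (box r).card = (2 * r + 1) * (2 * r + 1) := by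
  rw [box, Finset.card_product, Int.card_Icc]
  congr 1 <;> omega

lemma mem_box {r : ℕ} {v : V} : v ∈ box r ↔ InSq r v := by
  simp only [box, Finset.mem_product, Finset.mem_Icc, InSq]
  tauto

/-- The bound on the sources of one slope unit. -/
noncomputable def bandBound (Cl ρ : ℝ) (b : ℕ) : ℕ :=
  4 * (2 * ⌈32 * ((consts Cl).Z * ρ * b)⌉₊ + 1)

lemma pre_preimage [IsProbabilityMeasure G] (σ : LatSym) (x : V) (E : Set Conf) :
    law G (pre σ x ⁻¹' E) = law G E := by
  rw [show pre σ x ⁻¹' E = σ.symm.act ⁻¹' (shift (σ.vmap x) ⁻¹' E) from rfl,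
    LatSym.law_act_preimage, law_shift_preimage]

lemma measurableSet_forkV : MeasurableSet (NN ∩ {t | ForkV t (0, 0)}) := by
  set C : Set (Conf × ((ℤ → V) × (ℤ → V))) :=
    {q | (q.1 ∈ NN ∧ IsBigeodesic q.1 q.2.1) ∧ (q.1 ∈ NN ∧ IsBigeodesic q.1 q.2.2) ∧
      (∀ n : ℕ, q.2.1 n = q.2.2 n) ∧ q.2.1 (-1) ≠ q.2.2 (-1)}
  have h1 : ∀ i : ℤ, Continuous fun q : Conf × ((ℤ → V) × (ℤ → V)) => (q.2.1 i, q.2.2 i) :=
    fun i => ((continuous_apply i).comp (continuous_fst.comp continuous_snd)).prodMk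
      ((continuous_apply i).comp (continuous_snd.comp continuous_snd))
  have hC : IsClosed C := by
    refine (isClosed_isBigeodesic.preimage
      (continuous_fst.prodMk (continuous_fst.comp continuous_snd))).inter
      ((isClosed_isBigeodesic.preimage
        (continuous_fst.prodMk (continuous_snd.comp continuous_snd))).inter (IsClosed.inter ?_ ?_))
    · show IsClosed {q : Conf × ((ℤ → V) × (ℤ → V)) | ∀ n : ℕ, q.2.1 n = q.2.2 n}
      simp only [Set.ofPred_forall]
      exact isClosed_iInter fun n => (isClosed_discrete {w : V × V | w.1 = w.2}).preimage (h1 n)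
    · exact (isClosed_discrete {w : V × V | w.1 ≠ w.2}).preimage (h1 (-1))
  convert measurableSet_exists_paths (v := (0, 0)) (w := (0, 0)) hC
  ext t
  constructor
  · rintro ⟨hn, γ, δ, hγ, hδ, h0, hcom, hne⟩
    exact ⟨(γ, δ), ⟨⟨h0, hγ.adj⟩, by simpa [h0] using (hcom 0).symm, hδ.adj⟩,
      ⟨hn, hγ⟩, ⟨hn, hδ⟩, hcom, hne⟩
  · rintro ⟨⟨γ, δ⟩, ⟨⟨h0, -⟩, -⟩, ⟨hn, hγ⟩, ⟨-, hδ⟩, hcom, hne⟩
    exact ⟨hn, γ, δ, hγ, hδ, h0, hcom, hne⟩

lemma forkV_of_shift {t : Conf} {v : V} (h : ForkV (shift v t) (0, 0)) : ForkV t v := by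
  obtain ⟨γ, δ, hγ, hδ, h0, hcom, hne⟩ := h
  refine ⟨fun i => γ i + v, fun i => δ i + v, (isBigeodesic_shift v t γ).1 hγ,
    (isBigeodesic_shift v t δ).1 hδ, ?_, fun n => ?_, fun he => hne (add_right_cancel he)⟩
  · simp [h0]
  · simp [hcom n]

/-- Few forks in the middle of the box can point to one target. -/
lemma card_target_le {t : Conf} (htf : TieFree t) {R b : ℕ} {r₁ Cl ρ : ℝ}
    (hsmall : 8 * ((consts Cl).Z * ρ * b) < b) (x : V) :
    open Classical in ((box b).filter fun v => Target t R r₁ Cl ρ b v x).card ≤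
      ∑ j : Fin 6 × Bool,
        ((if t ∈ wildEv (sym j) (kk j) R r₁ (consts Cl).Cs ρ b x then (bd (4 * b)).card else 0) +
          ∑ u ∈ units (consts Cl).Cs ρ,
            if t ∈ slopeEv (sym j) (kk j) R r₁ (consts Cl).Cs ρ b u x then bandBound Cl ρ b
              else 0) := by
  classical
  set Wv := fun j : Fin 6 × Bool => (box b).filter fun v =>
    t ∈ wildEv (sym j) (kk j) R r₁ (consts Cl).Cs ρ b x ∧ Branches t (bd (4 * b)) x v
  set Sv := fun (j : Fin 6 × Bool) (u : ℕ) => (box b).filter fun v =>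
    t ∈ slopeEv (sym j) (kk j) R r₁ (consts Cl).Cs ρ b u x ∧
      |off (sym j) (kk j) (gridS (consts Cl).Cs ρ u) v x| ≤ (consts Cl).Z * ρ * b ∧
      Branches t (band Cl ρ b j u x) x v
  refine (Finset.card_le_card (t := Finset.univ.biUnion fun j =>
    Wv j ∪ (units (consts Cl).Cs ρ).biUnion (Sv j)) ?_).trans
    (Finset.card_biUnion_le.trans (Finset.sum_le_sum fun j _ =>
      (Finset.card_union_le _ _).trans (add_le_add ?_
        (Finset.card_biUnion_le.trans (Finset.sum_le_sum fun u _ => ?_)))))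
  · intro v hv
    obtain ⟨hvb, j, h | ⟨u, hu, h⟩⟩ := Finset.mem_filter.1 hv
    · exact Finset.mem_biUnion.2 ⟨j, Finset.mem_univ _,
        Finset.mem_union_left _ (Finset.mem_filter.2 ⟨hvb, h⟩)⟩
    · exact Finset.mem_biUnion.2 ⟨j, Finset.mem_univ _, Finset.mem_union_right _
        (Finset.mem_biUnion.2 ⟨u, hu, Finset.mem_filter.2 ⟨hvb, h⟩⟩)⟩
  · split_ifs with hev
    · refine le_trans (Finset.card_le_card fun v hv => ?_) (card_branches_le htf _ x (box b))
      obtain ⟨h1, -, h2⟩ := Finset.mem_filter.1 hv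
      exact Finset.mem_filter.2 ⟨h1, h2⟩
    · simp [Wv, hev]
  · split_ifs with hev
    · rcases (Sv j u).eq_empty_or_nonempty with he | ⟨v, hv⟩
      · simp [he]
      obtain ⟨hvb, -, hvx, -⟩ := Finset.mem_filter.1 hv
      refine le_trans (Finset.card_le_card fun w hw => ?_)
        ((card_branches_le htf (band Cl ρ b j u x) x (box b)).trans ?_)
      · obtain ⟨h1, -, -, h2⟩ := Finset.mem_filter.1 hw
        exact Finset.mem_filter.2 ⟨h1, h2⟩
      obtain ⟨α, β, -, -, hmax, hoff⟩ :=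
        exists_coef (sym_mem j) (kk_cases j) (gridS (consts Cl).Cs ρ u)
      refine card_band (x := x) _ (Finset.filter_subset _ _) hmax hsmall (mem_box.1 hvb) ?_
        fun a ha => ?_
      · rw [← hoff]; exact hvx
      · rw [← hoff]; exact (Finset.mem_filter.1 ha).2
    · simp [Sv, hev]

/-- The radius of the box of targets. -/
noncomputable def radX (Cl : ℝ) (b : ℕ) : ℕ := (consts Cl).X * b

/-- The count inside one configuration. -/
lemma pointwise {t : Conf} (htf : TieFree t) {γ₀ C r₁ ρ : ℝ} {D b R : ℕ}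
    (hγ₀ : γ₀ ≤ 1) (hC : 0 ≤ C) (hD : 32 ≤ γ₀ * D) (hρ : 0 < ρ) (hρ1 : ρ ≤ 1) (hR : 2 * R < b)
    (hsmall : 8 * ((consts (C * D)).Z * ρ * b) < b)
    (hok : ChordOK γ₀ C r₁ (1 / (2 * D)) R (D * b) t) :
    open Classical in b * ((box b).filter fun v => ForkV t v).card ≤
      2 * ∑ x ∈ box (radX (C * D) b), ∑ j : Fin 6 × Bool,
        ((if t ∈ wildEv (sym j) (kk j) R r₁ (consts (C * D)).Cs ρ b x then (bd (4 * b)).card
            else 0) +
          ∑ u ∈ units (consts (C * D)).Cs ρ,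
            if t ∈ slopeEv (sym j) (kk j) R r₁ (consts (C * D)).Cs ρ b u x
              then bandBound (C * D) ρ b else 0) := by
  classical
  set Fs := (box b).filter fun v => ForkV t v
  calc b * Fs.card = ∑ _v ∈ Fs, b := by rw [Finset.sum_const, smul_eq_mul, mul_comm]
    _ ≤ ∑ v ∈ Fs, 2 * ((box (radX (C * D) b)).filter
        fun x => Target t R r₁ (C * D) ρ b v x).card := Finset.sum_le_sum fun v hv => by
        obtain ⟨hvb, hf⟩ := Finset.mem_filter.1 hv
        refine (many_targets hγ₀ hC hD hρ hρ1 hR hok (mem_box.1 hvb) hf).trans (le_of_eq ?_)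
        simp only [targets, box, radX]
    _ = 2 * ∑ x ∈ box (radX (C * D) b),
        (Fs.filter fun v => Target t R r₁ (C * D) ρ b v x).card := by
        rw [← Finset.mul_sum]
        exact congrArg _ (Finset.sum_card_bipartiteAbove_eq_sum_card_bipartiteBelow _)
    _ ≤ _ := Nat.mul_le_mul_left _ (Finset.sum_le_sum fun x _ =>
        (Finset.card_le_card (Finset.filter_subset_filter _ (Finset.filter_subset _ _))).trans
          (card_target_le htf hsmall x))

/-- The expectation of the count. -/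
lemma expect (hG : LawGen G) {γ₀ C r₁ ρ : ℝ} {D b R : ℕ} (hγ₀ : γ₀ ≤ 1) (hC : 0 ≤ C)
    (hD : 32 ≤ γ₀ * D) (hρ : 0 < ρ) (hρ1 : ρ ≤ 1) (hR : 2 * R < b)
    (hsmall : 8 * ((consts (C * D)).Z * ρ * b) < b) :
    ((b * ((2 * b + 1) * (2 * b + 1)) : ℕ) : ℝ) * (law G).real {t | ForkV t (0, 0)} ≤
      ((b * ((2 * b + 1) * (2 * b + 1)) : ℕ) : ℝ) *
          (law G).real {t | ¬ ChordOK γ₀ C r₁ (1 / (2 * D)) R (D * b) t} +
        ((2 * ((2 * radX (C * D) b + 1) * (2 * radX (C * D) b + 1)) : ℕ) : ℝ) *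
          ∑ j : Fin 6 × Bool,
            ((((bd (4 * b)).card : ℕ) : ℝ) *
                (law G).real (wildSite (kk j) R r₁ (consts (C * D)).Cs ρ (15 * b)) +
              (bandBound (C * D) ρ b : ℝ) * ∑ u ∈ units (consts (C * D)).Cs ρ,
                (law G).real (slopeSite (kk j) R r₁ (consts (C * D)).Cs (15 * b)
                  (gridS (consts (C * D)).Cs ρ u - 2 * ρ)
                  (gridS (consts (C * D)).Cs ρ u + 2 * ρ))) := by
  classical
  have := law_isProbG hG
  have := hG.prob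
  set μ := law G with hμ
  set F := {t : Conf | ForkV t (0, 0)}
  set Bad := {t : Conf | ¬ ChordOK γ₀ C r₁ (1 / (2 * D)) R (D * b) t}
  set Dv : V → Set Conf := fun v => shift v ⁻¹' (NN ∩ F) \ toMeasurable μ Bad
  set Wm : (Fin 6 × Bool) → V → Set Conf := fun j x =>
    toMeasurable μ (wildEv (sym j) (kk j) R r₁ (consts (C * D)).Cs ρ b x)
  set Sm : (Fin 6 × Bool) → ℕ → V → Set Conf := fun j u x =>
    toMeasurable μ (slopeEv (sym j) (kk j) R r₁ (consts (C * D)).Cs ρ b u x)
  set X := box (radX (C * D) b)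
  set nB := (bd (4 * b)).card
  set K := bandBound (C * D) ρ b
  set U := units (consts (C * D)).Cs ρ
  have hDm : ∀ v, NullMeasurableSet (Dv v) μ := fun v =>
    ((measurableSet_forkV.nullMeasurableSet).preimage
      (measurePreserving_shift v).quasiMeasurePreserving).diff
      (measurableSet_toMeasurable _ _).nullMeasurableSet
  have hDv : ∀ v, μ F ≤ μ (Dv v) + μ Bad := by
    intro v
    have h1 : μ F ≤ μ (shift v ⁻¹' (NN ∩ F)) := by
      rw [hμ, law_shift_preimage]
      exact measure_mono_ae ((law_ae_nonnegG hG).mono fun t ht hF => ⟨ht, hF⟩)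
    refine h1.trans ((measure_mono (Set.subset_sdiff_union _ _)).trans
      ((measure_union_le _ _).trans (add_le_add le_rfl ?_)))
    rw [measure_toMeasurable]
  have hpt : ∀ᵐ t ∂μ, (b : ℝ≥0∞) * ∑ v ∈ box b, (Dv v).indicator 1 t ≤
      2 * ∑ x ∈ X, ∑ j : Fin 6 × Bool, ((nB : ℝ≥0∞) * (Wm j x).indicator 1 t +
        (K : ℝ≥0∞) * ∑ u ∈ U, (Sm j u x).indicator 1 t) := by
    filter_upwards [ae_tieFreeG hG] with t htf
    by_cases hok : t ∈ toMeasurable μ Bad
    · refine le_of_eq_of_le ?_ zero_le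
      rw [Finset.sum_eq_zero fun v _ => Set.indicator_of_notMem (fun h => h.2 hok) _, mul_zero]
    have hok' : ChordOK γ₀ C r₁ (1 / (2 * D)) R (D * b) t :=
      not_not.1 fun h => hok (subset_toMeasurable _ _ h)
    have h1 := pointwise htf hγ₀ hC hD hρ hρ1 hR hsmall hok'
    calc (b : ℝ≥0∞) * ∑ v ∈ box b, (Dv v).indicator 1 t
        ≤ ((b * ((box b).filter fun v => ForkV t v).card : ℕ) : ℝ≥0∞) := by
          push_cast
          rw [← Finset.sum_boole]
          refine mul_le_mul' le_rfl (Finset.sum_le_sum fun v _ => ?_)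
          by_cases hv : t ∈ Dv v
          · rw [Set.indicator_of_mem hv, if_pos (forkV_of_shift hv.1.2)]
            exact le_rfl
          · rw [Set.indicator_of_notMem hv]
            exact zero_le
      _ ≤ _ := Nat.cast_le.2 h1
      _ ≤ _ := by
          push_cast
          refine mul_le_mul' le_rfl (Finset.sum_le_sum fun x _ => Finset.sum_le_sum fun j _ => ?_)
          rw [Finset.mul_sum]
          refine add_le_add ?_ (Finset.sum_le_sum fun u _ => ?_)
          · split_ifs with h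
            · rw [Set.indicator_of_mem (show t ∈ Wm j x from subset_toMeasurable _ _ h)]
              simp [nB]
            · simp
          · split_ifs with h
            · rw [Set.indicator_of_mem (show t ∈ Sm j u x from subset_toMeasurable _ _ h)]
              simp [K]
            · simp
  have hWmm : ∀ j x, AEMeasurable ((Wm j x).indicator (1 : Conf → ℝ≥0∞)) μ := fun j x =>
    aemeasurable_const.indicator₀ (measurableSet_toMeasurable _ _).nullMeasurableSet
  have hSmm : ∀ j u x, AEMeasurable ((Sm j u x).indicator (1 : Conf → ℝ≥0∞)) μ := fun j u x =>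
    aemeasurable_const.indicator₀ (measurableSet_toMeasurable _ _).nullMeasurableSet
  have hint := lintegral_mono_ae hpt
  rw [lintegral_const_mul' _ _ (ENNReal.natCast_ne_top _),
    lintegral_const_mul' _ _ ENNReal.ofNat_ne_top,
    lintegral_finsetSum' (f := fun v => (Dv v).indicator (1 : Conf → ℝ≥0∞)) _
      fun v _ => aemeasurable_const.indicator₀ (hDm v),
    lintegral_finsetSum' _ fun x _ => Finset.aemeasurable_fun_sum _ fun j _ =>
      ((hWmm j x).const_mul _).fun_add
        ((Finset.aemeasurable_fun_sum _ fun u _ => hSmm j u x).const_mul _)] at hint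
  set pw : Fin 6 × Bool → ℝ≥0∞ := fun j =>
    μ (wildSite (kk j) R r₁ (consts (C * D)).Cs ρ (15 * b))
  set ps : Fin 6 × Bool → ℕ → ℝ≥0∞ := fun j u =>
    μ (slopeSite (kk j) R r₁ (consts (C * D)).Cs (15 * b)
      (gridS (consts (C * D)).Cs ρ u - 2 * ρ) (gridS (consts (C * D)).Cs ρ u + 2 * ρ))
  have hin : ∀ x ∈ X, ∫⁻ t, ∑ j : Fin 6 × Bool, ((nB : ℝ≥0∞) * (Wm j x).indicator 1 t +
      (K : ℝ≥0∞) * ∑ u ∈ U, (Sm j u x).indicator 1 t) ∂μ =
        ∑ j : Fin 6 × Bool, ((nB : ℝ≥0∞) * pw j + (K : ℝ≥0∞) * ∑ u ∈ U, ps j u) := fun x _ => by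
    rw [lintegral_finsetSum' _ fun j _ => ((hWmm j x).const_mul _).fun_add
      ((Finset.aemeasurable_fun_sum _ fun u _ => hSmm j u x).const_mul _)]
    refine Finset.sum_congr rfl fun j _ => ?_
    rw [lintegral_add_left' ((hWmm j x).const_mul _),
      lintegral_const_mul' _ _ (ENNReal.natCast_ne_top _),
      lintegral_const_mul' _ _ (ENNReal.natCast_ne_top _),
      lintegral_finsetSum' _ fun u _ => hSmm j u x]
    simp only [Wm, Sm, pw, ps, wildEv, slopeEv,
      lintegral_indicator_one (measurableSet_toMeasurable _ _), measure_toMeasurable, hμ,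
      pre_preimage]
  rw [Finset.sum_congr rfl hin, Finset.sum_const, nsmul_eq_mul,
    Finset.sum_congr rfl fun v _ => lintegral_indicator_one₀ (hDm v)] at hint
  set S := ∑ j : Fin 6 × Bool, ((nB : ℝ≥0∞) * pw j + (K : ℝ≥0∞) * ∑ u ∈ U, ps j u)
  have hmain : ((b * (box b).card : ℕ) : ℝ≥0∞) * μ F ≤
      ((b * (box b).card : ℕ) : ℝ≥0∞) * μ Bad + ((2 * X.card : ℕ) : ℝ≥0∞) * S := by
    push_cast
    calc (b : ℝ≥0∞) * (box b).card * μ F = b * ∑ _v ∈ box b, μ F := by
          rw [Finset.sum_const, nsmul_eq_mul, mul_assoc]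
      _ ≤ b * (∑ v ∈ box b, μ (Dv v) + (box b).card * μ Bad) := by
          rw [← nsmul_eq_mul _ (μ Bad), ← Finset.sum_const, ← Finset.sum_add_distrib]
          exact mul_le_mul' le_rfl (Finset.sum_le_sum fun v _ => hDv v)
      _ ≤ _ := by
          rw [mul_add, ← mul_assoc, add_comm, mul_assoc 2]
          exact add_le_add le_rfl hint
  have hpw : ∀ j, pw j ≠ ⊤ := fun j => measure_ne_top _ _
  have hps : ∀ j u, ps j u ≠ ⊤ := fun j u => measure_ne_top _ _
  have hjt : ∀ j, (K : ℝ≥0∞) * ∑ u ∈ U, ps j u ≠ ⊤ := fun j =>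
    ENNReal.mul_ne_top (ENNReal.natCast_ne_top _) (ENNReal.sum_ne_top.2 fun u _ => hps j u)
  have hjw : ∀ j, (nB : ℝ≥0∞) * pw j ≠ ⊤ := fun j =>
    ENNReal.mul_ne_top (ENNReal.natCast_ne_top _) (hpw j)
  have hS : S ≠ ⊤ := ENNReal.sum_ne_top.2 fun j _ => ENNReal.add_ne_top.2 ⟨hjw j, hjt j⟩
  have hr1 : ((b * (box b).card : ℕ) : ℝ≥0∞) * μ Bad ≠ ⊤ :=
    ENNReal.mul_ne_top (ENNReal.natCast_ne_top _) (measure_ne_top _ _)
  have hr2 : ((2 * X.card : ℕ) : ℝ≥0∞) * S ≠ ⊤ :=
    ENNReal.mul_ne_top (ENNReal.natCast_ne_top _) hS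
  have h := ENNReal.toReal_mono (ENNReal.add_ne_top.2 ⟨hr1, hr2⟩) hmain
  rw [ENNReal.toReal_add hr1 hr2, ENNReal.toReal_mul, ENNReal.toReal_mul, ENNReal.toReal_mul,
    ENNReal.toReal_natCast, ENNReal.toReal_natCast] at h
  have hSr : S.toReal = ∑ j : Fin 6 × Bool,
      ((nB : ℝ) * (pw j).toReal + (K : ℝ) * ∑ u ∈ U, (ps j u).toReal) := by
    simp only [S, ENNReal.toReal_sum fun j _ => ENNReal.add_ne_top.2 ⟨hjw j, hjt j⟩]
    refine Finset.sum_congr rfl fun j _ => ?_
    rw [ENNReal.toReal_add (hjw j) (hjt j), ENNReal.toReal_mul, ENNReal.toReal_mul,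
      ENNReal.toReal_natCast, ENNReal.toReal_natCast, ENNReal.toReal_sum fun u _ => hps j u]
  rw [hSr] at h
  simp only [card_box, X] at h
  exact h

/-- The slope units have, in total, boundedly much probability. -/
lemma units_sum_le (hS : SlopeBound G) {k : ℤ} (hk : k = 0 ∨ k = 1) (R : ℕ) {r₁ : ℝ} (Cs : ℝ)
    (hr : 0 < G (Set.Iio r₁)) : ∃ K : ℝ, 0 ≤ K ∧ ∀ ρ : ℝ, 0 < ρ → ∀ᶠ n : ℕ in atTop,
      ∑ u ∈ units Cs ρ, (law G).real
        (slopeSite k R r₁ Cs n (gridS Cs ρ u - 2 * ρ) (gridS Cs ρ u + 2 * ρ)) ≤ K := by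
  classical
  obtain ⟨K, hK⟩ := hS k hk R r₁ Cs hr
  refine ⟨5 * max K 0, by positivity, fun ρ hρ => ?_⟩
  have hev : ∀ q : Fin 5, ∀ᶠ n : ℕ in atTop,
      ∑ u ∈ (units Cs ρ).filter (fun u => u % 5 = (q : ℕ)), (law G).real
        (slopeSite k R r₁ Cs n (gridS Cs ρ u - 2 * ρ) (gridS Cs ρ u + 2 * ρ)) ≤ max K 0 := by
    intro q
    set I := (units Cs ρ).filter fun u => u % 5 = (q : ℕ)
    set f := I.orderEmbOfFin rfl
    have hmem : ∀ i, f i ∈ units Cs ρ ∧ f i % 5 = (q : ℕ) := fun i =>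
      Finset.mem_filter.1 (I.orderEmbOfFin_mem rfl i)
    filter_upwards [hK ρ hρ I.card (fun i => gridS Cs ρ (f i) - 2 * ρ)
      (fun i => gridS Cs ρ (f i) + 2 * ρ) (fun i => by
        obtain ⟨-, h1, h2⟩ := Finset.mem_filter.1 (hmem i).1
        have : (2 : ℝ) ≤ f i := by exact_mod_cast h1
        refine ⟨by linarith, ?_, h2⟩
        simp only [gridS]
        nlinarith) (fun i i' hii => by
        have h1 := (f.strictMono hii)
        have h2 := (hmem i).2
        have h3 := (hmem i').2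
        have : (f i : ℝ) + 5 ≤ f i' := by exact_mod_cast (show f i + 5 ≤ f i' by omega)
        simp only [gridS]
        nlinarith)] with n hn
    rw [← Finset.map_orderEmbOfFin_univ I rfl, Finset.sum_map]
    exact hn.trans (le_max_left _ _)
  filter_upwards [eventually_all.2 hev] with n hn
  rw [← Finset.sum_fiberwise_of_maps_to (t := (Finset.univ : Finset (Fin 5)))
    (g := fun u : ℕ => (⟨u % 5, Nat.mod_lt _ (by norm_num)⟩ : Fin 5)) fun u _ => Finset.mem_univ _]
  refine (Finset.sum_le_card_nsmul _ _ (max K 0) fun q _ => ?_).trans (by simp)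
  refine le_of_eq_of_le (Finset.sum_congr (Finset.filter_congr fun u _ => ?_) fun _ _ => rfl) (hn q)
  simp [Fin.ext_iff]

lemma fork_null (hG : LawGen G) (hC : ChordProp G) (hW : WildNull G) (hS : SlopeBound G) :
    (law G).real {t | ForkV t (0, 0)} = 0 := by
  have := law_isProbG hG
  obtain ⟨γ₀, C, hγ, hγ1, hCpos, hchord⟩ := hC
  obtain ⟨D, hD⟩ : ∃ D : ℕ, 32 ≤ γ₀ * D := by
    obtain ⟨D, hD⟩ := exists_nat_ge (32 / γ₀)
    exact ⟨D, by rw [div_le_iff₀ hγ] at hD; linarith⟩
  have hDpos : 0 < D := by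
    rcases Nat.eq_zero_or_pos D with rfl | h
    · norm_num at hD
    · exact h
  obtain ⟨r₁, R, hr, hR⟩ := hchord (1 / (2 * D)) (by positivity)
  obtain ⟨K₀, hK₀0, hK₀⟩ := units_sum_le hS (k := 0) (Or.inl rfl) R (consts (C * D)).Cs hr
  obtain ⟨K₁, hK₁0, hK₁⟩ := units_sum_le hS (k := 1) (Or.inr rfl) R (consts (C * D)).Cs hr
  set Cs := (consts (C * D)).Cs with hCs
  set Z := (consts (C * D)).Z with hZ
  set X := (consts (C * D)).X with hX
  have hX1 : (1 : ℝ) ≤ X := by simp [hX, consts]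
  have hZ0 : 0 < Z := by
    simp only [hZ, consts]
    positivity
  set f := (law G).real {t | ForkV t (0, 0)}
  set A : ℝ := 24 * X ^ 2 * ((K₀ + K₁) * (256 * Z))
  have key : ∀ ρ : ℝ, 0 < ρ → ρ ≤ 1 → 8 * Z * ρ < 1 → f ≤ A * ρ := by
    intro ρ hρ hρ1 hρZ
    set w : ℕ → ℝ := fun b => (law G).real (wildSite 0 R r₁ Cs ρ (15 * b)) +
      (law G).real (wildSite 1 R r₁ Cs ρ (15 * b))
    set η : ℕ → ℝ := fun b => (law G).real {t | ¬ ChordOK γ₀ C r₁ (1 / (2 * D)) R (D * b) t}
    have h15 : Tendsto (fun b : ℕ => 15 * b) atTop atTop :=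
      tendsto_atTop_mono (fun b => by simp; omega) tendsto_id
    have hDb : Tendsto (fun b : ℕ => D * b) atTop atTop :=
      tendsto_atTop_mono (fun b => by simp; exact Nat.le_mul_of_pos_left b hDpos) tendsto_id
    have hw : Tendsto w atTop (𝓝 0) := by
      have h : ∀ k : ℤ, k = 0 ∨ k = 1 →
          Tendsto (fun b : ℕ => (law G).real (wildSite k R r₁ Cs ρ (15 * b))) atTop (𝓝 0) :=
        fun k hk => ((ENNReal.tendsto_toReal ENNReal.zero_ne_top).comp
          ((hW k hk R r₁ Cs ρ hr hρ).comp h15))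
      simpa [w] using (h 0 (Or.inl rfl)).add (h 1 (Or.inr rfl))
    have hη : Tendsto η atTop (𝓝 0) :=
      (ENNReal.tendsto_toReal ENNReal.zero_ne_top).comp (hR.comp hDb)
    have hev : ∀ᶠ b : ℕ in atTop, f ≤ η b + 24 * (X : ℝ) ^ 2 *
        (36 * w b + (256 * Z * ρ + 12 / b) * (K₀ + K₁)) := by
      filter_upwards [h15.eventually ((hK₀ ρ hρ).and (hK₁ ρ hρ)),
        eventually_gt_atTop (2 * R)] with b hb hbR
      obtain ⟨hb₀, hb₁⟩ := hb
      have hb' : (1 : ℝ) ≤ b := by exact_mod_cast (show 1 ≤ b by omega)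
      have hsmall : 8 * ((consts (C * D)).Z * ρ * b) < b := by
        rw [← hZ]; nlinarith
      have h := expect hG (r₁ := r₁) hγ1 hCpos.le hD hρ hρ1 hbR hsmall
      change ((b * ((2 * b + 1) * (2 * b + 1)) : ℕ) : ℝ) * f ≤
        ((b * ((2 * b + 1) * (2 * b + 1)) : ℕ) : ℝ) * η b + _ at h
      have hband : (bandBound (C * D) ρ b : ℝ) ≤ (256 * Z * ρ + 12 / b) * b := by
        have h1 : (⌈32 * (Z * ρ * b)⌉₊ : ℝ) ≤ 32 * (Z * ρ * b) + 1 :=
          (Nat.ceil_lt_add_one (by positivity)).le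
        have h2 : 12 / (b : ℝ) * b = 12 := by field_simp
        simp only [bandBound, ← hZ]
        push_cast
        nlinarith
      have hbd : (((bd (4 * b)).card : ℕ) : ℝ) ≤ 36 * b := by
        have := card_bd_le (4 * b)
        have h' : (((bd (4 * b)).card : ℕ) : ℝ) ≤ ((4 * (2 * (4 * b) + 1) : ℕ) : ℝ) :=
          Nat.cast_le.2 this
        push_cast at h'
        linarith
      set B := (256 * Z * ρ + 12 / (b : ℝ)) * b with hB
      have hB0 : 0 ≤ B := by positivity
      have hw0 : 0 ≤ w b := add_nonneg measureReal_nonneg measureReal_nonneg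
      have hj : ∀ j : Fin 6 × Bool, (((bd (4 * b)).card : ℕ) : ℝ) *
            (law G).real (wildSite (kk j) R r₁ Cs ρ (15 * b)) +
          (bandBound (C * D) ρ b : ℝ) * ∑ u ∈ units Cs ρ, (law G).real
            (slopeSite (kk j) R r₁ Cs (15 * b) (gridS Cs ρ u - 2 * ρ) (gridS Cs ρ u + 2 * ρ)) ≤
          36 * b * w b + B * (K₀ + K₁) := by
        intro j
        have hw0' : (0 : ℝ) ≤ (law G).real (wildSite 0 R r₁ Cs ρ (15 * b)) := measureReal_nonneg
        have hw1' : (0 : ℝ) ≤ (law G).real (wildSite 1 R r₁ Cs ρ (15 * b)) := measureReal_nonneg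
        have h36 : (0 : ℝ) ≤ 36 * b := by positivity
        refine add_le_add (mul_le_mul hbd ?_ measureReal_nonneg h36)
          (mul_le_mul hband ?_ (Finset.sum_nonneg fun _ _ => measureReal_nonneg) hB0)
        · rcases kk_cases j with h | h <;> rw [h] <;> simp only [w] <;> linarith
        · rcases kk_cases j with h | h <;> rw [h] <;> linarith
      have hsum := Finset.sum_le_card_nsmul Finset.univ _ _ fun j _ => hj j
      rw [Finset.card_univ, Fintype.card_prod, Fintype.card_fin, Fintype.card_bool,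
        nsmul_eq_mul] at hsum
      have hrad : (radX (C * D) b : ℝ) = X * b := by simp [radX, hX]
      set S := ∑ j : Fin 6 × Bool, ((((bd (4 * b)).card : ℕ) : ℝ) *
          (law G).real (wildSite (kk j) R r₁ Cs ρ (15 * b)) +
        (bandBound (C * D) ρ b : ℝ) * ∑ u ∈ units Cs ρ, (law G).real
          (slopeSite (kk j) R r₁ Cs (15 * b) (gridS Cs ρ u - 2 * ρ) (gridS Cs ρ u + 2 * ρ)))
      push_cast at h hsum
      rw [hrad] at h
      set P := (2 * (b : ℝ) + 1) * (2 * b + 1)
      set Q := (2 * ((X : ℝ) * b) + 1) * (2 * (X * b) + 1)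
      set T := 36 * w b + (256 * Z * ρ + 12 / (b : ℝ)) * (K₀ + K₁)
      have hS0 : 0 ≤ S := Finset.sum_nonneg fun j _ => by positivity
      have hT : S ≤ 12 * (b * T) := by
        refine hsum.trans (le_of_eq ?_)
        simp only [T, hB]
        ring
      have hQ : Q ≤ (X : ℝ) ^ 2 * P := by
        have h1 : 2 * ((X : ℝ) * b) + 1 ≤ X * (2 * b + 1) := by nlinarith
        have h2 := mul_le_mul h1 h1 (by positivity) (by positivity)
        simp only [Q, P]
        linarith
      have hkey : (b : ℝ) * P * f ≤ b * P * (η b + 24 * (X : ℝ) ^ 2 * T) := by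
        refine h.trans ?_
        have h3 : 2 * Q * S ≤ 2 * ((X : ℝ) ^ 2 * P) * (12 * (b * T)) :=
          mul_le_mul (by linarith) hT hS0 (by positivity)
        calc (b : ℝ) * P * η b + 2 * Q * S
            ≤ b * P * η b + 2 * ((X : ℝ) ^ 2 * P) * (12 * (b * T)) := by linarith
          _ = _ := by ring
      exact le_of_mul_le_mul_left hkey (by positivity)
    refine ge_of_tendsto ?_ hev
    have h12 := tendsto_const_div_atTop_nhds_zero_nat (12 : ℝ)
    have := hη.add (((hw.const_mul 36).add ((h12.const_add (256 * Z * ρ)).mul_const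
      (K₀ + K₁))).const_mul (24 * (X : ℝ) ^ 2))
    refine this.congr' ?_ |> fun h => by convert h using 2; simp [A]; ring
    exact Eventually.of_forall fun b => rfl
  refine le_antisymm (ge_of_tendsto
    ((tendsto_one_div_add_atTop_nhds_zero_nat (𝕜 := ℝ)).const_mul A |>.trans (by simp)) ?_)
    measureReal_nonneg
  filter_upwards [(tendsto_one_div_add_atTop_nhds_zero_nat (𝕜 := ℝ)).eventually
    (eventually_lt_nhds (show (0 : ℝ) < min 1 (1 / (8 * Z)) by positivity))] with n hn
  have hn1 := hn.le.trans (min_le_left _ _)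
  have hn2 := hn.trans_le (min_le_right _ _)
  rw [lt_div_iff₀ (by positivity : (0 : ℝ) < 8 * Z)] at hn2
  exact key _ (by positivity) hn1 (by linarith)

end ForkAll

open ForkAll in
/-- No two bigeodesics fork, for every atomless law. -/
theorem forkNullAllG {G : Measure ℝ} (hG : LawGen G) (hC : ChordProp G) (hW : WildNull G)
    (hS : SlopeBound G) : ForkNullAll G := by
  have := hG.prob
  have := law_isProbG hG
  have h0 : ∀ᵐ t ∂law G, ¬ ForkV t (0, 0) := measure_eq_zero_iff_ae_notMem.1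
    ((measureReal_eq_zero_iff (measure_ne_top _ _)).1 (fork_null hG hC hW hS))
  filter_upwards [ae_shift h0] with t ht
  rintro ⟨γ, δ, hγ, hδ, hcom, hne⟩
  refine ht (γ 0) ⟨fun i => γ i - γ 0, fun i => δ i - γ 0,
    (isBigeodesic_shift _ t _).2 (by simpa using hγ),
    (isBigeodesic_shift _ t _).2 (by simpa using hδ), ?_, fun n => ?_,
    fun he => hne (sub_left_inj.1 he)⟩
  · simp
    rfl
  · simp [hcom n]

/-- No two bigeodesics fork. -/
theorem forkNullAll {G : Measure ℝ} {M : ℝ} (hG : LawOK G M) (hC : ChordProp G) (hW : WildNull G)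
    (hS : SlopeBound G) : ForkNullAll G :=
  forkNullAllG hG.gen hC hW hS

end Vale.Agent.P158
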