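import Vale.Agent.P158.Spec3

/-!
Interfaces of the main argument for all bigeodesics: supply of sites, certificates of blocks and
the deterministic count.
-/

open MeasureTheory Filter Topology
open scoped ENNReal

namespace Vale.Agent.P158

/-- The properties of a configuration used by the deterministic arguments of the second stage. -/
structure Nice2 (M κ : ℝ) (t : Conf) : Prop where
  good : Good M κ t
  fork : ¬ ∃ γ δ, IsBigeodesic t γ ∧ IsBigeodesic t δ ∧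
    (∀ n : ℕ, γ n = δ n) ∧ γ (-1) ≠ δ (-1)
  matched : ∀ γ, IsBigeodesic t γ → ∀ r, IsRayIn t Set.univ r →
    (∃ C : ℝ, ∀ z, -C ≤ bus t Set.univ r z + bus t Set.univ (fwd γ 0) z) →
    ∃ c : ℝ, ∀ z, bus t Set.univ r z - bus t Set.univ (bwd γ 0) z = c

/-- Two rays have a crossed excess below `-G₀` somewhere in the box of radius `W`. -/
def Wit (t : Conf) (W : ℤ) (G₀ : ℝ) (r s : ℕ → V) : Prop :=
  ∃ z, InSq W z ∧ bus t Set.univ r z + bus t Set.univ s z < -G₀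

/-- All four pairings of the ends of two lines have a witness. -/
def Wit4 (t : Conf) (W : ℤ) (G₀ : ℝ) (γ γ' : ℤ → V) : Prop :=
  Wit t W G₀ (bwd γ 0) (fwd γ' 0) ∧ Wit t W G₀ (fwd γ 0) (bwd γ' 0) ∧
    Wit t W G₀ (bwd γ 0) (bwd γ' 0) ∧ Wit t W G₀ (fwd γ 0) (fwd γ' 0)

/-- A vertex of the tilt region of the block of heights `[h, h + d)` on level `c`. -/
def InReg2 (P : SiteP) (k c : ℤ) (s : ℝ) (h : ℤ) (d : ℕ) (v : V) : Prop :=
  |lev k v - c| ≤ (P.L : ℤ) ∧ (h : ℝ) - 2 * P.w ≤ (v.2 : ℝ) - s * (lev k v - c) ∧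
    (v.2 : ℝ) - s * (lev k v - c) ≤ h + d + 2 * P.w

/-- The tilt region of a block. -/
def regSet2 (P : SiteP) (k c : ℤ) (s : ℝ) (h : ℤ) (d : ℕ) : Set Edge :=
  {e | InReg2 P k c s h d (eFst e) ∧ InReg2 P k c s h d (eSnd e)}

/-- The parameters of a block beyond those of its sites. -/
structure BlockP where
  /-- number of heights of a block -/
  d : ℕ
  /-- radius of the box of the witnesses -/
  W : ℕ
  /-- size of the witnesses -/
  G₀ : ℝ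
  /-- gain -/
  g : ℝ

/-- The certificate of a block: a nice configuration above `t`, equal to it off the tilt region,
with `n` rigid confined lines at distinct sites of the block, each gaining at least `g`, any two
of them with witnesses for all pairings of their ends. -/
def Cert2 (P : SiteP) (B : BlockP) (GS : Set Conf) (k c : ℤ) (s : ℝ) (h : ℤ) (n : ℕ)
    (pre t : Conf) : Prop :=
  pre ∈ GS ∧ t ∈ GS ∧ (∀ e, t e ≤ pre e) ∧ (∀ e, e ∉ regSet2 P k c s h B.d → t e = pre e) ∧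
  ∃ (ys : Fin n → ℤ) (γ : Fin n → ℤ → V) (iL jR : Fin n → ℤ), Function.Injective ys ∧
    (∀ i, h ≤ ys i ∧ ys i < h + B.d ∧ LineSite P k s (pt k c (ys i)) pre (γ i) (iL i) (jR i) ∧
      B.g ≤ ∑ m ∈ Finset.Ico (iL i) (jR i),
        (wt pre (γ i m) (γ i (m + 1)) - wt t (γ i m) (γ i (m + 1)))) ∧
    ∀ i i', i ≠ i' → Wit4 pre B.W B.G₀ (γ i) (γ i')

/-- The configurations in which a block carries a certificate. -/
def blockEvent2 (P : SiteP) (B : BlockP) (GS : Set Conf) (k c : ℤ) (s : ℝ) (h : ℤ) (n : ℕ) :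
    Set Conf :=
  {t | ∃ pre, Cert2 P B GS k c s h n pre t}

/-- The configurations with a confined rigid line at a site. -/
def siteEvent2 (P : SiteP) (k c : ℤ) (s : ℝ) (y : ℤ) : Set Conf :=
  {t | ∃ γ iL jR, LineSite P k s (pt k c y) t γ iL jR}

/-- The grid of slopes. -/
noncomputable def slopeGrid (C ε : ℝ) (u : ℕ) : ℝ := -C + 2 * ε * u

/-- The strip level of a slope of the grid. -/
def stripLev (K₀ L u : ℕ) : ℤ := (((u + 1) * K₀ * L : ℕ) : ℤ)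

/-- The site parameters of one run. -/
def runP (R R' : ℕ) (δ r ε : ℝ) (K₀ m L N : ℕ) : SiteP :=
  ⟨R, R', L, (m + 1) * K₀ * L, N, ε * L, ε, δ, r⟩

/-- If bigeodesics exist, the sites of separated slopes have, in total, a probability bounded
below uniformly in the tolerance and the scale. -/
def MassProp (G : Measure ℝ) : Prop :=
  ¬ NoBigeodesic G → ∃ (C r₀ r δ c₁ : ℝ) (R R' : ℕ),
    0 < C ∧ r₀ < r ∧ 0 < G (Set.Iio r₀) ∧ 0 < δ ∧ 0 < c₁ ∧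
    ∀ ε : ℝ, 0 < ε → ε ≤ 1 → ∀ K₀ : ℕ, 2 ≤ K₀ → ∀ᶠ L : ℕ in atTop, ∀ᶠ N : ℕ in atTop,
      ∃ k : ℤ, (k = 0 ∨ k = 1) ∧ ∃ a : ℕ, a < 3 ∧ ∀ y : ℤ, 4 * |y| ≤ (N : ℤ) →
        c₁ ≤ ∑ u ∈ (Finset.range (⌈C / ε⌉₊ + 1)).filter (fun u => u % 3 = a),
          (law G (siteEvent2 (runP R R' δ r ε K₀ (⌈C / ε⌉₊ + 1) L N) k
            (stripLev K₀ L u) (slopeGrid C ε u) y)).toReal

/-- The deterministic count. -/
def CountProp2 (M κ : ℝ) : Prop :=
  ∀ (GS : Set Conf), (∀ t ∈ GS, Nice2 M κ t) → ∀ (P : SiteP) (B : BlockP) (k : ℤ),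
    (k = 0 ∨ k = 1) → 0 < P.δ → 0 < B.g → ∀ C : ℝ, 0 < P.ε → P.ε ≤ 1 → 1 ≤ C →
    P.ε * P.L ≤ P.w →
    ∀ (U : Finset ℕ) (s : ℕ → ℝ) (c : ℕ → ℤ),
      (∀ u ∈ U, |s u| ≤ C ∧ |c u| + P.L < (P.Lam : ℤ)) →
      (∀ u ∈ U, ∀ v ∈ U, u < v → 6 * P.ε ≤ s v - s u ∧
        (10 * C + 20) * P.L + 20 * P.w + 10 * B.d ≤ P.ε * ((c v : ℝ) - c u)) →
    ∀ (D : ℕ), (B.d : ℝ) + 6 * P.w + 3 < D → ∀ (J : Finset ℤ) (H : ℕ),
      (∀ j ∈ J, (|j * (D : ℤ)| : ℝ) + B.d + 6 * P.w + 8 * (C + 2) * P.Lam + P.R' + 2 ≤ H) →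
      8 * (C + 2) * (P.Lam : ℝ) + 4 * H ≤ P.N →
    ∀ {t : Conf}, t ∈ GS →
      2 * M * (4 * (2 * P.L + 2) * (B.d + 4 * P.w + 3) + B.d + 1) + 2 * B.g + 1 ≤ B.G₀ →
    ∀ (n : ℕ → ℤ → ℕ), (∀ u ∈ U, ∀ j ∈ J, 0 < n u j →
        t ∈ blockEvent2 P B GS k (c u) (s u) (j * D) (n u j)) →
      B.g * ∑ u ∈ U, ∑ j ∈ J, (n u j : ℝ) ≤ 100000 * M * ((H : ℝ) + P.Lam + B.W + 1) + 40 * B.g

end Vale.Agent.P158
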