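import Vale.Agent.P158.StraightStep
import Vale.Agent.P158.MuNorm

/-!
Bent lines inside a cone on which the shape is linear have probability zero.
-/

open MeasureTheory Filter Topology

namespace Vale.Agent.P158.Straight

open Vale.Agent.P158

/-- The rescaled lattice sequence `x` tends to `p`. -/
def Scaled (x : ℕ → V) (p : ℝ × ℝ) : Prop :=
  Tendsto (fun n : ℕ => (n : ℝ)⁻¹ • toR (x n)) atTop (𝓝 p)

/-- The properties of the shape used by the straightness argument. -/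
structure Shape (G : Measure ℝ) (M : ℝ) (μ : ℝ × ℝ → ℝ) : Prop where
  pos : ∀ v, v ≠ 0 → 0 < μ v
  smul : ∀ (r : ℝ) v, 0 ≤ r → μ (r • v) = r * μ v
  add_le : ∀ v w, μ (v + w) ≤ μ v + μ w
  lip : ∀ v w, |μ v - μ w| ≤ M * r1 (v - w)
  neg : ∀ v, μ (-v) = μ v
  rot : ∀ a b : ℝ, μ (-b, a) = μ (a, b)
  lower : ∀ (x y : ℕ → V) (p q : ℝ × ℝ), Scaled x p → Scaled y q → ∀ ε : ℝ, 0 < ε →
    Tendsto (fun n : ℕ => (law G {t | T t (x n) (y n) < n * (μ (q - p) - ε)}).toReal) atTop (𝓝 0)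
  upper : ∀ (x y : ℕ → V) (p q : ℝ × ℝ), Scaled x p → Scaled y q → ∀ ε : ℝ, 0 < ε →
    Tendsto (fun n : ℕ => (law G {t | n * (μ (q - p) + ε) < T t (x n) (y n)}).toReal) atTop (𝓝 0)
  strip : ∀ (k : ℤ), (k = 0 ∨ k = 1) → ∀ (x y : ℕ → V) (p q : ℝ × ℝ), Scaled x p → Scaled y q →
    p.1 + k * p.2 < q.1 + k * q.2 → ∀ ε : ℝ, 0 < ε →
    Tendsto (fun n : ℕ => (law G {t | n * (μ (q - p) + ε) <
      TS t (Strip k (lev k (x n)) (lev k (y n))) (x n) (y n)}).toReal) atTop (𝓝 0)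

/-- The point of the plane with level `c` and height `s`. -/
def frame (k : ℤ) (c s : ℝ) : ℝ × ℝ := (c - k * s, s)

/-- The vector of level one and slope `v`. -/
def vec (k : ℤ) (v : ℝ) : ℝ × ℝ := frame k 1 v

theorem Scaled.add_const {x : ℕ → V} {p : ℝ × ℝ} (h : Scaled x p) (c : V) :
    Scaled (fun n => x n + c) p := by
  have h2 : Tendsto (fun n : ℕ => (n : ℝ)⁻¹ • toR c) atTop (𝓝 0) := by
    simpa using (tendsto_natCast_atTop_atTop.inv_tendsto_atTop (𝕜 := ℝ)).smul_const (toR c)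
  simpa [Scaled, toR_add, smul_add] using Tendsto.add h h2

theorem scaled_pt (k : ℤ) {c s : ℕ → ℤ} {a b : ℝ}
    (hc : Tendsto (fun n : ℕ => (c n : ℝ) / n) atTop (𝓝 a))
    (hs : Tendsto (fun n : ℕ => (s n : ℝ) / n) atTop (𝓝 b)) :
    Scaled (fun n => pt k (c n) (s n)) (frame k a b) := by
  refine Filter.Tendsto.congr (fun n => ?_)
    ((hc.sub (hs.const_mul (k : ℝ))).prodMk_nhds hs)
  simp [toR, pt, Prod.smul_def]
  constructor <;> ring

theorem tendsto_floor_div (r : ℝ) :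
    Tendsto (fun n : ℕ => (⌊r * n⌋ : ℝ) / n) atTop (𝓝 r) := by
  have h0 : Tendsto (fun n : ℕ => (1 : ℝ) / n) atTop (𝓝 0) := tendsto_const_div_atTop_nhds_zero_nat 1
  refine tendsto_of_tendsto_of_tendsto_of_le_of_le' (g := fun n : ℕ => r - 1 / (n : ℝ))
    (h := fun _ => r) (by simpa using tendsto_const_nhds.sub h0) tendsto_const_nhds ?_ ?_
  · filter_upwards [eventually_gt_atTop 0] with n hn
    have : (0 : ℝ) < n := Nat.cast_pos.2 hn
    rw [le_div_iff₀ this, sub_mul, div_mul_cancel₀ _ this.ne']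
    linarith [Int.lt_floor_add_one (r * n)]
  · filter_upwards [eventually_gt_atTop 0] with n hn
    have : (0 : ℝ) < n := Nat.cast_pos.2 hn
    rw [div_le_iff₀ this]
    exact Int.floor_le _

theorem Shape.additive {G : Measure ℝ} {M : ℝ} {μ : ℝ × ℝ → ℝ} (hs : Shape G M μ)
    {u v : ℝ × ℝ} (h : μ (u + v) = μ u + μ v) {a b : ℝ} (ha : 0 ≤ a) (hb : 0 ≤ b) :
    μ (a • u + b • v) = a * μ u + b * μ v := by
  refine le_antisymm ?_ ?_
  · calc μ (a • u + b • v) ≤ μ (a • u) + μ (b • v) := hs.add_le _ _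
      _ = _ := by rw [hs.smul a u ha, hs.smul b v hb]
  rcases le_total b a with hab | hab
  · have h1 := hs.add_le (a • u + b • v) ((a - b) • v)
    rw [show a • u + b • v + (a - b) • v = a • (u + v) by module, hs.smul a _ ha,
      hs.smul _ v (sub_nonneg.2 hab), h] at h1
    linarith
  · have h1 := hs.add_le (a • u + b • v) ((b - a) • u)
    rw [show a • u + b • v + (b - a) • u = b • (u + v) by module, hs.smul b _ hb,
      hs.smul _ u (sub_nonneg.2 hab), h] at h1
    linarith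

/-- A short walk along the highest level of a strip. -/
theorem top_walk {k A B : ℤ} (hk : k = 0 ∨ k = 1) (hAB : A < B) {x y : V}
    (hx : lev k x = B) (hy : lev k y = B) :
    ∃ p : grid.Walk x y, WalkIn (Strip k A B) p ∧ p.length ≤ 2 * (y.2 - x.2).natAbs + 2 := by
  set x' : V := (x.1 - 1, x.2)
  set y' : V := (y.1 - 1, y.2)
  have hx' : lev k x' = B - 1 := by simp only [x', lev] at *; linarith
  have hy' : lev k y' = B - 1 := by simp only [y', lev] at *; linarith
  obtain ⟨p, hp, hl⟩ := level_walk (A := B - 1) (B := B) hk (by omega) hx' hy'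
  have h1 : grid.Adj x x' := by simp [grid, Adj, x']
  have h2 : grid.Adj y' y := by simp [grid, Adj, y']
  refine ⟨.cons h1 (p.concat h2), ?_, ?_⟩
  · rw [walkIn_cons_iff]
    refine ⟨(edge_mem_strip h1).2 (by omega), ?_⟩
    rw [SimpleGraph.Walk.concat_eq_append, walkIn_append_iff, walkIn_cons_iff]
    refine ⟨hp.mono ?_, (edge_mem_strip h2).2 (by omega), walkIn_nil⟩
    rintro e ⟨⟨a, b⟩, c, d⟩
    exact ⟨⟨by omega, by omega⟩, c, d⟩
  · simp only [SimpleGraph.Walk.length_cons, SimpleGraph.Walk.length_concat, x', y'] at hl ⊢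
    omega

theorem grid_bound_aux {k : ℤ} (hk : k = 0 ∨ k = 1) {d : V} (hd : IsOffset k d) {M : ℝ} {t : Conf}
    (hrange : InRange M t) {n : ℕ} (hn : 2 ≤ n) (hM : 0 ≤ M) {θ : ℝ} (hθ : 0 < θ) {K : ℕ}
    (hK0 : (0 : ℝ) < K) {i D : ℕ} (_ : 0 ≤ i) (hiD : ((i * D : ℕ) : ℝ) ≤ θ * n) {a b : V} {W : ℝ}
    (hgrid : ∀ l, l ≤ K → lev k a = -(n : ℤ) ∧ lev k b = n ∧ ∃ A B : ℝ,
      TS t (Strip k (-(n : ℤ)) (-1)) a (pt k 0 ⌊θ * l / K * n⌋ - d) ≤ A ∧
      TS t (Strip k 0 n) (pt k 0 ⌊θ * l / K * n⌋) b ≤ B ∧ A + B = W) :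
    TS t (Strip k (-(n : ℤ)) (-1)) a (site k D i - d) + TS t (Strip k 0 n) (site k D i) b ≤
      W + M * (4 * θ * n / K + 12) := by
  have hn0 : (0 : ℝ) < n := by exact_mod_cast (by omega : 0 < n)
  set l := ⌊((i * D : ℕ) : ℝ) * K / (θ * n)⌋₊
  have hl1 : (l : ℝ) ≤ ((i * D : ℕ) : ℝ) * K / (θ * n) := Nat.floor_le (by positivity)
  have hl2 : ((i * D : ℕ) : ℝ) * K / (θ * n) < l + 1 := Nat.lt_floor_add_one _
  have hlK : l ≤ K := by
    have : ((i * D : ℕ) : ℝ) * K / (θ * n) ≤ K := by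
      rw [div_le_iff₀ (by positivity)]; nlinarith
    exact_mod_cast hl1.trans this
  rw [le_div_iff₀ (by positivity)] at hl1
  rw [div_lt_iff₀ (by positivity)] at hl2
  have hdist : |((⌊θ * l / K * n⌋ - ((i * D : ℕ) : ℤ) : ℤ) : ℝ)| ≤ θ * n / K + 1 := by
    have hf1 := Int.floor_le (θ * l / K * (n : ℝ))
    have hf2 := Int.lt_floor_add_one (θ * l / K * (n : ℝ))
    have e1 : θ * l / K * n = (l * (θ * n)) / K := by ring
    have e2 : θ * n / K = (1 * (θ * n)) / K := by ring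
    have h3 : θ * l / K * n ≤ ((i * D : ℕ) : ℝ) := by rw [e1, div_le_iff₀ hK0]; linarith
    have h4 : ((i * D : ℕ) : ℝ) < θ * l / K * n + θ * n / K := by
      rw [e1, e2, ← add_div, lt_div_iff₀ hK0]; linarith
    have h5 : 0 ≤ θ * n / K := by positivity
    rw [Int.cast_sub, Int.cast_natCast, abs_le]
    constructor <;> linarith
  obtain ⟨ha, hb, A, B, hgL, hgR, hAB⟩ := hgrid l hlK
  have h0 : ∀ e, 0 ≤ t e := fun e => (hrange e).1
  set g : V := pt k 0 ⌊θ * l / K * n⌋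
  have levpt : lev k g = 0 := by simp [g, lev, pt]
  have hlg : lev k (g - d) = -1 := by rw [hd.lev_sub, levpt]; ring
  obtain ⟨P, hP, hPl⟩ := top_walk (A := -(n : ℤ)) (B := -1) hk (by omega) hlg
    (y := site k D i - d) (by rw [hd.lev_sub, site_lev]; ring)
  obtain ⟨Q, hQ, hQl⟩ := level_walk (A := 0) (B := (n : ℤ)) hk (by omega) (site_lev k D i)
    (y := g) levpt
  have cLn : ConnIn (Strip k (-(n : ℤ)) (-1)) a (g - d) :=
    connIn_strip hk (by omega) (by rw [ha]) (by rw [ha]; omega) (by rw [hlg]; omega) (by rw [hlg])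
  have cRn : ConnIn (Strip k 0 n) g b :=
    connIn_strip hk (by omega) (by rw [levpt]) (by rw [levpt]; omega) (by rw [hb]; omega)
      (by rw [hb])
  have step1 := (TS_triangle h0 cLn ⟨P, hP⟩).trans
    (add_le_add le_rfl ((TS_le h0 hP).trans (plen_le_of_range hrange P)))
  have step2 := (TS_triangle h0 ⟨Q, hQ⟩ cRn).trans
    (add_le_add ((TS_le h0 hQ).trans (plen_le_of_range hrange Q)) le_rfl)
  have hPlen : (P.length : ℝ) ≤ 2 * (θ * n / K + 1) + 2 := by
    have h6 : ((site k D i - d).2 - (g - d).2) = -(⌊θ * l / K * n⌋ - ((i * D : ℕ) : ℤ)) := by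
      simp [g, site, pt]
    have h7 : ((P.length : ℕ) : ℝ) ≤
        2 * (((site k D i - d).2 - (g - d).2).natAbs : ℝ) + 2 := by exact_mod_cast hPl
    rw [h6, Int.natAbs_neg, Nat.cast_natAbs, Int.cast_abs] at h7
    linarith
  have hQlen : (Q.length : ℝ) ≤ 2 * (θ * n / K + 1) := by
    have h6 : (g.2 - (site k D i).2) = ⌊θ * l / K * n⌋ - ((i * D : ℕ) : ℤ) := by
      simp [g, site, pt]
    have h7 : ((Q.length : ℕ) : ℝ) ≤ 2 * ((g.2 - (site k D i).2).natAbs : ℝ) := by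
      exact_mod_cast hQl
    rw [h6, Nat.cast_natAbs, Int.cast_abs] at h7
    linarith
  have h8 := mul_le_mul_of_nonneg_left hPlen hM
  have h9 := mul_le_mul_of_nonneg_left hQlen hM
  have h10 : M * (4 * θ * n / K + 12) = M * (2 * (θ * n / K + 1) + 2) + M * (2 * (θ * n / K + 1))
      + 6 * M := by ring
  linarith

/-- Interpolation between the grid points on one level. -/
theorem grid_bound {k : ℤ} (hk : k = 0 ∨ k = 1) {d : V} (hd : IsOffset k d) {M : ℝ} {t : Conf}
    (hrange : InRange M t) {K : ℕ} (hK0 : (0 : ℝ) < K) {θ : ℝ} (hθ : 0 < θ) {n D : ℕ} (hn : 2 ≤ n)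
    {i : ℕ} (hi : i ≤ ⌊θ * n / D⌋₊) {a b : V} {W : ℝ}
    (hgrid : ∀ l, l ≤ K → lev k a = -(n : ℤ) ∧ lev k b = n ∧ ∃ A B : ℝ,
      TS t (Strip k (-(n : ℤ)) (-1)) a (pt k 0 ⌊θ * l / K * n⌋ - d) ≤ A ∧
      TS t (Strip k 0 n) (pt k 0 ⌊θ * l / K * n⌋) b ≤ B ∧ A + B = W) :
    TS t (Strip k (-(n : ℤ)) (-1)) a (site k D i - d) + TS t (Strip k 0 n) (site k D i) b ≤
      W + M * (4 * θ * n / K + 12) := by
  have hn0 : (0 : ℝ) < n := by exact_mod_cast (by omega : 0 < n)
  have hM : 0 ≤ M := (hrange ((0, 0), false)).1.trans (hrange ((0, 0), false)).2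
  rcases Nat.eq_zero_or_pos D with rfl | hD
  · exact grid_bound_aux hk hd hrange hn hM hθ hK0 (Nat.zero_le _) (by simp; positivity) hgrid
  refine grid_bound_aux hk hd hrange hn hM hθ hK0 (Nat.zero_le _) ?_ hgrid
  have h1 : ((i : ℕ) : ℝ) ≤ θ * n / D :=
    le_trans (by exact_mod_cast hi) (Nat.floor_le (by positivity))
  rw [le_div_iff₀ (by positivity)] at h1
  push_cast; linarith

theorem close_arith {δ c ε' D n K θ M const N P pb : ℝ} (hδ : 0 < δ) (hc : 0 < c) (hε' : 0 < ε')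
    (hD : 0 < D) (hn : 0 < n) (hK : 0 < K) (hN' : 0 ≤ N) (hNn : θ * n < (N + 1) * D)
    (h1 : 4 * M * θ / K < ε' * θ * δ * c / (4 * D)) (h2 : const < ε' * θ * δ * c / (4 * D) * n)
    (h3 : pb ≤ c * ε' / 4)
    (main : δ * ((N + 1) * (c * P)) ≤
      3 * (ε' * θ * δ * c / (4 * D) / 4) * n + 4 * M * θ / K * n + const + δ * ((N + 1) * pb)) :
    P < ε' := by
  set η := ε' * θ * δ * c / (4 * D) with hη
  have hη4 : η * (4 * D) = ε' * θ * δ * c := by rw [hη]; exact div_mul_cancel₀ _ (by positivity)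
  have h4 := mul_lt_mul_of_pos_right h1 hn
  have hN : 0 < N + 1 := by linarith
  have h7 := mul_lt_mul_of_pos_left hNn (show 0 < ε' * δ * c by positivity)
  have h8 : δ * ((N + 1) * pb) ≤ δ * ((N + 1) * (c * ε' / 4)) := by gcongr
  have h9 : η * n * (4 * D) = ε' * δ * c * (θ * n) := by rw [mul_right_comm, hη4]; ring
  have h10 : η * n * (4 * D) < ε' * δ * c * (N + 1) * D := by rw [h9]; linarith
  have h11 : η * n * 4 < ε' * δ * c * (N + 1) := by
    rw [← mul_lt_mul_iff_of_pos_right hD]; linarith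
  by_contra hP
  rw [not_lt] at hP
  have h12 : δ * ((N + 1) * (c * ε')) ≤ δ * ((N + 1) * (c * P)) := by gcongr
  nlinarith

theorem seed_tendsto_zero {G : Measure ℝ} {M : ℝ} (hG : LawOK G M) {μ : ℝ × ℝ → ℝ}
    (hs : Shape G M μ) {k : ℤ} (hk : k = 0 ∨ k = 1) (hm : Meets k) {d : V} (hd : IsOffset k d)
    {v1 v2 : ℝ} (hv : v1 < v2) (hlin : μ (vec k v1 + vec k v2) = μ (vec k v1) + μ (vec k v2))
    (R : ℕ) {r₁ r₀ : ℝ} (hr : r₀ < r₁) (hr0 : 0 < G (Set.Iic r₀)) :
    Tendsto (fun n : ℕ => (law G {t | Seed k n R v1 v2 r₁ d t}).toReal) atTop (𝓝 0) := by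
  classical
  haveI := hG.prob
  have : IsProbabilityMeasure (law G) := by unfold law; infer_instance
  set c := (G (Set.Iic r₀)).toReal
  have hc : 0 < c := ENNReal.toReal_pos hr0.ne' (measure_ne_top _ _)
  set δ := r₁ - r₀
  have hδ : 0 < δ := sub_pos.2 hr
  have hM0 : ∀ᵐ t ∂law G, InRange M t := by
    filter_upwards [hG.ae_conf hG.ae_mem] with t ht using ht
  obtain ⟨t₀, ht₀⟩ := hM0.exists
  have hM : 0 ≤ M := (ht₀ ((0, 0), false)).1.trans (ht₀ ((0, 0), false)).2
  set θ := v2 - v1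
  have hθ : 0 < θ := sub_pos.2 hv
  set D := 2 * R + 3
  refine tendsto_order.2 ⟨fun a ha => Eventually.of_forall fun n => ha.trans_le ENNReal.toReal_nonneg,
    fun ε' hε' => ?_⟩
  -- constants
  set η := ε' * θ * δ * c / (4 * D)
  have hη : 0 < η := by positivity
  obtain ⟨K, hK⟩ := exists_nat_gt (4 * M * θ / η)
  have hK0 : (0 : ℝ) < K := lt_of_le_of_lt (by positivity) hK
  set ε := η / 4
  have hε : 0 < ε := by positivity
  -- the references
  set a0 : ℕ → V := fun n => pt k (-(n : ℤ)) ⌊(-v1) * n⌋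
  set b0 : ℕ → V := fun n => pt k n ⌊v2 * n⌋
  set g : ℕ → ℕ → V := fun l n => pt k 0 ⌊θ * l / K * n⌋
  set gq : ℕ → ℕ → V := fun l n => g l n - d
  have cn : Tendsto (fun n : ℕ => ((-(n : ℤ) : ℤ) : ℝ) / n) atTop (𝓝 (-1)) := by
    refine tendsto_const_nhds.congr' ?_
    filter_upwards [eventually_gt_atTop 0] with n hn
    push_cast; field_simp
  have cp : Tendsto (fun n : ℕ => (((n : ℤ) : ℤ) : ℝ) / n) atTop (𝓝 1) := by
    refine tendsto_const_nhds.congr' ?_
    filter_upwards [eventually_gt_atTop 0] with n hn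
    push_cast; field_simp
  have c0 : Tendsto (fun n : ℕ => (((0 : ℤ)) : ℝ) / n) atTop (𝓝 0) := by simp
  have sa : Scaled a0 (frame k (-1) (-v1)) := scaled_pt k cn (tendsto_floor_div _)
  have sb : Scaled b0 (frame k 1 v2) := scaled_pt k cp (tendsto_floor_div _)
  have sg : ∀ l : ℕ, Scaled (g l) (frame k 0 (θ * l / K)) := fun l =>
    scaled_pt k c0 (tendsto_floor_div _)
  have sgq : ∀ l : ℕ, Scaled (gq l) (frame k 0 (θ * l / K)) := fun l => by
    simpa [gq, sub_eq_add_neg] using (sg l).add_const (-d)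
  have levpt : ∀ c s : ℤ, lev k (pt k c s) = c := fun c s => by simp [lev, pt]
  have hlg : ∀ l n, lev k (gq l n) = -1 := fun l n => by
    show lev k (g l n - d) = -1
    rw [hd.lev_sub, levpt]; ring
  have hlev : ∀ a b : ℝ, (frame k a b).1 + k * (frame k a b).2 = a := fun a b => by
    simp [frame]
  -- linearity
  set μ1 := μ (vec k v1)
  set μ2 := μ (vec k v2)
  have lin : ∀ w ∈ Set.Icc v1 v2, μ (vec k w) = ((v2 - w) * μ1 + (w - v1) * μ2) / θ := by
    intro w hw
    have e : vec k w = ((v2 - w) / θ) • vec k v1 + ((w - v1) / θ) • vec k v2 := by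
      have h1 : (v2 - w) / θ + (w - v1) / θ = 1 := by
        rw [← add_div, div_eq_one_iff_eq hθ.ne']; ring
      have h2 : (v2 - w) / θ * v1 + (w - v1) / θ * v2 = w := by
        rw [div_mul_eq_mul_div, div_mul_eq_mul_div, ← add_div, div_eq_iff hθ.ne']; ring
      simp only [vec, frame, Prod.smul_mk, Prod.mk_add_mk, smul_eq_mul, Prod.mk.injEq]
      exact ⟨by linear_combination (k : ℝ) * h2 - h1, h2.symm⟩
    rw [e, hs.additive hlin (div_nonneg (by linarith [hw.2]) hθ.le)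
      (div_nonneg (by linarith [hw.1]) hθ.le)]
    ring
  have mL : ∀ l : ℕ, l ≤ K → μ (frame k 0 (θ * l / K) - frame k (-1) (-v1)) +
      μ (frame k 1 v2 - frame k 0 (θ * l / K)) = μ1 + μ2 := by
    intro l hl
    have h1 : 0 ≤ θ * l / K := by positivity
    have h2 : θ * l / K ≤ θ := by
      rw [div_le_iff₀ hK0]
      exact mul_le_mul_of_nonneg_left (by exact_mod_cast hl) hθ.le
    rw [show frame k 0 (θ * l / K) - frame k (-1) (-v1) = vec k (θ * l / K + v1) by
        simp [vec, frame]; ring,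
      show frame k 1 v2 - frame k 0 (θ * l / K) = vec k (v2 - θ * l / K) by
        simp [vec, frame]; ring,
      lin _ ⟨by linarith, by linarith⟩, lin _ ⟨by linarith, by linarith⟩]
    field_simp
    ring
  have mab : μ (frame k 1 v2 - frame k (-1) (-v1)) = μ1 + μ2 := by
    rw [← hlin]; congr 1; simp [vec, frame]; constructor <;> ring
  -- the bad events
  set badT : ℕ → Set Conf := fun n =>
    {t | T t (a0 n) (b0 n) < n * (μ (frame k 1 v2 - frame k (-1) (-v1)) - ε)}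
  set badL : ℕ → ℕ → Set Conf := fun l n =>
    {t | n * (μ (frame k 0 (θ * l / K) - frame k (-1) (-v1)) + ε) <
      TS t (Strip k (lev k (a0 n)) (lev k (gq l n))) (a0 n) (gq l n)}
  set badR : ℕ → ℕ → Set Conf := fun l n =>
    {t | n * (μ (frame k 1 v2 - frame k 0 (θ * l / K)) + ε) <
      TS t (Strip k (lev k (g l n)) (lev k (b0 n))) (g l n) (b0 n)}
  have tT : Tendsto (fun n => (law G (badT n)).toReal) atTop (𝓝 0) := hs.lower _ _ _ _ sa sb ε hε
  have tL : ∀ l, Tendsto (fun n => (law G (badL l n)).toReal) atTop (𝓝 0) := fun l =>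
    hs.strip k hk _ _ _ _ sa (sgq l) (by rw [hlev, hlev]; norm_num) ε hε
  have tR : ∀ l, Tendsto (fun n => (law G (badR l n)).toReal) atTop (𝓝 0) := fun l =>
    hs.strip k hk _ _ _ _ (sg l) sb (by rw [hlev, hlev]; norm_num) ε hε
  set tot : ℕ → ℝ := fun n => (law G (badT n)).toReal +
    ∑ l ∈ Finset.range (K + 1), ((law G (badL l n)).toReal + (law G (badR l n)).toReal)
  have ttot : Tendsto tot atTop (𝓝 0) := by
    simpa using tT.add (tendsto_finset_sum (Finset.range (K + 1)) fun l _ => (tL l).add (tR l))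
  -- the constant
  set const : ℝ := M * (3 * R + 1) + 12 * M + δ
  have hconst : 0 ≤ const := by positivity
  have hclose : ∀ᶠ n : ℕ in atTop, 2 ≤ n ∧ const / n < η ∧ tot n < c * ε' / 4 := by
    filter_upwards [eventually_ge_atTop 2,
      (tendsto_const_div_atTop_nhds_zero_nat const).eventually (eventually_lt_nhds hη),
      ttot.eventually (eventually_lt_nhds (show (0 : ℝ) < c * ε' / 4 by positivity))] with n a b e
    exact ⟨a, b, e⟩
  filter_upwards [hclose] with n ⟨hn, hn1, hn2⟩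
  have hn0 : (0 : ℝ) < n := by exact_mod_cast (by omega : 0 < n)
  set N := ⌊θ * n / D⌋₊
  set bad : Set Conf := {t | ¬ InRange M t} ∪ (badT n ∪
    ⋃ l ∈ Finset.range (K + 1), (badL l n ∪ badR l n))
  have hbadP : (law G bad).toReal ≤ tot n := by
    have h0 : law G {t | ¬ InRange M t} = 0 := ae_iff.1 hM0
    calc (law G bad).toReal ≤ (law G {t | ¬ InRange M t}).toReal + (law G (badT n ∪
          ⋃ l ∈ Finset.range (K + 1), (badL l n ∪ badR l n))).toReal := measureReal_union_le _ _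
      _ ≤ 0 + ((law G (badT n)).toReal +
          (law G (⋃ l ∈ Finset.range (K + 1), (badL l n ∪ badR l n))).toReal) :=
          add_le_add (by rw [h0]; simp) (measureReal_union_le _ _)
      _ ≤ _ := by
        rw [zero_add]
        refine add_le_add le_rfl ((measureReal_biUnion_finset_le _ _).trans ?_)
        exact Finset.sum_le_sum fun l _ => measureReal_union_le _ _
  set U : ℝ := n * (μ1 + μ2 + 2 * ε) + M * (4 * θ * n / K + 12)
  set L : ℝ := n * (μ1 + μ2 - ε)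
  have hUL : L ≤ U + M * (3 * R + 1) := by
    have h1 : (0 : ℝ) ≤ M * (4 * θ * n / K + 12) := by positivity
    have h2 : (0 : ℝ) ≤ M * (3 * R + 1) := by positivity
    simp only [U, L]; nlinarith
  have hbad : ∀ t ∉ bad, InRange M t ∧ L ≤ T t (a0 n) (b0 n) ∧ ∀ i ≤ N,
      TS t (Strip k (-(n : ℤ)) (-1)) (a0 n) (site k D i - d) +
        TS t (Strip k 0 n) (site k D i) (b0 n) ≤ U := by
    intro t ht
    simp only [bad, Set.mem_union, Set.mem_iUnion, not_or, not_exists, Set.mem_ofPred_eq, not_not,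
      badT, mab, not_lt] at ht
    obtain ⟨hrange, hT, hgrid⟩ := ht
    refine ⟨hrange, hT, fun i hi => ?_⟩
    refine grid_bound hk hd hrange hK0 hθ (by omega) hi (fun l hl => ?_)
    obtain ⟨hgL, hgR⟩ := hgrid l (Finset.mem_range.2 (by omega))
    simp only [badL, badR, Set.mem_ofPred_eq, not_lt, hlg, levpt, a0, b0, g] at hgL hgR
    exact ⟨levpt _ _, levpt _ _, _, _, hgL, hgR, by rw [← mL l hl]; ring⟩
  have main := average_bound (G := G) (v1 := v1) (v2 := v2) (M := M) (r₁ := r₁) (r₀ := r₀) hk hm (N := N) (R := R) (D := D) hn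
    le_rfl hd hr (a0 := a0 n) (b0 := b0 n) (levpt _ _) (levpt _ _)
    (by simp only [a0, pt]; have := Int.floor_le ((-v1) * (n : ℝ)); linarith)
    (by simp only [b0, pt]; exact Int.floor_le _) hUL hbad
  set P := (law G {t | Seed k n R v1 v2 r₁ d t}).toReal
  have hN : θ * n / D < N + 1 := Nat.lt_floor_add_one _
  have hNn : θ * n < (N + 1) * D := (div_lt_iff₀ (by positivity)).1 hN
  have e4 : U + M * (3 * R + 1) - L + δ = 3 * ε * n + 4 * M * θ / K * n + const := by
    simp only [U, L, const]; ring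
  rw [e4] at main
  refine close_arith hδ hc hε' (by positivity) hn0 hK0 (by positivity) hNn ?_ ?_
    (hbadP.trans hn2.le) main
  · rw [div_lt_iff₀ hη] at hK; rw [div_lt_iff₀ hK0]; linarith
  · rwa [div_lt_iff₀ hn0] at hn1

end Vale.Agent.P158.Straight
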