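import Vale.Agent.P158.Spec3
import Vale.Agent.P158.BasicLaw

/-!
Sites whose segment stays in no tube are rare: the segment is pinned at finitely many levels by
`BentNull`, and between two pinned points it is short by the uniform length bound.
-/

open MeasureTheory Filter Topology
open scoped ENNReal

namespace Vale.Agent.P158

variable {t : Conf} {γ : ℤ → V} {i₀ i₁ : ℤ}

/-- The walk along a piece of a path. -/
lemma wild_walk (hadj : ∀ m, i₀ ≤ m → m < i₁ → Adj (γ m) (γ (m + 1)))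
    (hinj : Set.InjOn γ (Set.Icc i₀ i₁)) {p q : ℤ} (hp : i₀ ≤ p) (hpq : p ≤ q) (hq : q ≤ i₁) :
    ∃ w : grid.Walk (γ p) (γ q), w.IsPath ∧ (w.length : ℤ) = q - p ∧
      plen t w = ∑ m ∈ Finset.Ico p q, wt t (γ m) (γ (m + 1)) := by
  suffices h : ∀ d : ℕ, p + d ≤ i₁ → ∃ w : grid.Walk (γ p) (γ (p + d)), w.IsPath ∧
      w.length = d ∧ plen t w = ∑ m ∈ Finset.Ico p (p + d), wt t (γ m) (γ (m + 1)) ∧
      ∀ v ∈ w.support, ∃ m, p ≤ m ∧ m ≤ p + d ∧ γ m = v by
    obtain ⟨d, rfl⟩ : ∃ d : ℕ, q = p + d := ⟨(q - p).toNat, by omega⟩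
    obtain ⟨w, h1, h2, h3, -⟩ := h d hq
    exact ⟨w, h1, by omega, h3⟩
  intro d
  induction d with
  | zero =>
    intro _
    refine ⟨(SimpleGraph.Walk.nil : grid.Walk (γ p) (γ p)).copy rfl (by simp), ?_, ?_, ?_, ?_⟩
    · simp
    · simp
    · simp [plen_copy]
    · intro v hv
      simp at hv
      exact ⟨p, le_rfl, by simp, hv.symm⟩
  | succ d ih =>
    intro hd
    push_cast at hd ⊢
    obtain ⟨w, h1, h2, h3, h4⟩ := ih (by omega)
    have hA : grid.Adj (γ (p + d)) (γ (p + (d + 1))) := by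
      rw [← add_assoc]; exact hadj _ (by omega) (by omega)
    have hnot : γ (p + (d + 1)) ∉ w.support := fun hv => by
      obtain ⟨m, hm1, hm2, hm3⟩ := h4 _ hv
      have := hinj ⟨by omega, by omega⟩ ⟨by omega, by omega⟩ hm3
      omega
    refine ⟨w.concat hA, h1.concat hnot hA, by simp [h2], ?_, ?_⟩
    · have e : Finset.Ico p (p + (↑d + 1)) = insert (p + (d : ℤ)) (Finset.Ico p (p + d)) := by
        ext x; simp; omega
      rw [plen_concat, h3, e, Finset.sum_insert (by simp), add_assoc, add_comm]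
    · intro v hv
      rw [SimpleGraph.Walk.support_concat, List.mem_append,
        List.mem_singleton] at hv
      rcases hv with hv | rfl
      · obtain ⟨m, hm1, hm2, hm3⟩ := h4 v hv
        exact ⟨m, hm1, by omega, hm3⟩
      · exact ⟨_, by omega, le_rfl, rfl⟩

/-- A piece of a geodesic segment is a geodesic segment. -/
lemma wild_sub (h0 : ∀ e, 0 ≤ t e) (h : SegGeo t γ i₀ i₁) {p q : ℤ} (hp : i₀ ≤ p) (hpq : p ≤ q)
    (hq : q ≤ i₁) : SegGeo t γ p q := by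
  refine ⟨hpq, fun m a b => h.adj m (hp.trans a) (by omega),
    h.inj.mono (Set.Icc_subset_Icc hp hq), ?_⟩
  obtain ⟨w, -, -, hw⟩ := wild_walk (t := t) h.adj h.inj hp hpq hq
  obtain ⟨u, -, -, hu⟩ := wild_walk (t := t) h.adj h.inj le_rfl hp (hpq.trans hq)
  obtain ⟨v, -, -, hv⟩ := wild_walk (t := t) h.adj h.inj (hp.trans hpq) hq le_rfl
  have e := h.geo
  have hsplit : ∀ a b c : ℤ, a ≤ b → b ≤ c → ∑ m ∈ Finset.Ico a c, wt t (γ m) (γ (m + 1)) =
      ∑ m ∈ Finset.Ico a b, wt t (γ m) (γ (m + 1)) +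
        ∑ m ∈ Finset.Ico b c, wt t (γ m) (γ (m + 1)) := fun a b c hab hbc => by
    rw [← Finset.sum_union (Finset.Ico_disjoint_Ico_consecutive a b c),
      Finset.Ico_union_Ico_eq_Ico hab hbc]
  rw [hsplit _ _ _ hp (hpq.trans hq), hsplit _ _ _ hpq hq, ← hu, ← hv, ← hw] at e
  have a1 := T_le h0 u
  have a2 := T_le h0 v
  have a3 := T_le h0 w
  have a4 := T_triangle h0 (γ i₀) (γ p) (γ i₁)
  have a5 := T_triangle h0 (γ p) (γ q) (γ i₁)
  rw [← hw]
  linarith

/-- Levels and heights change by at most the number of steps. -/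
lemma wild_step {k : ℤ} (hk : k = 0 ∨ k = 1)
    (hadj : ∀ m, i₀ ≤ m → m < i₁ → Adj (γ m) (γ (m + 1))) {p q : ℤ} (hp : i₀ ≤ p) (hpq : p ≤ q)
    (hq : q ≤ i₁) : |lev k (γ q) - lev k (γ p)| ≤ q - p ∧ |(γ q).2 - (γ p).2| ≤ q - p ∧
      |(γ q).1 - (γ p).1| ≤ q - p := by
  suffices h : ∀ d : ℕ, p + d ≤ i₁ → |lev k (γ (p + d)) - lev k (γ p)| ≤ d ∧
      |(γ (p + d)).2 - (γ p).2| ≤ d ∧ |(γ (p + d)).1 - (γ p).1| ≤ d by
    obtain ⟨d, rfl⟩ : ∃ d : ℕ, q = p + d := ⟨(q - p).toNat, by omega⟩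
    have := h d hq
    simpa using this
  intro d
  induction d with
  | zero => simp
  | succ d ih =>
    intro hd
    push_cast at hd ⊢
    have hA := hadj (p + d) (by omega) (by omega)
    rw [adj_iff] at hA
    have := ih (by omega)
    rw [← add_assoc]
    simp only [lev, abs_le] at this ⊢
    rcases hk with rfl | rfl <;> omega

/-- The first index after `a` at which level `c` is reached. -/
lemma wild_first {k : ℤ} (hk : k = 0 ∨ k = 1)
    (hadj : ∀ m, i₀ ≤ m → m < i₁ → Adj (γ m) (γ (m + 1))) {a b c : ℤ} (ha : i₀ ≤ a) (hab : a ≤ b)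
    (hb : b ≤ i₁) (h1 : lev k (γ a) < c) (h2 : c ≤ lev k (γ b)) :
    ∃ m, a < m ∧ m ≤ b ∧ lev k (γ m) = c ∧ ∀ m', a ≤ m' → m' < m → lev k (γ m') < c := by
  classical
  have hex : ∃ d : ℕ, c ≤ lev k (γ (a + d)) := ⟨(b - a).toNat, by
    rwa [show a + ((b - a).toNat : ℤ) = b by omega]⟩
  set d := Nat.find hex with hd
  have hd0 : d ≠ 0 := by
    intro h
    have := Nat.find_spec hex
    rw [← hd, h] at this
    simp at this
    omega
  have hle : d ≤ (b - a).toNat := Nat.find_le (by rwa [show a + ((b - a).toNat : ℤ) = b by omega])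
  have hbefore : ∀ m', a ≤ m' → m' < a + d → lev k (γ m') < c := by
    intro m' x y
    have := Nat.find_min hex (m := (m' - a).toNat) (by omega)
    rw [show a + ((m' - a).toNat : ℤ) = m' by omega] at this
    omega
  refine ⟨a + d, by omega, by omega, le_antisymm ?_ (Nat.find_spec hex), hbefore⟩
  have := hbefore (a + d - 1) (by omega) (by omega)
  have hs := (wild_step hk hadj (p := a + d - 1) (q := a + d) (by omega) (by omega) (by omega)).1
  rw [abs_le] at hs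
  omega

/-- The last index before `b` at which level `c` is reached. -/
lemma wild_last {k : ℤ} (hk : k = 0 ∨ k = 1)
    (hadj : ∀ m, i₀ ≤ m → m < i₁ → Adj (γ m) (γ (m + 1))) {a b c : ℤ} (ha : i₀ ≤ a) (hab : a ≤ b)
    (hb : b ≤ i₁) (h1 : lev k (γ a) ≤ c) (h2 : c < lev k (γ b)) :
    ∃ m, a ≤ m ∧ m < b ∧ lev k (γ m) = c ∧ ∀ m', m < m' → m' ≤ b → c < lev k (γ m') := by
  classical
  have hex : ∃ d : ℕ, lev k (γ (b - d)) ≤ c := ⟨(b - a).toNat, by
    rwa [show b - ((b - a).toNat : ℤ) = a by omega]⟩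
  set d := Nat.find hex with hd
  have hd0 : d ≠ 0 := by
    intro h
    have := Nat.find_spec hex
    rw [← hd, h] at this
    simp at this
    omega
  have hle : d ≤ (b - a).toNat := Nat.find_le (by rwa [show b - ((b - a).toNat : ℤ) = a by omega])
  have hafter : ∀ m', b - d < m' → m' ≤ b → c < lev k (γ m') := by
    intro m' x y
    have := Nat.find_min hex (m := (b - m').toNat) (by omega)
    rw [show b - ((b - m').toNat : ℤ) = m' by omega] at this
    omega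
  refine ⟨b - d, by omega, by omega, le_antisymm (Nat.find_spec hex) ?_, hafter⟩
  have := hafter (b - d + 1) (by omega) (by omega)
  have hs := (wild_step hk hadj (p := b - d) (q := b - d + 1) (by omega) (by omega) (by omega)).1
  rw [abs_le] at hs
  omega

/-- Some walk of length at least `q` from the box of radius `B` is too light. -/
def wildFast (κ : ℝ) (B q : ℕ) : Set Conf :=
  {t | ∃ x : V, |x.1| ≤ B ∧ |x.2| ≤ B ∧ ∃ (y : V) (p : grid.Walk x y),
    p.IsPath ∧ q ≤ p.length ∧ plen t p < κ * p.length}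

lemma wildFast_prob {G : Measure ℝ} {κ : ℝ}
    (h : ∀ (x : V) (n : ℕ), law G {t | ∃ (y : V) (p : grid.Walk x y),
      p.IsPath ∧ p.length = n ∧ plen t p < κ * n} ≤ (1 / 2 : ℝ≥0∞) ^ n) (B q : ℕ) :
    law G (wildFast κ B q) ≤ ((2 * B + 1) ^ 2 : ℕ) * ((1 / 2 : ℝ≥0∞) ^ q * 2) := by
  set X := (Finset.Icc (-(B : ℤ)) B) ×ˢ (Finset.Icc (-(B : ℤ)) B) with hX
  have hsub : wildFast κ B q ⊆ ⋃ x ∈ X, ⋃ m : ℕ, {t | ∃ (y : V) (p : grid.Walk x y),
      p.IsPath ∧ p.length = q + m ∧ plen t p < κ * ((q + m : ℕ) : ℝ)} := by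
    rintro t ⟨x, hx1, hx2, y, p, hp, hl, hlt⟩
    refine Set.mem_iUnion₂.2 ⟨x, ?_, Set.mem_iUnion.2 ⟨p.length - q, y, p, hp, by omega, ?_⟩⟩
    · rw [abs_le] at hx1 hx2
      simp [hX, hx1, hx2]
    · rwa [Nat.add_sub_cancel' hl]
  refine (measure_mono hsub).trans ((measure_biUnion_finset_le X _).trans ?_)
  refine (Finset.sum_le_card_nsmul X _ ((1 / 2 : ℝ≥0∞) ^ q * 2) fun x _ => ?_).trans (le_of_eq ?_)
  · refine (measure_iUnion_le _).trans ((ENNReal.tsum_le_tsum fun m => h x (q + m)).trans ?_)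
    simp_rw [pow_add]
    rw [ENNReal.tsum_mul_left, ENNReal.tsum_geometric]
    simp
  · rw [nsmul_eq_mul]
    congr 2
    simp only [hX, Finset.card_product, Int.card_Icc, pow_two]
    rw [show ((B : ℤ) + 1 - -(B : ℤ)).toNat = 2 * B + 1 by omega]

lemma wildFast_tendsto {G : Measure ℝ} {κ : ℝ}
    (h : ∀ (x : V) (n : ℕ), law G {t | ∃ (y : V) (p : grid.Walk x y),
      p.IsPath ∧ p.length = n ∧ plen t p < κ * n} ≤ (1 / 2 : ℝ≥0∞) ^ n) (K m : ℕ) (hm : 0 < m) :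
    Tendsto (fun n : ℕ => law G (wildFast κ (K * n) (n / m))) atTop (𝓝 0) := by
  set A : ℝ := 2 * ((2 * K * m + 1 : ℕ) : ℝ) ^ 2 * 2
  have hlim : Tendsto (fun q : ℕ => A * ((q : ℝ) ^ 2 * (1 / 2) ^ q + (1 / 2) ^ q))
      atTop (𝓝 0) := by
    have h1 := tendsto_pow_const_mul_const_pow_of_lt_one 2 (r := (1 / 2 : ℝ)) (by norm_num)
      (by norm_num)
    have h2 := tendsto_pow_atTop_nhds_zero_of_lt_one (r := (1 / 2 : ℝ)) (by norm_num) (by norm_num)
    simpa using (h1.add h2).const_mul A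
  have hq : Tendsto (fun n : ℕ => n / m) atTop atTop := Nat.tendsto_div_const_atTop hm.ne'
  have hlim' := (ENNReal.tendsto_ofReal hlim).comp hq
  rw [ENNReal.ofReal_zero] at hlim'
  refine tendsto_of_tendsto_of_tendsto_of_le_of_le tendsto_const_nhds hlim'
    (fun n => zero_le) fun n => (wildFast_prob h _ _).trans ?_
  simp only [Function.comp]
  have e : ((1 / 2 : ℝ≥0∞)) ^ (n / m) * 2 = ENNReal.ofReal ((1 / 2) ^ (n / m) * 2) := by
    rw [ENNReal.ofReal_mul (by positivity), ENNReal.ofReal_pow (by norm_num)]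
    norm_num [ENNReal.ofReal_div_of_pos]
  rw [e, ← ENNReal.ofReal_natCast, ← ENNReal.ofReal_mul (Nat.cast_nonneg _)]
  refine ENNReal.ofReal_le_ofReal ?_
  have hn : n ≤ m * (n / m + 1) := by
    have h1 := Nat.div_add_mod n m
    have h2 := Nat.mod_lt n hm
    rw [mul_add, mul_one]
    omega
  have hB : 2 * (K * n) + 1 ≤ (2 * K * m + 1) * (n / m + 1) := by
    calc 2 * (K * n) + 1 ≤ 2 * K * (m * (n / m + 1)) + (n / m + 1) := by
          rw [← mul_assoc]; exact Nat.add_le_add (Nat.mul_le_mul_left _ hn) (Nat.le_add_left 1 _)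
      _ = (2 * K * m + 1) * (n / m + 1) := by ring
  have hB2 : (((2 * (K * n) + 1) ^ 2 : ℕ) : ℝ) ≤
      (((2 * K * m + 1 : ℕ) : ℝ) * (((n / m : ℕ) : ℝ) + 1)) ^ 2 := by
    push_cast
    exact pow_le_pow_left₀ (by positivity) (by exact_mod_cast hB) 2
  have hpow : (0 : ℝ) ≤ (1 / 2 : ℝ) ^ (n / m) := by positivity
  have hsq : (((n / m : ℕ) : ℝ) + 1) ^ 2 ≤ 2 * (((n / m : ℕ) : ℝ) ^ 2 + 1) := by
    nlinarith [sq_nonneg (((n / m : ℕ) : ℝ) - 1)]
  calc (((2 * (K * n) + 1) ^ 2 : ℕ) : ℝ) * ((1 / 2) ^ (n / m) * 2)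
      ≤ ((((2 * K * m + 1 : ℕ) : ℝ)) ^ 2 * (2 * (((n / m : ℕ) : ℝ) ^ 2 + 1))) *
          ((1 / 2) ^ (n / m) * 2) := by
        refine mul_le_mul_of_nonneg_right (hB2.trans ?_) (by positivity)
        rw [mul_pow]
        exact mul_le_mul_of_nonneg_left hsq (by positivity)
    _ = A * (((n / m : ℕ) : ℝ) ^ 2 * (1 / 2) ^ (n / m) + (1 / 2) ^ (n / m)) := by
        simp only [A]; ring

/-- A piece of a geodesic segment starting in the box is short. -/
lemma wild_short {M κ : ℝ} {B q : ℕ} {k : ℤ} (hk : k = 0 ∨ k = 1) (hκ : 0 < κ) (ht : InRange M t)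
    (hf : t ∉ wildFast κ B q) (h : SegGeo t γ i₀ i₁)
    (h1 : |(γ i₀).1| ≤ B) (h2 : |(γ i₀).2| ≤ B) :
    ((i₁ - i₀ : ℤ) : ℝ) ≤ q + M / κ *
      (|(lev k (γ i₁) : ℝ) - lev k (γ i₀)| + 2 * |((γ i₁).2 : ℝ) - (γ i₀).2|) := by
  obtain ⟨w, hp, hl, hw⟩ := wild_walk (t := t) h.adj h.inj le_rfl h.le le_rfl
  have hM : 0 ≤ M := le_trans (ht ((0, 0), true)).1 (ht ((0, 0), true)).2
  set D := |(lev k (γ i₁) : ℝ) - lev k (γ i₀)| + 2 * |((γ i₁).2 : ℝ) - (γ i₀).2| with hD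
  have hD0 : 0 ≤ M / κ * D := by positivity
  have hlr : (w.length : ℝ) = ((i₁ - i₀ : ℤ) : ℝ) := by exact_mod_cast hl
  rw [← hlr]
  by_cases hq : q ≤ w.length
  · have h3 : κ * w.length ≤ plen t w := by
      by_contra hc
      exact hf ⟨γ i₀, h1, h2, _, w, hp, hq, not_le.1 hc⟩
    have h4 : T t (γ i₀) (γ i₁) ≤ M * D := by
      refine (T_le_l1 ht _ _).trans (mul_le_mul_of_nonneg_left ?_ hM)
      rcases hk with rfl | rfl <;> simp only [hD, lev] <;> push_cast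
      · have := abs_nonneg (((γ i₁).2 : ℝ) - (γ i₀).2)
        rw [abs_sub_comm ((γ i₀).1 : ℝ), abs_sub_comm ((γ i₀).2 : ℝ)]
        simp only [zero_mul, add_zero]
        linarith
      · set u := ((γ i₁).1 : ℝ) - (γ i₀).1
        set v := ((γ i₁).2 : ℝ) - (γ i₀).2
        have h5 : |u| ≤ |u + v| + |v| := by
          simpa using abs_sub (u + v) v
        rw [abs_sub_comm ((γ i₀).1 : ℝ), abs_sub_comm ((γ i₀).2 : ℝ),
          show ((γ i₁).1 : ℝ) + 1 * (γ i₁).2 - (((γ i₀).1 : ℝ) + 1 * (γ i₀).2) = u + v by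
            simp only [u, v]; ring]
        linarith
    rw [hw, h.geo] at h3
    have : (w.length : ℝ) ≤ M / κ * D := by
      rw [div_mul_eq_mul_div, le_div_iff₀ hκ]; linarith
    linarith [Nat.cast_nonneg (α := ℝ) q]
  · have : (w.length : ℝ) ≤ q := by exact_mod_cast (not_le.1 hq).le
    linarith

/-- The piece of a site segment from its start to the first visit of a higher level. -/
lemma SiteSeg.wild_left (h0 : ∀ e, 0 ≤ t e) {k : ℤ} {R : ℕ} {r₁ C C' : ℝ} {n₁ n₂ n₂' : ℕ}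
    {i j b : ℤ} (hk : k = 0 ∨ k = 1) (h : SiteSeg k R r₁ C n₁ n₂ t γ i₀ i₁ i j)
    (hC : C ≤ C') (hjb : j < b) (hb : b ≤ i₁) (hlev : lev k (γ b) = n₂')
    (hbefore : ∀ m, j ≤ m → m < b → lev k (γ m) < n₂') (hR : R ≤ n₂')
    (hs : |((γ b).2 : ℝ)| ≤ C' * n₂') : SiteSeg k R r₁ C' n₁ n₂' t γ i₀ b i j := by
  have hij := h.cross.le
  have hi := h.cross.lo
  refine ⟨wild_sub h0 h.seg le_rfl (by omega) hb,
    ⟨h.cross.lo, h.cross.le, hjb, h.cross.len, h.cross.first, h.cross.last, h.cross.before,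
      fun m a c => h.cross.after m a (c.trans hb)⟩, h.origin, h.heavy, h.lev₀, hlev,
    fun m a c => ⟨(h.strip m a (c.trans hb)).1, ?_⟩,
    h.slope₀.trans (mul_le_mul_of_nonneg_right hC (Nat.cast_nonneg _)), hs⟩
  rcases lt_or_ge m i with x | x
  · have := h.cross.before m a x
    omega
  rcases lt_or_ge m j with y | y
  · have := (wild_step hk h.seg.adj (p := i) (q := m) hi.le x (by omega)).1
    have := h.cross.len
    rw [h.cross.first, abs_le] at *
    omega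
  · rcases eq_or_lt_of_le c with rfl | z
    · rw [hlev]
    · exact (hbefore m y z).le

/-- The piece of a site segment from the last visit of a lower level to its end. -/
lemma SiteSeg.wild_right (h0 : ∀ e, 0 ≤ t e) {k : ℤ} {R : ℕ} {r₁ C C' : ℝ} {n₁ n₂ n₁' : ℕ}
    {i j a : ℤ} (hk : k = 0 ∨ k = 1) (h : SiteSeg k R r₁ C n₁ n₂ t γ i₀ i₁ i j)
    (hC : C ≤ C') (hai : a < i) (ha : i₀ ≤ a) (hlev : lev k (γ a) = -(n₁' : ℤ))
    (hafter : ∀ m, a < m → m ≤ i → -(n₁' : ℤ) < lev k (γ m)) (hR : R ≤ n₁')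
    (hs : |((γ a).2 : ℝ)| ≤ C' * n₁') : SiteSeg k R r₁ C' n₁' n₂ t γ a i₁ i j := by
  have hij := h.cross.le
  have hj := h.cross.hi
  refine ⟨wild_sub h0 h.seg ha (by omega) le_rfl,
    ⟨hai, h.cross.le, h.cross.hi, h.cross.len, h.cross.first, h.cross.last,
      fun m x y => h.cross.before m (ha.trans x) y, h.cross.after⟩, h.origin, h.heavy, hlev,
    h.lev₁, fun m x y => ⟨?_, (h.strip m (ha.trans x) y).2⟩,
    hs, h.slope₁.trans (mul_le_mul_of_nonneg_right hC (Nat.cast_nonneg _))⟩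
  rcases lt_or_ge j m with z | z
  · have := h.cross.after m z y
    omega
  rcases lt_or_ge i m with z' | z'
  · have := (wild_step hk h.seg.adj (p := i) (q := m) (by omega) z'.le (by omega)).1
    have := h.cross.len
    rw [h.cross.first, abs_le] at *
    omega
  · rcases eq_or_lt_of_le x with rfl | w
    · rw [hlev]
    · exact (hafter m w z').le

/-- Pieces of geodesic segments between two points of the box of radius `B` are short. -/
def wildShort (k : ℤ) (Λ q₀ : ℝ) (B : ℕ) (t : Conf) : Prop :=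
  (∀ e, 0 ≤ t e) ∧ ∀ (γ : ℤ → V) (i₀ i₁ : ℤ), SegGeo t γ i₀ i₁ →
    |(γ i₀).1| ≤ B → |(γ i₀).2| ≤ B → |(γ i₁).1| ≤ B → |(γ i₁).2| ≤ B →
    ((i₁ - i₀ : ℤ) : ℝ) ≤ q₀ +
      Λ * (|(lev k (γ i₁) : ℝ) - lev k (γ i₀)| + 2 * |((γ i₁).2 : ℝ) - (γ i₀).2|)

/-- The union of the exceptional events. -/
def wildBad (k : ℤ) (R : ℕ) (r₁ C' ρ' : ℝ) (m n : ℕ) : Set Conf :=
  bentSite k R r₁ C' ρ' n n ∪
    ⋃ u ∈ Finset.Icc 1 m, (bentSite k R r₁ C' ρ' n ⌈((u : ℝ) / m) * n⌉₊ ∪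
      bentSite k R r₁ C' ρ' ⌈((u : ℝ) / m) * n⌉₊ n)

/-- Between two points near a line, a piece of a short geodesic stays near that line. -/
lemma wild_between {Λ q₀ s η δ C : ℝ} {B : ℕ} {k : ℤ} (hk : k = 0 ∨ k = 1) (hΛ : 0 ≤ Λ)
    (hf : wildShort k Λ q₀ B t) (h : SegGeo t γ i₀ i₁)
    (hbox : ∀ m, i₀ ≤ m → m ≤ i₁ → |(γ m).1| ≤ B ∧ |(γ m).2| ≤ B) (hs : |s| ≤ C)
    {p q m : ℤ} (hp : i₀ ≤ p) (hpm : p ≤ m) (hmq : m ≤ q) (hq : q ≤ i₁)
    (hgap : |(lev k (γ q) : ℝ) - lev k (γ p)| ≤ δ)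
    (hpn : |((γ p).2 : ℝ) - s * lev k (γ p)| ≤ η) (hqn : |((γ q).2 : ℝ) - s * lev k (γ q)| ≤ η) :
    |((γ m).2 : ℝ) - s * lev k (γ m)| ≤
      η + (1 + C) * (q₀ + Λ * ((1 + 2 * C) * δ + 4 * η)) := by
  have hC : 0 ≤ C := (abs_nonneg s).trans hs
  obtain ⟨hb1, hb2⟩ := hbox p hp (by omega)
  obtain ⟨hb3, hb4⟩ := hbox q (by omega) hq
  have hlen := hf.2 γ p q (wild_sub hf.1 h hp (hpm.trans hmq) hq) hb1 hb2 hb3 hb4
  have hdy : |((γ q).2 : ℝ) - (γ p).2| ≤ C * δ + 2 * η := by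
    have e : ((γ q).2 : ℝ) - (γ p).2 = (((γ q).2 : ℝ) - s * lev k (γ q)) -
        (((γ p).2 : ℝ) - s * lev k (γ p)) + s * ((lev k (γ q) : ℝ) - lev k (γ p)) := by ring
    rw [e]
    refine (abs_add_le _ _).trans ?_
    refine (add_le_add (abs_sub _ _) (le_of_eq (abs_mul _ _))).trans ?_
    have := mul_le_mul hs hgap (abs_nonneg _) hC
    linarith
  have hsteps : ((q - p : ℤ) : ℝ) ≤ q₀ + Λ * ((1 + 2 * C) * δ + 4 * η) := by
    refine hlen.trans (add_le_add le_rfl (mul_le_mul_of_nonneg_left ?_ hΛ))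
    linarith
  obtain ⟨hl, hy, -⟩ := wild_step hk h.adj hp hpm (hmq.trans hq)
  have hl' : |(lev k (γ m) : ℝ) - lev k (γ p)| ≤ ((q - p : ℤ) : ℝ) := by
    exact_mod_cast hl.trans (by omega : m - p ≤ q - p)
  have hy' : |((γ m).2 : ℝ) - (γ p).2| ≤ ((q - p : ℤ) : ℝ) := by
    exact_mod_cast hy.trans (by omega : m - p ≤ q - p)
  have e : ((γ m).2 : ℝ) - s * lev k (γ m) = (((γ p).2 : ℝ) - s * lev k (γ p)) +
      ((((γ m).2 : ℝ) - (γ p).2) - s * ((lev k (γ m) : ℝ) - lev k (γ p))) := by ring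
  rw [e]
  refine (abs_add_le _ _).trans (add_le_add hpn ?_)
  refine (abs_sub _ _).trans ?_
  rw [abs_mul]
  have h6 := mul_le_mul hs hl' (abs_nonneg _) hC
  have h7 := mul_le_mul_of_nonneg_left hsteps (by linarith : 0 ≤ 1 + C)
  linarith

/-- **Outside the exceptional events every site segment stays in a tube.** -/
lemma wild_det {Λ ρ ρ' C : ℝ} {k : ℤ} {R K m n : ℕ} {r₁ : ℝ} (hk : k = 0 ∨ k = 1) (hΛ : 0 ≤ Λ)
    (hm : 0 < m) (hρ' : 0 < ρ') (hn : R * m < n) (hf : wildShort k Λ ((n : ℝ) / m) (K * n) t)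
    (hK : C + 2 + (Λ * (2 + 4 * C) + 1) ≤ K)
    (hsmall : 2 * ρ' * n + (1 + C) * ((n : ℝ) / m +
      Λ * ((1 + 2 * C) * ((n : ℝ) / m + 1) + 4 * (2 * ρ' * n))) ≤ ρ * n)
    (hbad : t ∉ wildBad k R r₁ ((C + K) * m) ρ' m n) : t ∉ wildSite k R r₁ C ρ n := by
  rintro ⟨γ, i₀, i₁, i, j, h, hwild⟩
  have h0 := hf.1
  have hnpos : (0 : ℝ) < n := by exact_mod_cast (Nat.zero_le _).trans_lt hn
  have hC : 0 ≤ C := by
    by_contra hc
    have h1 := (abs_nonneg _).trans h.slope₁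
    nlinarith
  have hm1 : (1 : ℝ) ≤ m := by exact_mod_cast hm
  simp only [wildBad, Set.mem_union, Set.mem_iUnion, not_or, not_exists] at hbad
  obtain ⟨hb0, hbu⟩ := hbad
  set C' := (C + K) * m with hC'
  have hCC' : C ≤ C' := by
    rw [hC']; nlinarith [(Nat.cast_nonneg K : (0 : ℝ) ≤ K)]
  -- the segment is short and stays in the box
  have e0 : |((γ i₀).1 : ℝ)| ≤ (C + 1) * n ∧ |((γ i₀).2 : ℝ)| ≤ C * n := by
    refine ⟨?_, h.slope₀⟩
    have hl : ((γ i₀).1 : ℝ) + (k : ℝ) * (γ i₀).2 = -(n : ℝ) := by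
      have := congrArg (fun z : ℤ => (z : ℝ)) h.lev₀
      simpa [lev] using this
    have hk1 : |(k : ℝ) * (γ i₀).2| ≤ |((γ i₀).2 : ℝ)| := by
      rcases hk with rfl | rfl <;> simp
    have h9 := abs_le.1 (hk1.trans h.slope₀)
    have hCn : 0 ≤ C * (n : ℝ) := mul_nonneg hC hnpos.le
    rw [abs_le, add_mul]
    constructor <;> linarith
  have hKC : C + 1 ≤ (K : ℝ) := by
    have : 0 ≤ Λ * (2 + 4 * C) := by positivity
    linarith
  have hbox0 : |(γ i₀).1| ≤ ((K * n : ℕ) : ℤ) ∧ |(γ i₀).2| ≤ ((K * n : ℕ) : ℤ) := by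
    have h1 : |((γ i₀).1 : ℝ)| ≤ (K : ℝ) * n := e0.1.trans (by gcongr)
    have h2 : |((γ i₀).2 : ℝ)| ≤ (K : ℝ) * n := e0.2.trans (by gcongr; linarith)
    exact ⟨by exact_mod_cast h1, by exact_mod_cast h2⟩
  have hbox1 : |(γ i₁).1| ≤ ((K * n : ℕ) : ℤ) ∧ |(γ i₁).2| ≤ ((K * n : ℕ) : ℤ) := by
    have hl : ((γ i₁).1 : ℝ) + (k : ℝ) * (γ i₁).2 = (n : ℝ) := by
      have := congrArg (fun z : ℤ => (z : ℝ)) h.lev₁
      simpa [lev] using this
    have hk1 : |(k : ℝ) * (γ i₁).2| ≤ |((γ i₁).2 : ℝ)| := by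
      rcases hk with rfl | rfl <;> simp
    have h9 := abs_le.1 (hk1.trans h.slope₁)
    have hKn : (C + 1) * (n : ℝ) ≤ K * n := mul_le_mul_of_nonneg_right hKC hnpos.le
    have hCn : 0 ≤ C * (n : ℝ) := mul_nonneg hC hnpos.le
    have h1 : |((γ i₁).1 : ℝ)| ≤ (K : ℝ) * n := by
      rw [add_mul, one_mul] at hKn
      rw [abs_le]; constructor <;> linarith
    have h2 : |((γ i₁).2 : ℝ)| ≤ (K : ℝ) * n := h.slope₁.trans (by gcongr; linarith)
    exact ⟨by exact_mod_cast h1, by exact_mod_cast h2⟩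
  have hlen : ((i₁ - i₀ : ℤ) : ℝ) ≤ (Λ * (2 + 4 * C) + 1) * n := by
    refine (hf.2 γ i₀ i₁ h.seg hbox0.1 hbox0.2 hbox1.1 hbox1.2).trans ?_
    rw [h.lev₀, h.lev₁]
    push_cast
    have h1 : |(n : ℝ) - -(n : ℝ)| = 2 * n := by rw [abs_of_nonneg (by linarith)]; ring
    have h2 : |((γ i₁).2 : ℝ) - (γ i₀).2| ≤ 2 * C * n :=
      (abs_sub _ _).trans (by linarith [h.slope₀, h.slope₁])
    have h3 : (n : ℝ) / m ≤ n := div_le_self hnpos.le hm1
    have h4 : Λ * (2 * n + 2 * |((γ i₁).2 : ℝ) - (γ i₀).2|) ≤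
        Λ * ((2 + 4 * C) * n) := mul_le_mul_of_nonneg_left (by linarith) hΛ
    rw [h1, add_mul, one_mul, mul_assoc]
    linarith
  have hbox : ∀ m', i₀ ≤ m' → m' ≤ i₁ → |(γ m').1| ≤ ((K * n : ℕ) : ℤ) ∧
      |(γ m').2| ≤ ((K * n : ℕ) : ℤ) := by
    intro m' a b
    obtain ⟨-, hy, hx⟩ := wild_step hk h.seg.adj le_rfl a b
    have hx' : |((γ m').1 : ℝ) - (γ i₀).1| ≤ ((i₁ - i₀ : ℤ) : ℝ) := by
      exact_mod_cast hx.trans (by omega : m' - i₀ ≤ i₁ - i₀)
    have hy' : |((γ m').2 : ℝ) - (γ i₀).2| ≤ ((i₁ - i₀ : ℤ) : ℝ) := by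
      exact_mod_cast hy.trans (by omega : m' - i₀ ≤ i₁ - i₀)
    have hKn := mul_le_mul_of_nonneg_right hK hnpos.le
    have h1 : |((γ m').1 : ℝ)| ≤ (K : ℝ) * n := by
      have := abs_sub_abs_le_abs_sub ((γ m').1 : ℝ) (γ i₀).1
      linarith [e0.1]
    have h2 : |((γ m').2 : ℝ)| ≤ (K : ℝ) * n := by
      have := abs_sub_abs_le_abs_sub ((γ m').2 : ℝ) (γ i₀).2
      linarith [e0.2]
    exact ⟨by exact_mod_cast h1, by exact_mod_cast h2⟩
  -- the line
  set s : ℝ := ((γ i₁).2 : ℝ) / n with hs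
  have hsC : |s| ≤ C := by
    rw [hs, abs_div, abs_of_pos hnpos, div_le_iff₀ hnpos]; exact h.slope₁
  obtain ⟨m₀, hm0a, hm0b, hm0c⟩ := hwild s hsC
  set η := 2 * ρ' * n with hη
  let Near : ℤ → Prop := fun p => |((γ p).2 : ℝ) - s * lev k (γ p)| ≤ η
  have hη0 : 0 ≤ η := by positivity
  have hN0 : |-((γ i₀).2 : ℝ) / n - s| < ρ' := by
    have : t ∉ bentSite k R r₁ C' ρ' n n := hb0
    by_contra hc
    refine this ⟨γ, i₀, i₁, i, j, ⟨h.seg, h.cross, h.origin, h.heavy, h.lev₀, h.lev₁, h.strip,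
      h.slope₀.trans (by gcongr), h.slope₁.trans (by gcongr)⟩, not_lt.1 hc⟩
  have near_i : Near i := by
    simp only [Near, h.origin]
    simpa [lev] using hη0
  have near_i₁ : Near i₁ := by
    simp only [Near, h.lev₁, hs]
    push_cast
    rw [div_mul_cancel₀ _ hnpos.ne']
    simpa using hη0
  have near_i₀ : Near i₀ := by
    simp only [Near, h.lev₀]
    push_cast
    have e : ((γ i₀).2 : ℝ) - s * -(n : ℝ) = -((n : ℝ) * (-((γ i₀).2 : ℝ) / n - s)) := by
      field_simp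
      ring
    rw [e, abs_neg, abs_mul, abs_of_pos hnpos]
    nlinarith [abs_nonneg (-((γ i₀).2 : ℝ) / n - s)]
  -- the pinned levels
  let lv : ℕ → ℕ := fun u => ⌈((u : ℝ) / m) * n⌉₊
  have hlv_top : lv m = n := by
    simp only [lv]
    rw [div_self (by positivity), one_mul, Nat.ceil_natCast]
  have hlv_mono : ∀ u, u ≤ m → lv u ≤ n := by
    intro u hu
    simp only [lv, Nat.ceil_le]
    have : (u : ℝ) / m ≤ 1 := by
      rw [div_le_one (by positivity)]; exact_mod_cast hu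
    exact mul_le_of_le_one_left hnpos.le this
  have hlv_low : ∀ u, 1 ≤ u → (n : ℝ) / m ≤ lv u := by
    intro u hu
    refine le_trans ?_ (Nat.le_ceil _)
    rw [div_mul_eq_mul_div]
    gcongr
    exact le_mul_of_one_le_left hnpos.le (by exact_mod_cast hu)
  have hlvR : ∀ u, 1 ≤ u → R ≤ lv u ∧ 0 < lv u := by
    intro u hu
    have h1 : (R : ℝ) < lv u := lt_of_lt_of_le (by
      rw [lt_div_iff₀ (by positivity)]; exact_mod_cast hn) (hlv_low u hu)
    have h2 : R < lv u := by exact_mod_cast h1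
    omega
  have hlv_gap : ∀ u, |(lv (u + 1) : ℝ) - lv u| ≤ (n : ℝ) / m + 1 := by
    intro u
    have a1 := Nat.le_ceil (((u + 1 : ℕ) : ℝ) / m * n)
    have a2 := Nat.ceil_lt_add_one (a := ((u + 1 : ℕ) : ℝ) / m * n) (by positivity)
    have a3 := Nat.le_ceil ((u : ℝ) / m * n)
    have a4 := Nat.ceil_lt_add_one (a := (u : ℝ) / m * n) (by positivity)
    have e : ((u + 1 : ℕ) : ℝ) / m * n = (u : ℝ) / m * n + (n : ℝ) / m := by push_cast; ring
    have : 0 ≤ (n : ℝ) / m := by positivity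
    simp only [lv]
    rw [abs_le]
    constructor <;> linarith
  have hlv0 : lv 0 = 0 := by simp [lv]
  -- heights at pinned levels are within the larger slope bound
  have hheight : ∀ u, 1 ≤ u → ∀ p, i₀ ≤ p → p ≤ i₁ → |((γ p).2 : ℝ)| ≤ C' * lv u := by
    intro u hu p a b
    have h1 : |((γ p).2 : ℝ)| ≤ (K : ℝ) * n := by exact_mod_cast (hbox p a b).2
    have h2 : (n : ℝ) ≤ m * lv u := by
      have := hlv_low u hu
      rw [div_le_iff₀ (by positivity)] at this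
      linarith
    rw [hC']
    calc |((γ p).2 : ℝ)| ≤ (K : ℝ) * n := h1
      _ ≤ (C + K) * (m * lv u) :=
        mul_le_mul (by linarith) h2 hnpos.le (by linarith [(Nat.cast_nonneg K : (0:ℝ) ≤ K)])
      _ = (C + K) * m * lv u := by ring
  have hjlev := h.cross.last
  have hilev := h.cross.first
  have hij := h.cross.le
  have hloi := h.cross.lo
  have hhij := h.cross.hi
  have hright : ∀ u, 1 ≤ u → u ≤ m → ∃ b, j < b ∧ b ≤ i₁ ∧ lev k (γ b) = lv u ∧ Near b := by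
    intro u hu hum
    obtain ⟨hR', hpos⟩ := hlvR u hu
    obtain ⟨b, hb1, hb2, hb3, hb4⟩ := wild_first hk h.seg.adj (a := j) (b := i₁) (c := lv u)
      (by omega) (by omega) le_rfl (by rw [hjlev]; exact_mod_cast hpos)
      (by rw [h.lev₁]; exact_mod_cast hlv_mono u hum)
    have hseg := SiteSeg.wild_left h0 hk h hCC' hb1 hb2 hb3 hb4 hR'
      (hheight u hu b (by omega) hb2)
    have hno := (hbu u (Finset.mem_Icc.2 ⟨hu, hum⟩)).1
    have hN : |-((γ i₀).2 : ℝ) / n - ((γ b).2 : ℝ) / lv u| < ρ' := by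
      by_contra hc
      exact hno ⟨γ, i₀, b, i, j, hseg, not_lt.1 hc⟩
    refine ⟨b, hb1, hb2, hb3, ?_⟩
    have hl : (0 : ℝ) < lv u := by exact_mod_cast hpos
    have hd : |((γ b).2 : ℝ) / lv u - s| ≤ 2 * ρ' := by
      have := abs_sub_le (((γ b).2 : ℝ) / lv u) (-((γ i₀).2 : ℝ) / n) s
      rw [abs_sub_comm] at hN
      linarith
    have hln : (lv u : ℝ) ≤ n := by exact_mod_cast hlv_mono u hum
    simp only [Near, hb3]
    push_cast
    have e : ((γ b).2 : ℝ) - s * lv u = (lv u : ℝ) * (((γ b).2 : ℝ) / lv u - s) := by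
      field_simp
    rw [e, abs_mul, abs_of_pos hl, hη]
    calc (lv u : ℝ) * |((γ b).2 : ℝ) / lv u - s| ≤ n * (2 * ρ') :=
          mul_le_mul hln hd (abs_nonneg _) hnpos.le
      _ = 2 * ρ' * n := by ring
  have hleft : ∀ u, 1 ≤ u → u ≤ m →
      ∃ a, i₀ ≤ a ∧ a < i ∧ lev k (γ a) = -(lv u : ℤ) ∧ Near a := by
    intro u hu hum
    obtain ⟨hR', hpos⟩ := hlvR u hu
    obtain ⟨a, ha1, ha2, ha3, ha4⟩ := wild_last hk h.seg.adj (a := i₀) (b := i)
      (c := -(lv u : ℤ)) le_rfl (by omega) (by omega)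
      (by rw [h.lev₀]; have := hlv_mono u hum; omega) (by rw [hilev]; omega)
    have hseg := SiteSeg.wild_right h0 hk h hCC' ha2 ha1 ha3 ha4 hR'
      (hheight u hu a ha1 (by omega))
    have hno := (hbu u (Finset.mem_Icc.2 ⟨hu, hum⟩)).2
    have hN : |-((γ a).2 : ℝ) / lv u - s| < ρ' := by
      by_contra hc
      exact hno ⟨γ, a, i₁, i, j, hseg, not_lt.1 hc⟩
    refine ⟨a, ha1, ha2, ha3, ?_⟩
    have hl : (0 : ℝ) < lv u := by exact_mod_cast hpos
    have hln : (lv u : ℝ) ≤ n := by exact_mod_cast hlv_mono u hum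
    simp only [Near, ha3]
    push_cast
    have e : ((γ a).2 : ℝ) - s * -(lv u : ℝ) = -((lv u : ℝ) * (-((γ a).2 : ℝ) / lv u - s)) := by
      field_simp
      ring
    rw [e, abs_neg, abs_mul, abs_of_pos hl, hη]
    calc (lv u : ℝ) * |-((γ a).2 : ℝ) / lv u - s| ≤ n * ρ' :=
          mul_le_mul hln hN.le (abs_nonneg _) hnpos.le
      _ ≤ 2 * ρ' * n := by nlinarith
  -- the marks on either side of `m₀`
  obtain ⟨p, q, hp, hpm, hmq, hq, hgap, hpn, hqn⟩ : ∃ p q, i₀ ≤ p ∧ p ≤ m₀ ∧ m₀ ≤ q ∧ q ≤ i₁ ∧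
      |(lev k (γ q) : ℝ) - lev k (γ p)| ≤ (n : ℝ) / m + 1 ∧ Near p ∧ Near q := by
    classical
    have hg0 : (0 : ℝ) ≤ (n : ℝ) / m + 1 := by positivity
    rcases le_total i m₀ with hside | hside
    · -- right of the origin
      obtain ⟨b, hb1, hb2, hb3, hb4⟩ := hright m (by omega) le_rfl
      rcases lt_or_ge b m₀ with hlast | hlast
      · refine ⟨b, i₁, by omega, hlast.le, hm0b, le_rfl, ?_, hb4, near_i₁⟩
        rw [hb3, h.lev₁, hlv_top]
        simpa using hg0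
      · let P : ℕ → Prop := fun u => ∃ b, m₀ ≤ b ∧ b ≤ i₁ ∧ lev k (γ b) = lv u ∧ Near b
        have hex : ∃ u, 1 ≤ u ∧ u ≤ m ∧ P u := ⟨m, by omega, le_rfl, b, hlast, hb2, hb3, hb4⟩
        obtain ⟨hu1, hum, b', hb'1, hb'2, hb'3, hb'4⟩ := Nat.find_spec hex
        rcases eq_or_lt_of_le hu1 with hu | hu
        · refine ⟨i, b', by omega, hside, hb'1, hb'2, ?_, near_i, hb'4⟩
          rw [hb'3, hilev, ← hu]
          simpa [hlv0] using hlv_gap 0
        · obtain ⟨b₂, hc1, hc2, hc3, hc4⟩ := hright (Nat.find hex - 1) (by omega) (by omega)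
          have hlt : b₂ < m₀ := by
            by_contra hc
            exact Nat.find_min hex (m := Nat.find hex - 1) (by omega)
              ⟨by omega, by omega, b₂, not_lt.1 hc, hc2, hc3, hc4⟩
          refine ⟨b₂, b', by omega, hlt.le, hb'1, hb'2, ?_, hc4, hb'4⟩
          rw [hb'3, hc3]
          have := hlv_gap (Nat.find hex - 1)
          rwa [Nat.sub_add_cancel (by omega : 1 ≤ Nat.find hex)] at this
    · -- left of the origin
      obtain ⟨a, ha1, ha2, ha3, ha4⟩ := hleft m (by omega) le_rfl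
      rcases lt_or_ge m₀ a with hlast | hlast
      · refine ⟨i₀, a, le_rfl, hm0a, hlast.le, by omega, ?_, near_i₀, ha4⟩
        rw [ha3, h.lev₀, hlv_top]
        simpa using hg0
      · let P : ℕ → Prop := fun u => ∃ a, i₀ ≤ a ∧ a ≤ m₀ ∧ lev k (γ a) = -(lv u : ℤ) ∧ Near a
        have hex : ∃ u, 1 ≤ u ∧ u ≤ m ∧ P u := ⟨m, by omega, le_rfl, a, ha1, hlast, ha3, ha4⟩
        obtain ⟨hu1, hum, a', ha'1, ha'2, ha'3, ha'4⟩ := Nat.find_spec hex
        rcases eq_or_lt_of_le hu1 with hu | hu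
        · refine ⟨a', i, ha'1, ha'2, hside, by omega, ?_, ha'4, near_i⟩
          rw [ha'3, hilev, ← hu]
          have := hlv_gap 0
          simpa [hlv0] using this
        · obtain ⟨a₂, hc1, hc2, hc3, hc4⟩ := hleft (Nat.find hex - 1) (by omega) (by omega)
          have hlt : m₀ < a₂ := by
            by_contra hc
            exact Nat.find_min hex (m := Nat.find hex - 1) (by omega)
              ⟨by omega, by omega, a₂, hc1, not_lt.1 hc, hc3, hc4⟩
          refine ⟨a', a₂, ha'1, ha'2, hlt.le, by omega, ?_, ha'4, hc4⟩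
          rw [ha'3, hc3]
          have := hlv_gap (Nat.find hex - 1)
          rw [Nat.sub_add_cancel (by omega : 1 ≤ Nat.find hex)] at this
          push_cast
          rwa [neg_sub_neg]
  have := wild_between hk hΛ hf h.seg hbox hsC hp hpm hmq hq hgap hpn hqn
  exact absurd (this.trans hsmall) (not_le.2 hm0c)

/-- Wild sites are rare when bent sites are and pieces of geodesic segments in a box are short,
up to a small fraction of its radius, with high probability. -/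
theorem wildNull_of_short {G : Measure ℝ} (hB : BentNull G) {Λ : ℝ} (hΛ : 0 ≤ Λ)
    (hshort : ∀ k : ℤ, k = 0 ∨ k = 1 → ∀ K m : ℕ, 0 < m →
      Tendsto (fun n : ℕ => law G {t | ¬ wildShort k Λ ((n : ℝ) / m) (K * n) t}) atTop (𝓝 0)) :
    WildNull G := by
  intro k hk R r₁ C ρ hr hρ
  rcases lt_or_ge C 0 with hC | hC
  · refine tendsto_const_nhds.congr' ?_
    filter_upwards [eventually_gt_atTop 0] with n hn
    have hz : wildSite k R r₁ C ρ n = ∅ := Set.eq_empty_iff_forall_notMem.2 fun t ht => by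
      obtain ⟨γ, i₀, i₁, i, j, h, -⟩ := ht
      have h1 := (abs_nonneg _).trans h.slope₁
      have : (0 : ℝ) < n := by exact_mod_cast hn
      nlinarith
    rw [hz, measure_empty]
  set A : ℝ := 1 + Λ * (1 + 2 * C) with hA
  obtain ⟨K, hK⟩ := exists_nat_ge (C + 2 + (Λ * (2 + 4 * C) + 1))
  obtain ⟨m, hm⟩ := exists_nat_gt ((1 + C) * A * 4 / ρ)
  have hApos : 0 < A := by positivity
  have hm0 : 0 < m := by
    have : (0 : ℝ) < m := lt_trans (by positivity) hm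
    exact_mod_cast this
  set E : ℝ := 2 + (1 + C) * (Λ * 8) with hE
  have hEpos : 0 < E := by positivity
  set ρ' := ρ / (4 * E) with hρ'
  have hρ'0 : 0 < ρ' := by positivity
  -- each exceptional event is rare
  have hbent : ∀ c₁ c₂ : ℝ, 0 < c₁ → 0 < c₂ →
      Tendsto (fun n : ℕ => law G (bentSite k R r₁ ((C + K) * m) ρ' ⌈c₁ * n⌉₊ ⌈c₂ * n⌉₊))
        atTop (𝓝 0) := hB k hk R r₁ _ ρ' hr hρ'0
  have hone : ∀ n : ℕ, ⌈(1 : ℝ) * n⌉₊ = n := fun n => by rw [one_mul, Nat.ceil_natCast]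
  have hsum : Tendsto (fun n : ℕ =>
      law G ({t | ¬ wildShort k Λ ((n : ℝ) / m) (K * n) t} ∪
        wildBad k R r₁ ((C + K) * m) ρ' m n)) atTop (𝓝 0) := by
    have h0 := hbent 1 1 one_pos one_pos
    simp only [hone] at h0
    have hU : Tendsto (fun n : ℕ => ∑ u ∈ Finset.Icc 1 m,
        (law G (bentSite k R r₁ ((C + K) * m) ρ' n ⌈((u : ℝ) / m) * n⌉₊) +
          law G (bentSite k R r₁ ((C + K) * m) ρ' ⌈((u : ℝ) / m) * n⌉₊ n))) atTop (𝓝 0) := by
      rw [show (0 : ℝ≥0∞) = ∑ _u ∈ Finset.Icc 1 m, (0 : ℝ≥0∞) by simp]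
      refine tendsto_finsetSum _ fun u hu => ?_
      have hu0 : (0 : ℝ) < (u : ℝ) / m :=
        div_pos (by exact_mod_cast (Finset.mem_Icc.1 hu).1) (by exact_mod_cast hm0)
      have h1 := hbent 1 _ one_pos hu0
      have h2 := hbent _ 1 hu0 one_pos
      simp only [hone] at h1 h2
      simpa using h1.add h2
    have hall := (hshort k hk K m hm0).add (h0.add hU)
    rw [add_zero, add_zero] at hall
    refine tendsto_of_tendsto_of_tendsto_of_le_of_le tendsto_const_nhds hall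
      (fun n => zero_le) fun n => ?_
    refine (measure_union_le _ _).trans (add_le_add le_rfl ?_)
    refine (measure_union_le _ _).trans (add_le_add le_rfl ?_)
    exact (measure_biUnion_finset_le _ _).trans (Finset.sum_le_sum fun u _ => measure_union_le _ _)
  refine tendsto_of_tendsto_of_tendsto_of_le_of_le' tendsto_const_nhds hsum
    (Eventually.of_forall fun n => zero_le) ?_
  have hbig : ∀ᶠ n : ℕ in atTop, (1 + C) * (Λ * (1 + 2 * C)) ≤ ρ / 2 * n :=
    (tendsto_natCast_atTop_atTop.const_mul_atTop (by positivity)).eventually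
      (eventually_ge_atTop _)
  filter_upwards [hbig, eventually_gt_atTop (R * m)] with n hbn hn
  refine measure_mono fun t hwild => ?_
  by_contra hbad
  simp only [Set.mem_union, Set.mem_ofPred_eq, not_or, not_not] at hbad
  refine wild_det hk hΛ hm0 hρ'0 hn hbad.1 hK ?_ hbad.2 hwild
  have hn0 : (0 : ℝ) ≤ n := Nat.cast_nonneg n
  have e1 : (1 + C) * A * ((n : ℝ) / m) ≤ ρ / 4 * n := by
    have h1 : (1 + C) * A * 4 ≤ m * ρ := by
      rw [div_lt_iff₀ hρ] at hm; linarith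
    rw [mul_div_assoc', div_le_iff₀ (by exact_mod_cast hm0)]
    nlinarith
  have e2 : E * (ρ' * n) = ρ / 4 * n := by
    rw [hρ']; field_simp
  have key : 2 * ρ' * n + (1 + C) * ((n : ℝ) / m +
      Λ * ((1 + 2 * C) * ((n : ℝ) / m + 1) + 4 * (2 * ρ' * n))) ≤
      E * (ρ' * n) + (1 + C) * A * ((n : ℝ) / m) + (1 + C) * (Λ * (1 + 2 * C)) := by
    rw [hE, hA]
    linarith
  linarith

/-- **Wild sites are rare.** -/
theorem wildNull {G : Measure ℝ} {M : ℝ} (hG : LawOK G M) (hB : BentNull G) : WildNull G := by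
  obtain ⟨κ, hκ, hshort⟩ := short_walk_prob_pow hG
  refine wildNull_of_short hB (Λ := |M| / κ) (by positivity) fun k hk K m hm => ?_
  refine tendsto_of_tendsto_of_tendsto_of_le_of_le tendsto_const_nhds
    (wildFast_tendsto hshort K m hm) (fun n => zero_le) fun n => measure_mono_ae ?_
  filter_upwards [law_ae_inRange hG] with t ht hns
  by_contra hf
  refine hns ⟨ht.nonneg, fun γ i₀ i₁ h h1 h2 _ _ => (wild_short hk hκ ht hf h h1 h2).trans ?_⟩
  have hM : 0 ≤ M := le_trans (ht ((0, 0), true)).1 (ht ((0, 0), true)).2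
  rw [abs_of_nonneg hM]
  linarith [(Nat.cast_div_le : ((n / m : ℕ) : ℝ) ≤ (n : ℝ) / m)]

end Vale.Agent.P158
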