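import Vale.Agent.P158.Slope.Count

/-!
P158 stage 2, slope bound: the expected number of separated slope units at a site is bounded.
-/

open MeasureTheory Filter Topology

namespace Vale.Agent.P158

namespace SlopeAux

/-- The expected number of objects of separated units at one site. -/
theorem sum_obj_le {G : Measure ℝ} {M δ : ℝ} (hG : LawOK G M) (hδ : 0 < δ) {k : ℤ}
    (hk : k = 0 ∨ k = 1) {n Y J m : ℕ} (hn : 2 ≤ n) (hY : 0 < Y) (hmY : m ≤ Y) {w : V}
    (hw : w ∈ preds k) {a b : Fin m → ℝ} (hsep : ∀ u v, u < v → b u * n + Y ≤ a v * n) :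
    δ * ∑ u, (law G {t | Obj δ k n (a u) (b u) J w 0 t}).toReal ≤
      4 * ((J : ℝ) + 1) * (δ + 8 * M) := by
  classical
  have := hG.prob
  have : IsProbabilityMeasure (law G) := by unfold law; infer_instance
  set L : Fin m → Set Conf := fun u => {t | Obj δ k n (a u) (b u) J w 0 t} with hL
  set X : ℝ := ∑ u, (law G (L u)).toReal with hX
  set B : ℝ := 4 * ((J : ℝ) + 1) * (δ * m + 8 * M * Y) with hB
  have hM : 0 ≤ M := by
    by_contra hneg
    have := hG.supp
    rw [Set.Icc_eq_empty (fun h => hneg h)] at this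
    simp at this
  have hmeas : ∀ o : ℕ × Fin m, MeasurableSet (shift (pt k 0 (o.1 : ℤ)) ⁻¹' L o.2) := fun o =>
    Units.measurable_shift _ (measurableSet_obj _ _ _ _ _ _ _ _)
  have hint : ∫⁻ t, ∑ o ∈ Finset.range Y ×ˢ (Finset.univ : Finset (Fin m)),
      (shift (pt k 0 (o.1 : ℤ)) ⁻¹' L o.2).indicator 1 t ∂law G = Y * ∑ u, law G (L u) := by
    rw [lintegral_finsetSum _ fun o _ => measurable_one.indicator (hmeas o), Finset.sum_product]
    have hone : ∀ (y : ℕ) (u : Fin m),
        ∫⁻ t, (shift (pt k 0 (y : ℤ)) ⁻¹' L u).indicator 1 t ∂law G = law G (L u) := fun y u => by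
      rw [lintegral_indicator_one (Units.measurable_shift _ (measurableSet_obj _ _ _ _ _ _ _ _)),
        ← Measure.map_apply (Units.measurable_shift _) (measurableSet_obj _ _ _ _ _ _ _ _),
        Units.law_shift]
    simp only [hone, Finset.sum_const, Finset.card_range, nsmul_eq_mul]
  have hbound : ∀ᵐ t ∂law G, ∑ o ∈ Finset.range Y ×ˢ (Finset.univ : Finset (Fin m)),
      (shift (pt k 0 (o.1 : ℤ)) ⁻¹' L o.2).indicator (1 : Conf → ENNReal) t ≤
        ENNReal.ofReal (B / δ) := by
    filter_upwards [Units.prob_inRange hG] with t ht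
    set O := (Finset.range Y ×ˢ (Finset.univ : Finset (Fin m))).filter
      fun o => t ∈ shift (pt k 0 (o.1 : ℤ)) ⁻¹' L o.2 with hO
    have hsum : ∑ o ∈ Finset.range Y ×ˢ (Finset.univ : Finset (Fin m)),
        (shift (pt k 0 (o.1 : ℤ)) ⁻¹' L o.2).indicator (1 : Conf → ENNReal) t =
          (O.card : ENNReal) := by
      rw [hO, ← Finset.sum_boole]
      exact Finset.sum_congr rfl fun o _ => by simp [Set.indicator_apply]
    rw [hsum, ← ENNReal.ofReal_natCast]
    refine ENNReal.ofReal_le_ofReal ((le_div_iff₀ hδ).2 ?_)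
    have := card_obj_le (fun e => (ht e).1) hδ hk hn hw hsep O (J := J) fun o ho => by
      obtain ⟨h1, h2⟩ := Finset.mem_filter.1 ho
      exact ⟨Finset.mem_range.1 (Finset.mem_product.1 h1).1, obj_shift h2⟩
    have hc : ∀ (v : V) (d : ℤ), ∑ e ∈ stepS k v d, t e ≤ 2 * M := fun v d => by
      refine (Finset.sum_le_card_nsmul _ _ _ fun e _ => (ht e).2).trans ?_
      rw [nsmul_eq_mul]
      exact mul_le_mul_of_nonneg_right (by exact_mod_cast stepS_card k v d) hM
    have hsum : ∑ u ∈ Finset.range Y, ((∑ e ∈ stepS k (w + pt k 0 (u : ℤ)) (-1), t e) +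
        ∑ e ∈ stepS k (pt k 0 (u : ℤ)) 1, t e) ≤ Y * (4 * M) := by
      refine (Finset.sum_le_card_nsmul _ _ (4 * M) fun u _ => ?_).trans ?_
      · linarith [hc (w + pt k 0 (u : ℤ)) (-1), hc (pt k 0 (u : ℤ)) 1]
      · rw [Finset.card_range, nsmul_eq_mul]
    rw [hB]
    nlinarith
  have hle : (Y : ENNReal) * ∑ u, law G (L u) ≤ ENNReal.ofReal (B / δ) := by
    rw [← hint]
    exact (lintegral_mono_ae hbound).trans (by simp)
  have h := ENNReal.toReal_mono ENNReal.ofReal_ne_top hle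
  rw [ENNReal.toReal_mul, ENNReal.toReal_natCast,
    ENNReal.toReal_sum fun i _ => measure_ne_top _ _, ← hX,
    ENNReal.toReal_ofReal (by positivity), le_div_iff₀ hδ] at h
  have hm : (m : ℝ) ≤ Y := by exact_mod_cast hmY
  have hYpos : (0 : ℝ) < Y := by exact_mod_cast hY
  have h2 : B ≤ 4 * ((J : ℝ) + 1) * (δ + 8 * M) * Y := by
    rw [hB, mul_assoc _ (δ + 8 * M)]
    refine mul_le_mul_of_nonneg_left ?_ (by positivity)
    nlinarith [mul_le_mul_of_nonneg_left hm hδ.le]
  refine le_of_mul_le_mul_right ?_ hYpos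
  linarith

end SlopeAux

open Vale.Agent.P158.SlopeAux in
/-- The slope bound holds for every atomless law with bounded support. -/
theorem slopeBound {G : Measure ℝ} {M : ℝ} (hG : LawOK G M) : SlopeBound G := by
  intro k hk R r₁ C hr₁
  have := hG.prob
  have : IsProbabilityMeasure (law G) := by unfold law; infer_instance
  obtain ⟨r₀, hr, hr₀M, hpos⟩ := Units.exists_low hG hr₁
  set δ := r₁ - r₀ with hδdef
  have hδ : 0 < δ := sub_pos.2 hr
  set g := (G (Set.Icc 0 r₀)).toReal with hg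
  have hg0 : 0 < g := ENNReal.toReal_pos hpos.ne' (measure_ne_top _ _)
  set c : ℝ := 4 * (((R + 2 : ℕ) : ℝ) + 1) * (δ + 8 * M) with hc
  refine ⟨((preds k).card : ℝ) * c / (δ * g), fun gap hgap m a b _ hsep => ?_⟩
  filter_upwards [eventually_ge_atTop (max 2 ⌈((m : ℝ) + 2) / gap⌉₊)] with n hn
  have hn2 : 2 ≤ n := (le_max_left _ _).trans hn
  set Y := ⌊gap * (n : ℝ)⌋₊ with hYdef
  have hnm : ((m : ℝ) + 2) / gap ≤ n :=
    (Nat.le_ceil _).trans (by exact_mod_cast (le_max_right _ _).trans hn)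
  rw [div_le_iff₀ hgap] at hnm
  have hY1 : (m : ℕ) + 1 ≤ Y := Nat.le_floor (by push_cast; linarith)
  have hYle : (Y : ℝ) ≤ gap * n := Nat.floor_le (by positivity)
  have hsep' : ∀ u v, u < v → b u * n + Y ≤ a v * n := fun u v huv => by
    nlinarith [mul_le_mul_of_nonneg_right (hsep u v huv) (Nat.cast_nonneg n : (0 : ℝ) ≤ n)]
  set L : V → Fin m → Set Conf := fun w u => {t | Obj δ k n (a u) (b u) (R + 2) w 0 t} with hLdef
  have hstep : ∀ u, (law G (slopeSite k R r₁ C n (a u) (b u))).toReal * g ≤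
      ∑ w ∈ preds k, (law G (L w u)).toReal := by
    intro u
    rw [hg, ← ENNReal.toReal_mul, ← ENNReal.toReal_sum fun w _ => measure_ne_top _ _]
    refine ENNReal.toReal_mono (ENNReal.sum_ne_top.2 fun w _ => measure_ne_top _ _) ?_
    set Ew : V → Set Conf := fun w =>
      {t | ∀ x ∈ Set.Icc 0 r₀, Obj δ k n (a u) (b u) (R + 2) w 0 (Function.update t (eH k w 0) x)}
    have hsub : law G (slopeSite k R r₁ C n (a u) (b u)) ≤ law G (⋃ w ∈ preds k, Ew w) := by
      refine measure_mono_ae ?_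
      filter_upwards [Units.prob_inRange hG] with t ht hsite
      obtain ⟨w, hw, hobj⟩ := lower_mem (r₀ := r₀) hk hr.le (fun e => (ht e).1) hsite
      exact Set.mem_biUnion hw hobj
    refine (mul_le_mul' (hsub.trans (measure_biUnion_finset_le _ _)) le_rfl).trans ?_
    rw [Finset.sum_mul]
    exact Finset.sum_le_sum fun w _ => Units.measure_inter_le_of_lower (eH k w 0)
      (measurableSet_obj _ _ _ _ _ _ _ _) fun t ht x hx => ht x hx
  have hobj : ∀ w ∈ preds k, δ * ∑ u, (law G (L w u)).toReal ≤ c := fun w hw => by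
    exact sum_obj_le hG hδ hk hn2 (by omega) (by omega) hw hsep'
  rw [le_div_iff₀ (mul_pos hδ hg0)]
  calc (∑ u, (law G (slopeSite k R r₁ C n (a u) (b u))).toReal) * (δ * g)
      = δ * ∑ u, (law G (slopeSite k R r₁ C n (a u) (b u))).toReal * g := by
        rw [← Finset.sum_mul]; ring
    _ ≤ δ * ∑ u, ∑ w ∈ preds k, (law G (L w u)).toReal :=
        mul_le_mul_of_nonneg_left (Finset.sum_le_sum fun u _ => hstep u) hδ.le
    _ = ∑ w ∈ preds k, δ * ∑ u, (law G (L w u)).toReal := by
        rw [Finset.sum_comm, Finset.mul_sum]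
    _ ≤ ∑ _w ∈ preds k, c := Finset.sum_le_sum hobj
    _ = _ := by rw [Finset.sum_const, nsmul_eq_mul]

end Vale.Agent.P158
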