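import Vale.Agent.P158.MainDefs
import Vale.Agent.P158.Meas
import Vale.Agent.P158.AnalyticMeas

/-!
Measurability and translation covariance of the events of the main argument for P158.
-/

open MeasureTheory Filter Topology Set

namespace Vale.Agent.P158

/-! ### A measurable invariant set of nice configurations -/

/-- A translation invariant Borel set of full measure on which every configuration is nice. -/
theorem exists_niceSet {G : Measure ℝ} {M κ : ℝ} (hG : LawOK G M)
    (hgood : ∀ᵐ t ∂law G, Good M κ t) (hS : StraightProp G) (hF : ForkNull G)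
    (hM : MatchProp G) :
    ∃ GS : Set Conf, MeasurableSet GS ∧ (∀ᵐ t ∂law G, t ∈ GS) ∧
      (∀ t ∈ GS, Nice M κ t) ∧ ∀ (v : V) (t : Conf), shift v t ∈ GS ↔ t ∈ GS := by
  have := hG.prob
  have hnice : ∀ᵐ t ∂law G, Nice M κ t := by
    filter_upwards [hgood, hS, hF, hM] with t h1 h2 h3 h4
    exact ⟨h1, h2, h3, h4⟩
  set N := toMeasurable (law G) {t | ¬ Nice M κ t} with hN
  have hN0 : law G N = 0 := by rw [hN, measure_toMeasurable]; exact ae_iff.1 hnice
  set GS := ⋂ v : V, shift v ⁻¹' Nᶜ with hGS
  have hinv : ∀ (v : V) (t : Conf), t ∈ GS → shift v t ∈ GS := by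
    intro v t ht
    simp only [hGS, mem_iInter, mem_preimage] at ht ⊢
    intro u
    rw [shift_shift]
    exact ht _
  refine ⟨GS, ?_, ?_, ?_, fun v t => ⟨fun h => ?_, hinv v t⟩⟩
  · exact MeasurableSet.iInter fun v =>
      (measurableSet_toMeasurable _ _).compl.preimage (shiftSym v).measurable_act
  · filter_upwards [ae_shift (p := fun t => t ∉ N) (measure_eq_zero_iff_ae_notMem.1 hN0)]
      with t ht using mem_iInter.2 ht
  · intro t ht
    by_contra hn
    have h0 := mem_iInter.1 ht 0
    rw [mem_preimage, shift_zero] at h0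
    exact h0 (subset_toMeasurable _ _ hn)
  · have := hinv (-v) _ h
    rwa [shift_shift, neg_add_cancel, shift_zero] at this

/-! ### Measurable dependence on a configuration and a path -/

section Param

variable {X : Type*} [MeasurableSpace X]

lemma measurableSet_of_countable_index {ι : Type*} [Countable ι] [MeasurableSpace ι]
    [MeasurableSingletonClass ι] {f : X → ι} (hf : Measurable f) {P : ι → X → Prop}
    (hP : ∀ i, MeasurableSet {x | P i x}) : MeasurableSet {x | P (f x) x} := by
  have e : {x | P (f x) x} = ⋃ i, f ⁻¹' {i} ∩ {x | P i x} := by ext x; simp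
  rw [e]
  exact MeasurableSet.iUnion fun i => (hf (measurableSet_singleton i)).inter (hP i)

lemma measurable_of_countable_index {ι β : Type*} [Countable ι] [MeasurableSpace ι]
    [MeasurableSingletonClass ι] [MeasurableSpace β] {f : X → ι} (hf : Measurable f)
    {F : X → ι → β} (hF : ∀ i, Measurable fun x => F x i) : Measurable fun x => F x (f x) :=
  (measurable_from_prod_countable_left (f := fun p : X × ι => F p.1 p.2) hF).comp
    (measurable_id.prodMk hf)

lemma measurableSet_coords {f g : X → V} (hf : Measurable f) (hg : Measurable g)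
    (P : V → V → Prop) : MeasurableSet {x | P (f x) (g x)} :=
  (hf.prodMk hg) (MeasurableSet.of_discrete (s := {q : V × V | P q.1 q.2}))

lemma measurable_int_sInf {P : ℤ → X → Prop} (hP : ∀ i, MeasurableSet {x | P i x}) :
    Measurable fun x => sInf {i | P i x} := by
  have hleast : ∀ c, MeasurableSet {x | IsLeast {i | P i x} c} := fun c => by
    have e : {x | IsLeast {i | P i x} c}
        = {x | P c x} ∩ ⋂ i, {x | P i x}ᶜ ∪ {_x | c ≤ i} := by
      ext x
      simp only [IsLeast, lowerBounds, mem_ofPred_eq, mem_inter_iff, mem_iInter, mem_union,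
        mem_compl_iff, imp_iff_not_or]
    rw [e]
    exact (hP c).inter (MeasurableSet.iInter fun i => (hP i).compl.union (MeasurableSet.const _))
  refine measurable_to_countable' fun c => ?_
  have e : (fun x => sInf {i | P i x}) ⁻¹' {c} = {x | IsLeast {i | P i x} c} ∪
      ({_x | c = 0} ∩ (⋃ d, {x | IsLeast {i | P i x} d})ᶜ) := by
    ext x
    simp only [mem_preimage, mem_singleton_iff, mem_union, mem_ofPred_eq, mem_inter_iff,
      mem_compl_iff, mem_iUnion, not_exists]
    constructor
    · rintro rfl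
      by_cases h : {i | P i x}.Nonempty ∧ BddBelow {i | P i x}
      · exact Or.inl ⟨Int.csInf_mem h.1 h.2, fun i hi => csInf_le h.2 hi⟩
      · refine Or.inr ⟨?_, fun d hd => h ⟨⟨d, hd.1⟩, ⟨d, hd.2⟩⟩⟩
        rcases eq_empty_or_nonempty {i | P i x} with h1 | h1
        · rw [h1, Int.csInf_empty]
        · exact Int.csInf_of_not_bddBelow fun h2 => h ⟨h1, h2⟩
    · rintro (h | ⟨rfl, h⟩)
      · exact h.csInf_eq
      · rcases eq_empty_or_nonempty {i | P i x} with h1 | h1
        · rw [h1, Int.csInf_empty]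
        · refine Int.csInf_of_not_bddBelow fun h2 => h _ ⟨Int.csInf_mem h1 h2, ?_⟩
          exact fun i hi => csInf_le h2 hi
  rw [e]
  exact (hleast c).union ((MeasurableSet.const _).inter (MeasurableSet.iUnion hleast).compl)

lemma measurable_int_sSup {P : ℤ → X → Prop} (hP : ∀ i, MeasurableSet {x | P i x}) :
    Measurable fun x => sSup {i | P i x} := by
  have hgr : ∀ c, MeasurableSet {x | IsGreatest {i | P i x} c} := fun c => by
    have e : {x | IsGreatest {i | P i x} c}
        = {x | P c x} ∩ ⋂ i, {x | P i x}ᶜ ∪ {_x | i ≤ c} := by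
      ext x
      simp only [IsGreatest, upperBounds, mem_ofPred_eq, mem_inter_iff, mem_iInter, mem_union,
        mem_compl_iff, imp_iff_not_or]
    rw [e]
    exact (hP c).inter (MeasurableSet.iInter fun i => (hP i).compl.union (MeasurableSet.const _))
  refine measurable_to_countable' fun c => ?_
  have e : (fun x => sSup {i | P i x}) ⁻¹' {c} = {x | IsGreatest {i | P i x} c} ∪
      ({_x | c = 0} ∩ (⋃ d, {x | IsGreatest {i | P i x} d})ᶜ) := by
    ext x
    simp only [mem_preimage, mem_singleton_iff, mem_union, mem_ofPred_eq, mem_inter_iff,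
      mem_compl_iff, mem_iUnion, not_exists]
    constructor
    · rintro rfl
      by_cases h : {i | P i x}.Nonempty ∧ BddAbove {i | P i x}
      · exact Or.inl ⟨Int.csSup_mem h.1 h.2, fun i hi => le_csSup h.2 hi⟩
      · refine Or.inr ⟨?_, fun d hd => h ⟨⟨d, hd.1⟩, ⟨d, hd.2⟩⟩⟩
        rcases eq_empty_or_nonempty {i | P i x} with h1 | h1
        · rw [h1, Int.csSup_empty]
        · exact Int.csSup_of_not_bddAbove fun h2 => h ⟨h1, h2⟩
    · rintro (h | ⟨rfl, h⟩)
      · exact h.csSup_eq
      · rcases eq_empty_or_nonempty {i | P i x} with h1 | h1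
        · rw [h1, Int.csSup_empty]
        · refine Int.csSup_of_not_bddAbove fun h2 => h _ ⟨Int.csSup_mem h1 h2, ?_⟩
          exact fun i hi => le_csSup h2 hi
  rw [e]
  exact (hgr c).union ((MeasurableSet.const _).inter (MeasurableSet.iUnion hgr).compl)

variable {ft : X → Conf}

lemma measurable_wt_param (ht : Measurable ft) {f g : X → V} (hf : Measurable f)
    (hg : Measurable g) : Measurable fun x => wt (ft x) (f x) (g x) :=
  measurable_of_countable_index (f := fun x => (f x, g x)) (hf.prodMk hg)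
    (F := fun x q => wt (ft x) q.1 q.2) fun q => (measurable_pi_apply _).comp ht

lemma measurable_TS_param (ht : Measurable ft) (S : Set Edge) {f g : X → V} (hf : Measurable f)
    (hg : Measurable g) : Measurable fun x => TS (ft x) S (f x) (g x) :=
  measurable_of_countable_index (f := fun x => (f x, g x)) (hf.prodMk hg)
    (F := fun x q => TS (ft x) S q.1 q.2) fun q => (measurable_TS S q.1 q.2).comp ht

lemma measurable_T_param (ht : Measurable ft) {f g : X → V} (hf : Measurable f)
    (hg : Measurable g) : Measurable fun x => T (ft x) (f x) (g x) :=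
  measurable_of_countable_index (f := fun x => (f x, g x)) (hf.prodMk hg)
    (F := fun x q => T (ft x) q.1 q.2) fun q => (measurable_T q.1 q.2).comp ht

lemma measurable_bus_param (ht : Measurable ft) (S : Set Edge) {fr : X → ℕ → V}
    (hr : ∀ n, Measurable fun x => fr x n) (z : V) :
    Measurable fun x => bus (ft x) S (fr x) z :=
  Measurable.iInf fun n => (measurable_TS_param ht S (hr n) measurable_const).sub
    (Finset.measurable_sum _ fun i _ => measurable_wt_param ht (hr i) (hr (i + 1)))

variable {fg : X → ℤ → V}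

lemma measurableSet_isBigeodesic (ht : Measurable ft) (hγ : ∀ i, Measurable fun x => fg x i) :
    MeasurableSet {x | IsBigeodesic (ft x) (fg x)} := by
  have e : {x | IsBigeodesic (ft x) (fg x)}
      = {x | ∀ i j, fg x i = fg x j → i = j} ∩ ({x | ∀ i, Adj (fg x i) (fg x (i + 1))} ∩
        {x | ∀ i j, i < j → ∑ k ∈ Finset.Ico i j, wt (ft x) (fg x k) (fg x (k + 1))
          = T (ft x) (fg x i) (fg x j)}) := by
    ext x
    exact ⟨fun h => ⟨fun i j e => h.inj e, h.adj, h.geo⟩,
      fun h => ⟨fun i j e => h.1 i j e, h.2.1, h.2.2⟩⟩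
  rw [e]
  simp only [ofPred_forall]
  refine (MeasurableSet.iInter fun i => MeasurableSet.iInter fun j => ?_).inter
    ((MeasurableSet.iInter fun i => measurableSet_coords (hγ i) (hγ (i + 1)) Adj).inter
    (MeasurableSet.iInter fun i => MeasurableSet.iInter fun j => MeasurableSet.iInter fun _ => ?_))
  · simpa only [ofPred_forall] using
      measurableSet_coords (hγ i) (hγ j) (fun a b => a = b → i = j)
  · exact measurableSet_eq_fun
      (Finset.measurable_sum _ fun k _ => measurable_wt_param ht (hγ k) (hγ (k + 1)))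
      (measurable_T_param ht (hγ i) (hγ j))

lemma measurableSet_inCone_param (k σ : ℤ) (a b : ℝ) (R : ℕ) {fr : X → ℕ → V}
    (hr : ∀ n, Measurable fun x => fr x n) : MeasurableSet {x | InCone k σ a b R (fr x)} := by
  simp only [InCone, ofPred_forall]
  exact MeasurableSet.iInter fun n => MeasurableSet.iInter fun _ =>
    measurableSet_coords (hr 0) (hr n) fun x y => 0 < σ * (lev k y - lev k x) ∧
      a * (σ * (lev k y - lev k x) : ℤ) ≤ (σ * (y.2 - x.2) : ℤ) ∧
      ((σ * (y.2 - x.2) : ℤ) : ℝ) ≤ b * (σ * (lev k y - lev k x) : ℤ)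

lemma measurableSet_coneLine_param (ht : Measurable ft) (hγ : ∀ i, Measurable fun x => fg x i)
    (k : ℤ) (a b : ℝ) (R : ℕ) : MeasurableSet {x | ConeLine (ft x) k a b R (fg x)} :=
  (measurableSet_isBigeodesic ht hγ).inter
    ((measurableSet_inCone_param k 1 a b R (fr := fun x => fwd (fg x) 0) fun _ => hγ _).inter
      (measurableSet_inCone_param k (-1) a b R (fr := fun x => bwd (fg x) 0) fun _ => hγ _))

lemma measurable_direction {f : X → V} (hf : Measurable f) :
    Measurable fun x => ‖toPlane (f x)‖⁻¹ • toPlane (f x) :=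
  (measurable_of_countable fun v : V => ‖toPlane v‖⁻¹ • toPlane v).comp hf

lemma measurableSet_hasDirections (hγ : ∀ i, Measurable fun x => fg x i) :
    MeasurableSet {x | HasDirections (fg x)} :=
  (measurableSet_exists_tendsto (l := atTop)
    (f := fun (n : ℕ) x => ‖toPlane (fg x n)‖⁻¹ • toPlane (fg x n))
    fun _ => measurable_direction (hγ _)).inter
  (measurableSet_exists_tendsto (l := atTop)
    (f := fun (n : ℕ) x => ‖toPlane (fg x (-(n : ℤ)))‖⁻¹ • toPlane (fg x (-(n : ℤ))))
    fun _ => measurable_direction (hγ _))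

lemma measurableSet_rigidAt (ht : Measurable ft) (hγ : ∀ i, Measurable fun x => fg x i) (δ : ℝ) :
    MeasurableSet {x | RigidAt (ft x) δ (fg x)} := by
  simp only [RigidAt, ofPred_forall]
  refine MeasurableSet.iInter fun n => MeasurableSet.iInter fun m => MeasurableSet.iInter fun a =>
    MeasurableSet.iInter fun z => MeasurableSet.iInter fun p => ?_
  refine (measurableSet_coords (hγ _) (hγ 0) fun u _ => u = a).imp
    ((measurableSet_coords (hγ _) (hγ 0) fun u _ => u = z).imp
    ((measurableSet_coords (hγ (-1)) (hγ 0) fun u v => WalkIn {edgeOf u v}ᶜ p).imp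
    (measurableSet_le ?_ ?_)))
  · exact (measurable_T_param ht measurable_const measurable_const).add_const δ
  · exact (measurable_plen p).comp ht

lemma measurableSet_entAt (hγ : ∀ i, Measurable fun x => fg x i) (y : ℤ) :
    MeasurableSet {x | EntAt y (fg x)} := by
  have e : {x | EntAt y (fg x)} = {x | fg x 0 = (0, y) ∧ fg x (-1) = (-1, y)} ∩
      ⋂ (i : ℤ) (_ : i < 0), {x | (fg x i).1 < 0} := by
    ext x; simp [EntAt, and_assoc]
  rw [e]
  exact (measurableSet_coords (hγ 0) (hγ (-1)) fun u v => u = (0, y) ∧ v = (-1, y)).inter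
    (MeasurableSet.iInter fun i => MeasurableSet.iInter fun _ =>
      measurableSet_coords (hγ i) (hγ i) fun u _ => u.1 < 0)

lemma measurableSet_siteLine (ht : Measurable ft) (hγ : ∀ i, Measurable fun x => fg x i)
    (R : ℕ) (a b δ : ℝ) (y : ℤ) : MeasurableSet {x | SiteLine (ft x) R a b δ y (fg x)} :=
  (measurableSet_coneLine_param ht hγ 0 a b R).inter ((measurableSet_hasDirections hγ).inter
    ((measurableSet_entAt hγ y).inter (measurableSet_rigidAt ht hγ δ)))

lemma measurable_lftIdx (hγ : ∀ i, Measurable fun x => fg x i) (L : ℤ) :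
    Measurable fun x => lftIdx L (fg x) :=
  measurable_int_sInf fun i => measurableSet_coords (hγ i) (hγ i) fun u _ => -L ≤ u.1

lemma measurable_rgtIdx (hγ : ∀ i, Measurable fun x => fg x i) (L : ℤ) :
    Measurable fun x => rgtIdx L (fg x) :=
  measurable_int_sSup fun i => measurableSet_coords (hγ i) (hγ i) fun u _ => u.1 ≤ L

lemma measurable_lInc (ht : Measurable ft) (hγ : ∀ i, Measurable fun x => fg x i) (L z z' : ℤ) :
    Measurable fun x => lInc (ft x) L (fg x) z z' := by
  have hr : ∀ n : ℕ, Measurable fun x => lTail L (fg x) n := fun n =>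
    measurable_of_countable_index (measurable_lftIdx hγ L) (F := fun x i => bwd (fg x) i n)
      fun i => hγ _
  exact (measurable_bus_param ht _ hr _).sub (measurable_bus_param ht _ hr _)

lemma measurable_rInc (ht : Measurable ft) (hγ : ∀ i, Measurable fun x => fg x i) (L z z' : ℤ) :
    Measurable fun x => rInc (ft x) L (fg x) z z' := by
  have hr : ∀ n : ℕ, Measurable fun x => rTail L (fg x) n := fun n =>
    measurable_of_countable_index (measurable_rgtIdx hγ L) (F := fun x i => fwd (fg x) i n)
      fun i => hγ _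
  exact (measurable_bus_param ht _ hr _).sub (measurable_bus_param ht _ hr _)

lemma measurableSet_jumpAt (ht : Measurable ft) {fg' : X → ℤ → V}
    (hγ : ∀ i, Measurable fun x => fg x i) (hγ' : ∀ i, Measurable fun x => fg' x i)
    (L : ℤ) (g : ℝ) (h : ℤ) (W : ℕ) :
    MeasurableSet {x | JumpAt (ft x) L g h W (fg x) (fg' x)} := by
  simp only [JumpAt, ofPred_exists]
  refine MeasurableSet.iUnion fun z => MeasurableSet.iUnion fun z' => ?_
  exact (MeasurableSet.const _).inter ((MeasurableSet.const _).inter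
    ((MeasurableSet.const _).inter (measurableSet_le measurable_const
      ((((measurable_lInc ht hγ L z z').sub (measurable_lInc ht hγ' L z z')).abs).add
        (((measurable_rInc ht hγ L z z').sub (measurable_rInc ht hγ' L z z')).abs)))))

lemma measurableSet_midEdges_eq (hγ : ∀ i, Measurable fun x => fg x i) (L : ℤ) (F : Finset Edge) :
    MeasurableSet {x | midEdges L (fg x) = F} := by
  refine measurableSet_of_countable_index
    ((measurable_lftIdx hγ L).prodMk (measurable_rgtIdx hγ L))
    (P := fun q x => (Finset.Ico q.1 q.2).image (fun i => edgeOf (fg x i) (fg x (i + 1))) = F)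
    fun q => ?_
  have e : {x | (Finset.Ico q.1 q.2).image (fun i => edgeOf (fg x i) (fg x (i + 1))) = F}
      = ⋂ e : Edge, {x | ((∃ i ∈ Finset.Ico q.1 q.2,
          edgeOf (fg x i) (fg x (i + 1)) = e) ↔ e ∈ F)} := by
    ext x; simp [Finset.ext_iff]
  rw [e]
  refine MeasurableSet.iInter fun e => MeasurableSet.iff ?_ (MeasurableSet.const _)
  simp only [ofPred_exists]
  exact MeasurableSet.iUnion fun i => (MeasurableSet.const _).inter
    (measurableSet_coords (hγ i) (hγ (i + 1)) fun u v => edgeOf u v = e)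

lemma measurableSet_gain (ht : Measurable ft) {ft' : X → Conf} (ht' : Measurable ft')
    (hγ : ∀ i, Measurable fun x => fg x i) (L : ℤ) (g : ℝ) :
    MeasurableSet {x | g ≤ ∑ e ∈ midEdges L (fg x), (ft x e - ft' x e)} := by
  have e : {x | g ≤ ∑ e ∈ midEdges L (fg x), (ft x e - ft' x e)}
      = ⋃ F : Finset Edge, {x | midEdges L (fg x) = F} ∩
          {x | g ≤ ∑ e ∈ F, (ft x e - ft' x e)} := by
    ext x; simp
  rw [e]
  exact MeasurableSet.iUnion fun F => (measurableSet_midEdges_eq hγ L F).inter
    (measurableSet_le measurable_const (Finset.measurable_sum _ fun e _ =>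
      ((measurable_pi_apply e).comp ht).sub ((measurable_pi_apply e).comp ht')))

lemma measurableSet_fewLow (r : ℝ) (L₀ : ℕ) (v : V) : MeasurableSet {t | FewLow r L₀ v t} := by
  simp only [FewLow, ofPred_forall]
  refine MeasurableSet.iInter fun w => MeasurableSet.iInter fun p => MeasurableSet.iInter fun _ =>
    MeasurableSet.iInter fun _ => ?_
  have hm : ∀ l : List grid.Dart, Measurable fun t : Conf =>
      (l.filter fun d => decide (wt t d.toProd.1 d.toProd.2 < r)).length := by
    intro l
    induction l with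
    | nil => simp
    | cons d l ih =>
      have e : (fun t : Conf =>
          ((d :: l).filter fun d => decide (wt t d.toProd.1 d.toProd.2 < r)).length)
        = fun t => (if wt t d.toProd.1 d.toProd.2 < r then 1 else 0) +
            (l.filter fun d => decide (wt t d.toProd.1 d.toProd.2 < r)).length := by
        funext t
        by_cases h : wt t d.toProd.1 d.toProd.2 < r <;> simp [h, add_comm]
      rw [e]
      exact (Measurable.ite (measurableSet_lt (measurable_pi_apply _) measurable_const)
        measurable_const measurable_const).add ih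
  exact hm p.darts (MeasurableSet.of_discrete (s := {n : ℕ | 4 * n ≤ p.length}))

end Param

/-- The data of a certificate once the entrance heights and the lines are chosen. -/
def CertBody (P : Params) (GS : Set Conf) (a b : ℝ) (h : ℤ) {k : ℕ} (ys : Fin k → ℤ)
    (pre t : Conf) (γ : Fin k → ℤ → V) : Prop :=
  pre ∈ GS ∧ t ∈ GS ∧ (∀ e, t e ≤ pre e) ∧ (∀ e, e ∉ regSet P.L P.R a b h P.d → t e = pre e) ∧
  Function.Injective ys ∧
    (∀ i, h ≤ ys i ∧ ys i < h + P.d ∧ SiteLine pre P.R a b P.δ (ys i) (γ i) ∧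
      P.g ≤ ∑ e ∈ midEdges P.L (γ i), (pre e - t e)) ∧
    ∀ i j, i ≠ j → JumpAt pre P.L P.g h P.W (γ i) (γ j)

lemma cert_iff (P : Params) (GS : Set Conf) (a b : ℝ) (h : ℤ) (k : ℕ) (pre t : Conf) :
    Cert P GS a b h k pre t ↔ ∃ ys γ, CertBody P GS a b h (k := k) ys pre t γ := by
  constructor
  · rintro ⟨h1, h2, h3, h4, ys, γ, h5, h6, h7⟩
    exact ⟨ys, γ, h1, h2, h3, h4, h5, h6, h7⟩
  · rintro ⟨ys, γ, h1, h2, h3, h4, h5, h6, h7⟩
    exact ⟨h1, h2, h3, h4, ys, γ, h5, h6, h7⟩

lemma measurableSet_certBody {X : Type*} [MeasurableSpace X] (P : Params) {GS : Set Conf}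
    (hGS : MeasurableSet GS) (a b : ℝ) (h : ℤ) {k : ℕ} (ys : Fin k → ℤ) {fp ft : X → Conf}
    (hp : Measurable fp) (ht : Measurable ft) {fg : X → Fin k → ℤ → V}
    (hγ : ∀ i n, Measurable fun x => fg x i n) :
    MeasurableSet {x | CertBody P GS a b h ys (fp x) (ft x) (fg x)} := by
  simp only [CertBody, ofPred_and, ofPred_forall]
  refine (hp hGS).inter ((ht hGS).inter (MeasurableSet.inter ?_ (MeasurableSet.inter ?_
    ((MeasurableSet.const _).inter (MeasurableSet.inter ?_ ?_)))))
  · exact MeasurableSet.iInter fun e =>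
      measurableSet_le ((measurable_pi_apply e).comp ht) ((measurable_pi_apply e).comp hp)
  · exact MeasurableSet.iInter fun e => MeasurableSet.iInter fun _ =>
      measurableSet_eq_fun ((measurable_pi_apply e).comp ht) ((measurable_pi_apply e).comp hp)
  · exact MeasurableSet.iInter fun i => (MeasurableSet.const _).inter
      ((MeasurableSet.const _).inter ((measurableSet_siteLine hp (hγ i) P.R a b P.δ (ys i)).inter
        (measurableSet_gain hp ht (hγ i) P.L P.g)))
  · exact MeasurableSet.iInter fun i => MeasurableSet.iInter fun j => MeasurableSet.iInter fun _ =>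
      measurableSet_jumpAt hp (hγ i) (hγ j) P.L P.g h P.W

lemma measurableSet_cert_graph {X : Type*} [MeasurableSpace X] (P : Params) {GS : Set Conf}
    (hGS : MeasurableSet GS) (a b : ℝ) (h : ℤ) (k : ℕ) {fp ft : X → Conf}
    (hp : Measurable fp) (ht : Measurable ft) :
    MeasurableSet {q : X × (Fin k → ℤ → V) |
      ∃ ys, CertBody P GS a b h ys (fp q.1) (ft q.1) q.2} := by
  simp only [ofPred_exists]
  exact MeasurableSet.iUnion fun ys => measurableSet_certBody P hGS a b h ys
    (hp.comp measurable_fst) (ht.comp measurable_fst) fun i n =>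
      (measurable_pi_apply n).comp ((measurable_pi_apply i).comp measurable_snd)

/-! ### Null measurability of the events -/

theorem nullMeasurableSet_siteEvent (μ : Measure Conf) [IsFiniteMeasure μ] (R L₀ : ℕ)
    (a b δ r : ℝ) (y : ℤ) : NullMeasurableSet (siteEvent R L₀ a b δ r y) μ := by
  have e : siteEvent R L₀ a b δ r y = {t | FewLow r L₀ (0, y) t} ∩
      Prod.fst '' {q : Conf × (ℤ → V) | SiteLine q.1 R a b δ y q.2} := by
    ext t; simp [siteEvent]
  rw [e]
  refine (measurableSet_fewLow r L₀ (0, y)).nullMeasurableSet.inter ?_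
  exact nullMeasurableSet_image (measurableSet_siteLine (ft := fun q : Conf × (ℤ → V) => q.1)
    (fg := fun q => q.2) measurable_fst (fun i => (measurable_pi_apply i).comp measurable_snd)
    R a b δ y) measurable_fst μ

/-- The count of good sites of a block is null measurable. -/
theorem nullMeasurableSet_siteCount (μ : Measure Conf) [IsFiniteMeasure μ] (R L₀ : ℕ)
    (a b δ r : ℝ) (s : Finset ℤ) (k : ℕ) [∀ t, DecidablePred fun y => t ∈ siteEvent R L₀ a b δ r y] :
    NullMeasurableSet {t | k ≤ (s.filter fun y => t ∈ siteEvent R L₀ a b δ r y).card} μ := by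
  have e : {t | k ≤ (s.filter fun y => t ∈ siteEvent R L₀ a b δ r y).card}
      = ⋃ u ∈ (s.powerset.filter fun u => k ≤ u.card : Finset (Finset ℤ)),
          ⋂ y ∈ u, siteEvent R L₀ a b δ r y := by
    ext t
    simp only [mem_ofPred_eq, mem_iUnion, Finset.mem_filter, Finset.mem_powerset, mem_iInter,
      exists_prop]
    constructor
    · exact fun h => ⟨_, ⟨Finset.filter_subset _ _, h⟩, fun y hy => (Finset.mem_filter.1 hy).2⟩
    · rintro ⟨u, ⟨hu, hk⟩, hy⟩
      exact hk.trans (Finset.card_le_card fun y h => Finset.mem_filter.2 ⟨hu h, hy y h⟩)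
  rw [e]
  exact Finset.nullMeasurableSet_biUnion _ fun u _ =>
    Finset.nullMeasurableSet_biInter _ fun y _ => nullMeasurableSet_siteEvent μ R L₀ a b δ r y

set_option synthInstance.maxSize 1024 in
/-- The certificate event is null measurable in any parameters that give the two configurations
measurably. -/
theorem nullMeasurableSet_cert {Y : Type*} [TopologicalSpace Y] [PolishSpace Y]
    [MeasurableSpace Y] [BorelSpace Y] (P : Params) {GS : Set Conf} (hGS : MeasurableSet GS)
    (a b : ℝ) (h : ℤ) (k : ℕ) {fp ft : Y → Conf} (hp : Measurable fp) (ht : Measurable ft)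
    (μ : Measure Y) [IsFiniteMeasure μ] :
    NullMeasurableSet {y | Cert P GS a b h k (fp y) (ft y)} μ := by
  have e : {y | Cert P GS a b h k (fp y) (ft y)} = Prod.fst ''
      {q : Y × (Fin k → ℤ → V) | ∃ ys, CertBody P GS a b h ys (fp q.1) (ft q.1) q.2} := by
    ext y
    simp only [mem_ofPred_eq, cert_iff, mem_image, Prod.exists, exists_and_right, exists_eq_right]
    exact exists_comm
  rw [e]
  exact nullMeasurableSet_image (measurableSet_cert_graph P hGS a b h k hp ht) measurable_fst μ

set_option synthInstance.maxSize 1024 in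
/-- The block event is null measurable. -/
theorem nullMeasurableSet_blockEvent (P : Params) {GS : Set Conf} (hGS : MeasurableSet GS)
    (a b : ℝ) (h : ℤ) (k : ℕ) (μ : Measure Conf) [IsFiniteMeasure μ] :
    NullMeasurableSet (blockEvent P GS a b h k) μ := by
  have e : blockEvent P GS a b h k = (fun q : (Conf × Conf) × (Fin k → ℤ → V) => q.1.1) ''
      {q | ∃ ys, CertBody P GS a b h ys q.1.2 q.1.1 q.2} := by
    ext t
    simp only [blockEvent, mem_ofPred_eq, cert_iff, mem_image, Prod.exists]
    constructor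
    · rintro ⟨pre, ys, γ, h'⟩; exact ⟨t, pre, γ, ⟨ys, h'⟩, rfl⟩
    · rintro ⟨_, pre, γ, ⟨ys, h'⟩, rfl⟩; exact ⟨pre, ys, γ, h'⟩
  rw [e]
  exact nullMeasurableSet_image
    (measurableSet_cert_graph (X := Conf × Conf) P hGS a b h k measurable_snd measurable_fst)
    (measurable_fst.comp measurable_fst) μ

/-- The joint event that the tilt yields a certificate is null measurable. -/
theorem nullMeasurableSet_cert_joint {Z : Type*} [TopologicalSpace Z] [PolishSpace Z]
    [MeasurableSpace Z] [BorelSpace Z] (P : Params) {GS : Set Conf} (hGS : MeasurableSet GS)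
    (a b : ℝ) (h : ℤ) (k : ℕ) {F : Conf × Z → Conf} (hF : Measurable F)
    (μ : Measure (Conf × Z)) [IsFiniteMeasure μ] :
    NullMeasurableSet {q | Cert P GS a b h k q.1 (F q)} μ :=
  nullMeasurableSet_cert P hGS a b h k measurable_fst hF μ

/-! ### Translation covariance -/

lemma eFst_eShift (v : V) (e : Edge) : eFst (eShift v e) = eFst e + v := rfl

lemma eSnd_eShift (v : V) (e : Edge) : eSnd (eShift v e) = eSnd e + v := by
  rcases e with ⟨⟨x, y⟩, c⟩
  cases c <;> simp [eSnd, eShift, Prod.ext_iff] <;> omega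

lemma inTube_vert (L R : ℕ) (a b : ℝ) (h v : ℤ) (d : ℕ) (x : V) :
    InTube L R a b (h + v) d (x + (0, v)) ↔ InTube L R a b h d x := by
  simp only [InTube, Prod.fst_add, Prod.snd_add, add_zero, Int.cast_add]
  constructor <;> rintro ⟨h1, h2, h3⟩ <;> exact ⟨h1, by linarith, by linarith⟩

lemma regSet_vert (L R : ℕ) (a b : ℝ) (h v : ℤ) (d : ℕ) (e : Edge) :
    eShift (0, v) e ∈ regSet L R a b (h + v) d ↔ e ∈ regSet L R a b h d := by
  simp only [regSet, mem_ofPred_eq, eFst_eShift, eSnd_eShift, inTube_vert, Prod.fst_add, add_zero]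

lemma rigidAt_shift {w : V} {t : Conf} {δ : ℝ} {γ : ℤ → V} (hadj : ∀ i, Adj (γ i) (γ (i + 1)))
    (h : RigidAt t δ γ) : RigidAt (shift w t) δ (fun i => γ i - w) := by
  intro n m x z p hx hz hp
  rw [T_shift, plen_shift]
  refine h n m (x + w) (z + w) (p.map (shiftSym w).hom) ?_ ?_ ?_
  · rw [← hx]; simp
  · rw [← hz]; simp
  · have ha : Adj (γ (-1) - w) (γ 0 - w) := by simpa [Adj] using hadj (-1)
    have h2 := ((shiftSym w).walkIn_map _ p).2 hp
    rw [Set.image_compl_eq (shiftSym w).emap.bijective, image_singleton,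
      (shiftSym w).edge_map _ _ ha] at h2
    simpa using h2

lemma fewLow_shift {w v : V} {t : Conf} {r : ℝ} {L₀ : ℕ} (h : FewLow r L₀ (v + w) t) :
    FewLow r L₀ v (shift w t) := by
  intro u p hp hl
  have h1 := h (u + w) (p.map (shiftSym w).hom)
    (SimpleGraph.Walk.IsPath.map (fun a b e => (shiftSym w).vmap.injective e) hp)
    (le_of_le_of_eq hl (SimpleGraph.Walk.length_map ..).symm)
  erw [SimpleGraph.Walk.darts_map, List.filter_map, List.length_map,
    SimpleGraph.Walk.length_map] at h1
  refine le_of_eq_of_le ?_ h1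
  congr 2
  refine List.filter_congr fun d _ => ?_
  simp only [Function.comp, decide_eq_decide]
  exact Iff.of_eq (congrArg (· < r) ((shiftSym w).wt_act t d.adj))

lemma siteLine_shift {v : ℤ} {t : Conf} {R : ℕ} {a b δ : ℝ} {y : ℤ} {γ : ℤ → V}
    (h : SiteLine t R a b δ (y + v) γ) :
    SiteLine (shift (0, v) t) R a b δ y (fun i => γ i - (0, v)) := by
  obtain ⟨h1, h2, ⟨h3, h4, h5⟩, h6⟩ := h
  refine ⟨(coneLine_shift (0, v) t 0 a b R _).2 (by simpa using h1), ?_, ⟨?_, ?_, ?_⟩,
    rigidAt_shift h1.1.adj h6⟩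
  · simpa [sub_eq_add_neg] using (hasDirections_add h1.1.inj (-(0, v))).2 h2
  · simp [h3]
  · simp [h4]
  · intro i hi; simpa using h5 i hi

lemma shift_vert_mem_siteEvent {v : ℤ} {t : Conf} {R L₀ : ℕ} {a b δ r : ℝ} {y : ℤ}
    (h : t ∈ siteEvent R L₀ a b δ r (y + v)) : shift (0, v) t ∈ siteEvent R L₀ a b δ r y := by
  obtain ⟨h1, γ, h2⟩ := h
  exact ⟨fewLow_shift (by simpa using h1), _, siteLine_shift h2⟩

/-- Vertical translations move the site event. -/
theorem siteEvent_add (R L₀ : ℕ) (a b δ r : ℝ) (y v : ℤ) :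
    siteEvent R L₀ a b δ r (y + v) = shift (0, v) ⁻¹' siteEvent R L₀ a b δ r y := by
  ext t
  refine ⟨shift_vert_mem_siteEvent, fun h => ?_⟩
  have := shift_vert_mem_siteEvent (v := -v) (y := y + v) (t := shift (0, v) t)
    (by simpa using h)
  rw [shift_shift] at this
  simpa [shift_zero, show ((0 : ℤ), -v) + (0, v) = 0 by simp] using this

theorem siteEvent_eq_preimage (R L₀ : ℕ) (a b δ r : ℝ) (y : ℤ) :
    siteEvent R L₀ a b δ r y = shift (0, y) ⁻¹' siteEvent R L₀ a b δ r 0 := by
  simpa using siteEvent_add R L₀ a b δ r 0 y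

lemma lftIdx_vert (L v : ℤ) (γ : ℤ → V) :
    lftIdx L (fun i => γ i - (0, v)) = lftIdx L γ := by simp [lftIdx]

lemma rgtIdx_vert (L v : ℤ) (γ : ℤ → V) :
    rgtIdx L (fun i => γ i - (0, v)) = rgtIdx L γ := by simp [rgtIdx]

lemma midEdges_vert {L v : ℤ} {γ : ℤ → V} (hadj : ∀ i, Adj (γ i) (γ (i + 1))) :
    midEdges L γ = (midEdges L fun i => γ i - (0, v)).image (eShift (0, v)) := by
  unfold midEdges
  rw [lftIdx_vert, rgtIdx_vert, Finset.image_image]
  refine Finset.image_congr fun i _ => ?_
  have ha : Adj (γ i - (0, v)) (γ (i + 1) - (0, v)) := by simpa [Adj] using hadj i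
  have := (shiftSym (0, v)).edge_map _ _ ha
  simpa using this.symm

lemma lInc_vert {t : Conf} {L v : ℤ} {γ : ℤ → V} (hadj : ∀ i, Adj (γ i) (γ (i + 1))) (z z' : ℤ) :
    lInc (shift (0, v) t) L (fun i => γ i - (0, v)) z z' = lInc t L γ (z + v) (z' + v) := by
  have hr : ∀ n, Adj (lTail L (fun i => γ i - (0, v)) n)
      (lTail L (fun i => γ i - (0, v)) (n + 1)) := fun n => by
    have h' := hadj (lftIdx L γ - (n + 1 : ℕ))
    rw [show lftIdx L γ - ((n + 1 : ℕ) : ℤ) + 1 = lftIdx L γ - (n : ℤ) by push_cast; ring] at h'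
    simp only [lTail, bwd, lftIdx_vert, Adj, Prod.fst_sub, Prod.snd_sub, sub_sub_sub_cancel_right]
      at h' ⊢
    rw [abs_sub_comm, add_comm, abs_sub_comm, add_comm]
    exact h'
  have e : (fun n => (shiftSym (0, v)).vmap (lTail L (fun i => γ i - (0, v)) n)) = lTail L γ := by
    funext n; simp [lTail, bwd, lftIdx_vert]
  have eS : (shiftSym (0, v)).emap '' lefE 0 (-L) = lefE 0 (-L) := by
    show eShift (0, v) '' lefE 0 (-L) = _
    simpa [lev] using image_eShift_lefE (0, v) 0 (-L)
  unfold lInc
  rw [shift_eq_act, LatSym.bus_act _ t _ hr, LatSym.bus_act _ t _ hr, e, eS]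
  simp

lemma rInc_vert {t : Conf} {L v : ℤ} {γ : ℤ → V} (hadj : ∀ i, Adj (γ i) (γ (i + 1))) (z z' : ℤ) :
    rInc (shift (0, v) t) L (fun i => γ i - (0, v)) z z' = rInc t L γ (z + v) (z' + v) := by
  have hr : ∀ n, Adj (rTail L (fun i => γ i - (0, v)) n)
      (rTail L (fun i => γ i - (0, v)) (n + 1)) := fun n => by
    have h' := hadj (rgtIdx L γ + n)
    rw [add_assoc] at h'
    simpa [rTail, fwd, rgtIdx_vert, Adj] using h'
  have e : (fun n => (shiftSym (0, v)).vmap (rTail L (fun i => γ i - (0, v)) n)) = rTail L γ := by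
    funext n; simp [rTail, fwd, rgtIdx_vert]
  have eS : (shiftSym (0, v)).emap '' rigE 0 L = rigE 0 L := by
    show eShift (0, v) '' rigE 0 L = _
    simpa [lev] using image_eShift_rigE (0, v) 0 L
  unfold rInc
  rw [shift_eq_act, LatSym.bus_act _ t _ hr, LatSym.bus_act _ t _ hr, e, eS]
  simp

lemma cert_vert {P : Params} {GS : Set Conf} (hinv : ∀ (v : V) (t : Conf), t ∈ GS → shift v t ∈ GS)
    {a b : ℝ} {h v : ℤ} {k : ℕ} {pre t : Conf} (hc : Cert P GS a b (h + v) k pre t) :
    Cert P GS a b h k (shift (0, v) pre) (shift (0, v) t) := by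
  obtain ⟨h1, h2, h3, h4, ys, γ, h5, h6, h7⟩ := hc
  refine ⟨hinv _ _ h1, hinv _ _ h2, fun e => h3 _, fun e he => h4 _ fun h' => he ?_,
    fun i => ys i - v, fun i n => γ i n - (0, v), fun i j e => h5 (by simpa using e),
    fun i => ⟨?_, ?_, ?_, ?_⟩, fun i j hij => ?_⟩
  · exact (regSet_vert _ _ a b h v _ e).1 h'
  · linarith [(h6 i).1]
  · linarith [(h6 i).2.1]
  · exact siteLine_shift (by simpa using (h6 i).2.2.1)
  · have hs := (h6 i).2.2.2
    rw [midEdges_vert (v := v) (h6 i).2.2.1.1.1.adj, Finset.sum_image] at hs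
    · exact hs
    · exact fun e _ e' _ he => (shiftSym (0, v)).emap.injective he
  · obtain ⟨z, z', hz1, hz2, hz3, hz4⟩ := h7 i j hij
    refine ⟨z - v, z' - v, by linarith, by linarith, by linarith, ?_⟩
    rw [lInc_vert (h6 i).2.2.1.1.1.adj, lInc_vert (h6 j).2.2.1.1.1.adj,
      rInc_vert (h6 i).2.2.1.1.1.adj, rInc_vert (h6 j).2.2.1.1.1.adj]
    simpa using hz4

/-- Vertical translations move the block event. -/
theorem blockEvent_add (P : Params) {GS : Set Conf}
    (hinv : ∀ (v : V) (t : Conf), t ∈ GS → shift v t ∈ GS) (a b : ℝ) (h v : ℤ) (k : ℕ) :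
    blockEvent P GS a b (h + v) k = shift (0, v) ⁻¹' blockEvent P GS a b h k := by
  ext t
  constructor
  · rintro ⟨pre, hc⟩; exact ⟨_, cert_vert hinv hc⟩
  · rintro ⟨pre, hc⟩
    refine ⟨shift (0, -v) pre, ?_⟩
    have := cert_vert hinv (v := -v) (h := h + v) (pre := pre) (t := shift (0, v) t)
      (by simpa using hc)
    rw [shift_shift] at this
    simpa [shift_zero, show ((0 : ℤ), -v) + (0, v) = 0 by simp] using this

theorem blockEvent_eq_preimage (P : Params) {GS : Set Conf}
    (hinv : ∀ (v : V) (t : Conf), t ∈ GS → shift v t ∈ GS) (a b : ℝ) (h : ℤ) (k : ℕ) :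
    blockEvent P GS a b h k = shift (0, h) ⁻¹' blockEvent P GS a b 0 k := by
  simpa using blockEvent_add P hinv a b 0 h k

/-- All blocks have the same probability. -/
theorem law_blockEvent {G : Measure ℝ} [IsProbabilityMeasure G] (P : Params) {GS : Set Conf}
    (hinv : ∀ (v : V) (t : Conf), t ∈ GS → shift v t ∈ GS) (a b : ℝ) (h : ℤ) (k : ℕ) :
    law G (blockEvent P GS a b h k) = law G (blockEvent P GS a b 0 k) := by
  rw [blockEvent_eq_preimage P hinv, law_shift_preimage]

/-- All sites have the same probability. -/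
theorem law_siteEvent {G : Measure ℝ} [IsProbabilityMeasure G] (R L₀ : ℕ) (a b δ r : ℝ) (y : ℤ) :
    law G (siteEvent R L₀ a b δ r y) = law G (siteEvent R L₀ a b δ r 0) := by
  rw [siteEvent_eq_preimage, law_shift_preimage]

end Vale.Agent.P158
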