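import Vale.Agent.P158.Spec4
import Vale.Agent.P158.MainMeas

/-!
Measurability and translation covariance of the events of the second stage.
-/

open MeasureTheory Filter Topology Set
open scoped ENNReal

namespace Vale.Agent.P158

/-! ### A measurable invariant set of nice configurations -/

/-- A translation invariant Borel set of full measure on which every configuration is nice. -/
theorem exists_niceSet2 {G : Measure ℝ} {M κ : ℝ} (hG : LawOK G M)
    (hgood : ∀ᵐ t ∂law G, Good M κ t) (hF : ForkNullAll G) (hM : MatchAll G) :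
    ∃ GS : Set Conf, MeasurableSet GS ∧ (∀ᵐ t ∂law G, t ∈ GS) ∧
      (∀ t ∈ GS, Nice2 M κ t) ∧ ∀ (v : V) (t : Conf), shift v t ∈ GS ↔ t ∈ GS := by
  have := hG.prob
  have hnice : ∀ᵐ t ∂law G, Nice2 M κ t := by
    filter_upwards [hgood, hF, hM] with t h1 h2 h3
    exact ⟨h1, h2, h3⟩
  set N := toMeasurable (law G) {t | ¬ Nice2 M κ t} with hN
  have hN0 : law G N = 0 := by rw [hN, measure_toMeasurable]; exact ae_iff.1 hnice
  set GS := ⋂ v : V, shift v ⁻¹' Nᶜ with hGS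
  have hinv : ∀ (v : V) (t : Conf), t ∈ GS → shift v t ∈ GS := by
    intro v t ht
    simp only [hGS, mem_iInter, mem_preimage] at ht ⊢
    intro u
    rw [shift_shift]
    exact ht _
  refine ⟨GS, ?_, ?_, ?_, fun v t => ⟨fun h => ?_, hinv v t⟩⟩
  · exact MeasurableSet.iInter fun v =>
      (measurableSet_toMeasurable _ _).compl.preimage (shiftSym v).measurable_act
  · filter_upwards [ae_shift (p := fun t => t ∉ N) (measure_eq_zero_iff_ae_notMem.1 hN0)]
      with t ht using mem_iInter.2 ht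
  · intro t ht
    by_contra hn
    have h0 := mem_iInter.1 ht 0
    rw [mem_preimage, shift_zero] at h0
    exact h0 (subset_toMeasurable _ _ hn)
  · have := hinv (-v) _ h
    rwa [shift_shift, neg_add_cancel, shift_zero] at this

/-! ### Dependence on finite windows -/

section Param

variable {X : Type*} [MeasurableSpace X]

/-- A set defined by a finite window of a measurable path is measurable. -/
lemma measurableSet_window {fg : X → ℤ → V} (hγ : ∀ i, Measurable fun x => fg x i) (a b : ℤ)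
    (P : (ℤ → V) → Prop) (hloc : ∀ γ γ', (∀ m, a ≤ m → m ≤ b → γ m = γ' m) → P γ → P γ') :
    MeasurableSet {x | P (fg x)} := by
  let res : X → (↥(Finset.Icc a b) → V) := fun x m => fg x m
  let ext : (↥(Finset.Icc a b) → V) → ℤ → V := fun f m =>
    if h : m ∈ Finset.Icc a b then f ⟨m, h⟩ else (0, 0)
  have he : {x | P (fg x)} = res ⁻¹' {f | P (ext f)} := by
    ext x
    have h1 : ∀ m, a ≤ m → m ≤ b → ext (res x) m = fg x m := fun m h h' => by
      simp [ext, res, h, h']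
    exact ⟨hloc _ _ fun m h h' => (h1 m h h').symm, hloc _ _ h1⟩
  rw [he]
  exact (measurable_pi_lambda res fun m => hγ m) (Set.to_countable _).measurableSet

/-- An event asking for a path with a property of a finite window is measurable. -/
lemma measurableSet_exists_window (a b : ℤ) (P : X → (ℤ → V) → Prop)
    (hm : ∀ γ, MeasurableSet {x | P x γ})
    (hloc : ∀ x γ γ', (∀ m, a ≤ m → m ≤ b → γ m = γ' m) → P x γ → P x γ') :
    MeasurableSet {x | ∃ γ, P x γ} := by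
  let ext : (↥(Finset.Icc a b) → V) → ℤ → V := fun f m =>
    if h : m ∈ Finset.Icc a b then f ⟨m, h⟩ else (0, 0)
  have he : {x | ∃ γ, P x γ} = ⋃ f, {x | P x (ext f)} := by
    ext x
    simp only [mem_ofPred_eq, mem_iUnion]
    constructor
    · rintro ⟨γ, h⟩
      exact ⟨fun m => γ m, hloc x γ _ (fun m h h' => by simp [ext, h, h']) h⟩
    · rintro ⟨f, h⟩
      exact ⟨_, h⟩
  rw [he]
  exact MeasurableSet.iUnion fun f => hm _

/-- Properties of the cardinality of a finite random set of integers are measurable. -/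
lemma measurableSet_ncard {Q : ℤ → X → Prop} (hfin : ∀ x, {c | Q c x}.Finite)
    (hQ : ∀ c, MeasurableSet {x | Q c x}) (P : ℕ → Prop) :
    MeasurableSet {x | P {c | Q c x}.ncard} := by
  have he : {x | P {c | Q c x}.ncard} =
      ⋃ F : Finset ℤ, (⋂ c, {x | Q c x ↔ c ∈ F}) ∩ {_x | P F.card} := by
    ext x
    simp only [mem_ofPred_eq, mem_iUnion, mem_inter_iff, mem_iInter]
    constructor
    · intro h
      exact ⟨(hfin x).toFinset, fun c => (Set.Finite.mem_toFinset (hfin x)).symm,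
        by rwa [← ncard_eq_toFinset_card _ (hfin x)]⟩
    · rintro ⟨F, h1, h2⟩
      have h3 : {c | Q c x} = (F : Set ℤ) := Set.ext h1
      rwa [h3, ncard_coe_finset]
  rw [he]
  exact MeasurableSet.iUnion fun F =>
    (MeasurableSet.iInter fun c => (hQ c).iff (MeasurableSet.const (c ∈ F))).inter
      (MeasurableSet.const (P F.card))

/-- A finite disjunction over a list of measurable events is measurable. -/
lemma measurableSet_exists_mem_list {A : Type*} (l : List A) {Q : A → X → Prop}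
    (h : ∀ a, MeasurableSet {x | Q a x}) : MeasurableSet {x | ∃ a ∈ l, Q a x} := by
  induction l with
  | nil => simp
  | cons a l ih =>
    simp only [List.exists_mem_cons_iff]
    exact (h a).union ih

end Param

/-! ### Segments and their sites -/

lemma SegGeo.congr {t : Conf} {γ γ' : ℤ → V} {i₀ i₁ : ℤ}
    (h : ∀ m, i₀ ≤ m → m ≤ i₁ → γ m = γ' m) (hs : SegGeo t γ i₀ i₁) : SegGeo t γ' i₀ i₁ where
  le := hs.le
  adj m h1 h2 := by
    rw [← h m h1 h2.le, ← h (m + 1) (by omega) (by omega)]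
    exact hs.adj m h1 h2
  inj := hs.inj.congr fun m hm => h m hm.1 hm.2
  geo := by
    rw [← h i₀ le_rfl hs.le, ← h i₁ hs.le le_rfl, ← hs.geo]
    refine Finset.sum_congr rfl fun m hm => ?_
    rw [Finset.mem_Ico] at hm
    rw [h m hm.1 hm.2.le, h (m + 1) (by omega) (by omega)]

lemma Cross.congr {k : ℤ} {γ γ' : ℤ → V} {i₀ i₁ c : ℤ} {R : ℕ} {i j : ℤ}
    (h : ∀ m, i₀ ≤ m → m ≤ i₁ → γ m = γ' m) (hc : Cross k γ i₀ i₁ c R i j) :
    Cross k γ' i₀ i₁ c R i j where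
  lo := hc.lo
  le := hc.le
  hi := hc.hi
  len := hc.len
  first := by rw [← h i hc.lo.le (hc.le.trans hc.hi.le)]; exact hc.first
  last := by rw [← h j (hc.lo.le.trans hc.le) hc.hi.le]; exact hc.last
  before m h1 h2 := by
    rw [← h m h1 (h2.le.trans (hc.le.trans hc.hi.le))]; exact hc.before m h1 h2
  after m h1 h2 := by
    rw [← h m ((hc.lo.le.trans hc.le).trans h1.le) h2]; exact hc.after m h1 h2

lemma SiteSeg.congr {k : ℤ} {R : ℕ} {r₁ C : ℝ} {n₁ n₂ : ℕ} {t : Conf} {γ γ' : ℤ → V}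
    {i₀ i₁ i j : ℤ} (h : ∀ m, i₀ ≤ m → m ≤ i₁ → γ m = γ' m)
    (hs : SiteSeg k R r₁ C n₁ n₂ t γ i₀ i₁ i j) :
    SiteSeg k R r₁ C n₁ n₂ t γ' i₀ i₁ i j := by
  have h0 := hs.cross.lo
  have h1 : i ≤ i₁ := hs.cross.le.trans hs.cross.hi.le
  have e0 := h i₀ le_rfl hs.seg.le
  have e1 := h i₁ hs.seg.le le_rfl
  have ei := h i h0.le h1
  have ep := h (i - 1) (by omega) (by omega)
  exact ⟨hs.seg.congr h, hs.cross.congr h, ei ▸ hs.origin, ep ▸ ei ▸ hs.heavy,
    e0 ▸ hs.lev₀, e1 ▸ hs.lev₁, fun m hm hm' => h m hm hm' ▸ hs.strip m hm hm',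
    e0 ▸ hs.slope₀, e1 ▸ hs.slope₁⟩

lemma measurableSet_segGeo (γ : ℤ → V) (i₀ i₁ : ℤ) :
    MeasurableSet {t | SegGeo t γ i₀ i₁} := by
  have he : {t | SegGeo t γ i₀ i₁} =
      {_t | i₀ ≤ i₁ ∧ (∀ m, i₀ ≤ m → m < i₁ → Adj (γ m) (γ (m + 1))) ∧
        Set.InjOn γ (Set.Icc i₀ i₁)} ∩
      {t | ∑ m ∈ Finset.Ico i₀ i₁, wt t (γ m) (γ (m + 1)) = T t (γ i₀) (γ i₁)} := by
    ext t
    exact ⟨fun h => ⟨⟨h.le, h.adj, h.inj⟩, h.geo⟩, fun h => ⟨h.1.1, h.1.2.1, h.1.2.2, h.2⟩⟩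
  rw [he]
  exact (MeasurableSet.const _).inter (measurableSet_eq_fun
    (Finset.measurable_sum _ fun m _ => measurable_pi_apply _) (measurable_T _ _))

lemma measurableSet_siteSeg (k : ℤ) (R : ℕ) (r₁ C : ℝ) (n₁ n₂ : ℕ) (γ : ℤ → V)
    (i₀ i₁ i j : ℤ) : MeasurableSet {t | SiteSeg k R r₁ C n₁ n₂ t γ i₀ i₁ i j} := by
  have he : {t | SiteSeg k R r₁ C n₁ n₂ t γ i₀ i₁ i j} =
      {t | SegGeo t γ i₀ i₁} ∩ ({t | r₁ ≤ wt t (γ (i - 1)) (γ i)} ∩
        {_t | Cross k γ i₀ i₁ 0 R i j ∧ γ i = 0 ∧ lev k (γ i₀) = -(n₁ : ℤ) ∧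
          lev k (γ i₁) = (n₂ : ℤ) ∧ (∀ m, i₀ ≤ m → m ≤ i₁ →
            -(n₁ : ℤ) ≤ lev k (γ m) ∧ lev k (γ m) ≤ (n₂ : ℤ)) ∧
          |((γ i₀).2 : ℝ)| ≤ C * n₁ ∧ |((γ i₁).2 : ℝ)| ≤ C * n₂}) := by
    ext t
    exact ⟨fun h => ⟨h.seg, h.heavy, h.cross, h.origin, h.lev₀, h.lev₁, h.strip, h.slope₀,
        h.slope₁⟩,
      fun ⟨h1, h2, h3, h4, h5, h6, h7, h8, h9⟩ => ⟨h1, h3, h4, h2, h5, h6, h7, h8, h9⟩⟩
  rw [he]
  exact (measurableSet_segGeo γ i₀ i₁).inter
    ((measurableSet_le measurable_const (measurable_pi_apply _)).inter (MeasurableSet.const _))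

/-- An event asking for a site segment with a property of its window is measurable. -/
lemma measurableSet_exists_siteSeg (k : ℤ) (R : ℕ) (r₁ C : ℝ) (n₁ n₂ : ℕ)
    (Q : (ℤ → V) → ℤ → ℤ → Prop)
    (hQ : ∀ γ γ' i₀ i₁, i₀ ≤ i₁ → (∀ m, i₀ ≤ m → m ≤ i₁ → γ m = γ' m) →
      Q γ i₀ i₁ → Q γ' i₀ i₁) :
    MeasurableSet {t | ∃ γ i₀ i₁ i j, SiteSeg k R r₁ C n₁ n₂ t γ i₀ i₁ i j ∧ Q γ i₀ i₁} := by
  have he : {t | ∃ γ i₀ i₁ i j, SiteSeg k R r₁ C n₁ n₂ t γ i₀ i₁ i j ∧ Q γ i₀ i₁} =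
      ⋃ (i₀) (i₁) (i) (j), {t | ∃ γ, SiteSeg k R r₁ C n₁ n₂ t γ i₀ i₁ i j ∧ Q γ i₀ i₁} := by
    ext t
    simp only [mem_ofPred_eq, mem_iUnion]
    exact ⟨fun ⟨γ, i₀, i₁, i, j, h⟩ => ⟨i₀, i₁, i, j, γ, h⟩,
      fun ⟨i₀, i₁, i, j, γ, h⟩ => ⟨γ, i₀, i₁, i, j, h⟩⟩
  rw [he]
  refine MeasurableSet.iUnion fun i₀ => MeasurableSet.iUnion fun i₁ =>
    MeasurableSet.iUnion fun i => MeasurableSet.iUnion fun j =>
      measurableSet_exists_window i₀ i₁ _ (fun γ => ?_) fun t γ γ' h hp =>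
        ⟨hp.1.congr h, hQ γ γ' i₀ i₁ hp.1.seg.le h hp.2⟩
  exact (measurableSet_siteSeg k R r₁ C n₁ n₂ γ i₀ i₁ i j).inter (MeasurableSet.const _)

theorem measurableSet_bentSite (k : ℤ) (R : ℕ) (r₁ C ρ : ℝ) (n₁ n₂ : ℕ) :
    MeasurableSet (bentSite k R r₁ C ρ n₁ n₂) :=
  measurableSet_exists_siteSeg k R r₁ C n₁ n₂
    (fun γ i₀ i₁ => ρ ≤ |-((γ i₀).2 : ℝ) / n₁ - ((γ i₁).2 : ℝ) / n₂|)
    fun γ γ' i₀ i₁ hle h hp => by rwa [← h i₀ le_rfl hle, ← h i₁ hle le_rfl]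

theorem measurableSet_wildSite (k : ℤ) (R : ℕ) (r₁ C ρ : ℝ) (n : ℕ) :
    MeasurableSet (wildSite k R r₁ C ρ n) :=
  measurableSet_exists_siteSeg k R r₁ C n n
    (fun γ i₀ i₁ => ∀ s : ℝ, |s| ≤ C →
      ∃ m, i₀ ≤ m ∧ m ≤ i₁ ∧ ρ * n < |((γ m).2 : ℝ) - s * lev k (γ m)|)
    fun γ γ' i₀ i₁ _ h hp s hs => by
      obtain ⟨m, h1, h2, h3⟩ := hp s hs
      exact ⟨m, h1, h2, h m h1 h2 ▸ h3⟩

theorem measurableSet_slopeSite (k : ℤ) (R : ℕ) (r₁ C : ℝ) (n : ℕ) (a b : ℝ) :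
    MeasurableSet (slopeSite k R r₁ C n a b) :=
  measurableSet_exists_siteSeg k R r₁ C n n
    (fun γ i₀ i₁ => a * n ≤ -((γ i₀).2 : ℝ) ∧ -((γ i₀).2 : ℝ) ≤ b * n ∧
      a * n ≤ ((γ i₁).2 : ℝ) ∧ ((γ i₁).2 : ℝ) ≤ b * n)
    fun γ γ' i₀ i₁ hle h hp => by rwa [← h i₀ le_rfl hle, ← h i₁ hle le_rfl]

/-! ### Chords -/

/-- A segment which violates `ChordOK`. -/
def BadChord (γ₀ C r₁ ε : ℝ) (R N : ℕ) (i₀ i₁ : ℤ) (t : Conf) (γ : ℤ → V) : Prop :=
  SegGeo t γ i₀ i₁ ∧ OnBd N (γ i₀) ∧ OnBd N (γ i₁) ∧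
    (∃ m, i₀ ≤ m ∧ m ≤ i₁ ∧ InSq ⌊γ₀ * N / 8⌋ (γ m)) ∧
    ¬ (((i₁ - i₀ : ℤ) : ℝ) ≤ C * N ∧
    ∃ σ ∈ frameSyms, ∃ k : ℤ, (k = 0 ∨ k = 1) ∧
      (lev k (σ.vmap (γ i₀)) : ℝ) ≤ -γ₀ * N ∧ γ₀ * N ≤ (lev k (σ.vmap (γ i₁)) : ℝ) ∧
      (({c : ℤ | |(c : ℝ)| ≤ γ₀ * N / 2 ∧ ¬∃ i j, Cross k (σ.vmap ∘ γ) i₀ i₁ c R i j ∧
        r₁ ≤ wt t (γ (i - 1)) (γ i)}.ncard : ℕ) : ℝ) ≤ ε * N ∧
      (({m : ℤ | i₀ ≤ m ∧ m ≤ i₁ ∧ |(lev k (σ.vmap (γ m)) : ℝ)| ≤ γ₀ * N / 4 ∧
        ¬∃ c i j, Cross k (σ.vmap ∘ γ) i₀ i₁ c R i j ∧ r₁ ≤ wt t (γ (i - 1)) (γ i) ∧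
          |m - i| ≤ (R : ℤ)}.ncard : ℕ) : ℝ) ≤ ε * N)

lemma finite_abs_le_real (x : ℝ) : {c : ℤ | |(c : ℝ)| ≤ x}.Finite := by
  refine (Set.finite_Icc (-⌈x⌉) ⌈x⌉).subset fun c hc => ?_
  obtain ⟨h1, h2⟩ := abs_le.1 (show |(c : ℝ)| ≤ x from hc)
  have h3 : c ≤ ⌈x⌉ := Int.cast_le.1 (h2.trans (Int.le_ceil x))
  have h4 : -c ≤ ⌈x⌉ := by
    refine (Int.cast_le (R := ℝ)).1 (le_trans ?_ (Int.le_ceil x))
    push_cast
    linarith
  exact ⟨by omega, h3⟩

theorem measurableSet_not_chordOK (γ₀ C r₁ ε : ℝ) (R N : ℕ) :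
    MeasurableSet {t | ¬ ChordOK γ₀ C r₁ ε R N t} := by
  have he : {t | ¬ ChordOK γ₀ C r₁ ε R N t} =
      ⋃ (i₀) (i₁), {t | ∃ γ, BadChord γ₀ C r₁ ε R N i₀ i₁ t γ} := by
    ext t
    simp only [mem_ofPred_eq, mem_iUnion, ChordOK, not_forall, BadChord, exists_prop]
    exact ⟨fun ⟨γ, i₀, i₁, h1, h2, h3, h4, h5⟩ => ⟨i₀, i₁, γ, h1, h2, h3, h4, h5⟩,
      fun ⟨i₀, i₁, γ, h1, h2, h3, h4, h5⟩ => ⟨γ, i₀, i₁, h1, h2, h3, h4, h5⟩⟩
  rw [he]
  refine MeasurableSet.iUnion fun i₀ => MeasurableSet.iUnion fun i₁ =>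
    measurableSet_exists_window i₀ i₁ _ (fun γ => ?_) fun t γ γ' h hp => ?_
  · simp only [BadChord, ofPred_and]
    refine (measurableSet_segGeo γ i₀ i₁).inter ((MeasurableSet.const _).inter
      ((MeasurableSet.const _).inter ((MeasurableSet.const _).inter (MeasurableSet.compl ?_))))
    refine (MeasurableSet.const _).inter ?_
    show MeasurableSet {t : Conf | ∃ σ ∈ frameSyms, ∃ k : ℤ, (k = 0 ∨ k = 1) ∧ _}
    have hA : ∀ i : ℤ, MeasurableSet {t : Conf | r₁ ≤ wt t (γ (i - 1)) (γ i)} := fun i =>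
      measurableSet_le measurable_const (measurable_pi_apply _)
    refine measurableSet_exists_mem_list frameSyms fun σ => ?_
    simp only [ofPred_exists, ofPred_and]
    refine (MeasurableSet.iUnion fun k =>
      (MeasurableSet.const _).inter ((MeasurableSet.const _).inter ((MeasurableSet.const _).inter
        (MeasurableSet.inter ?_ ?_))))
    · refine measurableSet_ncard (X := Conf)
        (Q := fun c t => |(c : ℝ)| ≤ γ₀ * N / 2 ∧ ¬∃ i j, Cross k (σ.vmap ∘ γ) i₀ i₁ c R i j ∧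
          r₁ ≤ wt t (γ (i - 1)) (γ i))
        (fun t => (finite_abs_le_real (γ₀ * N / 2)).subset fun c hc => hc.1) (fun c => ?_)
        (fun n => (n : ℝ) ≤ ε * N)
      refine (MeasurableSet.const (|(c : ℝ)| ≤ γ₀ * N / 2)).inter (MeasurableSet.compl ?_)
      show MeasurableSet {t : Conf | ∃ i j, Cross k (σ.vmap ∘ γ) i₀ i₁ c R i j ∧ _}
      simp only [ofPred_exists, ofPred_and]
      exact MeasurableSet.iUnion fun i => MeasurableSet.iUnion
        fun j => (MeasurableSet.const _).inter (hA i)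
    · refine measurableSet_ncard (X := Conf)
        (Q := fun m t => i₀ ≤ m ∧ m ≤ i₁ ∧ |(lev k (σ.vmap (γ m)) : ℝ)| ≤ γ₀ * N / 4 ∧
          ¬∃ c i j, Cross k (σ.vmap ∘ γ) i₀ i₁ c R i j ∧ r₁ ≤ wt t (γ (i - 1)) (γ i) ∧
            |m - i| ≤ (R : ℤ))
        (fun t => (Set.finite_Icc i₀ i₁).subset fun m hm => ⟨hm.1, hm.2.1⟩) (fun m => ?_)
        (fun n => (n : ℝ) ≤ ε * N)
      refine (MeasurableSet.const (i₀ ≤ m)).inter ((MeasurableSet.const (m ≤ i₁)).inter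
        ((MeasurableSet.const (|(lev k (σ.vmap (γ m)) : ℝ)| ≤ γ₀ * N / 4)).inter
          (MeasurableSet.compl ?_)))
      show MeasurableSet {t : Conf | ∃ c i j, Cross k (σ.vmap ∘ γ) i₀ i₁ c R i j ∧ _}
      simp only [ofPred_exists, ofPred_and]
      exact MeasurableSet.iUnion fun c => MeasurableSet.iUnion
          fun i => MeasurableSet.iUnion fun j => (MeasurableSet.const _).inter
            ((hA i).inter (MeasurableSet.const _))
  · obtain ⟨h1, h2, h3, ⟨m, hm1, hm2, hm3⟩, h5⟩ := hp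
    have e0 := h i₀ le_rfl h1.le
    have e1 := h i₁ h1.le le_rfl
    refine ⟨h1.congr h, e0 ▸ h2, e1 ▸ h3, ⟨m, hm1, hm2, h m hm1 hm2 ▸ hm3⟩, fun hgood => h5 ?_⟩
    obtain ⟨g1, σ, hσ, k, hk, g2, g3, g4, g5⟩ := hgood
    have hcr : ∀ c i j, Cross k (σ.vmap ∘ γ') i₀ i₁ c R i j ∧ r₁ ≤ wt t (γ' (i - 1)) (γ' i) ↔
        Cross k (σ.vmap ∘ γ) i₀ i₁ c R i j ∧ r₁ ≤ wt t (γ (i - 1)) (γ i) := by
      intro c i j
      have hh : ∀ m, i₀ ≤ m → m ≤ i₁ → (σ.vmap ∘ γ) m = (σ.vmap ∘ γ') m := fun m ha hb => by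
        simp [h m ha hb]
      constructor <;> rintro ⟨hc, hw⟩
      all_goals
        have h0 := hc.lo
        have h1' : i ≤ i₁ := hc.le.trans hc.hi.le
        have ei := h i h0.le h1'
        have ep := h (i - 1) (by omega) (by omega)
      · exact ⟨hc.congr fun m ha hb => (hh m ha hb).symm, by rwa [ei, ep]⟩
      · exact ⟨hc.congr hh, by rwa [← ei, ← ep]⟩
    refine ⟨g1, σ, hσ, k, hk, e0.symm ▸ g2, e1.symm ▸ g3, ?_, ?_⟩
    · convert g4 using 5
      rename_i c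
      refine and_congr_right fun _ => not_congr (exists₂_congr fun i j => (hcr c i j).symm)
    · convert g5 using 5
      rename_i m'
      refine and_congr_right fun ha => and_congr_right fun hb => ?_
      rw [h m' ha hb]
      refine and_congr_right fun _ => not_congr (exists₃_congr fun c i j => ?_)
      rw [← and_assoc, ← and_assoc, hcr c i j]

theorem measurableSet_chordOK (γ₀ C r₁ ε : ℝ) (R N : ℕ) :
    MeasurableSet {t | ChordOK γ₀ C r₁ ε R N t} :=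
  .of_compl (measurableSet_not_chordOK γ₀ C r₁ ε R N)

section Param

variable {X : Type*} [MeasurableSpace X] {ft : X → Conf} {fg : X → ℤ → V}

lemma measurableSet_lineChord (ht : Measurable ft) (hγ : ∀ i, Measurable fun x => fg x i)
    (N N' i₀ i₁ : ℤ) : MeasurableSet {x | LineChord (ft x) N N' (fg x) i₀ i₁} := by
  have he : {x | LineChord (ft x) N N' (fg x) i₀ i₁} = {x | IsBigeodesic (ft x) (fg x)} ∩
      ({x | InSq N (fg x i₀) ∧ InSq N (fg x i₁)} ∩
        ((⋂ m : ℤ, {x | InSq N (fg x m) → i₀ ≤ m ∧ m ≤ i₁}) ∩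
          ⋃ m : ℤ, {x | InSq N' (fg x m)})) := by
    ext x
    simp only [mem_ofPred_eq, mem_inter_iff, mem_iInter, mem_iUnion]
    exact ⟨fun h => ⟨h.line, ⟨h.mem₀, h.mem₁⟩, h.only, h.near⟩,
      fun ⟨h1, ⟨h2, h3⟩, h4, h5⟩ => ⟨h1, h2, h3, h4, h5⟩⟩
  rw [he]
  exact (measurableSet_isBigeodesic ht hγ).inter
    ((measurableSet_coords (hγ i₀) (hγ i₁) fun u v => InSq N u ∧ InSq N v).inter
      ((MeasurableSet.iInter fun m => measurableSet_coords (hγ m) (hγ m)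
          fun u _ => InSq N u → i₀ ≤ m ∧ m ≤ i₁).inter
        (MeasurableSet.iUnion fun m => measurableSet_coords (hγ m) (hγ m) fun u _ => InSq N' u)))

lemma measurableSet_boxCross (hγ : ∀ i, Measurable fun x => fg x i) (k N c : ℤ) (R : ℕ)
    (i j : ℤ) : MeasurableSet {x | BoxCross k (fg x) N c R i j} := by
  have he : {x | BoxCross k (fg x) N c R i j} = {_x | i ≤ j ∧ j - i ≤ R} ∩
      ({x | lev k (fg x i) = c ∧ lev k (fg x j) = c} ∩ ({x | lev k (fg x (i - 1)) = c - 1} ∩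
        ((⋂ (m : ℤ) (_ : m < i), {x | InSq N (fg x m) → lev k (fg x m) < c}) ∩
          ⋂ (m : ℤ) (_ : j < m), {x | InSq N (fg x m) → c < lev k (fg x m)}))) := by
    ext x
    simp only [mem_ofPred_eq, mem_inter_iff, mem_iInter]
    exact ⟨fun h => ⟨⟨h.le, h.len⟩, ⟨h.first, h.last⟩, h.step, h.before, h.after⟩,
      fun ⟨⟨h1, h2⟩, ⟨h3, h4⟩, h5, h6, h7⟩ => ⟨h1, h2, h3, h4, h5, h6, h7⟩⟩
  rw [he]
  exact (MeasurableSet.const _).inter
    ((measurableSet_coords (hγ i) (hγ j) fun u v => lev k u = c ∧ lev k v = c).inter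
      ((measurableSet_coords (hγ (i - 1)) (hγ (i - 1)) fun u _ => lev k u = c - 1).inter
        ((MeasurableSet.iInter fun m => MeasurableSet.iInter fun _ =>
            measurableSet_coords (hγ m) (hγ m) fun u _ => InSq N u → lev k u < c).inter
          (MeasurableSet.iInter fun m => MeasurableSet.iInter fun _ =>
            measurableSet_coords (hγ m) (hγ m) fun u _ => InSq N u → c < lev k u))))

lemma measurableSet_rigidEdge (ht : Measurable ft) (hγ : ∀ i, Measurable fun x => fg x i)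
    (δ : ℝ) : MeasurableSet {x | RigidEdge (ft x) δ (fg x)} :=
  measurableSet_rigidAt ht hγ δ

lemma measurableSet_lineSite (ht : Measurable ft) (hγ : ∀ i, Measurable fun x => fg x i)
    (P : SiteP) (k : ℤ) (s : ℝ) (v : V) (iL jR : ℤ) :
    MeasurableSet {x | LineSite P k s v (ft x) (fg x) iL jR} := by
  have hbc := measurableSet_boxCross (fg := fg) hγ k P.N
  have he : {x | LineSite P k s v (ft x) (fg x) iL jR} =
      {x | IsBigeodesic (ft x) (fg x)} ∩ ({x | fg x 0 = v} ∩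
      ((⋃ j, {x | BoxCross k (fg x) P.N (lev k v) P.R 0 j}) ∩
      ((⋃ (j) (_ : j < 0), {x | BoxCross k (fg x) P.N (-(P.Lam : ℤ)) P.R' iL j}) ∩
      ((⋃ (i) (_ : 0 < i), {x | BoxCross k (fg x) P.N P.Lam P.R' i jR}) ∩
      ((⋂ (m : ℤ) (_ : iL - 1 ≤ m) (_ : m ≤ jR + 1), {x | InSq P.N (fg x m)}) ∩
      ({x | ∃ s' : ℝ, |s' - s| ≤ P.ε ∧ ∀ m, iL ≤ m → m ≤ jR →
          |((fg x m).2 : ℝ) - v.2 - s' * (lev k (fg x m) - lev k v)| ≤ P.w} ∩
      ({x | RigidEdge (ft x) P.δ (fg x)} ∩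
      {x | P.L ≤ {m : ℤ | iL ≤ m ∧ m < jR ∧ P.r ≤ wt (ft x) (fg x m) (fg x (m + 1)) ∧
          |lev k (fg x m) - lev k v| ≤ (P.L : ℤ) ∧
          |lev k (fg x (m + 1)) - lev k v| ≤ (P.L : ℤ)}.ncard}))))))) := by
    ext x
    simp only [mem_ofPred_eq, mem_inter_iff, mem_iInter, mem_iUnion, exists_prop]
    constructor
    · intro h
      obtain ⟨j, hj, hj'⟩ := h.left
      obtain ⟨i, hi, hi'⟩ := h.right
      exact ⟨h.line, h.origin, h.site, ⟨j, hj', hj⟩, ⟨i, hi', hi⟩, h.inBox, h.tube, h.rigid,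
        h.heavy⟩
    · rintro ⟨h1, h2, h3, ⟨j, hj', hj⟩, ⟨i, hi', hi⟩, h6, h7, h8, h9⟩
      exact ⟨h1, h2, h3, ⟨j, hj, hj'⟩, ⟨i, hi, hi'⟩, h6, h7, h8, h9⟩
  rw [he]
  refine (measurableSet_isBigeodesic ht hγ).inter
    ((measurableSet_coords (hγ 0) (hγ 0) fun u _ => u = v).inter
    ((MeasurableSet.iUnion fun j => hbc _ _ _ j).inter
    ((MeasurableSet.iUnion fun j => MeasurableSet.iUnion fun _ => hbc _ _ _ j).inter
    ((MeasurableSet.iUnion fun i => MeasurableSet.iUnion fun _ => hbc _ _ i _).inter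
    ((MeasurableSet.iInter fun m => MeasurableSet.iInter fun _ => MeasurableSet.iInter fun _ =>
      measurableSet_coords (hγ m) (hγ m) fun u _ => InSq P.N u).inter
    (MeasurableSet.inter ?_ ((measurableSet_rigidEdge ht hγ P.δ).inter ?_)))))))
  · refine measurableSet_window hγ iL jR (fun γ => ∃ s' : ℝ, |s' - s| ≤ P.ε ∧
      ∀ m, iL ≤ m → m ≤ jR → |((γ m).2 : ℝ) - v.2 - s' * (lev k (γ m) - lev k v)| ≤ P.w)
      fun γ γ' h ⟨s', h1, h2⟩ => ⟨s', h1, fun m ha hb => h m ha hb ▸ h2 m ha hb⟩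
  · refine measurableSet_ncard (Q := fun m x => iL ≤ m ∧ m < jR ∧
      P.r ≤ wt (ft x) (fg x m) (fg x (m + 1)) ∧ |lev k (fg x m) - lev k v| ≤ (P.L : ℤ) ∧
      |lev k (fg x (m + 1)) - lev k v| ≤ (P.L : ℤ))
      (fun x => (Set.finite_Ico iL jR).subset fun m hm => ⟨hm.1, hm.2.1⟩) (fun m => ?_)
      (fun n => P.L ≤ n)
    simp only [ofPred_and]
    exact (MeasurableSet.const _).inter ((MeasurableSet.const _).inter
      ((measurableSet_le measurable_const (measurable_wt_param ht (hγ m) (hγ (m + 1)))).inter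
        ((measurableSet_coords (hγ m) (hγ m) fun u _ => |lev k u - lev k v| ≤ (P.L : ℤ)).inter
          (measurableSet_coords (hγ (m + 1)) (hγ (m + 1))
            fun u _ => |lev k u - lev k v| ≤ (P.L : ℤ)))))

lemma measurableSet_wit4 (ht : Measurable ft) {fg' : X → ℤ → V}
    (hγ : ∀ i, Measurable fun x => fg x i) (hγ' : ∀ i, Measurable fun x => fg' x i)
    (W : ℤ) (G₀ : ℝ) : MeasurableSet {x | Wit4 (ft x) W G₀ (fg x) (fg' x)} := by
  have h : ∀ fr fs : X → ℕ → V, (∀ n, Measurable fun x => fr x n) →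
      (∀ n, Measurable fun x => fs x n) → MeasurableSet {x | Wit (ft x) W G₀ (fr x) (fs x)} := by
    intro fr fs hr hs
    simp only [Wit, ofPred_exists]
    exact MeasurableSet.iUnion fun z => (MeasurableSet.const _).inter
      (measurableSet_lt ((measurable_bus_param ht _ hr z).add (measurable_bus_param ht _ hs z))
        measurable_const)
  have hb : ∀ (f : X → ℤ → V), (∀ i, Measurable fun x => f x i) →
      ∀ n, Measurable fun x => bwd (f x) 0 n := fun f hf n => hf _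
  have hf : ∀ (f : X → ℤ → V), (∀ i, Measurable fun x => f x i) →
      ∀ n, Measurable fun x => fwd (f x) 0 n := fun f hf n => hf _
  exact (h _ _ (hb _ hγ) (hf _ hγ')).inter ((h _ _ (hf _ hγ) (hb _ hγ')).inter
    ((h _ _ (hb _ hγ) (hb _ hγ')).inter (h _ _ (hf _ hγ) (hf _ hγ'))))

end Param

/-! ### Null measurability of the events -/

/-- The event that a given list is a chord of a bigeodesic is null measurable. -/
theorem nullMeasurableSet_mem_lineChords (μ : Measure Conf) [IsFiniteMeasure μ] (N N' : ℤ)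
    (l : List V) : NullMeasurableSet {t | l ∈ lineChords t N N'} μ := by
  have he : {t | l ∈ lineChords t N N'} = Prod.fst '' (⋃ (i₀) (i₁),
      {q : Conf × (ℤ → V) | LineChord q.1 N N' q.2 i₀ i₁} ∩
        {q | l = (List.range ((i₁ - i₀).toNat + 1)).map fun m : ℕ => q.2 (i₀ + m)}) := by
    ext t
    simp only [lineChords, mem_ofPred_eq, mem_image, mem_iUnion, mem_inter_iff]
    exact ⟨fun ⟨γ, i₀, i₁, h⟩ => ⟨(t, γ), ⟨i₀, i₁, h⟩, rfl⟩,
      fun ⟨⟨_, γ⟩, ⟨i₀, i₁, h⟩, rfl⟩ => ⟨γ, i₀, i₁, h⟩⟩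
  rw [he]
  refine nullMeasurableSet_image (MeasurableSet.iUnion fun i₀ => MeasurableSet.iUnion fun i₁ =>
    MeasurableSet.inter ?_ ?_) measurable_fst μ
  · exact measurableSet_lineChord measurable_fst
      (fun i => (measurable_pi_apply i).comp measurable_snd) N N' i₀ i₁
  · refine measurableSet_window (fun i => (measurable_pi_apply i).comp measurable_snd)
      i₀ (i₀ + (i₁ - i₀).toNat)
      (fun γ => l = (List.range ((i₁ - i₀).toNat + 1)).map fun m : ℕ => γ (i₀ + m))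
      fun γ γ' h hl => hl.trans (List.map_congr_left fun m hm => ?_)
    rw [List.mem_range] at hm
    exact h _ (by omega) (by omega)

/-- The number of chords of bigeodesics is almost everywhere measurable. -/
theorem aemeasurable_lineChords (μ : Measure Conf) [IsFiniteMeasure μ] (N N' : ℤ) :
    AEMeasurable (fun t => ((lineChords t N N').encard : ℝ≥0∞)) μ := by
  have he : (fun t => ((lineChords t N N').encard : ℝ≥0∞)) =
      fun t => ∑' l : List V, {t | l ∈ lineChords t N N'}.indicator (fun _ => (1 : ℝ≥0∞)) t := by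
    funext t
    rw [← ENNReal.tsum_set_one, tsum_subtype (lineChords t N N') fun _ => (1 : ℝ≥0∞)]
    refine tsum_congr fun l => ?_
    by_cases hl : l ∈ lineChords t N N' <;> simp [hl]
  rw [he]
  exact AEMeasurable.tsum fun l =>
    aemeasurable_const.indicator₀ (nullMeasurableSet_mem_lineChords μ N N' l)

/-- The site event is null measurable. -/
theorem nullMeasurableSet_siteEvent2 (μ : Measure Conf) [IsFiniteMeasure μ] (P : SiteP)
    (k c : ℤ) (s : ℝ) (y : ℤ) : NullMeasurableSet (siteEvent2 P k c s y) μ := by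
  have he : siteEvent2 P k c s y = Prod.fst '' (⋃ (iL) (jR),
      {q : Conf × (ℤ → V) | LineSite P k s (pt k c y) q.1 q.2 iL jR}) := by
    ext t
    simp only [siteEvent2, mem_ofPred_eq, mem_image, mem_iUnion]
    exact ⟨fun ⟨γ, iL, jR, h⟩ => ⟨(t, γ), ⟨iL, jR, h⟩, rfl⟩,
      fun ⟨⟨_, γ⟩, ⟨iL, jR, h⟩, rfl⟩ => ⟨γ, iL, jR, h⟩⟩
  rw [he]
  exact nullMeasurableSet_image (MeasurableSet.iUnion fun iL => MeasurableSet.iUnion fun jR =>
    measurableSet_lineSite measurable_fst (fun i => (measurable_pi_apply i).comp measurable_snd)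
      P k s _ iL jR) measurable_fst μ

/-- The data of a certificate once the heights and the indices are chosen. -/
def Cert2Body (P : SiteP) (B : BlockP) (GS : Set Conf) (k c : ℤ) (s : ℝ) (h : ℤ) {n : ℕ}
    (ys iL jR : Fin n → ℤ) (pre t : Conf) (γ : Fin n → ℤ → V) : Prop :=
  pre ∈ GS ∧ t ∈ GS ∧ (∀ e, t e ≤ pre e) ∧ (∀ e, e ∉ regSet2 P k c s h B.d → t e = pre e) ∧
  Function.Injective ys ∧
    (∀ i, h ≤ ys i ∧ ys i < h + B.d ∧ LineSite P k s (pt k c (ys i)) pre (γ i) (iL i) (jR i) ∧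
      B.g ≤ ∑ m ∈ Finset.Ico (iL i) (jR i),
        (wt pre (γ i m) (γ i (m + 1)) - wt t (γ i m) (γ i (m + 1)))) ∧
    ∀ i i', i ≠ i' → Wit4 pre B.W B.G₀ (γ i) (γ i')

lemma cert2_iff (P : SiteP) (B : BlockP) (GS : Set Conf) (k c : ℤ) (s : ℝ) (h : ℤ) (n : ℕ)
    (pre t : Conf) : Cert2 P B GS k c s h n pre t ↔
      ∃ γ ys iL jR, Cert2Body P B GS k c s h (n := n) ys iL jR pre t γ := by
  constructor
  · rintro ⟨h1, h2, h3, h4, ys, γ, iL, jR, h5, h6, h7⟩
    exact ⟨γ, ys, iL, jR, h1, h2, h3, h4, h5, h6, h7⟩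
  · rintro ⟨γ, ys, iL, jR, h1, h2, h3, h4, h5, h6, h7⟩
    exact ⟨h1, h2, h3, h4, ys, γ, iL, jR, h5, h6, h7⟩

lemma measurableSet_cert2_graph {X : Type*} [MeasurableSpace X] (P : SiteP) (B : BlockP)
    {GS : Set Conf} (hGS : MeasurableSet GS) (k c : ℤ) (s : ℝ) (h : ℤ) (n : ℕ)
    {fp ft : X → Conf} (hp : Measurable fp) (ht : Measurable ft) :
    MeasurableSet {q : X × (Fin n → ℤ → V) |
      ∃ ys iL jR, Cert2Body P B GS k c s h ys iL jR (fp q.1) (ft q.1) q.2} := by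
  simp only [ofPred_exists]
  refine MeasurableSet.iUnion fun ys => MeasurableSet.iUnion fun iL =>
    MeasurableSet.iUnion fun jR => ?_
  have hp' : Measurable fun q : X × (Fin n → ℤ → V) => fp q.1 := hp.comp measurable_fst
  have ht' : Measurable fun q : X × (Fin n → ℤ → V) => ft q.1 := ht.comp measurable_fst
  have hγ : ∀ (i : Fin n) (m : ℤ), Measurable fun q : X × (Fin n → ℤ → V) => q.2 i m :=
    fun i m => (measurable_pi_apply m).comp ((measurable_pi_apply i).comp measurable_snd)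
  simp only [Cert2Body, ofPred_and, ofPred_forall]
  refine (hp' hGS).inter ((ht' hGS).inter (MeasurableSet.inter ?_ (MeasurableSet.inter ?_
    ((MeasurableSet.const _).inter (MeasurableSet.inter ?_ ?_)))))
  · exact MeasurableSet.iInter fun e =>
      measurableSet_le ((measurable_pi_apply e).comp ht') ((measurable_pi_apply e).comp hp')
  · exact MeasurableSet.iInter fun e => MeasurableSet.iInter fun _ =>
      measurableSet_eq_fun ((measurable_pi_apply e).comp ht') ((measurable_pi_apply e).comp hp')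
  · exact MeasurableSet.iInter fun i => (MeasurableSet.const _).inter
      ((MeasurableSet.const _).inter ((measurableSet_lineSite hp' (hγ i) P k s _ _ _).inter
        (measurableSet_le measurable_const (Finset.measurable_sum _ fun m _ =>
          (measurable_wt_param hp' (hγ i m) (hγ i (m + 1))).sub
            (measurable_wt_param ht' (hγ i m) (hγ i (m + 1)))))))
  · exact MeasurableSet.iInter fun i => MeasurableSet.iInter fun j => MeasurableSet.iInter fun _ =>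
      measurableSet_wit4 hp' (hγ i) (hγ j) B.W B.G₀

set_option synthInstance.maxSize 1024 in
/-- The certificate event is null measurable in any parameters that give the two configurations
measurably. -/
theorem nullMeasurableSet_cert2 {Y : Type*} [TopologicalSpace Y] [PolishSpace Y]
    [MeasurableSpace Y] [BorelSpace Y] (P : SiteP) (B : BlockP) {GS : Set Conf}
    (hGS : MeasurableSet GS) (k c : ℤ) (s : ℝ) (h : ℤ) (n : ℕ) {fp ft : Y → Conf}
    (hp : Measurable fp) (ht : Measurable ft) (μ : Measure Y) [IsFiniteMeasure μ] :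
    NullMeasurableSet {y | Cert2 P B GS k c s h n (fp y) (ft y)} μ := by
  have he : {y | Cert2 P B GS k c s h n (fp y) (ft y)} = Prod.fst ''
      {q : Y × (Fin n → ℤ → V) |
        ∃ ys iL jR, Cert2Body P B GS k c s h ys iL jR (fp q.1) (ft q.1) q.2} := by
    ext y
    simp only [mem_ofPred_eq, cert2_iff, mem_image, Prod.exists, exists_and_right, exists_eq_right]
  rw [he]
  exact nullMeasurableSet_image (measurableSet_cert2_graph P B hGS k c s h n hp ht)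
    measurable_fst μ

set_option synthInstance.maxSize 1024 in
/-- The block event is null measurable. -/
theorem nullMeasurableSet_blockEvent2 (P : SiteP) (B : BlockP) {GS : Set Conf}
    (hGS : MeasurableSet GS) (k c : ℤ) (s : ℝ) (h : ℤ) (n : ℕ) (μ : Measure Conf)
    [IsFiniteMeasure μ] : NullMeasurableSet (blockEvent2 P B GS k c s h n) μ := by
  have he : blockEvent2 P B GS k c s h n = (fun q : (Conf × Conf) × (Fin n → ℤ → V) => q.1.1) ''
      {q | ∃ ys iL jR, Cert2Body P B GS k c s h ys iL jR q.1.2 q.1.1 q.2} := by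
    ext t
    simp only [blockEvent2, mem_ofPred_eq, cert2_iff, mem_image, Prod.exists]
    constructor
    · rintro ⟨pre, γ, h'⟩; exact ⟨t, pre, γ, h', rfl⟩
    · rintro ⟨_, pre, γ, h', rfl⟩; exact ⟨pre, γ, h'⟩
  rw [he]
  exact nullMeasurableSet_image
    (measurableSet_cert2_graph (X := Conf × Conf) P B hGS k c s h n measurable_snd measurable_fst)
    (measurable_fst.comp measurable_fst) μ

/-- The joint event that the tilt yields a certificate is null measurable. -/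
theorem nullMeasurableSet_cert2_joint {Z : Type*} [TopologicalSpace Z] [PolishSpace Z]
    [MeasurableSpace Z] [BorelSpace Z] (P : SiteP) (B : BlockP) {GS : Set Conf}
    (hGS : MeasurableSet GS) (k c : ℤ) (s : ℝ) (h : ℤ) (n : ℕ) {F : Conf × Z → Conf}
    (hF : Measurable F) (μ : Measure (Conf × Z)) [IsFiniteMeasure μ] :
    NullMeasurableSet {q | Cert2 P B GS k c s h n q.1 (F q)} μ :=
  nullMeasurableSet_cert2 P B hGS k c s h n measurable_fst hF μ

/-! ### Covariance -/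

/-- Lattice symmetries map geodesic segments to geodesic segments. -/
lemma segGeo_act (σ : LatSym) (t : Conf) (γ : ℤ → V) (i₀ i₁ : ℤ) :
    SegGeo (σ.act t) γ i₀ i₁ ↔ SegGeo t (fun m => σ.vmap (γ m)) i₀ i₁ := by
  have hsum : (∀ m, i₀ ≤ m → m < i₁ → Adj (γ m) (γ (m + 1))) →
      ∑ m ∈ Finset.Ico i₀ i₁, wt (σ.act t) (γ m) (γ (m + 1)) =
        ∑ m ∈ Finset.Ico i₀ i₁, wt t (σ.vmap (γ m)) (σ.vmap (γ (m + 1))) := fun ha =>
    Finset.sum_congr rfl fun m hm =>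
      σ.wt_act t (ha m (Finset.mem_Ico.1 hm).1 (Finset.mem_Ico.1 hm).2)
  constructor
  · intro h
    refine ⟨h.le, fun m h1 h2 => (σ.adj_map _ _).2 (h.adj m h1 h2),
      fun a ha b hb e => h.inj ha hb (σ.vmap.injective e), ?_⟩
    rw [← hsum h.adj, h.geo, σ.T_act]
  · intro h
    have ha : ∀ m, i₀ ≤ m → m < i₁ → Adj (γ m) (γ (m + 1)) := fun m h1 h2 =>
      (σ.adj_map _ _).1 (h.adj m h1 h2)
    refine ⟨h.le, ha, fun a ha b hb e => h.inj ha hb (congrArg σ.vmap e), ?_⟩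
    rw [hsum ha, h.geo, σ.T_act]

lemma segGeo_shift (v : V) (t : Conf) (γ : ℤ → V) (i₀ i₁ : ℤ) :
    SegGeo (shift v t) (fun m => γ m - v) i₀ i₁ ↔ SegGeo t γ i₀ i₁ := by
  rw [shift_eq_act, segGeo_act]
  simp

lemma lev_sub (k : ℤ) (u v : V) : lev k (u - v) = lev k u - lev k v := by
  simp [lev]; ring

lemma cross_sub (k : ℤ) (γ : ℤ → V) (v : V) (i₀ i₁ c : ℤ) (R : ℕ) (i j : ℤ) :
    Cross k (fun m => γ m - v) i₀ i₁ c R i j ↔ Cross k γ i₀ i₁ (c + lev k v) R i j := by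
  constructor
  · intro h
    refine ⟨h.lo, h.le, h.hi, h.len, ?_, ?_, fun m h1 h2 => ?_, fun m h1 h2 => ?_⟩
    · have := h.first; rw [lev_sub] at this; linarith
    · have := h.last; rw [lev_sub] at this; linarith
    · have := h.before m h1 h2; rw [lev_sub] at this; linarith
    · have := h.after m h1 h2; rw [lev_sub] at this; linarith
  · intro h
    refine ⟨h.lo, h.le, h.hi, h.len, ?_, ?_, fun m h1 h2 => ?_, fun m h1 h2 => ?_⟩
    · rw [lev_sub, h.first]; ring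
    · rw [lev_sub, h.last]; ring
    · have := h.before m h1 h2; rw [lev_sub]; linarith
    · have := h.after m h1 h2; rw [lev_sub]; linarith

/-- A site segment at another origin, in the coordinates of that origin. -/
lemma siteSeg_shift {k : ℤ} {R : ℕ} {r₁ C : ℝ} {n₁ n₂ : ℕ} {t : Conf} {v : V} {γ : ℤ → V}
    {i₀ i₁ i j : ℤ} (hseg : SegGeo t γ i₀ i₁) (hcross : Cross k γ i₀ i₁ (lev k v) R i j)
    (horigin : γ i = v) (hheavy : r₁ ≤ wt t (γ (i - 1)) (γ i))
    (hlev₀ : lev k (γ i₀) = lev k v - n₁) (hlev₁ : lev k (γ i₁) = lev k v + n₂)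
    (hstrip : ∀ m, i₀ ≤ m → m ≤ i₁ →
      lev k v - n₁ ≤ lev k (γ m) ∧ lev k (γ m) ≤ lev k v + n₂)
    (hslope₀ : |((γ i₀).2 : ℝ) - v.2| ≤ C * n₁) (hslope₁ : |((γ i₁).2 : ℝ) - v.2| ≤ C * n₂) :
    SiteSeg k R r₁ C n₁ n₂ (shift v t) (fun m => γ m - v) i₀ i₁ i j where
  seg := (segGeo_shift v t γ i₀ i₁).2 hseg
  cross := (cross_sub k γ v i₀ i₁ 0 R i j).2 (by simpa using hcross)
  origin := by simp [horigin]
  heavy := by
    have ha : Adj (γ (i - 1) - v) (γ i - v) := by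
      have h := hseg.adj (i - 1) (by have := hcross.lo; omega)
        (by have := hcross.le; have := hcross.hi; omega)
      simpa [Adj] using h
    rw [shift_eq_act, LatSym.wt_act _ t ha]
    simpa using hheavy
  lev₀ := by rw [lev_sub, hlev₀]; ring
  lev₁ := by rw [lev_sub, hlev₁]; ring
  strip m h1 h2 := by
    have := hstrip m h1 h2
    rw [lev_sub]
    constructor <;> linarith
  slope₀ := by simpa using hslope₀
  slope₁ := by simpa using hslope₁

lemma shift_mem_wildSite {k : ℤ} {R : ℕ} {r₁ C ρ : ℝ} {n : ℕ} {t : Conf} {v : V} {γ : ℤ → V}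
    {i₀ i₁ i j : ℤ} (h : SiteSeg k R r₁ C n n (shift v t) (fun m => γ m - v) i₀ i₁ i j)
    (hwild : ∀ s : ℝ, |s| ≤ C → ∃ m, i₀ ≤ m ∧ m ≤ i₁ ∧
      ρ * n < |((γ m).2 : ℝ) - v.2 - s * (lev k (γ m) - lev k v)|) :
    shift v t ∈ wildSite k R r₁ C ρ n := by
  refine ⟨_, i₀, i₁, i, j, h, fun s hs => ?_⟩
  obtain ⟨m, h1, h2, h3⟩ := hwild s hs
  exact ⟨m, h1, h2, by simpa [lev_sub] using h3⟩

lemma shift_mem_slopeSite {k : ℤ} {R : ℕ} {r₁ C : ℝ} {n : ℕ} {a b : ℝ} {t : Conf} {v : V}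
    {γ : ℤ → V} {i₀ i₁ i j : ℤ}
    (h : SiteSeg k R r₁ C n n (shift v t) (fun m => γ m - v) i₀ i₁ i j)
    (h₀ : a * n ≤ (v.2 : ℝ) - (γ i₀).2) (h₀' : (v.2 : ℝ) - (γ i₀).2 ≤ b * n)
    (h₁ : a * n ≤ ((γ i₁).2 : ℝ) - v.2) (h₁' : ((γ i₁).2 : ℝ) - v.2 ≤ b * n) :
    shift v t ∈ slopeSite k R r₁ C n a b :=
  ⟨_, i₀, i₁, i, j, h, by simpa using h₀, by simpa using h₀', by simpa using h₁,
    by simpa using h₁'⟩

end Vale.Agent.P158
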