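import Vale.Agent.P158.BasicLaw

/-!
P158, crossings of squares by short walks through good edges: if a square has no short crossing,
some level set of the distance inside the good edges gives a dual path from bottom to top almost
all of whose edges are bad.
-/

open MeasureTheory Filter Topology
open scoped BigOperators ENNReal

namespace Vale.Agent.P158

/-- The primal edge crossed by a dual edge; the dual vertex `f` is the cell with lower left
corner `f`. -/
def dualE (e : Edge) : Edge :=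
  if e.2 then ((e.1.1, e.1.2 + 1), false) else ((e.1.1 + 1, e.1.2), true)

theorem dualE_injective : Function.Injective dualE := by
  rintro ⟨⟨a, b⟩, c⟩ ⟨⟨a', b'⟩, c'⟩ h
  cases c <;> cases c' <;> simp [dualE, Prod.ext_iff] at h ⊢ <;> omega

/-- The vertices of the rectangle. -/
def InRect (x₀ y₀ : ℤ) (w h : ℕ) (v : V) : Prop :=
  x₀ ≤ v.1 ∧ v.1 ≤ x₀ + w ∧ y₀ ≤ v.2 ∧ v.2 ≤ y₀ + h

/-- An edge of the rectangle with exactly one end in `A`. -/
def Changed (x₀ y₀ : ℤ) (w h : ℕ) (A : Set V) (e : Edge) : Prop :=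
  InRect x₀ y₀ w h (eFst e) ∧ InRect x₀ y₀ w h (eSnd e) ∧ ¬ (eFst e ∈ A ↔ eSnd e ∈ A)

theorem two_mul_indicator (P Q : Prop) [Decidable P] [Decidable Q] :
    (if ¬ (P ↔ Q) then (1 : ZMod 2) else 0) = (if P then 1 else 0) + (if Q then 1 else 0) := by
  by_cases hP : P <;> by_cases hQ : Q <;> simp [hP, hQ] <;> decide

theorem abs_height_le_length : ∀ {f g : V} (p : grid.Walk f g), g.2 - f.2 ≤ (p.length : ℤ) := by
  intro f g p
  induction p with
  | nil => simp
  | @cons x y z h p ih =>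
    have := adj_iff.1 (h : Adj x y)
    rw [SimpleGraph.Walk.length_cons]
    push_cast
    omega

/-- A set containing the left side and missing the right side is separated from its complement
by a dual path from below the rectangle to above it. -/
theorem dual_crossing {x₀ y₀ : ℤ} {w h : ℕ} {A : Set V}
    (hl : ∀ v, InRect x₀ y₀ w h v → v.1 = x₀ → v ∈ A)
    (hr : ∀ v, InRect x₀ y₀ w h v → v.1 = x₀ + w → v ∉ A) :
    ∃ (f g : V) (p : grid.Walk f g), p.IsPath ∧ x₀ ≤ f.1 ∧ f.1 < x₀ + w ∧ f.2 = y₀ - 1 ∧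
      g.2 = y₀ + h ∧ ∀ e ∈ edgeList p, Changed x₀ y₀ w h A (dualE e) := by
  classical
  set H : SimpleGraph V := SimpleGraph.fromRel fun f g =>
    Adj f g ∧ Changed x₀ y₀ w h A (dualE (edgeOf f g)) with hH
  have hHadj : ∀ f g, H.Adj f g ↔ Adj f g ∧ Changed x₀ y₀ w h A (dualE (edgeOf f g)) := by
    intro f g
    rw [hH, SimpleGraph.fromRel_adj]
    refine ⟨?_, fun h => ⟨h.1.ne, Or.inl h⟩⟩
    rintro ⟨-, h | h⟩
    · exact h
    · exact ⟨h.1.symm, edgeOf_comm g f ▸ h.2⟩
  set bot : Finset V := (Finset.Ico x₀ (x₀ + w)).image fun i => (i, y₀ - 1) with hbot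
  by_contra hno
  -- the cells reachable from below
  set cells : Finset V := Finset.Ico x₀ (x₀ + w) ×ˢ Finset.Icc (y₀ - 1) (y₀ + h) with hcells
  set C : Finset V := cells.filter fun f => ∃ b ∈ bot, H.Reachable b f with hC
  have hcell : ∀ {f g}, H.Adj f g → f ∈ cells ∧ g ∈ cells := by
    intro f g hfg
    obtain ⟨hadj, h1, h2, h3⟩ := (hHadj f g).1 hfg
    have hside : ∀ u v, InRect x₀ y₀ w h u → InRect x₀ y₀ w h v → ¬ (u ∈ A ↔ v ∈ A) →
        ¬ (u.1 = x₀ ∧ v.1 = x₀) ∧ ¬ (u.1 = x₀ + w ∧ v.1 = x₀ + w) := fun u v hu hv hne =>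
      ⟨fun e => hne (iff_of_true (hl u hu e.1) (hl v hv e.2)),
        fun e => hne (iff_of_false (hr u hu e.1) (hr v hv e.2))⟩
    obtain ⟨h4, h5⟩ := hside _ _ h1 h2 h3
    clear h3
    rcases adj_iff.1 hadj with ⟨e1, e2 | e2⟩ | ⟨e1, e2 | e2⟩ <;>
      simp [dualE, edgeOf, eFst, eSnd, InRect, hcells, e1, e2] at h1 h2 h4 h5 ⊢ <;> omega
  have hclosed : ∀ {f g}, f ∈ C → H.Adj f g → g ∈ C := by
    intro f g hf hfg
    rw [hC, Finset.mem_filter] at hf ⊢
    obtain ⟨-, b, hb, hbf⟩ := hf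
    exact ⟨(hcell hfg).2, b, hb, hbf.trans hfg.reachable⟩
  set c : V → V → ZMod 2 := fun f g => if H.Adj f g then 1 else 0 with hc
  have hzero : ∑ f ∈ C, ∑ g ∈ C, c f g = 0 := by
    rw [← Finset.sum_product']
    refine Finset.sum_involution (fun q _ => (q.2, q.1)) (fun q _ => ?_) (fun q _ hq => ?_)
      (fun q hq => ?_) fun q _ => rfl
    · have : c q.2 q.1 = c q.1 q.2 := if_congr (H.adj_comm _ _) rfl rfl
      rw [this]; exact CharTwo.add_self_eq_zero _
    · intro he
      apply hq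
      have : q.1 = q.2 := congrArg Prod.snd he
      simp [hc, this]
    · obtain ⟨h1, h2⟩ := Finset.mem_product.1 hq
      exact Finset.mem_product.2 ⟨h2, h1⟩
  -- the degree of a cell
  set χ : V → ZMod 2 := fun v => if v ∈ A then 1 else 0 with hχ
  set ch : V → V → ZMod 2 := fun u v =>
    if InRect x₀ y₀ w h u ∧ InRect x₀ y₀ w h v then χ u + χ v else 0 with hch
  have hpos : ∀ {u v}, InRect x₀ y₀ w h u → InRect x₀ y₀ w h v → ch u v = χ u + χ v :=
    fun hu hv => if_pos ⟨hu, hv⟩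
  have hneg : ∀ {u v}, ¬ InRect x₀ y₀ w h u → ch u v = 0 := fun hu => if_neg fun e => hu e.1
  have hdeg : ∀ f ∈ C, ∑ g ∈ C, c f g =
      ch (f.1 + 1, f.2) (f.1 + 1, f.2 + 1) + ch (f.1, f.2) (f.1, f.2 + 1) +
        ch (f.1, f.2 + 1) (f.1 + 1, f.2 + 1) + ch (f.1, f.2) (f.1 + 1, f.2) := by
    intro f hf
    rw [Finset.sum_subset (Finset.subset_union_left (s₂ := nbrs f)) fun g _ hg => ?_,
      ← Finset.sum_subset (Finset.subset_union_right (s₁ := C)) fun g _ hg => ?_]
    rotate_left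
    · exact if_neg fun h => hg (mem_nbrs.2 ((hHadj f g).1 h).1)
    · exact if_neg fun h => hg (hclosed hf h)
    have ind : ∀ {g u v : V}, Adj f g → eFst (dualE (edgeOf f g)) = u →
        eSnd (dualE (edgeOf f g)) = v → c f g = ch u v := by
      intro g u v ha hu hv
      simp only [hc, hch, hχ, hHadj, Changed, ha, true_and, hu, hv]
      by_cases hP : InRect x₀ y₀ w h u <;> by_cases hQ : InRect x₀ y₀ w h v <;>
        simp only [hP, hQ, true_and, false_and, and_false, if_false, if_true]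
      exact two_mul_indicator _ _
    rw [show nbrs f = ({(f.1 + 1, f.2), (f.1 - 1, f.2), (f.1, f.2 + 1), (f.1, f.2 - 1)} : Finset V)
      from rfl, Finset.sum_insert (by simp [Prod.ext_iff] <;> omega),
      Finset.sum_insert (by simp [Prod.ext_iff] <;> omega),
      Finset.sum_insert (by simp [Prod.ext_iff] <;> omega), Finset.sum_singleton,
      ind (u := (f.1 + 1, f.2)) (v := (f.1 + 1, f.2 + 1)) (by simp [adj_iff]) (by
        simp [dualE, edgeOf, eFst, show f.1 ≠ f.1 - 1 by omega]) (by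
        simp [dualE, edgeOf, eSnd, show f.1 ≠ f.1 - 1 by omega]),
      ind (u := (f.1, f.2)) (v := (f.1, f.2 + 1)) (by simp [adj_iff]) (by
        simp [dualE, edgeOf, eFst, show f.1 ≠ f.1 - 1 by omega]) (by
        simp [dualE, edgeOf, eSnd, show f.1 ≠ f.1 - 1 by omega]),
      ind (u := (f.1, f.2 + 1)) (v := (f.1 + 1, f.2 + 1)) (by simp [adj_iff]) (by
        simp [dualE, edgeOf, eFst, show f.1 ≠ f.1 - 1 by omega]) (by
        simp [dualE, edgeOf, eSnd, show f.1 ≠ f.1 - 1 by omega]),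
      ind (u := (f.1, f.2)) (v := (f.1 + 1, f.2)) (by simp [adj_iff]) (by
        simp [dualE, edgeOf, eFst, show f.1 ≠ f.1 - 1 by omega]) (by
        simp [dualE, edgeOf, eSnd, show f.1 ≠ f.1 - 1 by omega])]
    ring
  have hbotC : ∀ i, x₀ ≤ i → i < x₀ + w → (i, y₀ - 1) ∈ C := by
    intro i h1 h2
    rw [hC, Finset.mem_filter, hcells, Finset.mem_product, Finset.mem_Ico, Finset.mem_Icc]
    exact ⟨⟨⟨h1, h2⟩, le_rfl, by omega⟩, _, Finset.mem_image.2 ⟨i, Finset.mem_Ico.2 ⟨h1, h2⟩, rfl⟩,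
      .refl _⟩
  have hnotop : ∀ f ∈ C, f.2 < y₀ + h := by
    intro f hf
    rw [hC, Finset.mem_filter] at hf
    obtain ⟨hf, b, hb, hbf⟩ := hf
    rw [hcells, Finset.mem_product, Finset.mem_Icc] at hf
    by_contra hlt
    obtain ⟨i, hi, rfl⟩ := Finset.mem_image.1 hb
    rw [Finset.mem_Ico] at hi
    obtain ⟨q, hq⟩ := hbf.exists_isPath
    have hle : H ≤ grid := fun u v huv => ((hHadj u v).1 huv).1
    refine hno ⟨_, _, q.mapLe hle, (SimpleGraph.Walk.isPath_mapLe hle).2 hq, hi.1, hi.2, rfl,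
      by omega, fun e he => ?_⟩
    simp only [edgeList, List.mem_map] at he
    obtain ⟨d, hd, rfl⟩ := he
    simp only [SimpleGraph.Walk.mapLe, SimpleGraph.Walk.darts_map, List.mem_map] at hd
    obtain ⟨d', -, rfl⟩ := hd
    exact ((hHadj _ _).1 d'.adj).2
  rw [Finset.sum_congr rfl hdeg, ← Finset.sum_subset (s₁ := bot) ?_ ?_,
    hbot, Finset.sum_image fun i _ j _ e => congrArg Prod.fst e] at hzero
  · have htel : ∀ m : ℕ, ∑ i ∈ Finset.Ico x₀ (x₀ + m), (χ (i, y₀) + χ (i + 1, y₀)) =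
        χ (x₀, y₀) + χ (x₀ + m, y₀) := by
      intro m
      induction m with
      | zero => simp [CharTwo.add_self_eq_zero]
      | succ m ih =>
        rw [Nat.cast_succ, ← add_assoc, ← Finset.insert_Ico_right_eq_Ico_add_one (by omega),
          Finset.sum_insert (by simp), ih]
        linear_combination (χ (x₀ + m, y₀)) * (CharTwo.two_eq_zero : (2 : ZMod 2) = 0)
    rw [Finset.sum_congr rfl (g := fun i => χ (i, y₀) + χ (i + 1, y₀)) fun i hi => ?_, htel] at hzero
    · rw [hχ] at hzero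
      simp only [if_pos (hl (x₀, y₀) ⟨le_rfl, by simp, le_rfl, by simp⟩ rfl),
        if_neg (hr (x₀ + w, y₀) ⟨by simp, le_rfl, le_rfl, by simp⟩ rfl), add_zero] at hzero
      exact one_ne_zero hzero
    · rw [Finset.mem_Ico] at hi
      simp only [sub_add_cancel]
      rw [hneg (by simp [InRect]), hneg (by simp [InRect]),
        hpos (by simp [InRect]; omega) (by simp [InRect]; omega), hneg (by simp [InRect])]
      simp
  · intro f hf
    obtain ⟨i, hi, rfl⟩ := Finset.mem_image.1 hf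
    rw [Finset.mem_Ico] at hi
    exact hbotC i hi.1 hi.2
  · intro f hf hfb
    have h1 := hnotop f hf
    have hfc : f ∈ cells := (Finset.mem_filter.1 hf).1
    rw [hcells, Finset.mem_product, Finset.mem_Ico, Finset.mem_Icc] at hfc
    have h2 : y₀ ≤ f.2 := by
      by_contra h2
      exact hfb (Finset.mem_image.2 ⟨f.1, Finset.mem_Ico.2 hfc.1, Prod.ext rfl (by
        simp only; omega)⟩)
    rw [hpos (by simp [InRect]; omega) (by simp [InRect]; omega),
      hpos (by simp [InRect]; omega) (by simp [InRect]; omega),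
      hpos (by simp [InRect]; omega) (by simp [InRect]; omega),
      hpos (by simp [InRect]; omega) (by simp [InRect]; omega)]
    linear_combination (χ (f.1, f.2) + χ (f.1 + 1, f.2) + χ (f.1, f.2 + 1) +
      χ (f.1 + 1, f.2 + 1)) * (CharTwo.two_eq_zero : (2 : ZMod 2) = 0)

/-- The vertices of the rectangle within good distance `d` of its left side. -/
def reach (gd : Edge → Prop) (x₀ y₀ : ℤ) (w h : ℕ) : ℕ → Set V
  | 0 => {v | InRect x₀ y₀ w h v ∧ v.1 = x₀}
  | d + 1 => reach gd x₀ y₀ w h d ∪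
      {v | InRect x₀ y₀ w h v ∧ ∃ u ∈ reach gd x₀ y₀ w h d, Adj u v ∧ gd (edgeOf u v)}


theorem reach_walk (gd : Edge → Prop) {x₀ y₀ : ℤ} {w h : ℕ} : ∀ (d : ℕ) {v : V},
    v ∈ reach gd x₀ y₀ w h d → ∃ (u : V) (q : grid.Walk u v), u.1 = x₀ ∧ q.length ≤ d ∧
      (∀ x ∈ q.support, InRect x₀ y₀ w h x) ∧ ∀ e ∈ edgeList q, gd e := by
  intro d
  induction d with
  | zero => exact fun {v} hv => ⟨v, .nil, hv.2, le_rfl, by simpa using hv.1, by simp [edgeList]⟩
  | succ d ih =>
    rintro v (hv | ⟨hv, u, hu, huv, he⟩)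
    · obtain ⟨u, q, h1, h2, h3⟩ := ih hv
      exact ⟨u, q, h1, by omega, h3⟩
    · obtain ⟨u₀, q, h1, h2, h3, h4⟩ := ih hu
      have huv' : grid.Adj u v := huv
      refine ⟨u₀, q.concat huv', h1, by simp; omega, fun x hx => ?_, fun e he' => ?_⟩
      · rw [SimpleGraph.Walk.support_concat, List.mem_append, List.mem_singleton] at hx
        rcases hx with hx | rfl
        exacts [h3 x hx, hv]
      · simp only [edgeList, SimpleGraph.Walk.darts_concat, List.concat_eq_append,
          List.map_append, List.mem_append, List.map_cons, List.map_nil, List.mem_singleton] at he'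
        rcases he' with he' | rfl
        exacts [h4 e he', he]

theorem reach_mono (gd : Edge → Prop) {x₀ y₀ : ℤ} {w h : ℕ} {d d' : ℕ} (hd : d ≤ d') :
    reach gd x₀ y₀ w h d ⊆ reach gd x₀ y₀ w h d' := by
  induction d', hd using Nat.le_induction with
  | base => exact subset_rfl
  | succ d' _ ih => exact ih.trans Set.subset_union_left

/-- A good edge separates at most one level set from its complement. -/
theorem changed_unique (gd : Edge → Prop) {x₀ y₀ : ℤ} {w h : ℕ} {e : Edge} (he : gd e) {d d' : ℕ}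
    (h1 : Changed x₀ y₀ w h (reach gd x₀ y₀ w h d) e)
    (h2 : Changed x₀ y₀ w h (reach gd x₀ y₀ w h d') e) : d = d' := by
  suffices key : ∀ a b, a < b → Changed x₀ y₀ w h (reach gd x₀ y₀ w h a) e →
      ¬ Changed x₀ y₀ w h (reach gd x₀ y₀ w h b) e by
    rcases lt_trichotomy d d' with hl | hl | hl
    exacts [absurd h2 (key _ _ hl h1), hl, absurd h1 (key _ _ hl h2)]
  rintro a b hab ⟨i1, i2, hne⟩ ⟨-, -, hne'⟩
  have hadj := eFst_eSnd_adj e
  have hin : eFst e ∈ reach gd x₀ y₀ w h (a + 1) ∧ eSnd e ∈ reach gd x₀ y₀ w h (a + 1) := by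
    by_cases hu : eFst e ∈ reach gd x₀ y₀ w h a
    · exact ⟨Or.inl hu, Or.inr ⟨i2, _, hu, hadj, by rwa [edgeOf_eFst_eSnd]⟩⟩
    · have hv : eSnd e ∈ reach gd x₀ y₀ w h a := by
        by_contra hv
        exact hne (iff_of_false hu hv)
      exact ⟨Or.inr ⟨i1, _, hv, hadj.symm, by rwa [edgeOf_comm, edgeOf_eFst_eSnd]⟩, Or.inl hv⟩
  have hsub := reach_mono gd (x₀ := x₀) (y₀ := y₀) (w := w) (h := h) (show a + 1 ≤ b by omega)
  exact hne' (iff_of_true (hsub hin.1) (hsub hin.2))

open Classical in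
/-- Without a short good crossing some dual crossing has few good edges. -/
theorem good_crossing_det (gd : Edge → Prop) (x₀ y₀ : ℤ) (w h D : ℕ)
    (hno : ¬ ∃ (u v : V) (q : grid.Walk u v), u.1 = x₀ ∧ v.1 = x₀ + w ∧ q.length ≤ D ∧
      (∀ x ∈ q.support, InRect x₀ y₀ w h x) ∧ ∀ e ∈ edgeList q, gd e) :
    ∃ (f g : V) (p : grid.Walk f g), p.IsPath ∧ x₀ ≤ f.1 ∧ f.1 < x₀ + w ∧ f.2 = y₀ - 1 ∧
      h + 1 ≤ p.length ∧
      (edgeList p).countP (fun e => decide (gd (dualE e))) * (D + 1) ≤ 2 * (w + 1) * (h + 1) := by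
  set all : Finset Edge := (Finset.Icc x₀ (x₀ + w) ×ˢ Finset.Icc y₀ (y₀ + h)) ×ˢ
    (Finset.univ : Finset Bool) with hall
  set G' : ℕ → Finset Edge := fun d => all.filter fun e =>
    gd e ∧ Changed x₀ y₀ w h (reach gd x₀ y₀ w h d) e with hG'
  have hcard : all.card = 2 * (w + 1) * (h + 1) := by
    rw [hall, Finset.card_product, Finset.card_product, Int.card_Icc, Int.card_Icc,
      Finset.card_univ, Fintype.card_bool]
    rw [show (x₀ + w + 1 - x₀).toNat = w + 1 by omega, show (y₀ + h + 1 - y₀).toNat = h + 1 by omega]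
    ring
  have hsum : ∑ d ∈ Finset.range (D + 1), (G' d).card ≤ all.card := by
    rw [← Finset.card_biUnion]
    · exact Finset.card_le_card (Finset.biUnion_subset.2 fun d _ => Finset.filter_subset _ _)
    · intro d _ d' _ hne
      simp only [Function.onFun, Finset.disjoint_left, hG', Finset.mem_filter]
      rintro e ⟨-, he, h1⟩ ⟨-, -, h2⟩
      exact hne (changed_unique gd he h1 h2)
  obtain ⟨d, hd, hmin⟩ := (Finset.range (D + 1)).exists_min_image (fun d => (G' d).card)
    ⟨0, Finset.mem_range.2 (by omega)⟩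
  have hle : (D + 1) * (G' d).card ≤ all.card := by
    have := Finset.card_nsmul_le_sum (Finset.range (D + 1)) (fun d => (G' d).card) _ hmin
    rw [Finset.card_range, smul_eq_mul] at this
    exact this.trans hsum
  obtain ⟨f, g, p, hp, f1, f2, f3, g1, hedge⟩ := dual_crossing
    (A := reach gd x₀ y₀ w h d) (x₀ := x₀) (y₀ := y₀) (w := w) (h := h)
    (fun v hv hv1 => reach_mono gd (Nat.zero_le d) ⟨hv, hv1⟩)
    (fun v _ hv1 hv => by
      obtain ⟨u, q, q1, q2, q3⟩ := reach_walk gd d hv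
      exact hno ⟨u, v, q, q1, hv1, by rw [Finset.mem_range] at hd; omega, q3⟩)
  refine ⟨f, g, p, hp, f1, f2, f3, by have := abs_height_le_length p; omega, ?_⟩
  rw [← hcard, mul_comm]
  refine le_trans (Nat.mul_le_mul_left _ ?_) hle
  rw [List.countP_eq_length_filter, ← List.toFinset_card_of_nodup ((edgeList_nodup hp).filter _)]
  refine Finset.card_le_card_of_injOn dualE (fun e he => ?_) dualE_injective.injOn
  simp only [Finset.mem_coe, List.mem_toFinset, List.mem_filter, decide_eq_true_eq] at he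
  obtain ⟨i1, i2, i3⟩ := hedge e he.1
  refine Finset.mem_coe.2 (Finset.mem_filter.2 ⟨?_, he.2, i1, i2, i3⟩)
  obtain ⟨j1, j2, j3, j4⟩ := i1
  simp only [hall, Finset.mem_product, Finset.mem_Icc, Finset.mem_univ, and_true]
  exact ⟨⟨j1, j2⟩, j3, j4⟩

theorem law_forall_mem' (G : Measure ℝ) [IsProbabilityMeasure G] (F : Finset Edge) {B : Set ℝ}
    (hB : MeasurableSet B) : law G {t | ∀ e ∈ F, t e ∈ B} = G B ^ F.card := by
  have h := Measure.infinitePi_pi (μ := fun _ : Edge => G) (s := F) (t := fun _ => B)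
    fun _ _ => hB
  rw [Finset.prod_const] at h
  rw [← h]; congr 1

/-- Exponential bound for self-avoiding walks with a positive share of edges in a small set. -/
theorem hitCount_prob' (G : Measure ℝ) [IsProbabilityMeasure G] {θ : ℝ} (hθ : 0 < θ) : ∃ δ : ℝ, 0 < δ ∧
    ∀ B, MeasurableSet B → G B ≤ ENNReal.ofReal δ → ∀ (x : V) (n : ℕ),
      law G {t | ∃ y, ∃ p : grid.Walk x y, p.IsPath ∧ p.length = n ∧ θ * n < hitCount B t p}
        ≤ ENNReal.ofReal ((1 / 2) ^ n) := by
  classical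
  obtain ⟨m, hm⟩ := exists_nat_gt (1 / θ)
  refine ⟨(1 / 16) ^ m, by positivity, fun B hB hδ x n => ?_⟩
  have hm' : 1 ≤ (m : ℝ) * θ := ((div_lt_iff₀ hθ).1 hm).le
  set W := (walksFrom n x).filter fun q => q.2.IsPath with hW
  set Fs : (Σ y, grid.Walk x y) → Finset (Finset Edge) := fun q =>
    (edgeList q.2).toFinset.powerset.filter fun F : Finset Edge => θ * (n : ℝ) < (F.card : ℝ)
    with hFs
  have hsub : {t : Conf | ∃ y, ∃ p : grid.Walk x y,
      p.IsPath ∧ p.length = n ∧ θ * n < hitCount B t p} ⊆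
      ⋃ q ∈ W, ⋃ F ∈ Fs q, {t | ∀ e ∈ F, t e ∈ B} := by
    rintro t ⟨y, p, hp, rfl, hc⟩
    refine Set.mem_iUnion₂.2 ⟨⟨y, p⟩, by simp [hW, hp, mem_walksFrom p], Set.mem_iUnion₂.2
      ⟨(edgeList p).toFinset.filter fun e => t e ∈ B, ?_, fun e he => (Finset.mem_filter.1 he).2⟩⟩
    have e1 : (((edgeList p).toFinset.filter fun e => t e ∈ B).card : ℝ) = hitCount B t p := by
      rw [hitCount, List.countP_eq_length_filter,
        ← List.toFinset_card_of_nodup ((edgeList_nodup hp).filter _), List.toFinset_filter]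
      simp
    simp only [hFs, Finset.mem_filter, Finset.mem_powerset]
    exact ⟨Finset.filter_subset _ _, by rw [e1]; exact hc⟩
  have hone : ∀ q ∈ W, ∀ F ∈ Fs q,
      law G {t | ∀ e ∈ F, t e ∈ B} ≤ ENNReal.ofReal ((1 / 16) ^ n) := by
    intro q _ F hF
    simp only [hFs, Finset.mem_filter, Finset.mem_powerset] at hF
    rw [law_forall_mem' G F hB]
    refine (pow_le_pow_left' hδ _).trans ?_
    rw [← ENNReal.ofReal_pow (by positivity), ← pow_mul]
    refine ENNReal.ofReal_le_ofReal (pow_le_pow_of_le_one (by norm_num) (by norm_num) ?_)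
    have : (n : ℝ) ≤ (m : ℝ) * F.card := by
      calc (n : ℝ) ≤ (m : ℝ) * θ * n := le_mul_of_one_le_left (Nat.cast_nonneg _) hm'
        _ = (m : ℝ) * (θ * n) := by ring
        _ ≤ _ := mul_le_mul_of_nonneg_left hF.2.le (Nat.cast_nonneg _)
    exact_mod_cast this
  have hcard : ∀ q ∈ W, (Fs q).card ≤ 2 ^ n := by
    intro q hq
    refine (Finset.card_filter_le _ _).trans ?_
    rw [Finset.card_powerset]
    refine Nat.pow_le_pow_right two_pos ((List.toFinset_card_le _).trans (le_of_eq ?_))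
    rw [length_edgeList]
    exact length_of_mem_walksFrom n x q (Finset.mem_filter.1 hq).1
  calc _ ≤ law G (⋃ q ∈ W, ⋃ F ∈ Fs q, {t | ∀ e ∈ F, t e ∈ B}) := measure_mono hsub
    _ ≤ ∑ q ∈ W, law G (⋃ F ∈ Fs q, {t | ∀ e ∈ F, t e ∈ B}) := measure_biUnion_finset_le _ _
    _ ≤ ∑ q ∈ W, ∑ _F ∈ Fs q, ENNReal.ofReal ((1 / 16) ^ n) :=
      Finset.sum_le_sum fun q hq => (measure_biUnion_finset_le _ _).trans
        (Finset.sum_le_sum (hone q hq))
    _ ≤ W.card • ((2 ^ n : ℕ) • ENNReal.ofReal ((1 / 16) ^ n)) :=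
      Finset.sum_le_card_nsmul _ _ _ fun q hq => by
        rw [Finset.sum_const]; exact nsmul_le_nsmul_left zero_le (hcard q hq)
    _ ≤ (4 ^ n) • ((2 ^ n : ℕ) • ENNReal.ofReal ((1 / 16) ^ n)) :=
      nsmul_le_nsmul_left zero_le ((Finset.card_filter_le _ _).trans (card_walksFrom n x))
    _ = _ := by
      rw [nsmul_eq_mul, nsmul_eq_mul, ← ENNReal.ofReal_natCast, ← ENNReal.ofReal_natCast (2 ^ n),
        ← ENNReal.ofReal_mul (Nat.cast_nonneg _), ← ENNReal.ofReal_mul (Nat.cast_nonneg _)]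
      push_cast
      rw [← mul_assoc, ← mul_pow, ← mul_pow]
      norm_num

/-- The law is invariant under an injective relabelling of the edges. -/
theorem law_map_inj (G : Measure ℝ) [IsProbabilityMeasure G] {φ : Edge → Edge}
    (hφ : Function.Injective φ) : (law G).map (fun t e => t (φ e)) = law G := by
  have hm : Measurable fun (t : Conf) (e : Edge) => t (φ e) :=
    measurable_pi_lambda _ fun e => measurable_pi_apply _
  refine Measure.eq_infinitePi _ fun s B hB => ?_
  rw [Measure.map_apply hm (MeasurableSet.pi s.countable_toSet fun i _ => hB i)]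
  have h := Measure.infinitePi_pi (μ := fun _ : Edge => G) (s := s.image φ)
    (t := fun e => B (Function.invFun φ e)) fun e _ => hB _
  rw [Finset.prod_image hφ.injOn] at h
  simp only [Function.leftInverse_invFun hφ _] at h
  rw [← h]
  congr 1
  ext t
  simp only [Set.mem_preimage, Set.mem_pi, Finset.mem_coe]
  refine ⟨fun h' e he => ?_, fun h' i hi => ?_⟩
  · obtain ⟨i, hi, rfl⟩ := Finset.mem_image.1 he
    rw [Function.leftInverse_invFun hφ i]
    exact h' i hi
  · have := h' (φ i) (Finset.mem_image.2 ⟨i, hi, rfl⟩)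
    rwa [Function.leftInverse_invFun hφ i] at this

/-- With the bad edges rare enough, a `w × h` rectangle has a good left to right crossing of
length at most `16 w` except with probability at most `w 2⁻ʰ`. -/
theorem good_crossing_prob (G : Measure ℝ) [IsProbabilityMeasure G] : ∃ δ : ℝ, 0 < δ ∧
    ∀ B, MeasurableSet B → G B ≤ ENNReal.ofReal δ → ∀ (x₀ y₀ : ℤ) (w n : ℕ), 1 ≤ w →
      law G {t | ¬ ∃ (u v : V) (q : grid.Walk u v), u.1 = x₀ ∧ v.1 = x₀ + w ∧
          q.length ≤ 16 * w ∧ (∀ x ∈ q.support, InRect x₀ y₀ w n x) ∧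
          ∀ e ∈ edgeList q, t e ∉ B} ≤
        ENNReal.ofReal (w * (1 / 2) ^ n) := by
  classical
  obtain ⟨δ, hδ, hh⟩ := hitCount_prob' G (θ := 1 / 2) (by norm_num)
  refine ⟨δ, hδ, fun B hB hle x₀ y₀ w n hn => ?_⟩
  set S : V → ℕ → Set Conf := fun f L => {t | ∃ y, ∃ p : grid.Walk f y,
    p.IsPath ∧ p.length = L ∧ (1 / 2 : ℝ) * L < hitCount B t p} with hS
  set bot : Finset V := (Finset.Ico x₀ (x₀ + w)).image fun i => (i, y₀ - 1) with hbot
  have hsub : {t : Conf | ¬ ∃ (u v : V) (q : grid.Walk u v), u.1 = x₀ ∧ v.1 = x₀ + w ∧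
      q.length ≤ 16 * w ∧ (∀ x ∈ q.support, InRect x₀ y₀ w n x) ∧
      ∀ e ∈ edgeList q, t e ∉ B} ⊆
      (fun t e => t (dualE e)) ⁻¹' ⋃ f ∈ bot, ⋃ L : ℕ, S f (n + 1 + L) := by
    intro t ht
    obtain ⟨f, g, p, hp, f1, f2, f3, hl, hc⟩ :=
      good_crossing_det (fun e => t e ∉ B) x₀ y₀ w n (16 * w) ht
    refine Set.mem_iUnion₂.2 ⟨f, Finset.mem_image.2 ⟨f.1, Finset.mem_Ico.2 ⟨f1, f2⟩,
      Prod.ext rfl f3.symm⟩, Set.mem_iUnion.2 ⟨p.length - (n + 1), g, p, hp, by omega, ?_⟩⟩
    have hsplit := List.length_eq_countP_add_countP (fun e => decide (t (dualE e) ∉ B))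
      (l := edgeList p)
    rw [length_edgeList] at hsplit
    have hh' : (edgeList p).countP (fun e => decide ¬decide (t (dualE e) ∉ B) = true) =
        hitCount B (fun e => t (dualE e)) p :=
      List.countP_congr fun e _ => by simp
    rw [hh'] at hsplit
    set a := (edgeList p).countP fun e => decide (t (dualE e) ∉ B)
    have hc' : a * (16 * w + 1) ≤ 2 * (w + 1) * (n + 1) :=
      le_of_eq_of_le (congrArg (fun x => x * (16 * w + 1))
        (List.countP_congr fun e _ => by simp)) hc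
    have h4 : 4 * a ≤ n + 1 := by
      by_contra hlt
      have h5 : n + 2 ≤ 4 * a := by omega
      nlinarith [Nat.mul_le_mul_right (16 * w + 1) h5]
    rw [show n + 1 + (p.length - (n + 1)) = p.length by omega, hsplit]
    have : 4 * a ≤ a + hitCount B (fun e => t (dualE e)) p := by omega
    have h6 : 0 < hitCount B (fun e => t (dualE e)) p := by omega
    push_cast
    have h7 : (3 * a : ℝ) ≤ hitCount B (fun e => t (dualE e)) p := by exact_mod_cast (by omega)
    have h8 : (0 : ℝ) < hitCount B (fun e => t (dualE e)) p := by exact_mod_cast h6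
    linarith
  have hm : Measurable fun (t : Conf) (e : Edge) => t (dualE e) :=
    measurable_pi_lambda _ fun e => measurable_pi_apply _
  calc _ ≤ law G ((fun t e => t (dualE e)) ⁻¹' ⋃ f ∈ bot, ⋃ L : ℕ, S f (n + 1 + L)) :=
        measure_mono hsub
    _ ≤ ((law G).map fun t e => t (dualE e)) (⋃ f ∈ bot, ⋃ L : ℕ, S f (n + 1 + L)) :=
        Measure.le_map_apply hm.aemeasurable _
    _ = law G (⋃ f ∈ bot, ⋃ L : ℕ, S f (n + 1 + L)) := by rw [law_map_inj G dualE_injective]
    _ ≤ ∑ f ∈ bot, law G (⋃ L : ℕ, S f (n + 1 + L)) := measure_biUnion_finset_le _ _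
    _ ≤ ∑ _f ∈ bot, ENNReal.ofReal ((1 / 2) ^ n) := Finset.sum_le_sum fun f _ => by
        refine (measure_iUnion_le _).trans ((ENNReal.tsum_le_tsum fun L =>
          hh B hB hle f (n + 1 + L)).trans ?_)
        have hs : HasSum (fun L : ℕ => (1 / 2 : ℝ) ^ (n + 1 + L)) ((1 / 2) ^ n) := by
          have := hasSum_geometric_two.mul_left ((1 / 2 : ℝ) ^ (n + 1))
          simp only [← pow_add] at this
          rwa [show (1 / 2 : ℝ) ^ (n + 1) * 2 = (1 / 2) ^ n by rw [pow_succ]; ring] at this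
        rw [← ENNReal.ofReal_tsum_of_nonneg (fun L => by positivity) hs.summable, hs.tsum_eq]
    _ ≤ _ := by
        rw [Finset.sum_const, hbot, nsmul_eq_mul, ← ENNReal.ofReal_natCast,
          ← ENNReal.ofReal_mul (Nat.cast_nonneg _)]
        refine ENNReal.ofReal_le_ofReal (mul_le_mul_of_nonneg_right ?_ (by positivity))
        refine (Nat.cast_le.2 Finset.card_image_le).trans ?_
        rw [Int.card_Ico, show (x₀ + w - x₀).toNat = w by omega]

end Vale.Agent.P158
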