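import Vale.Agent.P158.MainBlock
import Vale.Agent.P158.MainMeas
import Vale.Agent.P158.Ergodic
import Vale.Agent.P158.Rays

/-!
Assembly of the main argument from its four ingredients: units of positive mass, jumps, the
probability of a block and the deterministic count.
-/

open MeasureTheory Filter Topology
open scoped ENNReal

namespace Vale.Agent.P158

/-- The deterministic count. -/
def CountProp (M κ : ℝ) : Prop :=
  ∀ (GS : Set Conf), (∀ t ∈ GS, Nice M κ t) → ∀ (P : Params), 0 < P.g → 0 < P.δ → P.R < P.L →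
    ∀ {m : ℕ} (a b : Fin m → ℝ), (∀ u, a u ≤ b u ∧ -8 ≤ a u ∧ b u ≤ 8) →
      (∀ u v, u < v → b u < a v) →
    ∀ (D : ℕ), (∀ u, (P.d : ℝ) + 18 * P.R + (b u - a u) * P.L + 2 < D) →
    ∀ (J : Finset ℤ) (N : ℕ),
      (∀ j ∈ J, |j * (D : ℤ)| + P.d + P.W + 9 * P.R + 8 * P.L ≤ (N : ℤ)) →
    ∀ (k : Fin m → ℕ) {t : Conf}, t ∈ GS →
      P.g * ∑ u, ∑ j ∈ J,
        (blockEvent P GS (a u) (b u) (j * D) (k u)).indicator (fun _ => (k u : ℝ)) t
        ≤ 100 * M * (N + 1) + P.g * m

/-- The supply of slope units. -/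
def UnitsProp (G : Measure ℝ) : Prop :=
  ∀ r δ : ℝ, ∀ R : ℕ, (∀ᵐ t ∂law G, ∃ L₀, FewLow r L₀ (0, 0) t) →
    ∀ ε : ℝ, 0 < ε → ε ≤ 1 → ∃ (R' L₀ m : ℕ) (a b : Fin m → ℝ),
      (∀ u, a u ≤ b u ∧ -8 ≤ a u ∧ b u ≤ 8 ∧ b u - a u ≤ 2 * ε) ∧
      (∀ u v, u < v → b u < a v) ∧ R ≤ R' ∧
      law G {t | ∃ γ, SiteLine t R (-2) 2 δ 0 γ} / 16 ≤
        ∑ u, law G (siteEvent R' L₀ (a u) (b u) δ r 0)

/-- The vertices allowed in a tilt region. -/
noncomputable def tubeBox (L R : ℕ) (a b : ℝ) (h : ℤ) (d : ℕ) : Finset V :=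
  (Finset.Icc (-(L : ℤ)) L).biUnion fun x =>
    (Finset.Icc ⌈(h : ℝ) + min (a * x) (b * x) - 9 * R⌉
      ⌊(h : ℝ) + d + max (a * x) (b * x) + 9 * R⌋).image fun y => (x, y)

/-- The tilt region as a finite set. -/
noncomputable def regFin (L R : ℕ) (a b : ℝ) (h : ℤ) (d : ℕ) : Finset Edge :=
  open Classical in
  ((tubeBox L R a b h d) ×ˢ (Finset.univ : Finset Bool)).filter (· ∈ regSet L R a b h d)

lemma coe_regFin (L R : ℕ) (a b : ℝ) (h : ℤ) (d : ℕ) :
    (↑(regFin L R a b h d) : Set Edge) = regSet L R a b h d := by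
  classical
  ext e
  simp only [regFin, Finset.coe_filter, Finset.mem_product, Finset.mem_univ, and_true]
  refine ⟨fun he => he.2, fun he => ⟨?_, he⟩⟩
  obtain ⟨⟨h1, h2, h3⟩, -, -⟩ := he
  simp only [tubeBox, Finset.mem_biUnion, Finset.mem_image, Finset.mem_Icc]
  refine ⟨(eFst e).1, abs_le.1 h1, (eFst e).2, ⟨Int.ceil_le.2 h2, Int.le_floor.2 h3⟩, ?_⟩
  simp [eFst]

lemma card_regFin_le (L R : ℕ) {a b : ℝ} (hab : a ≤ b) (h : ℤ) (d : ℕ) :
    ((regFin L R a b h d).card : ℝ) ≤ 2 * (2 * L + 1) * (d + (b - a) * L + 18 * R + 1) := by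
  classical
  have h1 : (regFin L R a b h d).card ≤ (tubeBox L R a b h d).card * 2 := by
    refine (Finset.card_filter_le _ _).trans ?_
    simp
  have h2 : ((tubeBox L R a b h d).card : ℝ) ≤
      ∑ x ∈ Finset.Icc (-(L : ℤ)) L, ((d : ℝ) + (b - a) * L + 18 * R + 1) := by
    refine (Nat.cast_le.2 Finset.card_biUnion_le).trans ?_
    push_cast
    refine Finset.sum_le_sum fun x hx => ?_
    refine (Nat.cast_le.2 Finset.card_image_le).trans ?_
    rw [Int.card_Icc]
    set lo := (h : ℝ) + min (a * x) (b * x) - 9 * R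
    set hi := (h : ℝ) + d + max (a * x) (b * x) + 9 * R
    have hx' : |(x : ℝ)| ≤ L := by
      rw [Finset.mem_Icc] at hx
      exact abs_le.2 ⟨by exact_mod_cast hx.1, by exact_mod_cast hx.2⟩
    have hdiff : max (a * x) (b * x) - min (a * x) (b * x) ≤ (b - a) * L := by
      rw [max_sub_min_eq_abs, ← sub_mul, abs_mul, abs_of_nonneg (sub_nonneg.2 hab)]
      exact mul_le_mul_of_nonneg_left hx' (sub_nonneg.2 hab)
    have hnn : (0 : ℝ) ≤ (d : ℝ) + (b - a) * L + 18 * R + 1 := by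
      have : 0 ≤ (b - a) * L := mul_nonneg (sub_nonneg.2 hab) (Nat.cast_nonneg _)
      positivity
    rcases le_or_gt (⌊hi⌋ + 1 - ⌈lo⌉) 0 with hn | hn
    · rw [Int.toNat_eq_zero.2 hn]; simpa using hnn
    · have e : (((⌊hi⌋ + 1 - ⌈lo⌉).toNat : ℕ) : ℝ) = ((⌊hi⌋ + 1 - ⌈lo⌉ : ℤ) : ℝ) := by
        rw [← Int.cast_natCast, Int.toNat_of_nonneg hn.le]
      rw [e]
      push_cast
      linarith [Int.floor_le hi, Int.le_ceil lo]
  rw [Finset.sum_const, Int.card_Icc, nsmul_eq_mul] at h2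
  have h3 : ((((L : ℤ) + 1 - -(L : ℤ)).toNat : ℕ) : ℝ) = 2 * L + 1 := by
    rw [show ((L : ℤ) + 1 - -(L : ℤ)).toNat = 2 * L + 1 by omega]
    push_cast; rfl
  rw [h3] at h2
  calc ((regFin L R a b h d).card : ℝ) ≤ ((tubeBox L R a b h d).card : ℝ) * 2 := by
        exact_mod_cast h1
    _ ≤ _ := by linarith

/-- From `A (2n + 1) ≤ B n + C` for all `n` follows `2 A ≤ B`. -/
lemma le_of_forall_linear {A B C : ℝ} (h : ∀ n : ℕ, A * (2 * n + 1) ≤ B * n + C) : 2 * A ≤ B := by
  by_contra hlt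
  push Not at hlt
  obtain ⟨n, hn⟩ := exists_nat_gt ((C - A) / (2 * A - B))
  rw [div_lt_iff₀ (by linarith)] at hn
  linarith [h n]

/-- The main argument. -/
theorem noDirected_of_parts {G : Measure ℝ} {M κ : ℝ} (hG : LawOK G M) {GS : Set Conf}
    (hGSm : MeasurableSet GS) (hGS : ∀ᵐ t ∂law G, t ∈ GS) (hNice : ∀ t ∈ GS, Nice M κ t)
    (hinv : ∀ (v : V) (t : Conf), t ∈ GS → shift v t ∈ GS) (hunits : UnitsProp G)
    (hjump : ∀ (R L : ℕ) (δ a b g : ℝ), 0 < δ → HasJumps GS R L δ a b g)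
    (hcount : CountProp M κ) {r₀ r : ℝ} (hrr : r₀ < r) (hp : 0 < G.real (Set.Iio r₀))
    (hlow : ∀ᵐ t ∂law G, ∃ L₀, FewLow r L₀ (0, 0) t) {R₀ : ℕ} {δ : ℝ} (hδ : 0 < δ) :
    law G {t | ∃ γ, SiteLine t R₀ (-2) 2 δ 0 γ} = 0 := by
  haveI := hG.prob
  haveI : IsProbabilityMeasure (law G) := by unfold law; infer_instance
  by_contra hf0
  set f := (law G).real {t | ∃ γ, SiteLine t R₀ (-2) 2 δ 0 γ} with hfdef
  have hf : 0 < f := ENNReal.toReal_pos hf0 (measure_ne_top _ _)
  have hM : 0 ≤ M := by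
    by_contra hlt
    have := hG.supp
    rw [Set.Icc_eq_empty (by linarith), measure_empty] at this
    exact zero_ne_one this
  set p := G.real (Set.Iio r₀)
  have hp1 : p ≤ 1 := measureReal_le_one
  set K := Real.exp 24
  have hK0 : 0 < K := Real.exp_pos _
  set c₀ : ℝ := 1 / (64 * K)
  have hc₀ : 0 < c₀ := by positivity
  -- the width
  obtain ⟨s, hs0, hs1, hs2, hs3⟩ : ∃ s : ℝ, 0 < s ∧ s ≤ 1 ∧ 64 * s ≤ p ∧
      19200 * M < (r - r₀) * p / (4 * s) * c₀ * f := by
    have hA : 0 < (r - r₀) * p * c₀ * f / 4 := by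
      have := sub_pos.2 hrr
      positivity
    set A := (r - r₀) * p * c₀ * f / 4
    refine ⟨min 1 (min (p / 64) (A / (19200 * M + 1))), lt_min one_pos
      (lt_min (by positivity) (div_pos hA (by linarith))), min_le_left _ _, ?_, ?_⟩
    · have := (min_le_right (1 : ℝ) (min (p / 64) (A / (19200 * M + 1)))).trans (min_le_left _ _)
      linarith
    · set s := min 1 (min (p / 64) (A / (19200 * M + 1)))
      have hs : 0 < s := lt_min one_pos (lt_min (by positivity) (div_pos hA (by linarith)))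
      have h1 : s ≤ A / (19200 * M + 1) := (min_le_right _ _).trans (min_le_right _ _)
      rw [le_div_iff₀ (by linarith)] at h1
      have e : (r - r₀) * p / (4 * s) * c₀ * f = A / s := by
        simp only [A]; field_simp
      rw [e, lt_div_iff₀ hs]
      linarith [mul_comm s (19200 * M + 1)]
  set ε := s ^ 2
  have hε : 0 < ε := by positivity
  have hε1 : ε ≤ 1 := pow_le_one₀ hs0.le hs1
  obtain ⟨R, L₀, m, a, b, hab, hsep, -, hsum⟩ := hunits r δ R₀ hlow ε hε hε1
  set fu : Fin m → ℝ := fun u => (law G).real (siteEvent R L₀ (a u) (b u) δ r 0)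
  have hfu : f / 16 ≤ ∑ u, fu u := by
    have h := ENNReal.toReal_mono (ENNReal.sum_ne_top.2 fun u _ => measure_ne_top _ _) hsum
    rw [ENNReal.toReal_div, ENNReal.toReal_sum fun u _ => measure_ne_top _ _] at h
    simpa [f, fu, measureReal_def] using h
  set γ : ℝ := min (1 / 4) (f / (64 * (m + 1)))
  have hγ : 0 < γ := lt_min (by norm_num) (by positivity)
  -- ergodic thresholds and the size of the block
  have herg : ∀ u, ∀ᶠ N : ℕ in atTop, law G {t | γ ≤ |(∑ i ∈ Finset.range N,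
      (siteEvent R L₀ (a u) (b u) δ r 0).indicator (fun _ => (1 : ℝ)) (shift (0, (i : ℤ)) t)) / N
        - fu u|} ≤ ENNReal.ofReal γ :=
    fun u => ergodic_avg G (nullMeasurableSet_siteEvent _ R L₀ (a u) (b u) δ r 0) hγ
  have hd : Tendsto (fun L : ℕ => ⌈ε * L⌉₊) atTop atTop :=
    tendsto_nat_ceil_atTop.comp (tendsto_natCast_atTop_atTop.const_mul_atTop hε)
  obtain ⟨L, hLR, hLL, hLε, hLd, hLη, hLerg⟩ : ∃ L : ℕ, R < L ∧ L₀ ≤ L ∧
      18 * (R : ℝ) + 8 ≤ ε * L ∧ 128 * (m : ℝ) ≤ f * (⌈ε * L⌉₊ : ℕ) ∧ 1 ≤ (L : ℝ) * s ∧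
      ∀ u, law G {t | γ ≤ |(∑ i ∈ Finset.range ⌈ε * L⌉₊,
        (siteEvent R L₀ (a u) (b u) δ r 0).indicator (fun _ => (1 : ℝ)) (shift (0, (i : ℤ)) t))
          / (⌈ε * L⌉₊ : ℕ) - fu u|} ≤ ENNReal.ofReal γ :=
    ((eventually_gt_atTop R).and ((eventually_ge_atTop L₀).and
      (((tendsto_natCast_atTop_atTop.const_mul_atTop hε).eventually_ge_atTop _).and
      ((((tendsto_natCast_atTop_atTop.comp hd).const_mul_atTop hf).eventually_ge_atTop _).and
      (((tendsto_natCast_atTop_atTop.atTop_mul_const hs0).eventually_ge_atTop 1).and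
        (hd.eventually (eventually_all.2 herg))))))).exists
  set d := ⌈ε * L⌉₊
  have hdL : ε * L ≤ d := Nat.le_ceil _
  have hdU : (d : ℝ) < ε * L + 1 := Nat.ceil_lt_add_one (by positivity)
  have hLpos : (0 : ℝ) < L := by exact_mod_cast (Nat.zero_le R).trans_lt hLR
  have hRnn : (0 : ℝ) ≤ R := Nat.cast_nonneg R
  set η : ℝ := 1 / (L * s)
  have hη0 : 0 ≤ η := by positivity
  have hη1 : η ≤ 1 := by rw [div_le_one (by positivity)]; exact hLη
  set g : ℝ := (r - r₀) * p / (4 * s)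
  have hg : 0 < g := by have := sub_pos.2 hrr; positivity
  set kk : Fin m → ℕ := fun u => ⌊(fu u - γ) * d⌋₊
  have hblock : ∀ u, ∀ᶠ W in atTop, ENNReal.ofReal c₀ ≤
      law G (blockEvent ⟨R, L, d, W, δ, g⟩ GS (a u) (b u) 0 (kk u / 2)) := by
    intro u
    obtain ⟨h1, h2, h3, h4⟩ := hab u
    have hcard : ((regFin L R (a u) (b u) 0 d).card : ℝ) ≤ 24 * ε * L ^ 2 := by
      refine (card_regFin_le L R h1 0 d).trans ?_
      have e1 : (b u - a u) * L ≤ 2 * ε * L := mul_le_mul_of_nonneg_right h4 hLpos.le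
      have e2 : (d : ℝ) + (b u - a u) * L + 18 * R + 1 ≤ 4 * (ε * L) := by linarith
      have e3 : (1 : ℝ) ≤ L := by
        have : 1 ≤ L := Nat.one_le_iff_ne_zero.2 (by omega)
        exact_mod_cast this
      have e4 : 0 ≤ ε * L := by positivity
      calc 2 * (2 * (L : ℝ) + 1) * ((d : ℝ) + (b u - a u) * L + 18 * R + 1)
          ≤ 2 * (2 * (L : ℝ) + 1) * (4 * (ε * L)) :=
            mul_le_mul_of_nonneg_left e2 (by positivity)
        _ ≤ 2 * (3 * (L : ℝ)) * (4 * (ε * L)) :=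
            mul_le_mul_of_nonneg_right (by linarith) (by positivity)
        _ = 24 * ε * L ^ 2 := by ring
    have hη2 : η ^ 2 * (24 * ε * L ^ 2) = 24 := by
      simp only [η, ε]; field_simp
    have hKb : (1 + η ^ 2) ^ (regFin L R (a u) (b u) 0 d).card ≤ K := by
      refine (pow_le_pow_left₀ (by positivity) ((add_comm _ _).trans_le (Real.add_one_le_exp (η ^ 2))) _).trans ?_
      rw [← Real.exp_nat_mul]
      refine Real.exp_le_exp.2 ?_
      have := mul_le_mul_of_nonneg_left hcard (sq_nonneg η)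
      linarith
    have hηp : η * p * L = p / s := by simp only [η]; field_simp
    refine block_prob_of_jumps hG hGSm hGS (L₀ := L₀) (k := kk u) (r := r) (r₀ := r₀) (η := η)
      (hjump R L δ (a u) (b u) g hδ) hLR hLL ⟨h2, h1, h3⟩ hrr hη0 hη1 (coe_regFin _ _ _ _ _ _) hKb
      ?_ ?_ ?_
    · rw [hηp, le_div_iff₀ hs0]; exact hs2
    · refine le_of_eq ?_
      rw [show (r - r₀) * η * p * L / 4 = (r - r₀) * (η * p * L) / 4 by ring, hηp]
      simp only [g]; ring
    -- many good sites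
    classical
    set A := {t | γ ≤ |(∑ i ∈ Finset.range d,
      (siteEvent R L₀ (a u) (b u) δ r 0).indicator (fun _ => (1 : ℝ)) (shift (0, (i : ℤ)) t))
        / (d : ℕ) - fu u|}
    have hA : law G A ≤ ENNReal.ofReal (1 / 4) :=
      (hLerg u).trans (ENNReal.ofReal_le_ofReal (min_le_left _ _))
    have hsub : Aᶜ ⊆ {t | ∃ Y : Finset ℤ, kk u ≤ Y.card ∧ ∀ y ∈ Y, 0 ≤ y ∧ y < 0 + (d : ℤ) ∧
        t ∈ siteEvent R L₀ (a u) (b u) δ r y} := by
      intro t ht
      have ht' : |(∑ i ∈ Finset.range d, (siteEvent R L₀ (a u) (b u) δ r 0).indicator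
          (fun _ => (1 : ℝ)) (shift (0, (i : ℤ)) t)) / (d : ℕ) - fu u| < γ := not_le.1 ht
      have hdpos : (0 : ℝ) < d := lt_of_lt_of_le (by positivity) hdL
      set F := (Finset.range d).filter
        fun i : ℕ => shift (0, (i : ℤ)) t ∈ siteEvent R L₀ (a u) (b u) δ r 0
      have hsumF : ∑ i ∈ Finset.range d, (siteEvent R L₀ (a u) (b u) δ r 0).indicator
          (fun _ => (1 : ℝ)) (shift (0, (i : ℤ)) t) = F.card := by
        simp only [F, Set.indicator_apply, Finset.card_filter, Nat.cast_sum, Nat.cast_ite,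
          Nat.cast_one, Nat.cast_zero]
      refine ⟨F.image fun i : ℕ => (i : ℤ), ?_, ?_⟩
      · rw [Finset.card_image_of_injective _ Nat.cast_injective]
        refine Nat.floor_le_of_le ?_
        rw [hsumF, abs_lt] at ht'
        have := ht'.1
        rw [← le_div_iff₀ hdpos]
        linarith
      · intro y hy
        obtain ⟨i, hi, rfl⟩ := Finset.mem_image.1 hy
        simp only [F, Finset.mem_filter, Finset.mem_range] at hi
        refine ⟨by positivity, by simpa using hi.1, ?_⟩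
        rw [siteEvent_eq_preimage]
        exact hi.2
    refine le_trans ?_ (measure_mono hsub)
    have h14 : (1 : ℝ≥0∞) ≤ law G Aᶜ + law G A := by
      rw [← measure_univ (μ := law G), ← Set.compl_union_self A]
      exact measure_union_le _ _
    have h15 : ENNReal.ofReal (3 / 4) + ENNReal.ofReal (1 / 4) = 1 := by
      rw [← ENNReal.ofReal_add (by norm_num) (by norm_num)]; norm_num
    rw [← h15] at h14
    exact ENNReal.le_of_add_le_add_right ENNReal.ofReal_ne_top
      (h14.trans (add_le_add le_rfl hA))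
  obtain ⟨W, hW⟩ := (eventually_all.2 hblock).exists
  set P : Params := ⟨R, L, d, W, δ, g⟩
  set D := 6 * d
  have hD : ∀ u, (P.d : ℝ) + 18 * P.R + (b u - a u) * P.L + 2 < (D : ℕ) := fun u => by
    obtain ⟨-, -, -, h4⟩ := hab u
    have e1 : (b u - a u) * L ≤ 2 * ε * L := mul_le_mul_of_nonneg_right h4 hLpos.le
    simp only [P, D, Nat.cast_mul, Nat.cast_ofNat]
    linarith
  set kh : Fin m → ℕ := fun u => kk u / 2
  set S := ∑ u, (kh u : ℝ)
  have hS : f * d / 64 ≤ S := by
    have h1 : ∀ u, (fu u - γ) * d / 2 - 1 ≤ (kh u : ℝ) := fun u => by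
      have h2 : (fu u - γ) * d < (kk u : ℝ) + 1 := Nat.lt_floor_add_one _
      have h3 : kk u ≤ 2 * kh u + 1 := by simp only [kh]; omega
      have h4 : (kk u : ℝ) ≤ 2 * kh u + 1 := by exact_mod_cast h3
      linarith
    have h2 := Finset.sum_le_sum fun u (_ : u ∈ Finset.univ) => h1 u
    rw [Finset.sum_sub_distrib, ← Finset.sum_div, ← Finset.sum_mul, Finset.sum_sub_distrib] at h2
    simp only [Finset.sum_const, Finset.card_univ, Fintype.card_fin, nsmul_eq_mul, mul_one] at h2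
    have h5 : (m : ℝ) * γ ≤ f / 64 := by
      have : γ ≤ f / (64 * (m + 1)) := min_le_right _ _
      rw [le_div_iff₀ (by positivity)] at this
      linarith [hγ]
    have h7 := mul_le_mul_of_nonneg_right (sub_le_sub hfu h5) (Nat.cast_nonneg (α := ℝ) d)
    linarith
  -- integrate the count
  have hlin : ∀ n : ℕ, g * c₀ * S * (2 * n + 1) ≤
      100 * M * (6 * (d : ℝ)) * n + (100 * M * ((d : ℝ) + W + 9 * R + 8 * L + 1) + g * m) := by
    intro n
    set N : ℕ := n * D + (d + W + 9 * R + 8 * L)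
    set J := Finset.Icc (-(n : ℤ)) n
    have hN : ∀ j ∈ J, |j * (D : ℤ)| + P.d + P.W + 9 * P.R + 8 * P.L ≤ (N : ℤ) := by
      intro j hj
      have hj' : |j| ≤ n := abs_le.2 (Finset.mem_Icc.1 hj)
      have : |j * (D : ℤ)| ≤ (n : ℤ) * D := by
        rw [abs_mul, Nat.abs_cast]
        exact mul_le_mul_of_nonneg_right hj' (by positivity)
      simp only [N, P]
      push_cast
      linarith
    set E : Fin m → ℤ → Set Conf := fun u j => blockEvent P GS (a u) (b u) (j * D) (kh u)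
    have hEn : ∀ u j, NullMeasurableSet (E u j) (law G) := fun u j =>
      nullMeasurableSet_blockEvent P hGSm _ _ _ _ _
    have hint : ∀ u j, Integrable (fun t => (E u j).indicator (fun _ => (kh u : ℝ)) t) (law G) :=
      fun u j => (integrable_const _).indicator₀ (hEn u j)
    have hae : ∀ᵐ t ∂law G, g * ∑ u, ∑ j ∈ J, (E u j).indicator (fun _ => (kh u : ℝ)) t ≤
        100 * M * (N + 1) + g * m := by
      filter_upwards [hGS] with t ht
      exact hcount GS hNice P hg hδ hLR a b (fun u => ⟨(hab u).1, (hab u).2.1, (hab u).2.2.1⟩)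
        hsep D hD J N hN kh ht
    have hI : g * ∑ u, ∑ j ∈ J, (kh u : ℝ) * (law G).real (E u j) ≤
        100 * M * (N + 1) + g * m := by
      have h1 := integral_mono_ae ((integrable_finsetSum _ fun u _ =>
        integrable_finsetSum _ fun j _ => hint u j).const_mul g) (integrable_const _) hae
      rw [integral_const_mul, integral_finsetSum _ fun u _ =>
        integrable_finsetSum _ fun j _ => hint u j, integral_const] at h1
      simp only [probReal_univ, one_smul] at h1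
      refine le_trans (le_of_eq ?_) h1
      congr 1
      refine Finset.sum_congr rfl fun u _ => ?_
      rw [integral_finsetSum _ fun j _ => hint u j]
      refine Finset.sum_congr rfl fun j _ => ?_
      rw [integral_indicator₀ (hEn u j), setIntegral_const, smul_eq_mul, mul_comm]
    have hlow' : g * c₀ * S * (2 * n + 1) ≤ g * ∑ u, ∑ j ∈ J, (kh u : ℝ) * (law G).real (E u j) := by
      rw [mul_assoc, mul_assoc]
      refine mul_le_mul_of_nonneg_left ?_ hg.le
      simp only [S]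
      rw [Finset.sum_mul, Finset.mul_sum]
      refine Finset.sum_le_sum fun u _ => ?_
      have hterm : ∀ j ∈ J, c₀ * (kh u : ℝ) ≤ (kh u : ℝ) * (law G).real (E u j) := fun j _ => by
        rw [mul_comm c₀]
        refine mul_le_mul_of_nonneg_left ?_ (Nat.cast_nonneg _)
        rw [measureReal_def, law_blockEvent P hinv]
        exact (ENNReal.ofReal_le_iff_le_toReal (measure_ne_top _ _)).1 (hW u)
      refine le_trans (le_of_eq ?_) (Finset.sum_le_sum hterm)
      rw [Finset.sum_const, Int.card_Icc, show ((n : ℤ) + 1 - -(n : ℤ)).toNat = 2 * n + 1 by omega,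
        nsmul_eq_mul]
      push_cast; ring
    refine (hlow'.trans hI).trans (le_of_eq ?_)
    simp only [N, D]
    push_cast; ring
  have h2 := le_of_forall_linear hlin
  have h3 : g * c₀ * (f * d / 64) ≤ g * c₀ * S := mul_le_mul_of_nonneg_left hS (by positivity)
  have h4 : 19200 * M * d < g * c₀ * f * d :=
    mul_lt_mul_of_pos_right hs3 (lt_of_lt_of_le (by positivity) hdL)
  linarith

end Vale.Agent.P158
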