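import Vale.Agent.P158.Site2
import Vale.Agent.P158.Meas
import Vale.Agent.P158.MainAsm
import Vale.Agent.P158.MainMeas

/-!
Assembly of the statement for all bigeodesics from the supply of sites, the probability of a
block and the deterministic count.
-/

open MeasureTheory Filter Topology
open scoped ENNReal

namespace Vale.Agent.P158

/-- The bound on the number of edges of a tilt region. -/
noncomputable def regCard (L d : ℕ) (w : ℝ) : ℕ := 4 * (2 * L + 2) * (d + ⌈4 * w⌉₊ + 3)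

/-- The probability of a block centred at height zero, uniformly in large boxes. -/
def BlockProb2 (G : Measure ℝ) (M κ : ℝ) : Prop :=
  ∀ (GS : Set Conf), MeasurableSet GS → (∀ᵐ t ∂law G, t ∈ GS) → (∀ t ∈ GS, Nice2 M κ t) →
    ∀ (P : SiteP) (k c : ℤ) (s : ℝ) (d : ℕ) (r₀ η : ℝ) (q : ℕ), (k = 0 ∨ k = 1) → 0 < P.δ →
      0 ≤ P.w → P.ε * P.L ≤ P.w → r₀ < P.r → 0 < G.real (Set.Iio r₀) → 0 < η → η ≤ 1 → 2 ≤ q →
      q * η ≤ 1 → 1000 ≤ η * G.real (Set.Iio r₀) * P.L →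
    ∀ g G₀ : ℝ, g ≤ (P.r - r₀) * η * G.real (Set.Iio r₀) * P.L / 4 →
    ∀ lam : ℝ, 0 < lam → ∀ (n : ℕ) (β : ℝ), 0 < β → ∀ᶠ W : ℕ in atTop, ∀ᶠ N : ℕ in atTop,
      (law G).real {t | n ≤ {y : ℤ | 0 ≤ y ∧ y < (d : ℤ) ∧
          t ∈ siteEvent2 { P with N := N } k c s y}.ncard} / 2 ≤
        lam * (law G).real (blockEvent2 { P with N := N } ⟨d, W, G₀, g⟩ GS k c s 0 ((n + 1) / 2)) +
          (1 + (q : ℝ) ^ 2 * η ^ 2) ^ regCard P.L d P.w / lam ^ (q - 1) + β

/-- Witnesses in a translated configuration. -/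
theorem Wit.translate {t : Conf} {k h : ℤ} (hk : |k| ≤ 1) {W W' : ℤ} (hW : W + |h| ≤ W') {G₀ : ℝ}
    {r s : ℕ → V} (hr : ∀ i, Adj (r i) (r (i + 1))) (hs : ∀ i, Adj (s i) (s (i + 1)))
    (h' : Wit (shift (pt k 0 h) t) W G₀ r s) :
    Wit t W' G₀ (fun i => r i + pt k 0 h) (fun i => s i + pt k 0 h) := by
  obtain ⟨z, hz, hlt⟩ := h'
  refine ⟨z + pt k 0 h, inSq_of_le hW (inSq_add hk hz), ?_⟩
  have hu : (shiftSym (pt k 0 h)).emap '' (Set.univ : Set Edge) = Set.univ := by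
    rw [Set.image_univ]; exact (shiftSym _).emap.range_eq_univ
  have e : ∀ r : ℕ → V, (∀ i, Adj (r i) (r (i + 1))) →
      bus (shift (pt k 0 h) t) Set.univ r z =
        bus t Set.univ (fun i => r i + pt k 0 h) (z + pt k 0 h) := by
    intro r hr
    rw [shift_eq_act, LatSym.bus_act _ _ _ hr, hu]
    rfl
  rw [← e r hr, ← e s hs]
  exact hlt

/-- Translation of certificates along a level. -/
theorem blockEvent2_translate {P : SiteP} {B : BlockP} {GS : Set Conf}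
    (hinv : ∀ (v : V) (t : Conf), t ∈ GS → shift v t ∈ GS) {k c : ℤ} (hk : |k| ≤ 1) {s : ℝ}
    {h : ℤ} {n : ℕ} {N' W' : ℕ} (hN' : (N' : ℤ) + |h| ≤ P.N) (hW : (B.W : ℤ) + |h| ≤ W')
    (hb : 2 * (|s| + P.ε + 1) * ((P.Lam : ℝ) + P.R' + |(c : ℝ)| + 2) + 2 * (B.d : ℝ) +
      2 * P.w + 4 + |(h : ℝ)| + 1 ≤ (N' : ℝ)) :
    shift (pt k 0 h) ⁻¹' blockEvent2 P B GS k c s 0 n ⊆
      blockEvent2 { P with N := N' } { B with W := W' } GS k c s h n := by
  rintro t ⟨pre, hpre, ht, hle, hoff, ys, γ, iL, jR, hinj, hline, hwit⟩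
  set v := pt k 0 h with hv
  have hback : ∀ u : Conf, shift v (shift (-v) u) = u := fun u => by
    rw [shift_shift]; simp [shift_zero]
  have hback' : ∀ u : Conf, shift (-v) (shift v u) = u := fun u => by
    rw [shift_shift]; simp [shift_zero]
  have hpt : ∀ y, pt k c y + v = pt k c (y + h) := fun y => by
    simp [hv, pt, Prod.ext_iff]; ring
  have hev : ∀ e, eShift (-v) (eShift v e) = e := fun e => by simp [eShift, add_assoc]
  have hwt : ∀ (i : Fin n) (u : Conf) (m : ℤ),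
      wt (shift v u) (γ i m) (γ i (m + 1)) = wt u (γ i m + v) (γ i (m + 1) + v) := fun i u m =>
    (shiftSym v).wt_act u ((hline i).2.2.1.line.adj m)
  refine ⟨shift (-v) pre, hinv _ _ hpre, hback' t ▸ hinv (-v) _ ht, fun e => ?_, fun e he => ?_,
    fun i => ys i + h, fun i m => γ i m + v, iL, jR, fun a b hab => hinj (by simpa using hab),
    fun i => ⟨by have := (hline i).1; simp only; omega, by have := (hline i).2.1; simp only; omega, ?_, ?_⟩,
    fun i i' hne => ?_⟩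
  · have := hle (eShift (-v) e)
    simpa [shift, eShift, add_assoc] using this
  · have hh := hoff (eShift (-v) e) ?_
    · simpa [shift, eShift, add_assoc] using hh
    intro hmem
    apply he
    obtain ⟨h1, h2⟩ := hmem
    rw [eFst_eShift] at h1
    rw [eSnd_eShift] at h2
    have tr : ∀ u : V, InReg2 P k c s 0 B.d (u + -v) →
        InReg2 { P with N := N' } k c s h B.d u := by
      intro u hu
      have hl : lev k (u + -v) = lev k u := by simp [hv, lev, pt]; ring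
      have h2' : (u + -v).2 = u.2 - h := by simp [hv, pt, sub_eq_add_neg]
      obtain ⟨a, b, c'⟩ := hu
      rw [hl, h2'] at *
      refine ⟨a, ?_, ?_⟩ <;> push_cast at b c' <;> simp only <;> linarith
    exact ⟨tr _ h1, tr _ h2⟩
  · have hl := (hline i).2.2.1
    rw [← hpt]
    refine LineSite.translate hk ((hback pre).symm ▸ hl) hN' ?_
    have h1 : ((0 : ℤ) : ℝ) ≤ ys i := by exact_mod_cast (hline i).1
    have h2 : ((ys i : ℤ) : ℝ) ≤ B.d := by
      have := (hline i).2.1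
      have : ys i ≤ (B.d : ℤ) := by omega
      exact_mod_cast this
    have h3 : lev k (pt k c (ys i)) = c := by simp [lev, pt]
    have h4 : |(((pt k c (ys i)).2 : ℤ) : ℝ)| ≤ B.d := by
      simp only [pt]
      rw [abs_of_nonneg (by simpa using h1)]
      exact h2
    rw [h3]
    linarith
  · have hg := (hline i).2.2.2
    have e2 : ∀ m, wt t (γ i m + v) (γ i (m + 1) + v) = wt (shift v t) (γ i m) (γ i (m + 1)) :=
      fun m => (hwt i t m).symm
    have e1 : ∀ m, wt (shift (-v) pre) (γ i m + v) (γ i (m + 1) + v) =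
        wt pre (γ i m) (γ i (m + 1)) := fun m => by
      rw [← hwt i (shift (-v) pre) m, hback]
    simp only [e1, e2]
    exact hg
  · obtain ⟨w1, w2, w3, w4⟩ := hwit i i' hne
    have ai := (hline i).2.2.1.line
    have ai' := (hline i').2.2.1.line
    rw [← hback pre] at w1 w2 w3 w4
    exact ⟨w1.translate hk hW (bwd_adj ai 0) (fwd_adj ai' 0),
      w2.translate hk hW (fwd_adj ai 0) (bwd_adj ai' 0),
      w3.translate hk hW (bwd_adj ai 0) (bwd_adj ai' 0),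
      w4.translate hk hW (fwd_adj ai 0) (fwd_adj ai' 0)⟩

/-- The probabilities of the events of at least `k` of finitely many events add up to their
expected number. -/
theorem sum_real_ge {Ω : Type*} [MeasurableSpace Ω] {μ : Measure Ω} [IsFiniteMeasure μ]
    {ι : Type*} (s : Finset ι) (A : ι → Set Ω) (hA : ∀ i, NullMeasurableSet (A i) μ) :
    ∑ i ∈ s, μ.real (A i) ≤
      ∑ k ∈ Finset.Icc 1 s.card, μ.real {ω | k ≤ {i | i ∈ s ∧ ω ∈ A i}.ncard} := by
  classical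
  have hcount : ∀ ω, {i | i ∈ s ∧ ω ∈ A i}.ncard = (s.filter fun i => ω ∈ A i).card := fun ω => by
    rw [← Set.ncard_coe_finset]; simp
  have hne : ∀ i, ∫⁻ ω, (A i).indicator 1 ω ∂μ = μ (A i) := fun i => lintegral_indicator_one₀ (hA i)
  have hmeas : AEMeasurable (fun ω => ∑ i ∈ s, (A i).indicator (fun _ => (1 : ℝ≥0∞)) ω) μ :=
    Finset.aemeasurable_fun_sum _ fun i _ => aemeasurable_const.indicator₀ (hA i)
  have hval : ∀ ω, ∑ i ∈ s, (A i).indicator (fun _ => (1 : ℝ≥0∞)) ω =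
      ({i | i ∈ s ∧ ω ∈ A i}.ncard : ℝ≥0∞) := fun ω => by
    rw [hcount, Finset.card_filter, Nat.cast_sum]
    exact Finset.sum_congr rfl fun i _ => by by_cases h : ω ∈ A i <;> simp [h]
  have hB : ∀ k : ℕ, NullMeasurableSet {ω | k ≤ {i | i ∈ s ∧ ω ∈ A i}.ncard} μ := fun k => by
    have : {ω | k ≤ {i | i ∈ s ∧ ω ∈ A i}.ncard} =
        (fun ω => ∑ i ∈ s, (A i).indicator (fun _ => (1 : ℝ≥0∞)) ω) ⁻¹' Set.Ici (k : ℝ≥0∞) := by
      ext ω
      simp only [Set.mem_preimage, Set.mem_Ici, hval, Set.mem_ofPred_eq, Nat.cast_le]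
    rw [this]
    exact hmeas.nullMeasurable measurableSet_Ici
  have key : ∀ ω, ∑ i ∈ s, (A i).indicator (fun _ => (1 : ℝ≥0∞)) ω ≤
      ∑ k ∈ Finset.Icc 1 s.card, {ω | k ≤ {i | i ∈ s ∧ ω ∈ A i}.ncard}.indicator (fun _ => 1) ω := by
    intro ω
    rw [hval, hcount]
    set c := (s.filter fun i => ω ∈ A i).card with hc
    have hsub : Finset.Icc 1 c ⊆ Finset.Icc 1 s.card :=
      Finset.Icc_subset_Icc le_rfl (Finset.card_filter_le _ _)
    refine le_trans (le_of_eq ?_) (Finset.sum_le_sum_of_subset hsub)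
    rw [Finset.sum_congr rfl (g := fun _ => (1 : ℝ≥0∞)) fun k hk => ?_]
    · simp
    · rw [Set.indicator_of_mem]
      simp only [Set.mem_ofPred_eq, hcount, ← hc]
      exact (Finset.mem_Icc.1 hk).2
  have h := lintegral_mono (μ := μ) key
  rw [lintegral_finset_sum' _ fun i _ => aemeasurable_const.indicator₀ (hA i),
    lintegral_finset_sum' _ fun k _ => aemeasurable_const.indicator₀ (hB k)] at h
  have e1 : ∀ (S : Set Ω), NullMeasurableSet S μ →
      ∫⁻ ω, S.indicator (fun _ => (1 : ℝ≥0∞)) ω ∂μ = μ S := fun S hS => by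
    rw [lintegral_indicator_const₀ hS, one_mul]
  rw [Finset.sum_congr rfl fun i _ => e1 _ (hA i), Finset.sum_congr rfl fun k _ => e1 _ (hB k)] at h
  have h' := ENNReal.toReal_mono (ENNReal.sum_ne_top.2 fun k _ => measure_ne_top _ _) h
  rwa [ENNReal.toReal_sum fun i _ => measure_ne_top _ _,
    ENNReal.toReal_sum fun k _ => measure_ne_top _ _] at h'

theorem sum_Icc_half_le (n d : ℕ) :
    (∑ k ∈ Finset.Icc 1 d, if (k + 1) / 2 ≤ n then (1 : ℝ) else 0) ≤ 2 * n := by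
  rw [Finset.sum_boole]
  have : ((Finset.Icc 1 d).filter fun k => (k + 1) / 2 ≤ n).card ≤ 2 * n := by
    refine (Finset.card_le_card (t := Finset.Icc 1 (2 * n)) fun k hk => ?_).trans (by simp)
    simp only [Finset.mem_filter, Finset.mem_Icc] at hk ⊢
    omega
  exact_mod_cast this

/-- Each level of a certificate count is controlled by the largest certificate. -/
theorem sum_cert_le {Ω : Type*} [MeasurableSpace Ω] {μ : Measure Ω} [IsProbabilityMeasure μ]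
    (Z : ℕ → ℤ → ℕ → Set Ω) (hZ : ∀ u j n, NullMeasurableSet (Z u j n) μ) {GS : Set Ω}
    (hGS : ∀ᵐ t ∂μ, t ∈ GS) (U : Finset ℕ) (J : Finset ℤ) (d : ℕ) {g rhs : ℝ} (hg : 0 < g)
    (hdet : ∀ t ∈ GS, ∀ n : ℕ → ℤ → ℕ, (∀ u ∈ U, ∀ j ∈ J, 0 < n u j → t ∈ Z u j (n u j)) →
      g * ∑ u ∈ U, ∑ j ∈ J, (n u j : ℝ) ≤ rhs) :
    ∑ u ∈ U, ∑ j ∈ J, ∑ n ∈ Finset.Icc 1 d, μ.real (Z u j ((n + 1) / 2)) ≤ 2 * (rhs / g) := by
  classical
  set nb : ℕ → ℤ → Ω → ℕ := fun u j t =>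
    ((Finset.Icc 1 d).filter fun n => t ∈ Z u j n).sup id with hnb
  have hnb_mem : ∀ u j t, 0 < nb u j t → t ∈ Z u j (nb u j t) := fun u j t h0 => by
    obtain ⟨n, hn, hn'⟩ := Finset.exists_mem_eq_sup ((Finset.Icc 1 d).filter fun n => t ∈ Z u j n)
      (by
        by_contra hne
        rw [Finset.not_nonempty_iff_eq_empty] at hne
        simp [hnb, hne] at h0) id
    have : nb u j t = n := hn'
    rw [this]
    exact (Finset.mem_filter.1 hn).2
  have hpt : ∀ t ∈ GS, ∑ u ∈ U, ∑ j ∈ J, ∑ n ∈ Finset.Icc 1 d,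
      (Z u j ((n + 1) / 2)).indicator (fun _ => (1 : ℝ)) t ≤ 2 * (rhs / g) := by
    intro t ht
    have hc := hdet t ht (fun u j => nb u j t) fun u _ j _ h0 => hnb_mem u j t h0
    have hle : ∑ u ∈ U, ∑ j ∈ J, ∑ n ∈ Finset.Icc 1 d,
        (Z u j ((n + 1) / 2)).indicator (fun _ => (1 : ℝ)) t ≤
          2 * ∑ u ∈ U, ∑ j ∈ J, (nb u j t : ℝ) := by
      rw [Finset.mul_sum]
      refine Finset.sum_le_sum fun u _ => ?_
      rw [Finset.mul_sum]
      refine Finset.sum_le_sum fun j _ => le_trans (Finset.sum_le_sum fun n hn => ?_)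
        (sum_Icc_half_le (nb u j t) d)
      by_cases hz : t ∈ Z u j ((n + 1) / 2)
      · rw [Set.indicator_of_mem hz, if_pos]
        rw [Finset.mem_Icc] at hn
        exact Finset.le_sup (f := id)
          (Finset.mem_filter.2 ⟨Finset.mem_Icc.2 ⟨by omega, by omega⟩, hz⟩)
      · rw [Set.indicator_of_notMem hz]; split_ifs <;> simp
    refine hle.trans (mul_le_mul_of_nonneg_left ?_ zero_le_two)
    rw [le_div_iff₀ hg, mul_comm]
    exact hc
  have hi : ∀ u j n, Integrable ((Z u j n).indicator fun _ => (1 : ℝ)) μ := fun u j n =>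
    (integrable_const 1).indicator₀ (hZ u j n)
  have hmono := integral_mono_ae
    (integrable_finset_sum U fun u _ => integrable_finset_sum J fun j _ =>
      integrable_finset_sum (Finset.Icc 1 d) fun n _ => hi u j ((n + 1) / 2))
    (integrable_const (2 * (rhs / g))) (hGS.mono fun t ht => hpt t ht)
  rw [integral_const, probReal_univ, one_smul] at hmono
  refine le_trans (le_of_eq ?_) hmono
  rw [integral_finset_sum U fun u _ => integrable_finset_sum J fun j _ =>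
    integrable_finset_sum _ fun n _ => hi u j ((n + 1) / 2)]
  refine Finset.sum_congr rfl fun u _ => ?_
  rw [integral_finset_sum J fun j _ => integrable_finset_sum _ fun n _ => hi u j ((n + 1) / 2)]
  refine Finset.sum_congr rfl fun j _ => ?_
  rw [integral_finset_sum _ fun n _ => hi u j ((n + 1) / 2)]
  refine Finset.sum_congr rfl fun n _ => ?_
  rw [integral_indicator₀ (hZ _ _ _), setIntegral_const, smul_eq_mul, mul_one]

/-- The expected certificates of one block row. -/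
theorem block_mass_ge (U : Finset ℕ) (d : ℕ) {m : ℕ} (hU : U.card ≤ m) (a : ℕ → ℤ → ℝ)
    (S : ℕ → ℝ) {lam e c₁ : ℝ} (hlam : 0 < lam) (he : 0 ≤ e) (hme : (m : ℝ) * e ≤ c₁ / 4)
    (hb : ∀ u ∈ U, (∑ y ∈ Finset.Ico (0 : ℤ) d, a u y) / 2 ≤ lam * S u + d * e)
    (hc : ∀ y ∈ Finset.Ico (0 : ℤ) d, c₁ ≤ ∑ u ∈ U, a u y) :
    c₁ * d / (4 * lam) ≤ ∑ u ∈ U, S u := by
  have h1 : c₁ * d ≤ ∑ u ∈ U, ∑ y ∈ Finset.Ico (0 : ℤ) d, a u y := by
    rw [Finset.sum_comm]
    calc c₁ * d = ∑ _y ∈ Finset.Ico (0 : ℤ) d, c₁ := by simp [mul_comm]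
      _ ≤ _ := Finset.sum_le_sum hc
  have hs := Finset.sum_le_sum hb
  rw [← Finset.sum_div, Finset.sum_add_distrib, ← Finset.mul_sum, Finset.sum_const,
    nsmul_eq_mul] at hs
  have hUc : (U.card : ℝ) ≤ m := by exact_mod_cast hU
  have h5 : (U.card : ℝ) * ((d : ℝ) * e) ≤ d * (c₁ / 4) := by
    calc (U.card : ℝ) * ((d : ℝ) * e) ≤ m * ((d : ℝ) * e) :=
          mul_le_mul_of_nonneg_right hUc (by positivity)
      _ = d * (m * e) := by ring
      _ ≤ _ := mul_le_mul_of_nonneg_left hme (Nat.cast_nonneg _)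
  rw [div_le_iff₀ (by positivity)]
  linarith

/-- The growth of a tilt over a whole region. -/
theorem tilt_growth_le {ε A : ℝ} {q L d : ℕ} (hε : 0 < ε) (hL : (2 : ℝ) ≤ L)
    (hεL : 10 ≤ ε * L) (hd : (d : ℝ) ≤ ε * L + 1) (hA : A ^ 2 * (84 * q * ε) = 1) :
    (1 + (q : ℝ) ^ 2 * (A / L) ^ 2) ^ regCard L d (ε * L) ≤ Real.exp q := by
  have h1 : (1 + (q : ℝ) ^ 2 * (A / L) ^ 2) ^ regCard L d (ε * L) ≤
      Real.exp ((q : ℝ) ^ 2 * (A / L) ^ 2) ^ regCard L d (ε * L) := by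
    refine pow_le_pow_left₀ (by positivity) ?_ _
    linarith [Real.add_one_le_exp ((q : ℝ) ^ 2 * (A / L) ^ 2)]
  refine h1.trans ?_
  rw [← Real.exp_nat_mul]
  refine Real.exp_le_exp.2 ?_
  have hc : (regCard L d (ε * L) : ℝ) ≤ 84 * ε * (L : ℝ) ^ 2 := by
    rw [regCard]; push_cast
    have h4 : (⌈4 * (ε * L)⌉₊ : ℝ) ≤ 4 * (ε * L) + 1 :=
      (Nat.ceil_lt_add_one (by positivity)).le
    calc (4 : ℝ) * (2 * L + 2) * ((d : ℝ) + ⌈4 * (ε * L)⌉₊ + 3)
        ≤ (4 * (3 * L)) * (7 * (ε * L)) := by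
          refine mul_le_mul (by linarith) (by linarith) (by positivity) (by positivity)
      _ = 84 * ε * (L : ℝ) ^ 2 := by ring
  calc (regCard L d (ε * L) : ℝ) * ((q : ℝ) ^ 2 * (A / L) ^ 2)
      ≤ 84 * ε * (L : ℝ) ^ 2 * ((q : ℝ) ^ 2 * (A / L) ^ 2) :=
        mul_le_mul_of_nonneg_right hc (by positivity)
    _ = q * (A ^ 2 * (84 * q * ε)) := by field_simp
    _ = q := by rw [hA, mul_one]

/-- The choice of the tolerance. -/
theorem exists_tolerance {C c₁ p T : ℝ} (hC : 0 < C) (hc₁ : 0 < c₁) (hp : 0 < p) (hT : 0 ≤ T) :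
    ∃ (ε : ℝ) (q : ℕ) (A : ℝ), 0 < ε ∧ ε ≤ 1 ∧ 2 ≤ q ∧ 0 < A ∧ A ^ 2 * (84 * q * ε) = 1 ∧
      1000 / p < A ∧ T < A ∧
      ((⌈C / ε⌉₊ + 1 : ℕ) : ℝ) ≤ (C + 2) / ε ∧
      ((⌈C / ε⌉₊ + 1 : ℕ) : ℝ) * (Real.exp (q : ℝ) / Real.exp 4 ^ (q - 1)) ≤ c₁ / 8 := by
  obtain ⟨Q, hQ⟩ := exists_nat_gt (max (max 10 (32 * (C + 2) / c₁))
    (max ((1000 / p) ^ 2 * 252) (T ^ 2 * 252)))
  simp only [max_lt_iff] at hQ
  obtain ⟨⟨hQ10, hQc⟩, hQp, hQg⟩ := hQ
  have hQ0 : (0 : ℝ) < Q := lt_trans (by norm_num) hQ10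
  have hQ1 : (1 : ℝ) ≤ Q := le_trans (by norm_num) hQ10.le
  set ε : ℝ := 1 / (Q : ℝ) ^ 2 with hεdef
  have hε : 0 < ε := by positivity
  have hε1 : ε ≤ 1 := by
    rw [hεdef, div_le_one (by positivity)]
    exact one_le_pow₀ hQ1
  set q : ℕ := Q + 2 with hq
  set A : ℝ := Real.sqrt (1 / (84 * q * ε)) with hA
  have hqε : (0 : ℝ) < 84 * q * ε := by
    have : (0 : ℝ) < q := by rw [hq]; positivity
    positivity
  have hAsq : A ^ 2 = 1 / (84 * q * ε) := by rw [hA, Real.sq_sqrt (by positivity)]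
  have hA2 : (Q : ℝ) / 252 ≤ A ^ 2 := by
    rw [hAsq, hεdef, hq]
    push_cast
    rw [show (1 : ℝ) / (84 * ((Q : ℝ) + 2) * (1 / (Q : ℝ) ^ 2)) =
      (Q : ℝ) ^ 2 / (84 * ((Q : ℝ) + 2)) by field_simp]
    rw [div_le_div_iff₀ (by norm_num) (by positivity)]
    nlinarith
  have hA0 : 0 ≤ A := Real.sqrt_nonneg _
  have hbig : ∀ T : ℝ, 0 ≤ T → T ^ 2 * 252 < Q → T < A := fun T hT hTQ => by
    by_contra hle
    push Not at hle
    have := mul_self_le_mul_self hA0 hle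
    nlinarith
  refine ⟨ε, q, A, hε, hε1, by omega, lt_of_lt_of_le ?_ (hbig _ (by positivity) hQp).le, ?_,
    hbig _ (by positivity) hQp, hbig _ hT hQg, ?_, ?_⟩
  · positivity
  · rw [hAsq]; exact one_div_mul_cancel hqε.ne'
  · push_cast
    have hc : (⌈C / ε⌉₊ : ℝ) < C / ε + 1 := Nat.ceil_lt_add_one (by positivity)
    rw [le_div_iff₀ hε]
    have h1 : (⌈C / ε⌉₊ : ℝ) * ε ≤ C + ε := by
      have := mul_le_mul_of_nonneg_right hc.le hε.le
      rwa [add_mul, div_mul_cancel₀ _ hε.ne', one_mul] at this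
    linarith
  · have hmle : ((⌈C / ε⌉₊ + 1 : ℕ) : ℝ) ≤ (C + 2) / ε := by
      push_cast
      have hc : (⌈C / ε⌉₊ : ℝ) < C / ε + 1 := Nat.ceil_lt_add_one (by positivity)
      rw [le_div_iff₀ hε]
      have h1 : (⌈C / ε⌉₊ : ℝ) * ε ≤ C + ε := by
        have := mul_le_mul_of_nonneg_right hc.le hε.le
        rwa [add_mul, div_mul_cancel₀ _ hε.ne', one_mul] at this
      linarith
    have hEeq : Real.exp (q : ℝ) / Real.exp 4 ^ (q - 1) = Real.exp (4 - 3 * (q : ℝ)) := by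
      rw [← Real.exp_nat_mul, ← Real.exp_sub, Nat.cast_sub (by omega)]
      congr 1; push_cast; ring
    have h1 : Real.exp (4 - 3 * (q : ℝ)) ≤ Real.exp (-(3 * (Q : ℝ))) := by
      refine Real.exp_le_exp.2 ?_
      rw [hq]; push_cast; linarith
    have h2 : (3 * (Q : ℝ)) ^ 3 / (Nat.factorial 3) ≤ Real.exp (3 * (Q : ℝ)) :=
      Real.pow_div_factorial_le_exp _ (by positivity) 3
    have h3 : Real.exp (-(3 * (Q : ℝ))) ≤ 1 / ((Q : ℝ) ^ 3 * 4) := by
      rw [Real.exp_neg, ← one_div]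
      refine one_div_le_one_div_of_le (by positivity) (le_trans ?_ h2)
      norm_num [Nat.factorial]
      nlinarith [pow_pos hQ0 3]
    rw [hEeq]
    calc ((⌈C / ε⌉₊ + 1 : ℕ) : ℝ) * Real.exp (4 - 3 * (q : ℝ))
        ≤ (C + 2) / ε * (1 / ((Q : ℝ) ^ 3 * 4)) :=
          mul_le_mul hmle (h1.trans h3) (Real.exp_pos _).le (by positivity)
      _ = (C + 2) / (4 * Q) := by rw [hεdef]; field_simp
      _ ≤ c₁ / 8 := by
          rw [div_lt_iff₀ hc₁] at hQc
          rw [div_le_div_iff₀ (by positivity) (by norm_num)]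
          nlinarith

/-- The bound from one range of blocks. -/
theorem range_bound {G : Measure ℝ} {M κ : ℝ} [IsProbabilityMeasure G]
    [IsProbabilityMeasure (law G)] {GS : Set Conf}
    (hGS : ∀ᵐ t ∂law G, t ∈ GS) (hNice : ∀ t ∈ GS, Nice2 M κ t)
    (hinv : ∀ (v : V) (t : Conf), t ∈ GS → shift v t ∈ GS) (hcount : CountProp2 M κ)
    (hsite : ∀ (P : SiteP) (k c : ℤ) (s : ℝ) (y : ℤ),
      NullMeasurableSet (siteEvent2 P k c s y) (law G))
    (hblk : ∀ (P : SiteP) (B : BlockP) (k c : ℤ) (s : ℝ) (h : ℤ) (n : ℕ),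
      NullMeasurableSet (blockEvent2 P B GS k c s h n) (law G))
    (P : SiteP) (B : BlockP) {k : ℤ} (hk : k = 0 ∨ k = 1) {C : ℝ} (U : Finset ℕ) (s : ℕ → ℝ)
    (c : ℕ → ℤ) (hδ : 0 < P.δ) (hg : 0 < B.g) (hε : 0 < P.ε) (hε1 : P.ε ≤ 1) (hC : 1 ≤ C)
    (hw : P.ε * P.L ≤ P.w)
    (hU : ∀ u ∈ U, |s u| ≤ C ∧ |c u| + P.L < (P.Lam : ℤ))
    (hsep : ∀ u ∈ U, ∀ v ∈ U, u < v → 6 * P.ε ≤ s v - s u ∧
      (10 * C + 20) * P.L + 20 * P.w + 10 * B.d ≤ P.ε * ((c v : ℝ) - c u))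
    {D : ℕ} (hD : (B.d : ℝ) + 6 * P.w + 3 < D) {h₀ : ℕ}
    (hh₀ : (B.d : ℝ) + 6 * P.w + 8 * (C + 2) * P.Lam + P.R' + 2 ≤ h₀)
    (hG₀ : 2 * M * (4 * (2 * P.L + 2) * (B.d + 4 * P.w + 3) + B.d + 1) + 2 * B.g + 1 ≤ B.G₀)
    {m : ℕ} (hUm : U.card ≤ m) {lam e c₁ : ℝ} (hlam : 0 < lam) (he : 0 ≤ e)
    (hme : (m : ℝ) * e ≤ c₁ / 4)
    (J₀ N : ℕ) (hNev : ∀ u ∈ U, ∀ n ∈ Finset.Icc 1 B.d,
      (law G).real {t | n ≤ {y : ℤ | 0 ≤ y ∧ y < (B.d : ℤ) ∧
          t ∈ siteEvent2 { P with N := N } k (c u) (s u) y}.ncard} / 2 ≤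
        lam * (law G).real (blockEvent2 { P with N := N } B GS k (c u) (s u) 0 ((n + 1) / 2)) + e)
    (hmass : ∀ y ∈ Finset.Ico (0 : ℤ) B.d,
      c₁ ≤ ∑ u ∈ U, (law G).real (siteEvent2 { P with N := N } k (c u) (s u) y))
    (hN : ⌈8 * (C + 2) * ((P.Lam : ℝ) + P.R' + 2) + 2 * B.d + 2 * P.w + 5⌉₊ +
      6 * (J₀ * D + h₀) ≤ N) :
    B.g * B.d * c₁ / (8 * lam) * (2 * J₀ + 1) ≤
      100000 * M * ((2 * (J₀ * D + h₀) : ℕ) + P.Lam + B.W + 1) + 40 * B.g := by
  classical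
  have hk1 : |k| ≤ 1 := by rcases hk with rfl | rfl <;> simp
  set H : ℕ := J₀ * D + h₀ with hH
  set N₁ : ℕ := ⌈8 * (C + 2) * ((P.Lam : ℝ) + P.R' + 2) + 2 * B.d + 2 * P.w + 5⌉₊ + 5 * H with hN₁
  set J := Finset.Icc (-(J₀ : ℤ)) J₀ with hJ
  set B' : BlockP := { B with W := B.W + H } with hB'
  set Z : ℕ → ℤ → ℕ → Set Conf := fun u j n =>
    blockEvent2 { P with N := N₁ } B' GS k (c u) (s u) (j * D) n with hZ
  have hjH : ∀ j ∈ J, |j * (D : ℤ)| + h₀ ≤ (H : ℤ) := fun j hj => by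
    rw [hJ, Finset.mem_Icc] at hj
    rw [abs_mul, Nat.abs_cast, hH]
    have := mul_le_mul_of_nonneg_right (abs_le.2 hj) (Int.natCast_nonneg D)
    push_cast; linarith
  have e4 := Nat.le_ceil (8 * (C + 2) * ((P.Lam : ℝ) + P.R' + 2) + 2 * B.d + 2 * P.w + 5)
  have hd0 : (0 : ℝ) ≤ B.d := Nat.cast_nonneg _
  have hw0 : 0 ≤ P.w := le_trans (by positivity) hw
  set rhs : ℝ := 100000 * M * ((H : ℝ) + P.Lam + (B.W + H : ℕ) + 1) + 40 * B.g with hrhs
  have hint : ∑ u ∈ U, ∑ j ∈ J, ∑ n ∈ Finset.Icc 1 B.d, (law G).real (Z u j ((n + 1) / 2)) ≤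
      2 * (rhs / B.g) := by
    refine sum_cert_le Z (fun u j n => hblk _ _ _ _ _ _ _) hGS U J B.d hg fun t ht nn hnn => ?_
    refine hcount GS hNice { P with N := N₁ } B' k hk hδ hg C hε hε1 hC hw U s c hU hsep D hD J H
      (fun j hj => ?_) ?_ ht hG₀ nn hnn
    · show (|j * (D : ℤ)| : ℝ) + B.d + 6 * P.w + 8 * (C + 2) * P.Lam + P.R' + 2 ≤ H
      have h1 : ((|j * (D : ℤ)| + h₀ : ℤ) : ℝ) ≤ ((H : ℤ) : ℝ) := by exact_mod_cast hjH j hj
      push_cast at h1 ⊢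
      linarith
    · show 8 * (C + 2) * (P.Lam : ℝ) + 4 * H ≤ (N₁ : ℝ)
      rw [hN₁]; push_cast
      have h2 : 0 ≤ 8 * (C + 2) * ((P.R' : ℝ) + 2) := by positivity
      linarith [Nat.cast_nonneg (α := ℝ) H]
  have hone : ∀ j ∈ J, c₁ * B.d / (4 * lam) ≤
      ∑ u ∈ U, ∑ n ∈ Finset.Icc 1 B.d, (law G).real (Z u j ((n + 1) / 2)) := by
    intro j hj
    refine block_mass_ge U B.d hUm
      (fun u y => (law G).real (siteEvent2 { P with N := N } k (c u) (s u) y)) _ hlam he hme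
      (fun u hu => ?_) hmass
    have h1 := sum_real_ge (μ := law G) (Finset.Ico (0 : ℤ) B.d)
      (fun y => siteEvent2 { P with N := N } k (c u) (s u) y) fun y => hsite _ _ _ _ _
    simp only [Int.card_Ico, sub_zero, Int.toNat_natCast] at h1
    refine (div_le_div_of_nonneg_right h1 zero_le_two).trans ?_
    rw [Finset.sum_div, Finset.mul_sum, show (B.d : ℝ) * e = ∑ n ∈ Finset.Icc 1 B.d, e by simp,
      ← Finset.sum_add_distrib]
    refine Finset.sum_le_sum fun n hn => ?_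
    have h2 := hNev u hu n hn
    simp only [Finset.mem_Ico, and_assoc]
    have h3 : (law G).real (blockEvent2 { P with N := N } B GS k (c u) (s u) 0 ((n + 1) / 2)) ≤
        (law G).real (Z u j ((n + 1) / 2)) := by
      rw [Measure.real, Measure.real]
      refine ENNReal.toReal_mono (measure_ne_top _ _) ?_
      rw [← law_shift_preimage (G := G) (pt k 0 (j * D))]
      have := hjH j hj
      refine measure_mono (blockEvent2_translate (P := { P with N := N }) hinv hk1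
        (N' := N₁) (W' := B.W + H) ?_ ?_ ?_)
      · show (N₁ : ℤ) + |j * (D : ℤ)| ≤ (N : ℤ)
        omega
      · push_cast; omega
      · show 2 * (|s u| + P.ε + 1) * ((P.Lam : ℝ) + P.R' + |(c u : ℝ)| + 2) + 2 * (B.d : ℝ) +
          2 * P.w + 4 + |((j * D : ℤ) : ℝ)| + 1 ≤ (N₁ : ℝ)
        have e1 : |((j * D : ℤ) : ℝ)| ≤ (H : ℝ) := by
          rw [← Int.cast_abs]
          exact_mod_cast (show |j * (D : ℤ)| ≤ (H : ℤ) by omega)
        obtain ⟨e3, e2'⟩ := hU u hu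
        have e2 : |(c u : ℝ)| ≤ (P.Lam : ℝ) := by
          rw [← Int.cast_abs]
          exact_mod_cast (show |c u| ≤ (P.Lam : ℤ) by omega)
        rw [hN₁]; push_cast at e1 ⊢
        have e5 : 2 * (|s u| + P.ε + 1) * ((P.Lam : ℝ) + P.R' + |(c u : ℝ)| + 2) ≤
            2 * (C + 2) * (2 * ((P.Lam : ℝ) + P.R' + 2)) := by
          refine mul_le_mul (by linarith) ?_ (by positivity) (by positivity)
          linarith [Nat.cast_nonneg (α := ℝ) P.R']
        have e6 : 0 ≤ (C + 2) * ((P.Lam : ℝ) + P.R' + 2) := by positivity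
        linarith [Nat.cast_nonneg (α := ℝ) H]
    linarith [mul_le_mul_of_nonneg_left h3 hlam.le]
  have hJc : (J.card : ℝ) = 2 * J₀ + 1 := by
    rw [hJ, Int.card_Icc, show ((J₀ : ℤ) + 1 - -(J₀ : ℤ)).toNat = 2 * J₀ + 1 by omega]
    push_cast; rfl
  have htot : (2 * (J₀ : ℝ) + 1) * (c₁ * B.d / (4 * lam)) ≤ 2 * (rhs / B.g) := by
    refine le_trans ?_ hint
    rw [Finset.sum_comm, ← hJc, ← nsmul_eq_mul, ← Finset.sum_const]
    exact Finset.sum_le_sum hone
  have h1 := mul_le_mul_of_nonneg_left htot (show 0 ≤ B.g / 2 by positivity)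
  have e' : B.g / 2 * (2 * (rhs / B.g)) = rhs := by field_simp
  rw [e'] at h1
  refine le_trans (le_trans (le_of_eq ?_) h1) (le_of_eq ?_)
  · ring
  · rw [hrhs]; push_cast; ring

/-- No bigeodesic from the parts of the main argument. -/
theorem noBigeodesic_of_parts {G : Measure ℝ} {M κ : ℝ} (hG : LawOK G M) {GS : Set Conf}
    (hGSm : MeasurableSet GS) (hGS : ∀ᵐ t ∂law G, t ∈ GS) (hNice : ∀ t ∈ GS, Nice2 M κ t)
    (hinv : ∀ (v : V) (t : Conf), t ∈ GS → shift v t ∈ GS) (hmass : MassProp G)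
    (hblock : BlockProb2 G M κ) (hcount : CountProp2 M κ)
    (hsite : ∀ (P : SiteP) (k c : ℤ) (s : ℝ) (y : ℤ),
      NullMeasurableSet (siteEvent2 P k c s y) (law G))
    (hblk : ∀ (P : SiteP) (B : BlockP) (k c : ℤ) (s : ℝ) (h : ℤ) (n : ℕ),
      NullMeasurableSet (blockEvent2 P B GS k c s h n) (law G)) : NoBigeodesic G := by
  classical
  haveI := hG.prob
  haveI : IsProbabilityMeasure (law G) := by unfold law; infer_instance
  have hM : 0 ≤ M := by
    by_contra hlt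
    have := hG.supp
    rw [Set.Icc_eq_empty (by linarith), measure_empty] at this
    exact zero_ne_one this
  by_contra hno
  obtain ⟨C, r₀, r, δ, c₁, R, R', hC, hrr, hp0, hδ, hc₁, hmain⟩ := hmass hno
  set p := G.real (Set.Iio r₀) with hpdef
  have hp : 0 < p := ENNReal.toReal_pos hp0.ne' (measure_ne_top _ _)
  have hden : 0 < (r - r₀) * p * c₁ := by have := sub_pos.2 hrr; positivity
  set lam := Real.exp 4 with hlam
  have hlam0 : 0 < lam := Real.exp_pos _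
  obtain ⟨ε, q, A, hε, hε1, hq2, hA0, hA84, hAp, hAT, hmle, hEm⟩ :=
    exists_tolerance (T := 64000000 * M * lam / ((r - r₀) * p * c₁)) hC hc₁ hp (by positivity)
  set m : ℕ := ⌈C / ε⌉₊ + 1 with hm
  set C' := C + 5 with hC'
  have hm0 : (0 : ℝ) < m := by rw [hm]; positivity
  set K₀ : ℕ := ⌈(10 * C' + 70) / ε⌉₊ + 2 with hK₀
  have hK : 10 * C' + 70 ≤ ε * (K₀ : ℝ) := by
    have : (10 * C' + 70) / ε ≤ (K₀ : ℝ) := by
      rw [hK₀]; push_cast
      linarith [Nat.le_ceil ((10 * C' + 70) / ε)]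
    rw [div_le_iff₀ hε] at this; linarith
  obtain ⟨L, hev, hL1, hL2⟩ := ((hmain ε hε hε1 K₀ (by omega)).and
    ((eventually_ge_atTop (⌈(q : ℝ) * A⌉₊ + 2)).and (eventually_ge_atTop (⌈10 / ε⌉₊ + 1)))).exists
  have hLpos : 0 < (L : ℝ) := by exact_mod_cast (show 0 < L by omega)
  have hεL : 10 ≤ ε * L := by
    have : 10 / ε ≤ (L : ℝ) := (Nat.le_ceil _).trans (by exact_mod_cast (show ⌈10 / ε⌉₊ ≤ L by omega))
    rw [div_le_iff₀ hε] at this; linarith
  have hη1 : A / L ≤ 1 ∧ (q : ℝ) * (A / L) ≤ 1 := by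
    have hqA : (q : ℝ) * A ≤ L :=
      (Nat.le_ceil _).trans (by exact_mod_cast (show ⌈(q : ℝ) * A⌉₊ ≤ L by omega))
    have h2 : (q : ℝ) * (A / L) ≤ 1 := by
      rw [← mul_div_assoc, div_le_one hLpos]; exact hqA
    refine ⟨le_trans (le_mul_of_one_le_left (by positivity) ?_) h2, h2⟩
    exact_mod_cast (show 1 ≤ q by omega)
  set d : ℕ := ⌈ε * L⌉₊ with hd
  have hd1 : ε * L ≤ (d : ℝ) := Nat.le_ceil _
  have hd2 : (d : ℝ) ≤ ε * L + 1 := (Nat.ceil_lt_add_one (by positivity)).le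
  set g : ℝ := (r - r₀) * p * A / 4 with hg
  have hg0 : 0 < g := by have := sub_pos.2 hrr; positivity
  set G₀ : ℝ := 2 * M * (4 * (2 * L + 2) * (d + 4 * (ε * L) + 3) + d + 1) + 2 * g + 1 with hG₀
  set P : ℕ → SiteP := fun N => runP R R' δ r ε K₀ m L N with hP
  have hE0 : 0 ≤ Real.exp (q : ℝ) / lam ^ (q - 1) := by positivity
  set e : ℝ := Real.exp (q : ℝ) / lam ^ (q - 1) + c₁ / (8 * m) with he
  have hgrowth : (1 + (q : ℝ) ^ 2 * (A / L) ^ 2) ^ regCard L d (ε * L) / lam ^ (q - 1) ≤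
      Real.exp (q : ℝ) / lam ^ (q - 1) := by
    gcongr
    exact tilt_growth_le hε (by exact_mod_cast (show 2 ≤ L by omega)) hεL hd2 hA84
  -- one witness radius for the finitely many blocks
  have hW : ∀ᶠ W : ℕ in atTop, ∀ k ∈ ({0, 1} : Finset ℤ), ∀ᶠ N : ℕ in atTop,
      ∀ u ∈ Finset.range m, ∀ n ∈ Finset.Icc 1 d,
      (law G).real {t | n ≤ {y : ℤ | 0 ≤ y ∧ y < (d : ℤ) ∧
          t ∈ siteEvent2 { P 0 with N := N } k (stripLev K₀ L u) (slopeGrid C ε u) y}.ncard} / 2 ≤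
        lam * (law G).real (blockEvent2 { P 0 with N := N } ⟨d, W, G₀, g⟩ GS k (stripLev K₀ L u)
          (slopeGrid C ε u) 0 ((n + 1) / 2)) + e := by
    rw [eventually_all_finset]
    intro k hk
    have hk' : k = 0 ∨ k = 1 := by simpa using hk
    have hall : ∀ u ∈ Finset.range m, ∀ n ∈ Finset.Icc 1 d, ∀ᶠ W : ℕ in atTop, ∀ᶠ N : ℕ in atTop,
        (law G).real {t | n ≤ {y : ℤ | 0 ≤ y ∧ y < (d : ℤ) ∧
            t ∈ siteEvent2 { P 0 with N := N } k (stripLev K₀ L u) (slopeGrid C ε u) y}.ncard} / 2 ≤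
          lam * (law G).real (blockEvent2 { P 0 with N := N } ⟨d, W, G₀, g⟩ GS k (stripLev K₀ L u)
            (slopeGrid C ε u) 0 ((n + 1) / 2)) + e := by
      intro u _ n _
      refine (hblock GS hGSm hGS hNice (P 0) k (stripLev K₀ L u) (slopeGrid C ε u) d r₀ (A / L) q
        hk' hδ ?_ le_rfl hrr hp (by positivity) hη1.1 hq2 hη1.2 ?_ g G₀ ?_ lam hlam0 n
        (c₁ / (8 * m)) (by positivity)).mono fun W hW => hW.mono fun N hN => hN.trans ?_
      · show 0 ≤ ε * (L : ℝ)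
        positivity
      · show 1000 ≤ A / L * p * (L : ℝ)
        rw [show A / L * p * (L : ℝ) = A * p by field_simp]
        rw [div_lt_iff₀ hp] at hAp; linarith
      · show g ≤ (r - r₀) * (A / L) * p * (L : ℝ) / 4
        rw [show (r - r₀) * (A / L) * p * (L : ℝ) / 4 = g by rw [hg]; field_simp]
      · show _ + (1 + (q : ℝ) ^ 2 * (A / L) ^ 2) ^ regCard L d (ε * L) / lam ^ (q - 1) + _ ≤ _
        rw [he]
        linarith
    have h2 : ∀ᶠ W : ℕ in atTop, ∀ u ∈ Finset.range m, ∀ n ∈ Finset.Icc 1 d, ∀ᶠ N : ℕ in atTop,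
        (law G).real {t | n ≤ {y : ℤ | 0 ≤ y ∧ y < (d : ℤ) ∧
            t ∈ siteEvent2 { P 0 with N := N } k (stripLev K₀ L u) (slopeGrid C ε u) y}.ncard} / 2 ≤
          lam * (law G).real (blockEvent2 { P 0 with N := N } ⟨d, W, G₀, g⟩ GS k (stripLev K₀ L u)
            (slopeGrid C ε u) 0 ((n + 1) / 2)) + e := by
      rw [eventually_all_finset]
      intro u hu
      rw [eventually_all_finset]
      exact hall u hu
    refine h2.mono fun W hW => ?_
    rw [eventually_all_finset]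
    intro u hu
    rw [eventually_all_finset]
    exact hW u hu
  obtain ⟨W, hW⟩ := hW.exists
  set D : ℕ := d + ⌈6 * (ε * L)⌉₊ + 4 with hD
  have hD1 : (d : ℝ) + 6 * (ε * L) + 3 < D := by
    rw [hD]; push_cast; linarith [Nat.le_ceil (6 * (ε * L))]
  have hD2 : (D : ℝ) ≤ 9 * (ε * L) := by
    rw [hD]; push_cast
    linarith [(Nat.ceil_lt_add_one (show 0 ≤ 6 * (ε * L) by positivity)).le]
  set h₀ : ℕ := ⌈(d : ℝ) + 6 * (ε * L) + 8 * (C' + 2) * (P 0).Lam + R' + 2⌉₊ with hh₀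
  have hlin : ∀ J₀ : ℕ, g * d * c₁ / (8 * lam) * (2 * J₀ + 1) ≤ 200000 * M * D * J₀ +
      (100000 * M * (2 * h₀ + (P 0).Lam + W + 1) + 40 * g) := by
    intro J₀
    have hW' : ∀ᶠ N : ℕ in atTop, ∀ k ∈ ({0, 1} : Finset ℤ), ∀ u ∈ Finset.range m,
        ∀ n ∈ Finset.Icc 1 d,
        (law G).real {t | n ≤ {y : ℤ | 0 ≤ y ∧ y < (d : ℤ) ∧
            t ∈ siteEvent2 { P 0 with N := N } k (stripLev K₀ L u) (slopeGrid C ε u) y}.ncard} / 2 ≤
          lam * (law G).real (blockEvent2 { P 0 with N := N } ⟨d, W, G₀, g⟩ GS k (stripLev K₀ L u)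
            (slopeGrid C ε u) 0 ((n + 1) / 2)) + e := by
      rw [eventually_all_finset]; exact hW
    obtain ⟨N, ⟨k, hk, a, -, hsum⟩, hNb, hNge⟩ := (hev.and (hW'.and (eventually_ge_atTop
      (⌈8 * (C' + 2) * (((P 0).Lam : ℝ) + R' + 2) + 2 * d + 2 * (ε * L) + 5⌉₊ +
        6 * (J₀ * D + h₀) + 4 * d)))).exists
    have hkmem : k ∈ ({0, 1} : Finset ℤ) := by simpa using hk
    set U := (Finset.range m).filter fun u => u % 3 = a with hU
    have hUm : ∀ u ∈ U, u < m := fun u hu => Finset.mem_range.1 (Finset.mem_filter.1 hu).1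
    have hr := range_bound (C := C') hGS hNice hinv hcount hsite hblk (P 0) ⟨d, W, G₀, g⟩ hk U
      (slopeGrid C ε) (stripLev K₀ L) hδ hg0 hε hε1 (by rw [hC']; linarith) le_rfl
      (fun u hu => ⟨?_, ?_⟩) (fun u hu v hv huv => ⟨?_, ?_⟩) hD1 (h₀ := h₀) (Nat.le_ceil _) le_rfl (m := m)
      ((Finset.card_filter_le _ _).trans (Finset.card_range m).le) hlam0 (e := e) (c₁ := c₁)
      (by rw [he]; positivity) ?_ J₀ N
      (fun u hu => hNb k hkmem u (Finset.mem_range.2 (hUm u hu))) (fun y hy => hsum y ?_)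
      (show ⌈8 * (C' + 2) * (((P 0).Lam : ℝ) + R' + 2) + 2 * d + 2 * (ε * L) + 5⌉₊ +
        6 * (J₀ * D + h₀) ≤ N by omega)
    · refine hr.trans (le_of_eq ?_)
      push_cast
      ring
    · -- slopes
      have h1 : (u : ℝ) + 1 ≤ m := by exact_mod_cast hUm u hu
      have h2 := mul_le_mul_of_nonneg_left h1 hε.le
      have h3 := mul_le_mul_of_nonneg_left hmle hε.le
      rw [mul_div_cancel₀ _ hε.ne'] at h3
      have h4 : 0 ≤ ε * (u : ℝ) := by positivity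
      rw [slopeGrid, abs_le]
      constructor <;> (rw [hC']; linarith)
    · -- strips
      have h1 := hUm u hu
      have h2 : (u + 1) * K₀ * L + L < (m + 1) * K₀ * L := by
        have h3 : (u + 1) * K₀ * L + K₀ * L ≤ (m + 1) * K₀ * L := by
          calc (u + 1) * K₀ * L + K₀ * L = (u + 2) * K₀ * L := by ring
            _ ≤ (m + 1) * K₀ * L :=
              Nat.mul_le_mul_right L (Nat.mul_le_mul_right K₀ (show u + 2 ≤ m + 1 by omega))
        have h4 : 2 * L ≤ K₀ * L := Nat.mul_le_mul_right L (Nat.le_add_left 2 _)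
        have h5 : 0 < L := by exact_mod_cast hLpos
        omega
      rw [stripLev, Nat.abs_cast]
      exact_mod_cast h2
    · show 6 * ε ≤ slopeGrid C ε v - slopeGrid C ε u
      have := (Finset.mem_filter.1 hu).2
      have := (Finset.mem_filter.1 hv).2
      have h3 : (u : ℝ) + 3 ≤ v := by exact_mod_cast (show u + 3 ≤ v by omega)
      simp only [slopeGrid]
      linarith [mul_le_mul_of_nonneg_left h3 hε.le]
    · show (10 * C' + 20) * (L : ℝ) + 20 * (ε * L) + 10 * d ≤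
        ε * ((stripLev K₀ L v : ℝ) - stripLev K₀ L u)
      have := (Finset.mem_filter.1 hu).2
      have := (Finset.mem_filter.1 hv).2
      have h3 : (u : ℝ) + 3 ≤ v := by exact_mod_cast (show u + 3 ≤ v by omega)
      simp only [stripLev]; push_cast
      have h6 : (10 * C' + 70) * L ≤ ε * K₀ * L := mul_le_mul_of_nonneg_right hK hLpos.le
      have h7 : ε * L ≤ L := mul_le_of_le_one_left hLpos.le hε1
      have h8 : 0 ≤ ε * K₀ * L := by positivity
      have h5 : ε * K₀ * L * 3 ≤ ε * K₀ * L * ((v : ℝ) - u) :=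
        mul_le_mul_of_nonneg_left (by linarith) h8
      linarith
    · rw [he, mul_add, show (m : ℝ) * (c₁ / (8 * m)) = c₁ / 8 by field_simp]
      linarith
    · have hy' : 0 ≤ y ∧ y < (d : ℤ) := Finset.mem_Ico.1 hy
      rw [abs_of_nonneg hy'.1]; omega
  have hAB := le_of_forall_linear hlin
  have hdpos : (0 : ℝ) < d := by linarith
  have h1 : 2 * (g * (d : ℝ) * c₁ / (8 * lam)) ≤ 200000 * M * (9 * (d : ℝ)) :=
    hAB.trans (mul_le_mul_of_nonneg_left (by linarith) (by positivity))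
  have h3 := mul_le_mul_of_nonneg_right h1 (show 0 ≤ 16 * lam / (d : ℝ) by positivity)
  have e1 : 2 * (g * (d : ℝ) * c₁ / (8 * lam)) * (16 * lam / d) = (r - r₀) * p * c₁ * A := by
    rw [hg]; field_simp; ring
  have e2 : 200000 * M * (9 * (d : ℝ)) * (16 * lam / d) = 28800000 * M * lam := by
    field_simp; ring
  rw [e1, e2] at h3
  rw [div_lt_iff₀ hden] at hAT
  nlinarith [mul_nonneg hM hlam0.le]

end Vale.Agent.P158
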