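import Vale.Agent.P158.Main2
import Vale.Agent.P158.Block2
import Vale.Agent.P158.Meas2
import Vale.Agent.P158.MatchAll

/-!
The statement for all bigeodesics from the fork statement, the supply of sites and the count.
-/

open MeasureTheory Filter Topology
open scoped ENNReal

namespace Vale.Agent.P158

/-- The probability of a block in the form used by the assembly. -/
theorem blockProb2 {G : Measure ℝ} {M κ : ℝ} (hG : LawOK G M) (hκ : 0 < κ) :
    BlockProb2 G M κ := by
  classical
  intro GS hGSm hGS hN2 P k c s d r₀ η q hk hδ hw hεw hrr hp hη hη1 hq2 hqη hbig g G₀ hg lam hlam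
    n β hβ
  haveI := hG.prob
  haveI : IsProbabilityMeasure (law G) := by unfold law; infer_instance
  obtain ⟨S, hS, hcard⟩ := exists_regSet2 (k := k) (c := c) (s := s) (h := 0) (d := d) (P := P) hw
  obtain ⟨N₁, hN₁⟩ := exists_nat_ge (2 * (|s| + P.ε + 1) *
    ((P.Lam : ℝ) + P.R' + |(c : ℝ)| + 2) + 2 * (d : ℝ) + 2 * P.w + 4)
  have hk1 : |k| ≤ 1 := by rcases hk with rfl | rfl <;> simp
  refine (block2_prob hG hκ hGS hN2 hδ hk1 hN₁ (G₀ := G₀) hεw hrr hη.le hη1 hS (by linarith) hg
    (q := q) (by omega) hqη hlam n hβ).mono fun W hW => ?_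
  filter_upwards [eventually_ge_atTop N₁] with N hN
  have h := hW N hN
  have hset : {t | n ≤ {y : ℤ | 0 ≤ y ∧ y < (d : ℤ) ∧
      t ∈ siteEvent2 { P with N := N } k c s y}.ncard} =
      {t | n ≤ ((Finset.Ico (0 : ℤ) d).filter fun y =>
        t ∈ siteEvent2 { P with N := N } k c s y).card} := by
    ext t
    simp only [Set.mem_ofPred_eq]
    rw [← Set.ncard_coe_finset]
    simp [and_assoc]
  rw [hset]
  set E := (1 + (q : ℝ) ^ 2 * η ^ 2) ^ S.card / lam ^ (q - 1) with hE
  have hE0 : 0 ≤ E := by rw [hE]; positivity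
  have hfin : ENNReal.ofReal lam * law G
      (blockEvent2 { P with N := N } ⟨d, W, G₀, g⟩ GS k c s 0 ((n + 1) / 2)) +
      ENNReal.ofReal E + ENNReal.ofReal β ≠ ⊤ := by
    simp [ENNReal.mul_eq_top, measure_ne_top]
  have h' := ENNReal.toReal_mono hfin h
  rw [ENNReal.toReal_mul, ENNReal.toReal_add (by simp [ENNReal.mul_eq_top, measure_ne_top])
    ENNReal.ofReal_ne_top, ENNReal.toReal_add (by simp [ENNReal.mul_eq_top, measure_ne_top])
    ENNReal.ofReal_ne_top, ENNReal.toReal_mul, ENNReal.toReal_ofReal (by norm_num),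
    ENNReal.toReal_ofReal hlam.le, ENNReal.toReal_ofReal hE0, ENNReal.toReal_ofReal hβ.le] at h'
  have hEle : E ≤ (1 + (q : ℝ) ^ 2 * η ^ 2) ^ regCard P.L d P.w / lam ^ (q - 1) := by
    rw [hE]
    refine div_le_div_of_nonneg_right (pow_le_pow_right₀ ?_ ?_) (by positivity)
    · have : 0 ≤ (q : ℝ) ^ 2 * η ^ 2 := by positivity
      linarith
    · have hc : (S.card : ℝ) ≤ (regCard P.L d P.w : ℝ) := by
        refine hcard.trans ?_
        rw [regCard]; push_cast
        have := Nat.le_ceil (4 * P.w)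
        gcongr
      exact_mod_cast hc
  show (law G _).toReal / 2 ≤ lam * (law G _).toReal + _ + β
  linarith

/-- No bigeodesic from the fork statement, the supply of sites and the count. -/
theorem noBigeodesic_of_modules {G : Measure ℝ} {M : ℝ} (hG : LawOK G M) (hF : ForkNullAll G)
    (hmass : MassProp G) (hcount : ∀ κ, 0 < κ → CountProp2 M κ) : NoBigeodesic G := by
  haveI := hG.prob
  haveI : IsProbabilityMeasure (law G) := by unfold law; infer_instance
  obtain ⟨κ, hκ, hgood⟩ := exists_good hG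
  obtain ⟨GS, hm, hae, hN, hinv⟩ := exists_niceSet2 hG hgood hF (matchAll_of_forkNullAll hG hF)
  exact noBigeodesic_of_parts hG hm hae hN (fun v t => (hinv v t).2) hmass (blockProb2 hG hκ)
    (hcount κ hκ) (nullMeasurableSet_siteEvent2 _)
    (fun P B k c s h n => nullMeasurableSet_blockEvent2 P B hm k c s h n _)

end Vale.Agent.P158
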