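import Vale.Agent.P158.MainBlock
import Vale.Agent.P158.MainClass

/-!
`block_prob`: the block estimate for a set of nice configurations.
-/

open MeasureTheory Filter Topology
open scoped ENNReal

namespace Vale.Agent.P158

/-- The probability of the certificate of one block, for nice configurations. -/
theorem block_prob {G : Measure ℝ} {M κ : ℝ} (hG : LawOK G M) (hκ : 0 < κ) {GS : Set Conf}
    (hGSm : MeasurableSet GS) (hGS : ∀ᵐ t ∂law G, t ∈ GS) (hNice : ∀ t ∈ GS, Nice M κ t)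
    {R L L₀ d k : ℕ} {a b δ g r r₀ η K : ℝ} {h : ℤ} (hδ : 0 < δ) (hRL : R < L) (hL0 : L₀ ≤ L)
    (h8 : -8 ≤ a ∧ a ≤ b ∧ b ≤ 8) (hrr : r₀ < r) (h0 : 0 ≤ η) (h1 : η ≤ 1) {S : Finset Edge}
    (hS : (↑S : Set Edge) = regSet L R a b h d) (hK : (1 + η ^ 2) ^ S.card ≤ K)
    (hbig : 64 ≤ η * G.real (Set.Iio r₀) * L)
    (hg : g ≤ (r - r₀) * η * G.real (Set.Iio r₀) * L / 4)
    (hsites : ENNReal.ofReal (3 / 4) ≤ law G {t | open Classical in
      k ≤ ((Finset.Ico h (h + d)).filter fun y => t ∈ siteEvent R L₀ a b δ r y).card}) :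
    ∀ᶠ W in atTop, ENNReal.ofReal (1 / (64 * K))
      ≤ law G (blockEvent ⟨R, L, d, W, δ, g⟩ GS a b h (k / 2)) := by
  classical
  refine block_prob_of_jumps hG hGSm hGS
    (fun t ht z y y' γ γ' hl hl' hne =>
      exists_jump (hNice t ht) hκ hδ (Int.natCast_nonneg L) hl hl' hne g z)
    hRL hL0 h8 hrr h0 h1 hS hK hbig hg (hsites.trans (measure_mono fun t ht => ?_))
  refine ⟨(Finset.Ico h (h + d)).filter fun y => t ∈ siteEvent R L₀ a b δ r y, ht, fun y hy => ?_⟩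
  obtain ⟨hy1, hy2⟩ := Finset.mem_filter.1 hy
  exact ⟨(Finset.mem_Ico.1 hy1).1, (Finset.mem_Ico.1 hy1).2, hy2⟩

end Vale.Agent.P158
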