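import Mathlib

/-!
P158, deterministic count of the main argument: the combinatorics of one slope unit.

Objects carry two height orders (`lo` at the left end, `ro` at the right end) and two
increments `P`, `Q`, antitone in these orders. The components of the relation ordered the same
way at both ends are intervals in both orders; inside a component the count is given, and
representatives of different components are spaced.
-/

namespace Vale.Agent.P158

open Finset Relation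

/-- Values with pairwise gaps at least `c` in an interval. -/
theorem card_le_of_gaps {ι : Type*} [DecidableEq ι] (C : Finset ι) (F : ι → ℝ) (c lo hi : ℝ)
    (hlo : ∀ x ∈ C, lo ≤ F x) (hhi : ∀ x ∈ C, F x ≤ hi)
    (hgap : ∀ x ∈ C, ∀ y ∈ C, x ≠ y → c ≤ |F x - F y|) (hne : C.Nonempty) :
    c * ((C.card : ℝ) - 1) ≤ hi - lo := by
  induction C using Finset.strongInduction generalizing hi with
  | _ C ih =>
    obtain ⟨x, hx, hmax⟩ := C.exists_max_image F hne
    rcases (C.erase x).eq_empty_or_nonempty with he | hne'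
    · have : C.card = 1 := by
        have := card_erase_add_one hx
        rw [he, card_empty] at this; omega
      rw [this]; push_cast
      linarith [hlo x hx, hhi x hx]
    · have hcard : (C.card : ℝ) = (C.erase x).card + 1 := by
        exact_mod_cast (card_erase_add_one hx).symm
      have h1 := ih (C.erase x) (erase_ssubset hx) (F x - c)
        (fun y hy => hlo y (mem_of_mem_erase hy))
        (fun y hy => by
          have h := hgap x hx y (mem_of_mem_erase hy) (ne_of_mem_erase hy).symm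
          rw [abs_of_nonneg (by linarith [hmax y (mem_of_mem_erase hy)])] at h
          linarith)
        (fun y hy z hz => hgap y (mem_of_mem_erase hy) z (mem_of_mem_erase hz)) hne'
      rw [hcard]
      linarith [hhi x hx]

variable {ι : Type*}

/-- Same order at both ends, inside `S`. -/
def NIRel (S : Finset ι) (lo ro : ι → ℤ) (p q : ι) : Prop :=
  p ∈ S ∧ q ∈ S ∧ ((lo p ≤ lo q ∧ ro p ≤ ro q) ∨ (lo q ≤ lo p ∧ ro q ≤ ro p))

lemma cross_of_not_comp {S : Finset ι} {lo ro : ι → ℤ} {a q : ι} (ha : a ∈ S) (hq : q ∈ S)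
    (h : ¬ EqvGen (NIRel S lo ro) a q) :
    (lo a < lo q ∧ ro q < ro a) ∨ (lo q < lo a ∧ ro a < ro q) := by
  have h' : ¬ ((lo a ≤ lo q ∧ ro a ≤ ro q) ∨ (lo q ≤ lo a ∧ ro q ≤ ro a)) := fun h1 =>
    h (EqvGen.rel _ _ ⟨ha, hq, h1⟩)
  omega

/-- Components are intervals in the left order. -/
lemma comp_interval {S : Finset ι} {lo ro : ι → ℤ} {q : ι} (hq : q ∈ S) {a b : ι}
    (hab : EqvGen (NIRel S lo ro) a b) :
    ¬ EqvGen (NIRel S lo ro) a q → (lo a < lo q ↔ lo b < lo q) := by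
  induction hab with
  | rel a b h =>
    intro hna
    obtain ⟨ha, hb, hni⟩ := h
    have hnb : ¬ EqvGen (NIRel S lo ro) b q := fun hbq =>
      hna (EqvGen.trans _ _ _ (EqvGen.rel _ _ ⟨ha, hb, hni⟩) hbq)
    have h1 := cross_of_not_comp ha hq hna
    have h2 := cross_of_not_comp hb hq hnb
    omega
  | refl => exact fun _ => Iff.rfl
  | symm a b h ih => exact fun hnb => (ih fun haq => hnb ((h.symm _ _).trans _ _ _ haq)).symm
  | trans a b c hab hbc ih1 ih2 =>
    exact fun hna => (ih1 hna).trans (ih2 fun hbq => hna (EqvGen.trans _ _ _ hab hbq))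

/-- The count for one unit. -/
theorem count_unit [DecidableEq ι] (S : Finset ι) (lo ro : ι → ℤ) (P Q : ι → ℝ) (g : ℝ)
    (Cls : ι → ι → Prop) (hCls : Equivalence Cls)
    (hNI : ∀ p ∈ S, ∀ q ∈ S, lo p ≤ lo q → ro p ≤ ro q → Cls p q)
    (hP : ∀ p ∈ S, ∀ q ∈ S, lo p ≤ lo q → P q ≤ P p)
    (hQ : ∀ p ∈ S, ∀ q ∈ S, ro p ≤ ro q → Q q ≤ Q p)
    (hjump : ∀ p ∈ S, ∀ q ∈ S, p ≠ q → g ≤ |P p - P q| + |Q p - Q q|)
    (hcomp : ∀ C ⊆ S, C.Nonempty → (∀ p ∈ C, ∀ q ∈ C, Cls p q) → ∀ a b c d : ℝ,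
      (∀ x ∈ C, a ≤ P x ∧ P x ≤ b ∧ c ≤ Q x ∧ Q x ≤ d) →
        2 * g * ((C.card : ℝ) - 1) ≤ (b - a) + (d - c))
    (hne : S.Nonempty) (a b c d : ℝ)
    (hbd : ∀ x ∈ S, a ≤ P x ∧ P x ≤ b ∧ c ≤ Q x ∧ Q x ≤ d) :
    g * ((S.card : ℝ) - 1) ≤ 2 * ((b - a) + (d - c)) := by
  classical
  have hle : ∀ p q, EqvGen (NIRel S lo ro) p q → Cls p q := by
    intro p q h
    induction h with
    | rel p q h =>
      rcases h.2.2 with h' | h'
      · exact hNI p h.1 q h.2.1 h'.1 h'.2
      · exact hCls.symm (hNI q h.2.1 p h.1 h'.1 h'.2)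
    | refl p => exact hCls.refl p
    | symm p q _ ih => exact hCls.symm ih
    | trans p q r _ _ ih1 ih2 => exact hCls.trans ih1 ih2
  suffices main : ∀ T : Finset ι, T ⊆ S → ∀ r ∈ T, (∀ x ∈ T, lo x ≤ lo r) →
      ∀ a b c d : ℝ, (∀ x ∈ T, a ≤ P x ∧ P x ≤ b ∧ c ≤ Q x ∧ Q x ≤ d) →
      2 * g * ((T.card : ℝ) - 1) ≤ (b - a) + (d - c) + 2 * ((b - c) - (P r - Q r)) by
    obtain ⟨r, hr, hmax⟩ := S.exists_max_image lo hne
    obtain ⟨h1, h2, h3, h4⟩ := hbd r hr
    linarith [main S subset_rfl r hr hmax a b c d hbd]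
  intro T
  induction T using Finset.strongInduction with
  | _ T ih =>
    intro hTS r hr hmax a b c d hbd
    set C := T.filter fun x => EqvGen (NIRel S lo ro) r x with hC
    set T' := T.filter fun x => ¬ EqvGen (NIRel S lo ro) r x with hT'
    have hrC : r ∈ C := mem_filter.2 ⟨hr, EqvGen.refl r⟩
    have hCcls : ∀ p ∈ C, ∀ q ∈ C, Cls p q := fun p hp q hq =>
      hCls.trans (hCls.symm (hle _ _ (mem_filter.1 hp).2)) (hle _ _ (mem_filter.1 hq).2)
    have hcard : (T.card : ℝ) = C.card + T'.card := by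
      exact_mod_cast (card_filter_add_card_filter_not (s := T)
        (fun x => EqvGen (NIRel S lo ro) r x)).symm
    obtain ⟨hr1, hr2, hr3, hr4⟩ := hbd r hr
    rcases T'.eq_empty_or_nonempty with he | hne'
    · have := hcomp C ((filter_subset _ _).trans hTS) ⟨r, hrC⟩ hCcls a b c d
        fun x hx => hbd x (mem_filter.1 hx).1
      rw [hcard, he, card_empty, Nat.cast_zero, add_zero]
      linarith
    obtain ⟨r', hr', hmax'⟩ := T'.exists_max_image lo hne'
    have hr'T := (mem_filter.1 hr').1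
    have hord : ∀ x ∈ C, ∀ y ∈ T', lo y < lo x ∧ ro x < ro y := by
      intro x hx y hy
      obtain ⟨hxT, hrx⟩ := mem_filter.1 hx
      obtain ⟨hyT, hny⟩ := mem_filter.1 hy
      have h1 := comp_interval (hTS hyT) hrx hny
      have h2 := cross_of_not_comp (hTS hxT) (hTS hyT)
        fun h => hny (EqvGen.trans _ _ _ hrx h)
      have h3 := cross_of_not_comp (hTS hr) (hTS hyT) hny
      have h4 := hmax y hyT
      omega
    obtain ⟨xP, hxP, hmP⟩ := C.exists_max_image P ⟨r, hrC⟩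
    obtain ⟨yQ, hyQ, hmQ⟩ := T'.exists_max_image Q hne'
    have hCb : ∀ x ∈ C, a ≤ P x ∧ P x ≤ P xP ∧ Q yQ ≤ Q x ∧ Q x ≤ d := fun x hx =>
      ⟨(hbd x (mem_filter.1 hx).1).1, hmP x hx,
        hQ x (hTS (mem_filter.1 hx).1) yQ (hTS (mem_filter.1 hyQ).1) (hord x hx yQ hyQ).2.le,
        (hbd x (mem_filter.1 hx).1).2.2.2⟩
    have hTb : ∀ y ∈ T', P xP ≤ P y ∧ P y ≤ b ∧ c ≤ Q y ∧ Q y ≤ Q yQ := fun y hy =>
      ⟨hP y (hTS (mem_filter.1 hy).1) xP (hTS (mem_filter.1 hxP).1) (hord xP hxP y hy).1.le,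
        (hbd y (mem_filter.1 hy).1).2.1, (hbd y (mem_filter.1 hy).1).2.2.1, hmQ y hy⟩
    have h1 := hcomp C ((filter_subset _ _).trans hTS) ⟨r, hrC⟩ hCcls _ _ _ _ hCb
    have hss : T' ⊂ T := filter_ssubset.2 ⟨r, hr, fun h => h (EqvGen.refl r)⟩
    have h2 := ih T' hss ((filter_subset _ _).trans hTS) r' hr' hmax' _ _ _ _ hTb
    have hne : r ≠ r' := fun h => (mem_filter.1 hr').2 (h ▸ EqvGen.refl r)
    have hj := hjump r (hTS hr) r' (hTS hr'T) hne
    have hP' := hP r' (hTS hr'T) r (hTS hr) (hord r hrC r' hr').1.le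
    have hQ' := hQ r (hTS hr) r' (hTS hr'T) (hord r hrC r' hr').2.le
    rw [abs_of_nonpos (by linarith), abs_of_nonneg (by linarith)] at hj
    rw [hcard]
    linarith

end Vale.Agent.P158
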