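import Vale.Agent.P158.MainClass
import Vale.Agent.P158.MainCountLine

/-!
P158, deterministic count of the main argument: the objects (one certified line each), their
half-plane tails, the comparison of two objects and the classes.
-/

open Filter Topology

namespace Vale.Agent.P158

/-- A certified line of the block at height `h` of the slope unit `[a, b]`, seen from `t`. -/
structure IsObj (P : Params) (GS : Set Conf) (a b : ℝ) (h : ℤ) (t pre : Conf) (y : ℤ)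
    (γ : ℤ → V) : Prop where
  mem : pre ∈ GS
  le : ∀ e, t e ≤ pre e
  off : ∀ e, e ∉ regSet P.L P.R a b h P.d → t e = pre e
  hlo : h ≤ y
  hhi : y < h + P.d
  site : SiteLine pre P.R a b P.δ y γ
  gain : P.g ≤ ∑ e ∈ midEdges P.L γ, (pre e - t e)

variable {P : Params} {GS : Set Conf} {a b a' b' : ℝ} {h h' : ℤ} {t pre pre' : Conf} {y y' : ℤ}
  {γ γ' : ℤ → V}

namespace IsObj

lemma cone (o : IsObj P GS a b h t pre y γ) : ConeLine pre 0 a b P.R γ := o.site.1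

lemma start (o : IsObj P GS a b h t pre y γ) : γ 0 = (0, y) := o.site.2.2.1.1

lemma nonneg (o : IsObj P GS a b h t pre y γ) (hnn : ∀ e, 0 ≤ t e) (e : Edge) : 0 ≤ pre e :=
  (hnn e).trans (o.le e)

/-- The left tail in `t`. -/
lemma rayL (o : IsObj P GS a b h t pre y γ) (hnn : ∀ e, 0 ≤ t e) :
    IsRayIn t (lefE 0 (-(P.L : ℤ))) (lTail P.L γ) ∧
      Tendsto (fun n => (1 : ℤ) * lev 0 (lTail P.L γ n)) atTop atBot := by
  obtain ⟨h1, h2⟩ := lTail_ray (L := P.L) o.cone o.start (o.nonneg hnn)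
  exact ⟨isRayIn_congr h1 (eq_off_halves o.off).1, h2⟩

/-- The right tail in `t`. -/
lemma rayR (o : IsObj P GS a b h t pre y γ) (hnn : ∀ e, 0 ≤ t e) :
    IsRayIn t (rigE 0 (P.L : ℤ)) (rTail P.L γ) ∧
      Tendsto (fun n => (-1 : ℤ) * lev 0 (rTail P.L γ n)) atTop atBot := by
  obtain ⟨h1, h2⟩ := rTail_ray (L := P.L) o.cone o.start (o.nonneg hnn)
  exact ⟨isRayIn_congr h1 (eq_off_halves o.off).2, h2⟩

lemma connL (o : IsObj P GS a b h t pre y γ) (z : ℤ) :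
    ConnIn (lefE 0 (-(P.L : ℤ))) (lTail P.L γ 0) (-(P.L : ℤ), z) := by
  rw [show lTail P.L γ 0 = (-(P.L : ℤ), (γ (lftIdx P.L γ)).2) from
    Prod.ext (by rw [lTail_zero]; exact (lftIdx_cl o.cone o.start).1) (by rw [lTail_zero])]
  exact conn_column (column_mem_lefE _) _ _

lemma connR (o : IsObj P GS a b h t pre y γ) (z : ℤ) :
    ConnIn (rigE 0 (P.L : ℤ)) (rTail P.L γ 0) ((P.L : ℤ), z) := by
  rw [show rTail P.L γ 0 = ((P.L : ℤ), (γ (rgtIdx P.L γ)).2) from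
    Prod.ext (by rw [rTail_zero]; exact (rgtIdx_cl o.cone o.start).1) (by rw [rTail_zero])]
  exact conn_column (column_mem_rigE _) _ _

lemma incL_eq (o : IsObj P GS a b h t pre y γ) (hnn : ∀ e, 0 ≤ t e) (z z' : ℤ) :
    lInc t P.L γ z z' = lInc pre P.L γ z z' := by
  simp only [lInc, bus_congr_set (o.rayL hnn).1.mem (eq_off_halves o.off).1]

lemma incR_eq (o : IsObj P GS a b h t pre y γ) (hnn : ∀ e, 0 ≤ t e) (z z' : ℤ) :
    rInc t P.L γ z z' = rInc pre P.L γ z z' := by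
  simp only [rInc, bus_congr_set (o.rayR hnn).1.mem (eq_off_halves o.off).2]

/-- The meeting points of the line with the two columns lie in the window. -/
lemma ends_bound (o : IsObj P GS a b h t pre y γ) (h8 : -8 ≤ a ∧ a ≤ b ∧ b ≤ 8) {N : ℕ}
    (hN : |h| + P.d + P.W + 9 * P.R + 8 * P.L ≤ N) {i : ℤ} (hi : |(γ i).1| ≤ (P.L : ℤ)) :
    -(N : ℤ) ≤ (γ i).2 ∧ (γ i).2 ≤ (N : ℤ) := by
  obtain ⟨hx, l1, u1⟩ := coneLine_inTube o.cone o.start h8 ⟨o.hlo, o.hhi⟩ i hi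
  have hx' : |((γ i).1 : ℝ)| ≤ (P.L : ℝ) := by exact_mod_cast hx
  have key : ∀ c : ℝ, -8 ≤ c → c ≤ 8 → -(8 * (P.L : ℝ)) ≤ c * (γ i).1 ∧
      c * (γ i).1 ≤ 8 * (P.L : ℝ) := fun c hc hc' => by
    refine abs_le.1 ?_
    rw [abs_mul]
    exact mul_le_mul (abs_le.2 ⟨hc, hc'⟩) hx' (abs_nonneg _) (by norm_num)
  obtain ⟨a1, a2⟩ := key a h8.1 (h8.2.1.trans h8.2.2)
  obtain ⟨b1, b2⟩ := key b (h8.1.trans h8.2.1) h8.2.2
  have hmin := le_min a1 b1
  have hmax := max_le a2 b2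
  have hN' : |(h : ℝ)| + P.d + P.W + 9 * P.R + 8 * P.L ≤ N := by exact_mod_cast hN
  have hh := le_abs_self (h : ℝ)
  have hh' := neg_abs_le (h : ℝ)
  have hW : (0 : ℝ) ≤ P.W := Nat.cast_nonneg _
  have hd : (0 : ℝ) ≤ P.d := Nat.cast_nonneg _
  have e1 : -(N : ℝ) ≤ ((γ i).2 : ℝ) := by linarith
  have e2 : ((γ i).2 : ℝ) ≤ (N : ℝ) := by linarith
  exact ⟨by exact_mod_cast e1, by exact_mod_cast e2⟩

/-- Lines of far blocks are ordered in the strip. -/
lemma height_lt (o : IsObj P GS a b h t pre y γ) (o' : IsObj P GS a b h' t pre' y' γ')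
    (h8 : -8 ≤ a ∧ a ≤ b ∧ b ≤ 8) {D : ℕ} (hD : (P.d : ℝ) + 18 * P.R + (b - a) * P.L + 2 < D)
    (hh : h + D ≤ h') {i i' : ℤ} (hi : |(γ i).1| ≤ (P.L : ℤ)) (he : (γ i).1 = (γ' i').1) :
    (γ i).2 < (γ' i').2 := by
  obtain ⟨hx, -, u1⟩ := coneLine_inTube o.cone o.start h8 ⟨o.hlo, o.hhi⟩ i hi
  obtain ⟨-, l2, -⟩ := coneLine_inTube o'.cone o'.start h8 ⟨o'.hlo, o'.hhi⟩ i' (he ▸ hi)
  rw [← he] at l2
  have hh' : (h : ℝ) + D ≤ h' := by exact_mod_cast hh
  have hx' : |((γ i).1 : ℝ)| ≤ (P.L : ℝ) := by exact_mod_cast hx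
  rw [abs_le] at hx'
  have h3 : max (a * ((γ i).1 : ℝ)) (b * (γ i).1) - min (a * ((γ i).1 : ℝ)) (b * (γ i).1) ≤
      (b - a) * P.L := by
    rw [max_sub_min_eq_abs', abs_le]
    have e1 := mul_le_mul_of_nonneg_left hx'.1 (by linarith : 0 ≤ b - a)
    have e2 := mul_le_mul_of_nonneg_left hx'.2 (by linarith : 0 ≤ b - a)
    constructor <;> linarith
  have : ((γ i).2 : ℝ) < ((γ' i').2 : ℝ) := by linarith
  exact_mod_cast this

/-- The margin of one line against the middle part of a line of another block. -/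
lemma margin (o : IsObj P GS a b h t pre y γ) (o' : IsObj P GS a b h' t pre' y' γ')
    (hnn : ∀ e, 0 ≤ t e) (h8 : -8 ≤ a ∧ a ≤ b ∧ b ≤ 8) {D : ℕ}
    (hD : (P.d : ℝ) + 18 * P.R + (b - a) * P.L + 2 < D) (hh : h + D ≤ h' ∨ h' + D ≤ h) :
    Rays.seg t γ (lftIdx P.L γ) (rgtIdx P.L γ) + P.g ≤
      bus t (lefE 0 (-(P.L : ℤ))) (lTail P.L γ) (γ' (lftIdx P.L γ')) +
        bus t (rigE 0 (P.L : ℤ)) (rTail P.L γ) (γ' (rgtIdx P.L γ')) +
        Rays.seg t γ' (lftIdx P.L γ') (rgtIdx P.L γ') := by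
  obtain ⟨hl, hl0, -⟩ := lftIdx_cl (L := P.L) o'.cone o'.start
  obtain ⟨hr, hr0, -⟩ := rgtIdx_cl (L := P.L) o'.cone o'.start
  refine margin_le o.cone o.start hnn o.le (eq_off_halves o.off).1 (eq_off_halves o.off).2 o.gain
    o'.cone.1.adj (hl0.trans hr0) hl hr fun k _ _ => o.off _ fun he => ?_
  obtain ⟨h1, h2, -⟩ := he
  have h3 : InTube P.L P.R a b h P.d (γ' k) := by
    rcases ends_edgeOf (o'.cone.1.adj k) with ⟨e1, e2⟩ | ⟨e1, e2⟩
    · exact e1 ▸ h1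
    · exact e2 ▸ h2
  have h4 := coneLine_inTube o'.cone o'.start h8 ⟨o'.hlo, o'.hhi⟩ k h3.1
  rcases hh with hh | hh
  exacts [inTube_disjoint hD h8.2.1 hh h3 h4, inTube_disjoint hD h8.2.1 hh h4 h3]

/-- Two lines of different blocks of one unit differ by twice the gain between their ends. -/
lemma gap (o : IsObj P GS a b h t pre y γ) (o' : IsObj P GS a b h' t pre' y' γ')
    (hnn : ∀ e, 0 ≤ t e) (h8 : -8 ≤ a ∧ a ≤ b ∧ b ≤ 8) {D : ℕ}
    (hD : (P.d : ℝ) + 18 * P.R + (b - a) * P.L + 2 < D) (hh : h + D ≤ h' ∨ h' + D ≤ h) :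
    2 * P.g ≤
      (lInc t P.L γ (γ (lftIdx P.L γ)).2 (γ' (lftIdx P.L γ')).2 -
        lInc t P.L γ' (γ (lftIdx P.L γ)).2 (γ' (lftIdx P.L γ')).2) +
      (rInc t P.L γ (γ (rgtIdx P.L γ)).2 (γ' (rgtIdx P.L γ')).2 -
        rInc t P.L γ' (γ (rgtIdx P.L γ)).2 (γ' (rgtIdx P.L γ')).2) := by
  have m1 := o.margin o' hnn h8 hD hh
  have m2 := o'.margin o hnn h8 hD hh.symm
  have z1 := Rays.bus_zero hnn (o.rayL hnn).1
  have z2 := Rays.bus_zero hnn (o.rayR hnn).1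
  have z3 := Rays.bus_zero hnn (o'.rayL hnn).1
  have z4 := Rays.bus_zero hnn (o'.rayR hnn).1
  rw [lTail_zero] at z1 z3
  rw [rTail_zero] at z2 z4
  have pl : ((-(P.L : ℤ), (γ (lftIdx P.L γ)).2) : V) = γ (lftIdx P.L γ) :=
    Prod.ext (lftIdx_cl o.cone o.start).1.symm rfl
  have pl' : ((-(P.L : ℤ), (γ' (lftIdx P.L γ')).2) : V) = γ' (lftIdx P.L γ') :=
    Prod.ext (lftIdx_cl o'.cone o'.start).1.symm rfl
  have pr : (((P.L : ℤ), (γ (rgtIdx P.L γ)).2) : V) = γ (rgtIdx P.L γ) :=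
    Prod.ext (rgtIdx_cl o.cone o.start).1.symm rfl
  have pr' : (((P.L : ℤ), (γ' (rgtIdx P.L γ')).2) : V) = γ' (rgtIdx P.L γ') :=
    Prod.ext (rgtIdx_cl o'.cone o'.start).1.symm rfl
  simp only [lInc, rInc, pl, pl', pr, pr']
  linarith

/-- In the left height order the increments decrease. -/
lemma incL_anti (hmS : MeetStrip 0) (o : IsObj P GS a b h t pre y γ)
    (o' : IsObj P GS a' b' h' t pre' y' γ') (hnn : ∀ e, 0 ≤ t e)
    (hord : ∃ᶠ D in atBot, hitHt 0 1 D (lTail P.L γ) ≤ hitHt 0 1 D (lTail P.L γ'))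
    {z z' : ℤ} (hz : z ≤ z') : lInc t P.L γ' z z' ≤ lInc t P.L γ z z' :=
  bus_half_mono hmS hnn (by norm_num) (.inl rfl) (-(P.L : ℤ))
    (fun e he => by simpa [lefE, lev] using he)
    _ _ (o.rayL hnn).1 (o'.rayL hnn).1 (o.rayL hnn).2 (o'.rayL hnn).2 _ _
    (by simp [lev]) (by simp [lev]) hz (o.connL z) (o'.connL z)
    (conn_column (column_mem_lefE _) z z') hord

/-- In the right height order the increments decrease. -/
lemma incR_anti (hmS : MeetStrip 0) (o : IsObj P GS a b h t pre y γ)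
    (o' : IsObj P GS a' b' h' t pre' y' γ') (hnn : ∀ e, 0 ≤ t e)
    (hord : ∃ᶠ D in atBot, hitHt 0 (-1) D (rTail P.L γ) ≤ hitHt 0 (-1) D (rTail P.L γ'))
    {z z' : ℤ} (hz : z ≤ z') : rInc t P.L γ' z z' ≤ rInc t P.L γ z z' :=
  bus_half_mono hmS hnn (by norm_num) (.inr rfl) (-(P.L : ℤ))
    (fun e he => by simpa [rigE, lev] using he)
    _ _ (o.rayR hnn).1 (o'.rayR hnn).1 (o.rayR hnn).2 (o'.rayR hnn).2 _ _
    (by simp [lev]) (by simp [lev]) hz (o.connR z) (o'.connR z)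
    (conn_column (column_mem_rigE _) z z') hord

/-- The first point of the left tail at a far level. -/
lemma hitL_bound (o : IsObj P GS a b h t pre y γ) (hnn : ∀ e, 0 ≤ t e) :
    ∀ᶠ D in atBot, (y : ℝ) + b * (D : ℤ) ≤ hitHt 0 1 D (lTail P.L γ) ∧
      (hitHt 0 1 D (lTail P.L γ) : ℝ) ≤ y + a * (D : ℤ) := by
  filter_upwards [eventually_le_atBot (-(P.L : ℤ)), eventually_lt_atBot (-(P.R : ℤ))] with D h1 h2
  obtain ⟨rl, hlev⟩ := o.rayL hnn
  have h3 := hitIdx_level (by norm_num) (.inl rfl) rl.adj hlev (D := D)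
    (by rw [lTail_zero, one_mul, lev_zero, (lftIdx_cl o.cone o.start).1]; exact h1)
  obtain ⟨i, hi⟩ : ∃ i : ℤ, lftIdx P.L γ - (hitIdx 0 1 D (lTail P.L γ) : ℕ) = i := ⟨_, rfl⟩
  simp only [one_mul, lev_zero, lTail, bwd] at h3
  simp only [hitHt, lTail, bwd]
  simp only [lTail] at hi
  rw [hi] at h3 ⊢
  obtain ⟨c1, c2, c3⟩ := coneLine_bound o.cone o.start i
  rcases lt_or_ge (|i|) (P.R : ℤ) with hc | hc
  · have := (c1 hc).1
    rw [abs_lt] at this
    omega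
  rcases le_abs.1 hc with hc | hc
  · have := (c2 hc).1
    omega
  obtain ⟨-, q1, q2⟩ := c3 (by omega)
  rw [h3] at q1 q2
  constructor <;> linarith

/-- The first point of the right tail at a far level. -/
lemma hitR_bound (o : IsObj P GS a b h t pre y γ) (hnn : ∀ e, 0 ≤ t e) :
    ∀ᶠ D in atBot, (y : ℝ) - a * (D : ℤ) ≤ hitHt 0 (-1) D (rTail P.L γ) ∧
      (hitHt 0 (-1) D (rTail P.L γ) : ℝ) ≤ y - b * (D : ℤ) := by
  filter_upwards [eventually_le_atBot (-(P.L : ℤ)), eventually_lt_atBot (-(P.R : ℤ))] with D h1 h2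
  obtain ⟨rl, hlev⟩ := o.rayR hnn
  have h3 := hitIdx_level (by norm_num) (.inr rfl) rl.adj hlev (D := D)
    (by rw [rTail_zero, lev_zero, (rgtIdx_cl o.cone o.start).1]; omega)
  obtain ⟨i, hi⟩ : ∃ i : ℤ, rgtIdx P.L γ + (hitIdx 0 (-1) D (rTail P.L γ) : ℕ) = i := ⟨_, rfl⟩
  simp only [lev_zero, rTail, fwd] at h3
  simp only [hitHt, rTail, fwd]
  simp only [rTail] at hi
  rw [hi] at h3 ⊢
  obtain ⟨c1, c2, c3⟩ := coneLine_bound o.cone o.start i
  have hx : (γ i).1 = -D := by omega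
  rcases lt_or_ge (|i|) (P.R : ℤ) with hc | hc
  · have := (c1 hc).1
    rw [abs_lt] at this
    omega
  rcases le_abs.1 hc with hc | hc
  · obtain ⟨-, q1, q2⟩ := c2 hc
    rw [hx] at q1 q2
    push_cast at q1 q2
    constructor <;> linarith
  · have := (c3 (by omega)).1
    omega

lemma eventually_mul_lt {c d : ℝ} (hc : 0 < c) :
    ∀ᶠ D in atBot, c * ((D : ℤ) : ℝ) < d := by
  filter_upwards [eventually_lt_atBot ⌊d / c⌋] with D hD
  have h1 : (D : ℝ) < d / c := lt_of_lt_of_le (by exact_mod_cast hD) (Int.floor_le _)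
  rw [lt_div_iff₀ hc] at h1
  linarith

/-- On the left, the line of the unit with the larger slope is lower. -/
lemma sepL (o : IsObj P GS a b h t pre y γ) (o' : IsObj P GS a' b' h' t pre' y' γ')
    (hnn : ∀ e, 0 ≤ t e) (hb : b < a') :
    ∀ᶠ D in atBot, hitHt 0 1 D (lTail P.L γ') < hitHt 0 1 D (lTail P.L γ) := by
  filter_upwards [o.hitL_bound hnn, o'.hitL_bound hnn,
    eventually_mul_lt (sub_pos.2 hb) (d := (y : ℝ) - y')] with D h1 h2 h3
  have : (hitHt 0 1 D (lTail P.L γ') : ℝ) < (hitHt 0 1 D (lTail P.L γ) : ℝ) := by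
    linarith [h1.1, h2.2]
  exact_mod_cast this

/-- On the right, the line of the unit with the larger slope is higher. -/
lemma sepR (o : IsObj P GS a b h t pre y γ) (o' : IsObj P GS a' b' h' t pre' y' γ')
    (hnn : ∀ e, 0 ≤ t e) (hb : b < a') :
    ∀ᶠ D in atBot, hitHt 0 (-1) D (rTail P.L γ) < hitHt 0 (-1) D (rTail P.L γ') := by
  filter_upwards [o.hitR_bound hnn, o'.hitR_bound hnn,
    eventually_mul_lt (sub_pos.2 hb) (d := (y' : ℝ) - y)] with D h1 h2 h3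
  have : (hitHt 0 (-1) D (rTail P.L γ) : ℝ) < (hitHt 0 (-1) D (rTail P.L γ') : ℝ) := by
    linarith [h1.2, h2.1]
  exact_mod_cast this

end IsObj

/-! ### Classes -/

/-- Busemann functions of two rays, in two configurations, at bounded distance. -/
def Near (t : Conf) (r : ℕ → V) (t' : Conf) (r' : ℕ → V) : Prop :=
  ∃ C : ℝ, ∀ z, |bus t Set.univ r z - bus t' Set.univ r' z| ≤ C

lemma Near.refl (t : Conf) (r : ℕ → V) : Near t r t r := ⟨0, fun z => by simp⟩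

lemma Near.symm {t t' : Conf} {r r' : ℕ → V} (h : Near t r t' r') : Near t' r' t r := by
  obtain ⟨C, hC⟩ := h
  exact ⟨C, fun z => by rw [abs_sub_comm]; exact hC z⟩

lemma Near.trans {t t' t'' : Conf} {r r' r'' : ℕ → V} (h : Near t r t' r')
    (h' : Near t' r' t'' r'') : Near t r t'' r'' := by
  obtain ⟨C, hC⟩ := h
  obtain ⟨C', hC'⟩ := h'
  exact ⟨C + C', fun z => (abs_sub_le _ _ _).trans (add_le_add (hC z) (hC' z))⟩

lemma hitHt_tail {k σ : ℤ} {r : ℕ → V}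
    (hlev : Tendsto (fun n => σ * lev k (r n)) atTop atBot) (m : ℕ) :
    ∀ᶠ D in atBot, hitHt k σ D (Rays.tail m r) = hitHt k σ D r := by
  filter_upwards [eventually_le_bot (fun i => σ * lev k (r i)) m] with D hD
  have hlev' : Tendsto (fun n => σ * lev k (Rays.tail m r n)) atTop atBot :=
    hlev.comp (tendsto_atTop_mono (fun n => Nat.le_add_left n m) tendsto_id)
  have hge : m ≤ hitIdx k σ D r := by
    by_contra hlt
    exact absurd (hitIdx_spec hlev D) (not_le.2 (hD _ (not_le.1 hlt).le))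
  have h1 : hitIdx k σ D r ≤ m + hitIdx k σ D (Rays.tail m r) :=
    Nat.sInf_le (hitIdx_spec hlev' D)
  have h2 : hitIdx k σ D (Rays.tail m r) ≤ hitIdx k σ D r - m := Nat.sInf_le (by
    simp only [Set.mem_ofPred_eq, Rays.tail, Nat.add_sub_of_le hge]
    exact hitIdx_spec hlev D)
  simp only [hitHt, Rays.tail]
  rw [show m + hitIdx k σ D (Rays.tail m r) = hitIdx k σ D r by omega]

/-- A deep tail of a geodesic ray is a geodesic ray of a finitely modified configuration, with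
nearly the same Busemann function. -/
lemma move_ray {M κ : ℝ} {t t' : Conf} (ht : Good M κ t) (hκ : 0 < κ) (h0' : ∀ e, 0 ≤ t' e)
    {F : Set Edge} (hF : F.Finite) (hoff : ∀ e, e ∉ F → t' e = t e) {r : ℕ → V}
    (hr : IsRayIn t Set.univ r) :
    ∃ m, IsRayIn t' Set.univ (Rays.tail m r) ∧ Near t' (Rays.tail m r) t r := by
  classical
  have h0 := ht.nonneg
  have hoff' : ∀ e, e ∉ hF.toFinset → t' e = t e := fun e he => hoff e (by simpa using he)
  obtain ⟨N, hN⟩ := Rays.exists_tail (S := Set.univ) h0 h0' hoff' hr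
    (Rays.tendsto_rlen ht hκ hr.inj hr.adj)
  obtain ⟨h1, hav⟩ := hN N le_rfl
  refine ⟨N, h1, ∑ e ∈ hF.toFinset, |t' e - t e| + |rlen t r N|, fun z => ?_⟩
  have h2 := Rays.bus_change h0 h0' hoff' (Rays.isRayIn_tail hr N) h1 hav (connIn_univ _ z)
  rw [Rays.bus_tail h0 hr (connIn_univ _ z) N] at h2
  rw [abs_le] at h2 ⊢
  have h3 := abs_le.1 (le_refl |rlen t r N|)
  constructor <;> linarith

/-- The deep tails of a line, as geodesic rays of `t`. -/
structure Deep (t pre : Conf) (γ : ℤ → V) (lt rt : ℕ → V) : Prop where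
  lray : IsRayIn t Set.univ lt
  rray : IsRayIn t Set.univ rt
  lnear : Near t lt pre (bwd γ 0)
  rnear : Near t rt pre (fwd γ 0)
  lidx : ∃ m, lt = Rays.tail m (bwd γ 0)
  ridx : ∃ m, rt = Rays.tail m (fwd γ 0)

variable {M κ : ℝ}

lemma IsObj.exists_deep (o : IsObj P GS a b h t pre y γ) (hGS : ∀ t ∈ GS, Nice M κ t)
    (hκ : 0 < κ) (hnn : ∀ e, 0 ≤ t e) : ∃ lt rt, Deep t pre γ lt rt := by
  have hg := (hGS pre o.mem).good
  have hF := regSet_finite P.L P.R a b h P.d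
  obtain ⟨m, h1, h2⟩ := move_ray hg hκ hnn hF o.off (Rays.isRayIn_bwd o.cone.1 hg.nonneg 0)
  obtain ⟨m', h3, h4⟩ := move_ray hg hκ hnn hF o.off (Rays.isRayIn_fwd o.cone.1 hg.nonneg 0)
  exact ⟨_, _, h1, h3, h2, h4, ⟨m, rfl⟩, ⟨m', rfl⟩⟩

/-- Far levels of a deep left tail. -/
lemma IsObj.deepL (o : IsObj P GS a b h t pre y γ) (hnn : ∀ e, 0 ≤ t e) {lt rt : ℕ → V}
    (hd : Deep t pre γ lt rt) :
    Tendsto (fun n => (1 : ℤ) * lev 0 (lt n)) atTop atBot ∧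
      ∀ᶠ D in atBot, hitHt 0 1 D lt = hitHt 0 1 D (lTail P.L γ) := by
  obtain ⟨m, rfl⟩ := hd.lidx
  obtain ⟨l, hl⟩ : ∃ l : ℕ, lftIdx P.L γ = -(l : ℤ) := ⟨(-lftIdx P.L γ).toNat, by
    have := (lftIdx_cl (L := P.L) o.cone o.start).2.1; omega⟩
  have el : lTail P.L γ = Rays.tail l (bwd γ 0) := by
    funext n; simp only [lTail, Rays.tail, bwd, hl]; congr 1; push_cast; ring
  have hlev : Tendsto (fun n => (1 : ℤ) * lev 0 (bwd γ 0 n)) atTop atBot := by
    have := (o.rayL hnn).2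
    rw [el] at this
    refine (tendsto_add_atTop_iff_nat l).1 (this.congr fun n => ?_)
    simp [Rays.tail, add_comm n l]
  refine ⟨hlev.comp (tendsto_atTop_mono (fun n => Nat.le_add_left n m) tendsto_id), ?_⟩
  filter_upwards [hitHt_tail hlev m, hitHt_tail hlev l] with D h1 h2
  rw [h1, el, h2]

/-- Far levels of a deep right tail. -/
lemma IsObj.deepR (o : IsObj P GS a b h t pre y γ) (hnn : ∀ e, 0 ≤ t e) {lt rt : ℕ → V}
    (hd : Deep t pre γ lt rt) :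
    Tendsto (fun n => (-1 : ℤ) * lev 0 (rt n)) atTop atBot ∧
      ∀ᶠ D in atBot, hitHt 0 (-1) D rt = hitHt 0 (-1) D (rTail P.L γ) := by
  obtain ⟨m, rfl⟩ := hd.ridx
  obtain ⟨l, hl⟩ : ∃ l : ℕ, rgtIdx P.L γ = (l : ℤ) := ⟨(rgtIdx P.L γ).toNat, by
    have := (rgtIdx_cl (L := P.L) o.cone o.start).2.1; omega⟩
  have el : rTail P.L γ = Rays.tail l (fwd γ 0) := by
    funext n; simp only [rTail, Rays.tail, fwd, hl]; congr 1; push_cast; ring
  have hlev : Tendsto (fun n => (-1 : ℤ) * lev 0 (fwd γ 0 n)) atTop atBot := by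
    have := (o.rayR hnn).2
    rw [el] at this
    refine (tendsto_add_atTop_iff_nat l).1 (this.congr fun n => ?_)
    simp [Rays.tail, add_comm n l]
  refine ⟨hlev.comp (tendsto_atTop_mono (fun n => Nat.le_add_left n m) tendsto_id), ?_⟩
  filter_upwards [hitHt_tail hlev m, hitHt_tail hlev l] with D h1 h2
  rw [h1, el, h2]

/-- Lines in the same order at both ends are in one class. -/
theorem IsObj.near_of_order (hmS : MeetStrip 0) (hGS : ∀ t ∈ GS, Nice M κ t) (hκ : 0 < κ)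
    (ht : t ∈ GS) (o : IsObj P GS a b h t pre y γ) (o' : IsObj P GS a' b' h' t pre' y' γ')
    {lt rt lt' rt' : ℕ → V} (hd : Deep t pre γ lt rt) (hd' : Deep t pre' γ' lt' rt')
    (hord : ∃ᶠ D in atBot, hitHt 0 1 D (lTail P.L γ) ≤ hitHt 0 1 D (lTail P.L γ') ∧
      hitHt 0 (-1) D (rTail P.L γ) ≤ hitHt 0 (-1) D (rTail P.L γ')) :
    Near t lt t lt' ∧ Near t rt t rt' := by
  have hnn := (hGS t ht).good.nonneg
  have hp := hGS pre o.mem
  have hp' := hGS pre' o'.mem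
  obtain ⟨l1, e1⟩ := o.deepL hnn hd
  obtain ⟨l2, e2⟩ := o'.deepL hnn hd'
  obtain ⟨r1, f1⟩ := o.deepR hnn hd
  obtain ⟨r2, f2⟩ := o'.deepR hnn hd'
  have hord' : ∃ᶠ D in atBot, hitHt 0 1 D lt ≤ hitHt 0 1 D lt' ∧
      hitHt 0 (-1) D rt ≤ hitHt 0 (-1) D rt' :=
    (hord.and_eventually ((e1.and e2).and (f1.and f2))).mono
      fun D ⟨hD, ⟨u1, u2⟩, v1, v2⟩ => by rwa [u1, u2, v1, v2]
  -- both lines have nonnegative sums, up to a constant
  have low : ∀ {pre : Conf} {γ : ℤ → V} {lt rt : ℕ → V}, Nice M κ pre → IsBigeodesic pre γ →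
      Deep t pre γ lt rt → ∃ e : ℝ, ∀ c, e ≤ bus t Set.univ lt c + bus t Set.univ rt c := by
    intro pre γ lt rt hn hg hd
    obtain ⟨C1, h1⟩ := hd.lnear
    obtain ⟨C2, h2⟩ := hd.rnear
    exact ⟨-C1 - C2, fun c => by
      linarith [(abs_le.1 (h1 c)).1, (abs_le.1 (h2 c)).1,
        Rays.bus_line_nonneg hg hn.good.nonneg 0 c]⟩
  obtain ⟨e, he⟩ := low hp o.cone.1 hd
  obtain ⟨e', he'⟩ := low hp' o'.cone.1 hd'
  have hX := crossed_excess hmS hnn (by norm_num) (.inl rfl) lt lt' rt rt' hd.lray hd'.lray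
    hd.rray hd'.rray l1 l2 r1 r2 (fun x z => connIn_univ x z) e e' he he' hord'
  have hoff : ∀ e, e ∉ regSet P.L P.R a b h P.d → pre e = t e := fun e he => (o.off e he).symm
  have hF := regSet_finite P.L P.R a b h P.d
  constructor
  · obtain ⟨m, hm, hnear⟩ := move_ray (hGS t ht).good hκ hp.good.nonneg hF hoff hd'.lray
    have hθ : ∃ θ, RayDir (Rays.tail m lt') θ := by
      obtain ⟨m', rfl⟩ := hd'.lidx
      obtain ⟨θ, hθ⟩ := rayDir_bwd o'.site.2.1 0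
      exact ⟨θ, Rays.rayDir_tail (Rays.rayDir_tail hθ m') m⟩
    obtain ⟨C1, h1⟩ := hnear
    obtain ⟨C2, h2⟩ := hd.rnear
    have hB : Bd pre (Rays.tail m lt') (bwd γ 0) :=
      bd_of_crossed hp o.cone.1 o.site.2.1 hm hθ
        ⟨C1 + C2 + (bus t Set.univ lt (0, 0) + bus t Set.univ rt' (0, 0)) - (e + e'), fun z => by
          linarith [hX (0, 0) z, (abs_le.1 (h1 z)).1, (abs_le.1 (h2 z)).2]⟩
    exact hd.lnear.trans ((Near.symm hB).trans ⟨C1, h1⟩)
  · obtain ⟨m, hm, hnear⟩ := move_ray (hGS t ht).good hκ hp.good.nonneg hF hoff hd'.rray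
    have hθ : ∃ θ, RayDir (Rays.tail m rt') θ := by
      obtain ⟨m', rfl⟩ := hd'.ridx
      obtain ⟨θ, hθ⟩ := rayDir_fwd o'.site.2.1 0
      exact ⟨θ, Rays.rayDir_tail (Rays.rayDir_tail hθ m') m⟩
    obtain ⟨C1, h1⟩ := hnear
    obtain ⟨C2, h2⟩ := hd.lnear
    have hB : Bd pre (Rays.tail m rt') (fwd γ 0) :=
      bd_of_crossed_fwd hp o.cone.1 o.site.2.1 hm hθ
        ⟨C1 + C2 + (bus t Set.univ lt' (0, 0) + bus t Set.univ rt (0, 0)) - (e + e'), fun z => by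
          linarith [hX z (0, 0), (abs_le.1 (h1 z)).1, (abs_le.1 (h2 z)).2]⟩
    exact hd.rnear.trans ((Near.symm hB).trans ⟨C1, h1⟩)

end Vale.Agent.P158
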