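import Vale.Agent.P158.Order
import Vale.Agent.P158.Planar

/-!
P158, order module: the two meeting hypotheses of the order lemmas, from the planar module.
-/

namespace Vale.Agent.P158

theorem meetHalf {k : ℤ} (hk : k = 0 ∨ k = 1) : MeetHalf k := by
  intro σ D a b c d p q hσ ha hb hc hd hab hbc hcd hp hq
  rcases hσ with rfl | rfl
  · simp only [one_mul] at ha hb hc hd hp hq
    exact meet_right hk p q hp hq ha hc hb hd hab hbc hcd
  · simp only [neg_one_mul] at ha hb hc hd hp hq
    exact meet_left hk p q (L := -D) (fun x hx => by linarith [hp x hx])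
      (fun x hx => by linarith [hq x hx]) (by omega) (by omega) (by omega) (by omega) hab hbc hcd

theorem meetStrip {k : ℤ} (hk : k = 0 ∨ k = 1) : MeetStrip k := by
  intro σ D D' a b c d p q hσ hDD ha hb hc hd hab hdc hp hq
  rcases hσ with rfl | rfl
  · simp only [one_mul] at ha hb hc hd hp hq
    exact meet_cross hk hDD p q hp hq ha hc hb hd hab hdc
  · simp only [neg_one_mul] at ha hb hc hd hp hq
    have hrev : ∀ {u v : V} (w : grid.Walk u v), (∀ x ∈ w.support, D ≤ -lev k x ∧ -lev k x ≤ D') →
        ∀ x ∈ w.reverse.support, -D' ≤ lev k x ∧ lev k x ≤ -D := fun w hw x hx => by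
      rw [SimpleGraph.Walk.support_reverse, List.mem_reverse] at hx
      exact ⟨by linarith [(hw x hx).2], by linarith [(hw x hx).1]⟩
    obtain ⟨x, hx1, hx2⟩ := meet_cross hk (show -D' < -D by omega) q.reverse p.reverse
      (hrev q hq) (hrev p hp) (by omega) (by omega) (by omega) (by omega) hdc hab
    rw [SimpleGraph.Walk.support_reverse, List.mem_reverse] at hx1 hx2
    exact ⟨x, hx2, hx1⟩

end Vale.Agent.P158
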