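import Vale.Agent.P158.MainAsm
import Vale.Agent.P158.MainCountObj
import Vale.Agent.P158.MainCountAlg
import Vale.Agent.P158.OrderMeet

/-!
P158, deterministic count of the main argument: the certified blocks of one configuration carry
few lines.
-/

open Filter Topology

namespace Vale.Agent.P158

/-- Height keys which are valid at infinitely many far levels for both ends at once. -/
lemma exists_keys {ι : Type*} [Fintype ι] (f g : ℤ → ι → ℤ) :
    ∃ lo ro : ι → ℤ, ∃ᶠ D in atBot, ∀ p q,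
      (lo p ≤ lo q → f D p ≤ f D q) ∧ (ro p ≤ ro q → g D p ≤ g D q) := by
  classical
  obtain ⟨π, hπ⟩ : ∃ π : ℤ → ι × ι → Bool × Bool,
      π = fun D pq => (decide (f D pq.1 ≤ f D pq.2), decide (g D pq.1 ≤ g D pq.2)) := ⟨_, rfl⟩
  obtain ⟨v, hv⟩ : ∃ v, ∃ᶠ D in atBot, π D = v := by
    by_contra h
    simp only [not_exists, not_frequently] at h
    obtain ⟨D, hD⟩ := (eventually_all.2 h).exists
    exact hD _ rfl
  obtain ⟨D0, hD0⟩ := hv.exists
  refine ⟨f D0, g D0, hv.mono fun D hD p q => ?_⟩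
  have h1 := congrFun (hD.trans hD0.symm) (p, q)
  simp only [hπ, Prod.mk.injEq, decide_eq_decide] at h1
  exact ⟨h1.1.2, h1.2.2⟩

variable {P : Params} {GS : Set Conf} {t : Conf} {M κ : ℝ}

/-- The count in one slope unit. -/
theorem unit_count {ι : Type*} [DecidableEq ι] (hmS : MeetStrip 0)
    (hGS : ∀ t ∈ GS, Nice M κ t) (hκ : 0 < κ) (hg : 0 < P.g) (hδ : 0 < P.δ) (ht : t ∈ GS)
    {sa sb : ℝ} (h8 : -8 ≤ sa ∧ sa ≤ sb ∧ sb ≤ 8) {D N : ℕ}
    (hD : (P.d : ℝ) + 18 * P.R + (sb - sa) * P.L + 2 < D) (S : Finset ι) (hh : ι → ℤ)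
    (pre : ι → Conf) (y : ι → ℤ) (γ : ι → ℤ → V)
    (ho : ∀ x ∈ S, IsObj P GS sa sb (hh x) t (pre x) (y x) (γ x))
    (hN : ∀ x ∈ S, |hh x| + P.d + P.W + 9 * P.R + 8 * P.L ≤ N)
    (hpair : ∀ x ∈ S, ∀ x' ∈ S, x ≠ x' →
      (hh x = hh x' ∧ pre x = pre x' ∧ y x ≠ y x' ∧
          JumpAt (pre x) P.L P.g (hh x) P.W (γ x) (γ x')) ∨
        hh x + D ≤ hh x' ∨ hh x' + D ≤ hh x)
    (lo ro : ι → ℤ)
    (hkey : ∃ᶠ D in atBot, ∀ p q,
      (lo p ≤ lo q → hitHt 0 1 D (lTail P.L (γ p)) ≤ hitHt 0 1 D (lTail P.L (γ q))) ∧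
      (ro p ≤ ro q → hitHt 0 (-1) D (rTail P.L (γ p)) ≤ hitHt 0 (-1) D (rTail P.L (γ q))))
    (hne : S.Nonempty) (a b c d : ℝ)
    (hbd : ∀ x ∈ S, a ≤ lInc t P.L (γ x) (-N) N ∧ lInc t P.L (γ x) (-N) N ≤ b ∧
      c ≤ rInc t P.L (γ x) (-N) N ∧ rInc t P.L (γ x) (-N) N ≤ d) :
    P.g * ((S.card : ℝ) - 1) ≤ 2 * ((b - a) + (d - c)) := by
  classical
  have hnn := (hGS t ht).good.nonneg
  have hl0 : ∀ x ∈ S, |(γ x (lftIdx P.L (γ x))).1| ≤ (P.L : ℤ) := fun x hx => by
    rw [(lftIdx_cl (ho x hx).cone (ho x hx).start).1, abs_neg, Nat.abs_cast]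
  have hr0 : ∀ x ∈ S, |(γ x (rgtIdx P.L (γ x))).1| ≤ (P.L : ℤ) := fun x hx => by
    rw [(rgtIdx_cl (ho x hx).cone (ho x hx).start).1, Nat.abs_cast]
  -- monotonicity
  have antiL : ∀ x ∈ S, ∀ x' ∈ S, lo x ≤ lo x' → ∀ z z', z ≤ z' →
      lInc t P.L (γ x') z z' ≤ lInc t P.L (γ x) z z' := fun x hx x' hx' hle z z' hz =>
    (ho x hx).incL_anti hmS (ho x' hx') hnn (hkey.mono fun D hD => (hD x x').1 hle) hz
  have antiR : ∀ x ∈ S, ∀ x' ∈ S, ro x ≤ ro x' → ∀ z z', z ≤ z' →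
      rInc t P.L (γ x') z z' ≤ rInc t P.L (γ x) z z' := fun x hx x' hx' hle z z' hz =>
    (ho x hx).incR_anti hmS (ho x' hx') hnn (hkey.mono fun D hD => (hD x x').2 hle) hz
  have subL : ∀ x ∈ S, ∀ x' ∈ S, ∀ z z', -(N : ℤ) ≤ z → z ≤ z' → z' ≤ N →
      |lInc t P.L (γ x) z z' - lInc t P.L (γ x') z z'| ≤
        |lInc t P.L (γ x) (-N) N - lInc t P.L (γ x') (-N) N| := by
    intro x hx x' hx' z z' h1 h2 h3
    rcases le_total (lo x) (lo x') with hle | hle
    · have u1 := antiL x hx x' hx' hle _ _ h1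
      have u2 := antiL x hx x' hx' hle _ _ h2
      have u3 := antiL x hx x' hx' hle _ _ h3
      simp only [lInc] at u1 u2 u3 ⊢
      rw [abs_of_nonneg (by linarith), abs_of_nonneg (by linarith)]
      linarith
    · have u1 := antiL x' hx' x hx hle _ _ h1
      have u2 := antiL x' hx' x hx hle _ _ h2
      have u3 := antiL x' hx' x hx hle _ _ h3
      simp only [lInc] at u1 u2 u3 ⊢
      rw [abs_of_nonpos (by linarith), abs_of_nonpos (by linarith)]
      linarith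
  have subR : ∀ x ∈ S, ∀ x' ∈ S, ∀ z z', -(N : ℤ) ≤ z → z ≤ z' → z' ≤ N →
      |rInc t P.L (γ x) z z' - rInc t P.L (γ x') z z'| ≤
        |rInc t P.L (γ x) (-N) N - rInc t P.L (γ x') (-N) N| := by
    intro x hx x' hx' z z' h1 h2 h3
    rcases le_total (ro x) (ro x') with hle | hle
    · have u1 := antiR x hx x' hx' hle _ _ h1
      have u2 := antiR x hx x' hx' hle _ _ h2
      have u3 := antiR x hx x' hx' hle _ _ h3
      simp only [rInc] at u1 u2 u3 ⊢
      rw [abs_of_nonneg (by linarith), abs_of_nonneg (by linarith)]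
      linarith
    · have u1 := antiR x' hx' x hx hle _ _ h1
      have u2 := antiR x' hx' x hx hle _ _ h2
      have u3 := antiR x' hx' x hx hle _ _ h3
      simp only [rInc] at u1 u2 u3 ⊢
      rw [abs_of_nonpos (by linarith), abs_of_nonpos (by linarith)]
      linarith
  -- far blocks
  have far : ∀ x ∈ S, ∀ x' ∈ S, hh x + D ≤ hh x' →
      -(N : ℤ) ≤ (γ x (lftIdx P.L (γ x))).2 ∧
        (γ x (lftIdx P.L (γ x))).2 ≤ (γ x' (lftIdx P.L (γ x'))).2 ∧
        (γ x' (lftIdx P.L (γ x'))).2 ≤ N ∧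
      -(N : ℤ) ≤ (γ x (rgtIdx P.L (γ x))).2 ∧
        (γ x (rgtIdx P.L (γ x))).2 ≤ (γ x' (rgtIdx P.L (γ x'))).2 ∧
        (γ x' (rgtIdx P.L (γ x'))).2 ≤ N := by
    intro x hx x' hx' hlt
    have o := ho x hx
    have o' := ho x' hx'
    exact ⟨(o.ends_bound h8 (hN x hx) (hl0 x hx)).1,
      (o.height_lt o' h8 hD hlt (hl0 x hx)
        ((lftIdx_cl o.cone o.start).1.trans (lftIdx_cl o'.cone o'.start).1.symm)).le,
      (o'.ends_bound h8 (hN x' hx') (hl0 x' hx')).2,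
      (o.ends_bound h8 (hN x hx) (hr0 x hx)).1,
      (o.height_lt o' h8 hD hlt (hr0 x hx)
        ((rgtIdx_cl o.cone o.start).1.trans (rgtIdx_cl o'.cone o'.start).1.symm)).le,
      (o'.ends_bound h8 (hN x' hx') (hr0 x' hx')).2⟩
  -- classes
  have hdeep : ∀ x, ∃ lt rt, x ∈ S → Deep t (pre x) (γ x) lt rt := fun x => by
    by_cases hx : x ∈ S
    · obtain ⟨lt, rt, h⟩ := (ho x hx).exists_deep hGS hκ hnn
      exact ⟨lt, rt, fun _ => h⟩
    · exact ⟨fun _ => (0, 0), fun _ => (0, 0), fun h => absurd h hx⟩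
  choose lt rt hlr using hdeep
  let Cls : ι → ι → Prop := fun p q => Near t (lt p) t (lt q) ∧ Near t (rt p) t (rt q)
  have hCls : Equivalence Cls :=
    ⟨fun p => ⟨Near.refl _ _, Near.refl _ _⟩, fun h => ⟨h.1.symm, h.2.symm⟩,
      fun h h' => ⟨h.1.trans h'.1, h.2.trans h'.2⟩⟩
  have hNI : ∀ p ∈ S, ∀ q ∈ S, lo p ≤ lo q → ro p ≤ ro q → Cls p q := fun p hp q hq h1 h2 =>
    (ho p hp).near_of_order hmS hGS hκ ht (ho q hq) (hlr p hp) (hlr q hq)
      (hkey.mono fun D hD => ⟨(hD p q).1 h1, (hD p q).2 h2⟩)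
  have hsame : ∀ p ∈ S, ∀ q ∈ S, p ≠ q → Cls p q → hh p + D ≤ hh q ∨ hh q + D ≤ hh p := by
    intro p hp q hq hne hcl
    rcases hpair p hp q hq hne with ⟨-, he, hy, -⟩ | h
    · exfalso
      have d1 := hlr p hp
      have d2 := hlr q hq
      rw [← he] at d2
      have s2 : SiteLine (pre p) P.R sa sb P.δ (y q) (γ q) := he ▸ (ho q hq).site
      refine hy (same_site (hGS _ (ho p hp).mem) hκ hδ (ho p hp).site s2 ?_ ?_)
      · exact d2.lnear.symm.trans ((hcl.1.symm).trans d1.lnear)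
      · exact d2.rnear.symm.trans ((hcl.2.symm).trans d1.rnear)
    · exact h
  refine count_unit S lo ro (fun x => lInc t P.L (γ x) (-N) N)
    (fun x => rInc t P.L (γ x) (-N) N) P.g Cls hCls hNI
    (fun p hp q hq h => antiL p hp q hq h _ _ (by omega))
    (fun p hp q hq h => antiR p hp q hq h _ _ (by omega)) ?_ ?_ hne a b c d hbd
  · -- jumps
    intro x hx x' hx' hne'
    rcases hpair x hx x' hx' hne' with ⟨he, hpre, -, z, z', h1, h2, h3, h4⟩ | hfar
    · have hn := hN x hx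
      have hx1 := le_abs_self (hh x)
      have hx2 := neg_abs_le (hh x)
      rw [← (ho x hx).incL_eq hnn, ← (ho x hx).incR_eq hnn, hpre,
        ← (ho x' hx').incL_eq hnn, ← (ho x' hx').incR_eq hnn] at h4
      exact h4.trans (add_le_add (subL x hx x' hx' z z' (by omega) h2 (by omega))
        (subR x hx x' hx' z z' (by omega) h2 (by omega)))
    · rcases hfar with hlt | hlt
      · obtain ⟨a1, a2, a3, b1, b2, b3⟩ := far x hx x' hx' hlt
        have hgap := (ho x hx).gap (ho x' hx') hnn h8 hD (.inl hlt)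
        have v1 := (le_abs_self _).trans (subL x hx x' hx' _ _ a1 a2 a3)
        have v2 := (le_abs_self _).trans (subR x hx x' hx' _ _ b1 b2 b3)
        linarith
      · obtain ⟨a1, a2, a3, b1, b2, b3⟩ := far x' hx' x hx hlt
        have hgap := (ho x' hx').gap (ho x hx) hnn h8 hD (.inl hlt)
        have v1 := (le_abs_self _).trans (subL x' hx' x hx _ _ a1 a2 a3)
        have v2 := (le_abs_self _).trans (subR x' hx' x hx _ _ b1 b2 b3)
        rw [abs_sub_comm] at v1 v2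
        linarith
  · -- one class
    intro C hC hCne hCc a' b' c' d' hb'
    obtain ⟨l1, hl1, hl1m⟩ := C.exists_min_image lo hCne
    obtain ⟨l2, hl2, hl2m⟩ := C.exists_max_image lo hCne
    obtain ⟨r1, hr1, hr1m⟩ := C.exists_min_image ro hCne
    obtain ⟨r2, hr2, hr2m⟩ := C.exists_max_image ro hCne
    let F : ι → ℝ := fun x =>
      (lInc t P.L (γ l1) (-N) (γ x (lftIdx P.L (γ x))).2 -
        lInc t P.L (γ l2) (-N) (γ x (lftIdx P.L (γ x))).2) +
      (rInc t P.L (γ r1) (-N) (γ x (rgtIdx P.L (γ x))).2 -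
        rInc t P.L (γ r2) (-N) (γ x (rgtIdx P.L (γ x))).2)
    have step : ∀ x ∈ C, ∀ x' ∈ C, hh x + D ≤ hh x' → 2 * P.g ≤ F x' - F x := by
      intro x hx x' hx' hlt
      obtain ⟨a1, a2, a3, b1, b2, b3⟩ := far x (hC hx) x' (hC hx') hlt
      have hgap := (ho x (hC hx)).gap (ho x' (hC hx')) hnn h8 hD (.inl hlt)
      have u1 := antiL l1 (hC hl1) x (hC hx) (hl1m x hx) _ _ a2
      have u2 := antiL x' (hC hx') l2 (hC hl2) (hl2m x' hx') _ _ a2
      have u3 := antiR r1 (hC hr1) x (hC hx) (hr1m x hx) _ _ b2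
      have u4 := antiR x' (hC hx') r2 (hC hr2) (hr2m x' hx') _ _ b2
      simp only [F, lInc, rInc] at hgap u1 u2 u3 u4 ⊢
      linarith
    have hgap : ∀ x ∈ C, ∀ x' ∈ C, x ≠ x' → 2 * P.g ≤ |F x - F x'| := by
      intro x hx x' hx' hne'
      rcases hsame x (hC hx) x' (hC hx') hne' (hCc x hx x' hx') with hlt | hlt
      · rw [abs_sub_comm]
        exact (step x hx x' hx' hlt).trans (le_abs_self _)
      · exact (step x' hx' x hx hlt).trans (le_abs_self _)
    have hlo : ∀ x ∈ C, 0 ≤ F x := fun x hx => by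
      have o := ho x (hC hx)
      have u1 := antiL l1 (hC hl1) l2 (hC hl2) (hl1m l2 hl2) _ _
        (o.ends_bound h8 (hN x (hC hx)) (hl0 x (hC hx))).1
      have u2 := antiR r1 (hC hr1) r2 (hC hr2) (hr1m r2 hr2) _ _
        (o.ends_bound h8 (hN x (hC hx)) (hr0 x (hC hx))).1
      simp only [F]
      linarith
    have hhi : ∀ x ∈ C, F x ≤ (b' - a') + (d' - c') := fun x hx => by
      have o := ho x (hC hx)
      have u1 := antiL l1 (hC hl1) l2 (hC hl2) (hl1m l2 hl2) _ _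
        (o.ends_bound h8 (hN x (hC hx)) (hl0 x (hC hx))).2
      have u2 := antiR r1 (hC hr1) r2 (hC hr2) (hr1m r2 hr2) _ _
        (o.ends_bound h8 (hN x (hC hx)) (hr0 x (hC hx))).2
      obtain ⟨-, q1, -, -⟩ := hb' l1 hl1
      obtain ⟨q2, -, -, -⟩ := hb' l2 hl2
      obtain ⟨-, -, -, q3⟩ := hb' r1 hr1
      obtain ⟨-, -, q4, -⟩ := hb' r2 hr2
      simp only [F, lInc, rInc] at u1 u2 q1 q2 q3 q4 ⊢
      linarith
    have := card_le_of_gaps C F (2 * P.g) 0 ((b' - a') + (d' - c')) hlo hhi hgap hCne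
    linarith

/-- Windows of units, added up along a column. -/
theorem windows_inc {ι : Type*} [Fintype ι] (hmH : MeetHalf 0) (hnn : ∀ e, 0 ≤ t e)
    (hM : ∀ e, t e ≤ M) {S : Set Edge} {σ : ℤ} (hσ : σ = 1 ∨ σ = -1) (r : ι → ℕ → V)
    (hr : ∀ i, IsRayIn t S (r i))
    (hlev : ∀ i, Tendsto (fun n => σ * lev 0 (r i n)) atTop atBot) (c : ℤ)
    (hcol : ∀ z : ℤ, edgeOf (c, z) (c, z + 1) ∈ S) (hc : ∀ i z, ConnIn S (r i 0) (c, z))
    {m : ℕ} (U : Finset (Fin m)) (p q : Fin m → ι)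
    (hsep : ∀ u ∈ U, ∀ v ∈ U, u < v → ∀ᶠ D in atBot,
      max (hitHt 0 σ D (r (p u))) (hitHt 0 σ D (r (q u))) <
        min (hitHt 0 σ D (r (p v))) (hitHt 0 σ D (r (q v)))) (z0 : ℤ) (n : ℕ) :
    ∑ u ∈ U, ((bus t S (r (p u)) (c, z0 + n) - bus t S (r (p u)) (c, z0)) -
        (bus t S (r (q u)) (c, z0 + n) - bus t S (r (q u)) (c, z0))) ≤ 6 * M * n := by
  induction n with
  | zero => simp
  | succ n ih =>
    have hw := bus_windows (S := S) hmH hnn (by norm_num) hσ r hr hlev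
      (c, z0 + n + 1) (c, z0 + n) (conn_column hcol _ _) (fun i => hc i _) U p q hsep
    have hTS : TS t S (c, z0 + n + 1) (c, z0 + n) ≤ M := by
      rw [TS_comm]
      exact (Rays.TS_adj_le hnn (by simp [Adj]) (hcol _)).trans (hM _)
    simp only [Nat.cast_succ, ← add_assoc]
    refine le_trans (b := ∑ u ∈ U, ((bus t S (r (p u)) (c, z0 + n) - bus t S (r (p u)) (c, z0)) -
        (bus t S (r (q u)) (c, z0 + n) - bus t S (r (q u)) (c, z0))) +
      ∑ u ∈ U, |(bus t S (r (p u)) (c, z0 + n + 1) - bus t S (r (p u)) (c, z0 + n)) -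
        (bus t S (r (q u)) (c, z0 + n + 1) - bus t S (r (q u)) (c, z0 + n))|) ?_ ?_
    · rw [← Finset.sum_add_distrib]
      refine Finset.sum_le_sum fun u _ => ?_
      linarith [le_abs_self ((bus t S (r (p u)) (c, z0 + n + 1) - bus t S (r (p u)) (c, z0 + n)) -
        (bus t S (r (q u)) (c, z0 + n + 1) - bus t S (r (q u)) (c, z0 + n)))]
    · linarith

/-- The certified blocks of a nice configuration carry few lines. -/
theorem block_count (hmH : MeetHalf 0) (hmS : MeetStrip 0) {M κ : ℝ} (hκ : 0 < κ) {GS : Set Conf}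
    (hGS : ∀ t ∈ GS, Nice M κ t) (P : Params) (hg : 0 < P.g) (hδ : 0 < P.δ) {m : ℕ}
    (a b : Fin m → ℝ) (hab : ∀ u, a u ≤ b u ∧ -8 ≤ a u ∧ b u ≤ 8)
    (hsep : ∀ u v, u < v → b u < a v) (D : ℕ)
    (hD : ∀ u, (P.d : ℝ) + 18 * P.R + (b u - a u) * P.L + 2 < D) (J : Finset ℤ) (N : ℕ)
    (hN : ∀ j ∈ J, |j * (D : ℤ)| + P.d + P.W + 9 * P.R + 8 * P.L ≤ N) (k : Fin m → ℕ)
    {t : Conf} (ht : t ∈ GS) :
    P.g * ∑ u, ∑ j ∈ J,
        (blockEvent P GS (a u) (b u) (j * D) (k u)).indicator (fun _ => (k u : ℝ)) t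
      ≤ 100 * M * (N + 1) + P.g * m := by
  classical
  have hnn := (hGS t ht).good.nonneg
  have hM : ∀ e, t e ≤ M := fun e => ((hGS t ht).good.range e).2
  have hM0 : 0 ≤ M := (hnn ((0, 0), false)).trans (hM _)
  -- the objects
  obtain ⟨B, hB⟩ : ∃ B : Finset (Fin m × ℤ), B = (Finset.univ ×ˢ J).filter fun w =>
      t ∈ blockEvent P GS (a w.1) (b w.1) (w.2 * D) (k w.1) := ⟨_, rfl⟩
  have hw : ∀ w : B, ∃ (pre : Conf) (ys : Fin (k w.1.1) → ℤ) (γ : Fin (k w.1.1) → ℤ → V),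
      Function.Injective ys ∧
      (∀ i, IsObj P GS (a w.1.1) (b w.1.1) (w.1.2 * D) t pre (ys i) (γ i)) ∧
      ∀ i j, i ≠ j → JumpAt pre P.L P.g (w.1.2 * D) P.W (γ i) (γ j) := by
    rintro ⟨w, hw⟩
    rw [hB, Finset.mem_filter] at hw
    obtain ⟨pre, hpre, -, hle, hoff, ys, γ, hinj, hys, hjump⟩ := hw.2
    exact ⟨pre, ys, γ, hinj, fun i => ⟨hpre, hle, hoff, (hys i).1, (hys i).2.1, (hys i).2.2.1,
      (hys i).2.2.2⟩, hjump⟩
  choose pre ys γ hinj hobj hjump using hw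
  let ι := Σ w : B, Fin (k w.1.1)
  let G : ι → ℤ → V := fun x => γ x.1 x.2
  have ho : ∀ x : ι, IsObj P GS (a x.1.1.1) (b x.1.1.1) (x.1.1.2 * D) t (pre x.1) (ys x.1 x.2)
      (G x) := fun x => hobj x.1 x.2
  have hJ : ∀ w : B, w.1.2 ∈ J := fun w => by
    have := w.2
    simp only [hB, Finset.mem_filter, Finset.mem_product] at this
    exact this.1.2
  have hsum : (∑ u, ∑ j ∈ J,
      (blockEvent P GS (a u) (b u) (j * D) (k u)).indicator (fun _ => (k u : ℝ)) t) =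
        (Fintype.card ι : ℝ) := by
    rw [Fintype.card_sigma, Nat.cast_sum]
    simp only [Fintype.card_fin]
    rw [Finset.sum_coe_sort B (fun w => (k w.1 : ℝ)), hB, Finset.sum_filter, Finset.sum_product]
    simp only [Set.indicator_apply]
  rw [hsum]
  rcases isEmpty_or_nonempty ι with he | hι
  · rw [Fintype.card_eq_zero, Nat.cast_zero, mul_zero]
    positivity
  obtain ⟨lo, ro, hkey⟩ := exists_keys (fun D x => hitHt 0 1 D (lTail P.L (G x)))
    (fun D x => hitHt 0 (-1) D (rTail P.L (G x)))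
  -- extreme objects of the units
  let Su : Fin m → Finset ι := fun u => Finset.univ.filter fun x => x.1.1.1 = u
  let Pl : ι → ℝ := fun x => lInc t P.L (G x) (-N) N
  let Qr : ι → ℝ := fun x => rInc t P.L (G x) (-N) N
  have hext : ∀ u, ∃ p q p' q' : ι, (Su u).Nonempty → (p ∈ Su u ∧ q ∈ Su u ∧ p' ∈ Su u ∧ q' ∈ Su u ∧
      ∀ x ∈ Su u, Pl q ≤ Pl x ∧ Pl x ≤ Pl p ∧ Qr q' ≤ Qr x ∧ Qr x ≤ Qr p') := by
    intro u
    by_cases hu : (Su u).Nonempty
    · obtain ⟨p, hp, h1⟩ := (Su u).exists_max_image Pl hu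
      obtain ⟨q, hq, h2⟩ := (Su u).exists_min_image Pl hu
      obtain ⟨p', hp', h3⟩ := (Su u).exists_max_image Qr hu
      obtain ⟨q', hq', h4⟩ := (Su u).exists_min_image Qr hu
      exact ⟨p, q, p', q', fun _ => ⟨hp, hq, hp', hq', fun x hx => ⟨h2 x hx, h1 x hx, h4 x hx,
        h3 x hx⟩⟩⟩
    · exact ⟨hι.some, hι.some, hι.some, hι.some, fun h => absurd h hu⟩
  choose p q p' q' hext using hext
  let U : Finset (Fin m) := Finset.univ.filter fun u => (Su u).Nonempty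
  have hU : ∀ u ∈ U, (Su u).Nonempty := fun u hu => (Finset.mem_filter.1 hu).2
  have hslope : ∀ {x : ι} {u}, x ∈ Su u → x.1.1.1 = u := fun hx => (Finset.mem_filter.1 hx).2
  -- each unit
  have hunit : ∀ u ∈ U, P.g * ((Su u).card : ℝ) ≤
      P.g + 2 * ((Pl (p u) - Pl (q u)) + (Qr (p' u) - Qr (q' u))) := by
    intro u hu
    obtain ⟨-, -, -, -, hbd⟩ := hext u (hU u hu)
    have := unit_count hmS hGS hκ hg hδ ht (sa := a u) (sb := b u)
      ⟨(hab u).2.1, (hab u).1, (hab u).2.2⟩ (hD u) (N := N) (Su u) (fun x => x.1.1.2 * D)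
      (fun x => pre x.1) (fun x => ys x.1 x.2) G
      (fun x hx => hslope hx ▸ ho x) (fun x _ => hN _ (hJ x.1))
      (fun x hx x' hx' hne => by
        rcases eq_or_ne x.1 x'.1 with he | he
        · obtain ⟨w, i⟩ := x
          obtain ⟨w', i'⟩ := x'
          obtain rfl : w = w' := he
          have hii : i ≠ i' := fun h => hne (by rw [h])
          exact .inl ⟨rfl, rfl, fun h => hii (hinj w h), hjump w i i' hii⟩
        · have hj : x.1.1.2 ≠ x'.1.1.2 := fun h => he (Subtype.ext (Prod.ext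
            ((hslope hx).trans (hslope hx').symm) h))
          rcases lt_or_gt_of_ne hj with h | h
          · refine .inr (.inl ?_)
            have := mul_le_mul_of_nonneg_right (show x.1.1.2 + 1 ≤ x'.1.1.2 by omega)
              (Int.natCast_nonneg D)
            linarith
          · refine .inr (.inr ?_)
            have := mul_le_mul_of_nonneg_right (show x'.1.1.2 + 1 ≤ x.1.1.2 by omega)
              (Int.natCast_nonneg D)
            linarith)
      lo ro hkey (hU u hu) (Pl (q u)) (Pl (p u)) (Qr (q' u)) (Qr (p' u)) hbd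
    linarith
  -- the columns
  have hcards : (Fintype.card ι : ℝ) = ∑ u ∈ U, ((Su u).card : ℝ) := by
    rw [← Finset.card_univ,
      Finset.card_eq_sum_card_fiberwise (f := fun x : ι => x.1.1.1) (t := Finset.univ)
        (fun x _ => Finset.mem_univ _), Nat.cast_sum]
    refine (Finset.sum_subset (Finset.subset_univ U) fun u _ hu => ?_).symm
    simp only [U, Finset.mem_filter, Finset.mem_univ, true_and, Finset.not_nonempty_iff_eq_empty]
      at hu
    simpa [Su] using hu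
  have hL : ∀ u ∈ U, ∀ v ∈ U, u < v → ∀ x ∈ Su u, ∀ x' ∈ Su v, ∀ᶠ D in atBot,
      hitHt 0 1 D (lTail P.L (G x')) < hitHt 0 1 D (lTail P.L (G x)) ∧
        hitHt 0 (-1) D (rTail P.L (G x)) < hitHt 0 (-1) D (rTail P.L (G x')) := by
    intro u hu v hv huv x hx x' hx'
    have hb : b x.1.1.1 < a x'.1.1.1 := by rw [hslope hx, hslope hx']; exact hsep u v huv
    exact ((ho x).sepL (ho x') hnn hb).and ((ho x).sepR (ho x') hnn hb)
  have hwL : ∑ u ∈ U, (Pl (p u) - Pl (q u)) ≤ 6 * M * ((2 * N : ℕ) : ℝ) := by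
    have := windows_inc (t := t) hmH hnn hM (.inl rfl) (fun x : ι => lTail P.L (G x))
      (fun x => ((ho x).rayL hnn).1) (fun x => ((ho x).rayL hnn).2) (-(P.L : ℤ))
      (column_mem_lefE _) (fun x z => (ho x).connL z) (U.image Fin.rev)
      (fun u => p u.rev) (fun u => q u.rev) (fun u hu v hv huv => by
        obtain ⟨u', hu', rfl⟩ := Finset.mem_image.1 hu
        obtain ⟨v', hv', rfl⟩ := Finset.mem_image.1 hv
        simp only [Fin.rev_rev]
        have hlt : v' < u' := Fin.rev_lt_rev.1 huv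
        obtain ⟨pu, qu, -⟩ := hext u' (hU u' hu')
        obtain ⟨pv, qv, -⟩ := hext v' (hU v' hv')
        filter_upwards [hL v' hv' u' hu' hlt _ pv _ pu, hL v' hv' u' hu' hlt _ pv _ qu,
          hL v' hv' u' hu' hlt _ qv _ pu, hL v' hv' u' hu' hlt _ qv _ qu] with D h1 h2 h3 h4
        exact max_lt (lt_min h1.1 h3.1) (lt_min h2.1 h4.1))
      (-(N : ℤ)) (2 * N)
    rw [Finset.sum_image Fin.rev_injective.injOn] at this
    simp only [Fin.rev_rev] at this
    rw [show -(N : ℤ) + ((2 * N : ℕ) : ℤ) = N by push_cast; ring] at this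
    exact this
  have hwR : ∑ u ∈ U, (Qr (p' u) - Qr (q' u)) ≤ 6 * M * ((2 * N : ℕ) : ℝ) := by
    have := windows_inc (t := t) hmH hnn hM (.inr rfl) (fun x : ι => rTail P.L (G x))
      (fun x => ((ho x).rayR hnn).1) (fun x => ((ho x).rayR hnn).2) (P.L : ℤ)
      (column_mem_rigE _) (fun x z => (ho x).connR z) U p' q' (fun u hu v hv huv => by
        obtain ⟨-, -, pu, qu, -⟩ := hext u (hU u hu)
        obtain ⟨-, -, pv, qv, -⟩ := hext v (hU v hv)
        filter_upwards [hL u hu v hv huv _ pu _ pv, hL u hu v hv huv _ pu _ qv,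
          hL u hu v hv huv _ qu _ pv, hL u hu v hv huv _ qu _ qv] with D h1 h2 h3 h4
        exact max_lt (lt_min h1.2 h2.2) (lt_min h3.2 h4.2))
      (-(N : ℤ)) (2 * N)
    rw [show -(N : ℤ) + ((2 * N : ℕ) : ℤ) = N by push_cast; ring] at this
    exact this
  rw [hcards, Finset.mul_sum]
  refine (Finset.sum_le_sum hunit).trans ?_
  rw [Finset.sum_add_distrib, Finset.sum_const, nsmul_eq_mul, ← Finset.mul_sum,
    Finset.sum_add_distrib]
  have hUm : (U.card : ℝ) ≤ m := by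
    exact_mod_cast (Finset.card_le_univ U).trans (Fintype.card_fin m).le
  have := mul_le_mul_of_nonneg_left hUm hg.le
  have hMN : 0 ≤ M * N := mul_nonneg hM0 (Nat.cast_nonneg N)
  push_cast at hwL hwR
  linarith

/-- The deterministic count, in the form used by the assembly. -/
theorem countProp {M κ : ℝ} (hκ : 0 < κ) : CountProp M κ :=
  fun _ hGS P hg hδ _ _ a b hab hsep D hD J N hN k _ ht =>
    block_count (meetHalf (.inl rfl)) (meetStrip (.inl rfl)) hκ hGS P hg hδ a b hab hsep D hD J N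
      hN k ht

end Vale.Agent.P158
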