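import Vale.Agent.P158.Spec

/-!
Definitions of the main argument: rigid lines through an entrance site, their middle parts in a
strip, tilt regions of blocks, and the certificate of a block.
-/

open MeasureTheory Filter Topology

namespace Vale.Agent.P158

/-- The three almost sure properties at one configuration. -/
structure Nice (M κ : ℝ) (t : Conf) : Prop where
  good : Good M κ t
  straight : ∀ γ θ θ', IsBigeodesic t γ → RayDir (fwd γ 0) θ → RayDir (bwd γ 0) θ' → θ' = -θ
  fork : ¬ ∃ γ δ, IsBigeodesic t γ ∧ HasDirections γ ∧ IsBigeodesic t δ ∧ HasDirections δ ∧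
    (∀ n : ℕ, γ n = δ n) ∧ γ (-1) ≠ δ (-1)
  matched : ∀ γ, IsBigeodesic t γ → HasDirections γ → ∀ r, IsRayIn t Set.univ r →
    (∃ θ, RayDir r θ) →
    (∃ C : ℝ, ∀ z, -C ≤ bus t Set.univ r z + bus t Set.univ (fwd γ 0) z) →
    ∃ c : ℝ, ∀ z, bus t Set.univ r z - bus t Set.univ (bwd γ 0) z = c

/-- The bigeodesic enters column `0` first at height `y`, from the left, at index `0`. -/
def EntAt (y : ℤ) (γ : ℤ → V) : Prop :=
  γ 0 = (0, y) ∧ γ (-1) = (-1, y) ∧ ∀ i : ℤ, i < 0 → (γ i).1 < 0

/-- Every route between points of the two ends which avoids the entrance edge costs at least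
`δ` more than the bigeodesic. -/
def RigidAt (t : Conf) (δ : ℝ) (γ : ℤ → V) : Prop :=
  ∀ (n m : ℕ) (x z : V) (p : grid.Walk x z), γ (-((n : ℤ) + 1)) = x → γ m = z →
    WalkIn {edgeOf (γ (-1)) (γ 0)}ᶜ p → T t x z + δ ≤ plen t p

/-- A rigid doubly directed cone line entering column `0` at height `y`. -/
def SiteLine (t : Conf) (R : ℕ) (a b δ : ℝ) (y : ℤ) (γ : ℤ → V) : Prop :=
  ConeLine t 0 a b R γ ∧ HasDirections γ ∧ EntAt y γ ∧ RigidAt t δ γ

/-- From `v`, no self-avoiding walk of length at least `L₀` has more than a quarter of its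
edges lighter than `r`. -/
def FewLow (r : ℝ) (L₀ : ℕ) (v : V) (t : Conf) : Prop :=
  ∀ (w : V) (p : grid.Walk v w), p.IsPath → L₀ ≤ p.length →
    4 * (p.darts.filter fun d => decide (wt t d.toProd.1 d.toProd.2 < r)).length ≤ p.length

/-- The event that the site `(0, y)` is good for the slope unit `[a, b]`. -/
def siteEvent (R L₀ : ℕ) (a b δ r : ℝ) (y : ℤ) : Set Conf :=
  {t | FewLow r L₀ (0, y) t ∧ ∃ γ, SiteLine t R a b δ y γ}

/-- The first index at which the path reaches column `-L`. -/
noncomputable def lftIdx (L : ℤ) (γ : ℤ → V) : ℤ := sInf {i | -L ≤ (γ i).1}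

/-- The last index at which the path is in or left of column `L`. -/
noncomputable def rgtIdx (L : ℤ) (γ : ℤ → V) : ℤ := sSup {i | (γ i).1 ≤ L}

/-- The backward tail left of column `-L`. -/
noncomputable def lTail (L : ℤ) (γ : ℤ → V) : ℕ → V := bwd γ (lftIdx L γ)

/-- The forward tail right of column `L`. -/
noncomputable def rTail (L : ℤ) (γ : ℤ → V) : ℕ → V := fwd γ (rgtIdx L γ)

/-- The edges of the middle part of the path. -/
noncomputable def midEdges (L : ℤ) (γ : ℤ → V) : Finset Edge :=
  (Finset.Ico (lftIdx L γ) (rgtIdx L γ)).image fun i => edgeOf (γ i) (γ (i + 1))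

/-- A vertex of the tilt region of the block of entrance heights `[h, h + d)`. -/
def InTube (L : ℕ) (R : ℕ) (a b : ℝ) (h : ℤ) (d : ℕ) (v : V) : Prop :=
  |v.1| ≤ (L : ℤ) ∧ (h : ℝ) + min (a * v.1) (b * v.1) - 9 * R ≤ (v.2 : ℝ) ∧
    (v.2 : ℝ) ≤ h + d + max (a * v.1) (b * v.1) + 9 * R

/-- The tilt region of a block: edges inside its tube with an end strictly inside the strip. -/
def regSet (L : ℕ) (R : ℕ) (a b : ℝ) (h : ℤ) (d : ℕ) : Set Edge :=
  {e | InTube L R a b h d (eFst e) ∧ InTube L R a b h d (eSnd e) ∧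
    (|(eFst e).1| < (L : ℤ) ∨ |(eSnd e).1| < (L : ℤ))}

/-- Increment of the half-plane Busemann function of the left tail between two heights. -/
noncomputable def lInc (t : Conf) (L : ℤ) (γ : ℤ → V) (z z' : ℤ) : ℝ :=
  bus t (lefE 0 (-L)) (lTail L γ) (-L, z') - bus t (lefE 0 (-L)) (lTail L γ) (-L, z)

/-- Increment of the half-plane Busemann function of the right tail between two heights. -/
noncomputable def rInc (t : Conf) (L : ℤ) (γ : ℤ → V) (z z' : ℤ) : ℝ :=
  bus t (rigE 0 L) (rTail L γ) (L, z') - bus t (rigE 0 L) (rTail L γ) (L, z)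

/-- Two lines have jump at least `g` somewhere in the window of radius `W` around height `h`. -/
def JumpAt (t : Conf) (L : ℤ) (g : ℝ) (h : ℤ) (W : ℕ) (γ γ' : ℤ → V) : Prop :=
  ∃ z z' : ℤ, h - W ≤ z ∧ z ≤ z' ∧ z' ≤ h + W ∧
    g ≤ |lInc t L γ z z' - lInc t L γ' z z'| + |rInc t L γ z z' - rInc t L γ' z z'|

/-- The parameters shared by all blocks of one run of the main argument. -/
structure Params where
  /-- cone radius -/
  R : ℕ
  /-- half width of the strip -/
  L : ℕ
  /-- number of entrance heights of a block -/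
  d : ℕ
  /-- window of the jumps -/
  W : ℕ
  /-- rigidity -/
  δ : ℝ
  /-- gain -/
  g : ℝ

/-- The certificate of the block at height `h` with slope unit `[a, b]`: `pre` is a nice
configuration which agrees with `t` off the tilt region and dominates it, and carries `k` rigid
lines of the unit entering at distinct heights of the block, each of which gains at least `g`,
with pairwise jumps at least `g`. -/
def Cert (P : Params) (GS : Set Conf) (a b : ℝ) (h : ℤ) (k : ℕ) (pre t : Conf) : Prop :=
  pre ∈ GS ∧ t ∈ GS ∧ (∀ e, t e ≤ pre e) ∧ (∀ e, e ∉ regSet P.L P.R a b h P.d → t e = pre e) ∧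
  ∃ (ys : Fin k → ℤ) (γ : Fin k → ℤ → V), Function.Injective ys ∧
    (∀ i, h ≤ ys i ∧ ys i < h + P.d ∧ SiteLine pre P.R a b P.δ (ys i) (γ i) ∧
      P.g ≤ ∑ e ∈ midEdges P.L (γ i), (pre e - t e)) ∧
    ∀ i j, i ≠ j → JumpAt pre P.L P.g h P.W (γ i) (γ j)

/-- The configurations in which the block carries a certificate. -/
def blockEvent (P : Params) (GS : Set Conf) (a b : ℝ) (h : ℤ) (k : ℕ) : Set Conf :=
  {t | ∃ pre, Cert P GS a b h k pre t}

end Vale.Agent.P158
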