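import Vale.Agent.P158.MainDefs
import Vale.Agent.P158.Rays
import Vale.Agent.P158.Meas
import Vale.Agent.P158.BasicLaw

/-!
Start of the main argument: reduction to lines of slope in `[-1, 1]`, existence of rigid site
lines with positive probability, and their distribution over slope units.
-/

open MeasureTheory Filter Topology
open scoped ENNReal

namespace Vale.Agent.P158

/-- The unit vector of a vertex. -/
noncomputable def unitVec (v : V) : ℂ := ‖toPlane v‖⁻¹ • toPlane v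

lemma rayDir_fwd_iff (γ : ℤ → V) (m : ℤ) (θ : ℂ) :
    RayDir (fwd γ m) θ ↔ Tendsto (fun i => unitVec (γ i)) atTop (𝓝 θ) := by
  have h : Filter.map (fun n : ℕ => m + (n : ℤ)) atTop = (atTop : Filter ℤ) := by
    rw [show (fun n : ℕ => m + (n : ℤ)) = (fun i : ℤ => m + i) ∘ (Nat.cast : ℕ → ℤ) from rfl,
      ← Filter.map_map, Nat.map_cast_int_atTop]
    exact (OrderIso.addLeft m).map_atTop
  rw [RayDir, ← h, tendsto_map'_iff]
  rfl

lemma rayDir_bwd_iff (γ : ℤ → V) (m : ℤ) (θ : ℂ) :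
    RayDir (bwd γ m) θ ↔ Tendsto (fun i => unitVec (γ i)) atBot (𝓝 θ) := by
  have h := rayDir_fwd_iff (fun i => γ (-i)) (-m) θ
  have e : fwd (fun i => γ (-i)) (-m) = bwd γ m := by
    funext n; simp only [fwd, bwd]; congr 1; ring
  rw [e] at h
  rw [h]
  constructor
  · intro h'
    simpa [Function.comp_def] using h'.comp tendsto_neg_atBot_atTop
  · intro h'
    exact h'.comp tendsto_neg_atTop_atBot

lemma fwd_reindex (γ : ℤ → V) (m : ℤ) : fwd (fun i => γ (i + m)) 0 = fwd γ m := by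
  funext n; simp only [fwd]; congr 1; ring

lemma bwd_reindex (γ : ℤ → V) (m : ℤ) : bwd (fun i => γ (i + m)) 0 = bwd γ m := by
  funext n; simp only [bwd]; congr 1; ring

lemma IsBigeodesic.negIdx {t : Conf} {γ : ℤ → V} (h : IsBigeodesic t γ) :
    IsBigeodesic t (fun i => γ (-i)) where
  inj := fun i j hij => by simpa using h.inj hij
  adj := fun i => by
    have := (h.adj (-i - 1)).symm
    rw [show -i - 1 + 1 = -i by ring] at this
    rw [show -(i + 1) = -i - 1 by ring]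
    exact this
  geo := fun i j hij => by
    rw [T_comm, ← h.geo (-j) (-i) (by omega)]
    refine Finset.sum_nbij' (fun k => -k - 1) (fun k => -k - 1) ?_ ?_ ?_ ?_ ?_
    · intro k hk; simp only [Finset.mem_Ico] at hk ⊢; omega
    · intro k hk; simp only [Finset.mem_Ico] at hk ⊢; omega
    · intro k _; ring
    · intro k _; ring
    · intro k _
      rw [wt_comm, show -(k + 1) = -k - 1 by ring, show -k - 1 + 1 = -k by ring]

lemma toPlane_neg (v : V) : toPlane (-v) = -toPlane v := by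
  apply Complex.ext <;> simp [toPlane]

lemma rayDir_neg {r : ℕ → V} {θ : ℂ} (h : RayDir r θ) : RayDir (fun n => -r n) (-θ) := by
  unfold RayDir at *
  simpa only [toPlane_neg, norm_neg, smul_neg] using h.neg

lemma norm_rayDir {r : ℕ → V} {θ : ℂ} (hr : Function.Injective r) (h : RayDir r θ) : ‖θ‖ = 1 := by
  refine tendsto_nhds_unique h.norm (tendsto_const_nhds.congr' ?_)
  filter_upwards [(tendsto_norm_toPlane hr).eventually_gt_atTop 0] with n hn
  rw [norm_smul, norm_inv, norm_norm, inv_mul_cancel₀ hn.ne']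

/-- The first coordinate of a ray whose direction points right tends to infinity. -/
lemma tendsto_fst_of_rayDir {r : ℕ → V} {θ : ℂ} (hr : Function.Injective r) (h : RayDir r θ)
    (hθ : 0 < θ.re) : Tendsto (fun n => ((r n).1 : ℝ)) atTop atTop := by
  have h1 : Tendsto (fun n => (‖toPlane (r n)‖⁻¹ • toPlane (r n)).re) atTop (𝓝 θ.re) :=
    (Complex.continuous_re.tendsto θ).comp h
  refine (h1.pos_mul_atTop hθ (tendsto_norm_toPlane hr)).congr' ?_
  filter_upwards [(tendsto_norm_toPlane hr).eventually_gt_atTop 0] with n hn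
  rw [Complex.smul_re, smul_eq_mul, mul_comm, ← mul_assoc, mul_inv_cancel₀ hn.ne', one_mul]
  rfl

/-- A right-pointing ray is eventually in every cone around its slope. -/
lemma eventually_inCone {r : ℕ → V} {θ : ℂ} (hr : Function.Injective r) (h : RayDir r θ)
    (hθ : 0 < θ.re) {a b : ℝ} (ha : a < θ.im / θ.re) (hb : θ.im / θ.re < b) :
    ∀ᶠ R : ℕ in atTop, InCone 0 1 a b R r := by
  have hN := tendsto_norm_toPlane hr
  have h1 : Tendsto (fun n => (‖toPlane (r n)‖⁻¹ • toPlane (r n)).re -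
      ((r 0).1 : ℝ) * ‖toPlane (r n)‖⁻¹) atTop (𝓝 θ.re) := by
    simpa using ((Complex.continuous_re.tendsto θ).comp h).sub
      ((tendsto_inv_atTop_zero.comp hN).const_mul ((r 0).1 : ℝ))
  have h2 : Tendsto (fun n => (‖toPlane (r n)‖⁻¹ • toPlane (r n)).im -
      ((r 0).2 : ℝ) * ‖toPlane (r n)‖⁻¹) atTop (𝓝 θ.im) := by
    simpa using ((Complex.continuous_im.tendsto θ).comp h).sub
      ((tendsto_inv_atTop_zero.comp hN).const_mul ((r 0).2 : ℝ))
  have h3 := h2.div h1 hθ.ne'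
  have hev : ∀ᶠ n in atTop, 0 < (r n).1 - (r 0).1 ∧
      a * (((r n).1 - (r 0).1 : ℤ) : ℝ) ≤ (((r n).2 - (r 0).2 : ℤ) : ℝ) ∧
      (((r n).2 - (r 0).2 : ℤ) : ℝ) ≤ b * (((r n).1 - (r 0).1 : ℤ) : ℝ) := by
    filter_upwards [hN.eventually_gt_atTop 0, h3.eventually_const_lt ha, h3.eventually_lt_const hb,
      h1.eventually_const_lt hθ] with n hn hlo hhi hpos
    simp only [Pi.div_apply, Complex.smul_re, Complex.smul_im, smul_eq_mul] at hlo hhi hpos
    have e1 : ‖toPlane (r n)‖⁻¹ * (toPlane (r n)).re - ((r 0).1 : ℝ) * ‖toPlane (r n)‖⁻¹ =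
        (((r n).1 - (r 0).1 : ℤ) : ℝ) * ‖toPlane (r n)‖⁻¹ := by
      simp only [toPlane]; push_cast; ring
    have e2 : ‖toPlane (r n)‖⁻¹ * (toPlane (r n)).im - ((r 0).2 : ℝ) * ‖toPlane (r n)‖⁻¹ =
        (((r n).2 - (r 0).2 : ℤ) : ℝ) * ‖toPlane (r n)‖⁻¹ := by
      simp only [toPlane]; push_cast; ring
    rw [e1] at hpos hlo hhi
    rw [e2] at hlo hhi
    have hi : 0 < ‖toPlane (r n)‖⁻¹ := inv_pos.2 hn
    have hd : 0 < (((r n).1 - (r 0).1 : ℤ) : ℝ) := pos_of_mul_pos_left hpos hi.le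
    rw [mul_div_mul_right _ _ hi.ne'] at hlo hhi
    rw [lt_div_iff₀ hd] at hlo
    rw [div_lt_iff₀ hd] at hhi
    exact ⟨by exact_mod_cast hd, hlo.le, hhi.le⟩
  obtain ⟨N, hN'⟩ := eventually_atTop.1 hev
  filter_upwards [eventually_ge_atTop N] with R hR n hn
  obtain ⟨p1, p2, p3⟩ := hN' n (hR.trans hn)
  simp only [lev, zero_mul, add_zero, one_mul]
  exact ⟨p1, p2, p3⟩

lemma inCone_neg_iff {a b : ℝ} {R : ℕ} {r : ℕ → V} :
    InCone 0 (-1) a b R r ↔ InCone 0 1 a b R (fun n => -r n) := by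
  simp [InCone, lev, sub_eq_add_neg, add_comm]

lemma InCone.mono {k σ : ℤ} {a b a' b' : ℝ} {R R' : ℕ} {r : ℕ → V}
    (h : InCone k σ a b R r) (ha : a' ≤ a) (hb : b ≤ b') (hR : R ≤ R') :
    InCone k σ a' b' R' r := by
  intro n hn
  obtain ⟨h1, h2, h3⟩ := h n (hR.trans hn)
  have h1' : (0 : ℝ) ≤ ((σ * (lev k (r n) - lev k (r 0)) : ℤ) : ℝ) := by exact_mod_cast h1.le
  exact ⟨h1, (mul_le_mul_of_nonneg_right ha h1').trans h2,
    h3.trans (mul_le_mul_of_nonneg_right hb h1')⟩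

lemma SiteLine.mono {t : Conf} {R R' : ℕ} {a b a' b' δ : ℝ} {y : ℤ} {γ : ℤ → V}
    (h : SiteLine t R a b δ y γ) (ha : a' ≤ a) (hb : b ≤ b') (hR : R ≤ R') :
    SiteLine t R' a' b' δ y γ :=
  ⟨⟨h.1.1, h.1.2.1.mono ha hb hR, h.1.2.2.mono ha hb hR⟩, h.2⟩

/-- A bigeodesic pointing right with slope in `[-1, 1]` whose two directions are opposite. -/
def DirLine (t : Conf) (γ : ℤ → V) : Prop :=
  IsBigeodesic t γ ∧ ∃ θ : ℂ, RayDir (fwd γ 0) θ ∧ RayDir (bwd γ 0) (-θ) ∧ 0 < θ.re ∧ |θ.im| ≤ θ.re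

/-- Such a line, reindexed, is eventually in a cone around its slope on both sides. -/
lemma DirLine.cones {t : Conf} {γ : ℤ → V} (h : DirLine t γ) (m : ℤ) {θ : ℂ}
    (hθ : RayDir (fwd γ 0) θ) (hθ' : RayDir (bwd γ 0) (-θ)) (hre : 0 < θ.re) {a b : ℝ}
    (ha : a < θ.im / θ.re) (hb : θ.im / θ.re < b) :
    ∀ᶠ R : ℕ in atTop, ConeLine t 0 a b R (fun i => γ (i + m)) := by
  have hγ := h.1.reindex m
  have e1 : RayDir (fwd (fun i => γ (i + m)) 0) θ := by
    have := (rayDir_fwd_iff γ m θ).2 ((rayDir_fwd_iff γ 0 θ).1 hθ)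
    rwa [fwd_reindex]
  have e2 : RayDir (bwd (fun i => γ (i + m)) 0) (-θ) := by
    have := (rayDir_bwd_iff γ m (-θ)).2 ((rayDir_bwd_iff γ 0 (-θ)).1 hθ')
    rwa [bwd_reindex]
  have e3 := rayDir_neg e2
  rw [neg_neg] at e3
  filter_upwards [eventually_inCone (injective_fwd hγ.inj 0) e1 hre ha hb,
    eventually_inCone (neg_injective.comp (injective_bwd hγ.inj 0)) e3 hre ha hb] with R h1 h2
  exact ⟨hγ, h1, inCone_neg_iff.2 h2⟩

/-- A rightward line can be reindexed to enter column `0` first at index `0`. -/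
lemma DirLine.entrance {t : Conf} {γ : ℤ → V} (h : DirLine t γ) :
    ∃ (m y : ℤ), EntAt y (fun i => γ (i + m)) := by
  obtain ⟨hγ, θ, hf, hb, hre, -⟩ := h
  have hf' := tendsto_fst_of_rayDir (injective_fwd hγ.inj 0) hf hre
  have hb0 := rayDir_neg hb
  rw [neg_neg] at hb0
  have hb' := tendsto_fst_of_rayDir (neg_injective.comp (injective_bwd hγ.inj 0)) hb0 hre
  obtain ⟨n, hn⟩ := (hf'.eventually_ge_atTop 0).exists
  obtain ⟨N, hN⟩ := eventually_atTop.1 (hb'.eventually_gt_atTop 0)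
  have hex : ∃ i : ℤ, 0 ≤ (γ i).1 := ⟨n, by simpa [fwd] using hn⟩
  have hbd : ∀ i : ℤ, 0 ≤ (γ i).1 → -(N : ℤ) ≤ i := fun i hi => by
    by_contra hlt
    have := hN (-i).toNat (by omega)
    have e : (0 : ℤ) - ((-i).toNat : ℤ) = i := by omega
    simp only [Function.comp, bwd, e, Prod.fst_neg, Int.cast_neg, Left.neg_pos_iff] at this
    have : (γ i).1 < 0 := by exact_mod_cast this
    omega
  obtain ⟨m, hm, hmin⟩ := Int.exists_least_of_bdd ⟨-(N : ℤ), hbd⟩ hex
  have hlt : ∀ i < m, (γ i).1 < 0 := fun i hi => not_le.1 fun h' => (not_le.2 hi) (hmin i h')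
  have h1 := hlt (m - 1) (by omega)
  have hadj := hγ.adj (m - 1)
  rw [sub_add_cancel] at hadj
  rw [adj_iff] at hadj
  have hstep : (γ m).1 = 0 ∧ (γ (m - 1)).1 = -1 ∧ (γ (m - 1)).2 = (γ m).2 := by omega
  refine ⟨m, (γ m).2, ?_, ?_, fun i hi => hlt _ (by omega)⟩
  · simp [Prod.ext_iff, hstep.1]
  · simp [Prod.ext_iff, show (-1 : ℤ) + m = m - 1 by ring, hstep.2.1, hstep.2.2]

/-- If directed bigeodesics exist with positive probability then so do `DirLine`s. -/
theorem dirLine_pos {G : Measure ℝ} {M : ℝ} (hG : LawOK G M) (hS : StraightProp G)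
    (h : ¬ NoDirectedBigeodesic G) : law G {t | ∃ γ, DirLine t γ} ≠ 0 := by
  haveI := hG.prob
  intro h0
  apply h
  have hnot : ∀ᵐ t ∂law G, ¬ ∃ γ, DirLine t γ := by
    rw [ae_iff]; simpa using h0
  filter_upwards [hS, hnot, ae_swapConf (G := G) hnot] with t hst h1 h2
  rintro ⟨γ, hγ, ⟨θ, hf⟩, ⟨θ', hb⟩⟩
  have hf0 : RayDir (fwd γ 0) θ := by simpa [fwd, RayDir] using hf
  have hb0 : RayDir (bwd γ 0) θ' := by simpa [bwd, RayDir] using hb
  obtain rfl := hst γ θ θ' hγ hf0 hb0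
  have key : ∀ (s : Conf) (δ : ℤ → V) (φ : ℂ), IsBigeodesic s δ → RayDir (fwd δ 0) φ →
      RayDir (bwd δ 0) (-φ) → φ.re ≠ 0 → |φ.im| ≤ |φ.re| → ∃ γ, DirLine s γ := by
    intro s δ φ hδ hp hq hne hle
    rcases lt_or_gt_of_ne hne with hneg | hpos
    · refine ⟨fun i => δ (-i), hδ.negIdx, -φ, ?_, ?_, by simpa using hneg, ?_⟩
      · have := (rayDir_bwd_iff δ 0 (-φ)).1 hq
        exact (rayDir_fwd_iff _ 0 _).2 (this.comp tendsto_neg_atTop_atBot)
      · rw [neg_neg]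
        have := (rayDir_fwd_iff δ 0 φ).1 hp
        exact (rayDir_bwd_iff _ 0 _).2 (this.comp tendsto_neg_atBot_atTop)
      · simpa [abs_of_neg hneg] using hle
    · exact ⟨δ, hδ, φ, hp, hq, hpos, by simpa [abs_of_pos hpos] using hle⟩
  rcases le_or_gt |θ.im| |θ.re| with hle | hgt
  · have hne : θ.re ≠ 0 := fun h0 => by
      have h1n := norm_rayDir (injective_fwd hγ.inj 0) hf0
      rw [h0, abs_zero] at hle
      have : θ = 0 := Complex.ext h0 (abs_eq_zero.1 (le_antisymm hle (abs_nonneg _)))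
      simp [this] at h1n
    exact h1 (key t γ θ hγ hf0 hb0 hne hle)
  · refine h2 (key (swapConf t) (fun i => ((γ i).2, (γ i).1)) ⟨θ.im, θ.re⟩ ?_ ?_ ?_ ?_ ?_)
    · rw [isBigeodesic_swapConf]; exact hγ
    · exact hf0.swap
    · have := hb0.swap
      have e : (⟨(-θ).im, (-θ).re⟩ : ℂ) = -⟨θ.im, θ.re⟩ := by apply Complex.ext <;> simp
      rw [e] at this
      exact this
    · intro h0
      simp only at h0
      rw [h0, abs_zero] at hgt
      exact absurd hgt (not_lt.2 (abs_nonneg _))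
    · simpa using hgt.le

/-- The entrance event before rigidity. -/
def entEvent (R : ℕ) (r : ℝ) (y : ℤ) : Set Conf :=
  {t | r ≤ t ((-1, y), false) ∧
    ∃ γ, ConeLine t 0 (-2) 2 R γ ∧ HasDirections γ ∧ EntAt y γ}

lemma hasDirections_reindex {γ : ℤ → V} (h : HasDirections γ) (m : ℤ) :
    HasDirections (fun i => γ (i + m)) := by
  obtain ⟨⟨θ, hθ⟩, θ', hθ'⟩ := (hasDirections_iff γ).1 h
  refine (hasDirections_iff _).2 ⟨⟨θ, ?_⟩, θ', ?_⟩
  · rw [fwd_reindex]; exact (rayDir_fwd_iff γ m θ).2 ((rayDir_fwd_iff γ 0 θ).1 hθ)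
  · rw [bwd_reindex]; exact (rayDir_bwd_iff γ m θ').2 ((rayDir_bwd_iff γ 0 θ').1 hθ')

lemma edgeOf_entrance (y : ℤ) : edgeOf ((-1 : ℤ), y) ((0 : ℤ), y) = (((-1 : ℤ), y), false) := by
  simp [edgeOf]

/-- Rigid site lines exist with positive probability. -/
theorem siteLine_pos {G : Measure ℝ} {M κ : ℝ} (hG : LawOK G M)
    (hgood : ∀ᵐ t ∂law G, Good M κ t) (hS : StraightProp G) (h : ¬ NoDirectedBigeodesic G) :
    ∃ (R : ℕ) (y : ℤ) (δ : ℝ), 0 < δ ∧ law G {t | ∃ γ, SiteLine t R (-2) 2 δ y γ} ≠ 0 := by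
  haveI := hG.prob
  have hleft := ae_left_mass hG.noAtoms
  have hcov : ∀ᵐ t ∂law G, (∃ γ, DirLine t γ) →
      ∃ (R : ℕ) (y : ℤ) (q : ℚ), 0 < G (Set.Iio (q : ℝ)) ∧ t ∈ entEvent R q y := by
    filter_upwards [hG.ae_conf hleft] with t hl
    rintro ⟨γ, hγ⟩
    obtain ⟨m, y, hy⟩ := hγ.entrance
    obtain ⟨θ, hf, hb, hre, him⟩ := hγ.2
    have hs : |θ.im / θ.re| ≤ 1 := by rw [abs_div, abs_of_pos hre, div_le_one hre]; exact him
    rw [abs_le] at hs
    obtain ⟨R, hR⟩ := (DirLine.cones hγ m hf hb hre (a := -2) (b := 2) (by linarith)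
      (by linarith)).exists
    have hd : HasDirections (fun i => γ (i + m)) :=
      hasDirections_reindex ((hasDirections_iff γ).2 ⟨⟨θ, hf⟩, -θ, hb⟩) m
    -- a rational below the weight of the entrance edge with positive mass below it
    set x := t ((-1, y), false)
    have hex : ∃ q : ℚ, (q : ℝ) ≤ x ∧ 0 < G (Set.Iio (q : ℝ)) := by
      have hu : Set.Iio x = ⋃ q : {q : ℚ // (q : ℝ) ≤ x}, Set.Iio (q.1 : ℝ) := by
        ext z
        simp only [Set.mem_Iio, Set.mem_iUnion]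
        constructor
        · intro hz
          obtain ⟨q, h1, h2⟩ := exists_rat_btwn hz
          exact ⟨⟨q, h2.le⟩, h1⟩
        · rintro ⟨q, hq⟩
          exact hq.trans_le q.2
      have hpos : 0 < G (Set.Iio x) :=
        (hl _ 1 one_pos).trans_le (measure_mono fun z hz => hz.2)
      rw [hu] at hpos
      obtain ⟨q, hq⟩ := exists_measure_pos_of_not_measure_iUnion_null hpos.ne'
      exact ⟨q.1, q.2, hq⟩
    obtain ⟨q, hq1, hq2⟩ := hex
    exact ⟨R, y, q, hq2, hq1, _, hR, hd, hy⟩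
  obtain ⟨R, y, q, hq, hE⟩ : ∃ (R : ℕ) (y : ℤ) (q : ℚ),
      0 < G (Set.Iio (q : ℝ)) ∧ law G (entEvent R q y) ≠ 0 := by
    by_contra hcon
    push Not at hcon
    apply dirLine_pos hG hS h
    have hU : law G (⋃ (R : ℕ) (y : ℤ) (q : ℚ) (_ : 0 < G (Set.Iio (q : ℝ))),
        entEvent R q y) = 0 := by
      simp only [measure_iUnion_null_iff]
      exact fun R y q hq => hcon R y q hq
    refine measure_mono_null_ae ?_ hU
    filter_upwards [hcov] with t ht hmem
    obtain ⟨R, y, q, hq, hm⟩ := ht hmem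
    exact Set.mem_iUnion.2 ⟨R, Set.mem_iUnion.2 ⟨y, Set.mem_iUnion.2 ⟨q, Set.mem_iUnion.2 ⟨hq, hm⟩⟩⟩⟩
  -- lower the entrance edge
  have hu : Set.Iio (q : ℝ) = ⋃ p : {p : ℚ // (p : ℝ) < q}, Set.Iio (p.1 : ℝ) := by
    ext z
    simp only [Set.mem_Iio, Set.mem_iUnion]
    constructor
    · intro hz
      obtain ⟨p, h1, h2⟩ := exists_rat_btwn hz
      exact ⟨⟨p, h2⟩, h1⟩
    · rintro ⟨p, hp⟩
      exact hp.trans p.2
  obtain ⟨p, hp⟩ : ∃ p : {p : ℚ // (p : ℝ) < q}, 0 < G (Set.Iio (p.1 : ℝ)) := by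
    have := hq
    rw [hu] at this
    exact exists_measure_pos_of_not_measure_iUnion_null this.ne'
  refine ⟨R, y, (q : ℝ) - p.1, sub_pos.2 p.2, fun h0 => hE ?_⟩
  set e : Edge := (((-1 : ℤ), y), false) with he
  have hnone : ∀ᵐ t ∂law G, t ∉ {t | ∃ γ, SiteLine t R (-2) 2 ((q : ℝ) - p.1) y γ} :=
    measure_eq_zero_iff_ae_notMem.1 h0
  have hbad : ∀ᵐ t ∂law G, t ∉ entEvent R q y := by
    have hval : 0 < G (Set.Iio (p.1 : ℝ) ∩ Set.Ici 0) := by
      rw [measure_inter_conull]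
      · exact hp
      · refine measure_mono_null (fun z hz => ?_) (ae_iff.1 hG.ae_mem)
        exact fun hz' => hz (Set.mem_Ici.2 hz'.1)
    filter_upwards [exists_override (G := G) hnone, hgood] with t ht hg
    rintro ⟨hq0, γ, hcone, hdir, hent⟩
    obtain ⟨v, hv, hnot⟩ := ht {e} (fun _ => Set.Iio (p.1 : ℝ) ∩ Set.Ici 0) (fun _ => hval)
    set t' := override t {e} v with ht'
    have hx := hv ⟨e, Finset.mem_singleton_self e⟩
    have h0' : ∀ f, 0 ≤ t' f := fun f => by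
      simp only [ht', override]
      split_ifs with hf
      · exact (hv ⟨f, hf⟩).2
      · exact hg.nonneg f
    have hoff : ∀ f, f ∉ ({e} : Finset Edge) → t' f = t f := fun f hf => by
      simp only [ht', override, dif_neg hf]
    have hte : t' e = v ⟨e, Finset.mem_singleton_self e⟩ := by
      simp only [ht', override, Finset.mem_singleton, dite_true]
    have hle : ∀ f, t' f ≤ t f := fun f => by
      by_cases hf : f = e
      · subst hf; rw [hte]; linarith [Set.mem_Iio.1 hx.1, p.2]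
      · rw [hoff f (by simpa using hf)]
    have hpath : edgeOf (γ (-1)) (γ 0) = e := by rw [hent.1, hent.2.1, edgeOf_entrance]
    have hon : ∀ f ∈ ({e} : Finset Edge), ∃ i, f = edgeOf (γ i) (γ (i + 1)) := fun f hf => by
      rw [Finset.mem_singleton] at hf
      exact ⟨-1, by rw [hf, neg_add_cancel, hpath]⟩
    have hγ' := Rays.bigeodesic_lower hcone.1 hg.nonneg h0' hoff hle hon
    refine hnot ⟨γ, ⟨hγ', hcone.2⟩, hdir, hent, fun n m x z w hx' hz' hw => ?_⟩
    -- the bigeodesic loses at least the drop, a route avoiding the edge loses nothing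
    set i : ℤ := -((n : ℤ) + 1)
    have hw' : plen t' w = plen t w :=
      Rays.plen_congr hw (fun f hf => hoff f (by rw [hpath] at hf; simpa using hf))
    rw [hw']
    have hT : T t (γ i) (γ m) ≤ plen t w := by
      subst hx'; subst hz'; exact T_le hg.nonneg w
    subst hx'; subst hz'
    rw [← hγ'.geo i m (by omega)]
    rw [← hcone.1.geo i m (by omega)] at hT
    have hmem : (-1 : ℤ) ∈ Finset.Ico i (m : ℤ) := by simp only [Finset.mem_Ico]; omega
    rw [← Finset.add_sum_erase _ _ hmem] at hT ⊢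
    have hrest : ∑ k ∈ (Finset.Ico i (m : ℤ)).erase (-1), wt t' (γ k) (γ (k + 1)) =
        ∑ k ∈ (Finset.Ico i (m : ℤ)).erase (-1), wt t (γ k) (γ (k + 1)) := by
      refine Finset.sum_congr rfl fun k hk => hoff _ ?_
      rw [Finset.mem_singleton, ← hpath]
      intro hk'
      rw [edgeOf_eq_iff (hcone.1.adj k) (by simpa using hcone.1.adj (-1))] at hk'
      rcases hk' with ⟨h1, -⟩ | ⟨h1, h2⟩
      · exact (Finset.mem_erase.1 hk).1 (hcone.1.inj h1)
      · have := hcone.1.inj h1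
        have := hcone.1.inj h2
        omega
    rw [hrest]
    simp only [wt, neg_add_cancel, hpath, hte] at hT ⊢
    linarith [Set.mem_Iio.1 hx.1]
  exact measure_eq_zero_iff_ae_notMem.2 hbad

end Vale.Agent.P158
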