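import Vale.Agent.P158.Match.Surgery
import Vale.Agent.P158.BasicLaw

/-!
The matching lemma: almost surely a directed ray with finite crossed excess against the forward
end of a directed bigeodesic has, up to a constant, the Busemann function of its backward end.
Otherwise three local changes of the weights produce a fork with positive probability.
-/

open MeasureTheory Filter Topology Set

namespace Vale.Agent.P158.Match

variable {G : Measure ℝ}

lemma measure_Iic_zero (hG : LawGen G) : G (Iic 0) = 0 := by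
  have := hG.prob
  refine measure_mono_null (t := (Ici 0)ᶜ ∪ {0}) ?_
    (measure_union_null ((prob_compl_eq_zero_iff measurableSet_Ici).2 hG.supp) (hG.noAtoms 0))
  intro x hx
  by_cases h : x = 0
  · exact Or.inr h
  · exact Or.inl fun hm => h (le_antisymm hx hm)

/-- The values with no mass at distance between `c` and `κ` below them. -/
def noDrop (G : Measure ℝ) (κ c : ℝ) : Set ℝ := {x | G (Ioo (x - κ) (x - c)) = 0}

lemma measurableSet_noDrop (G : Measure ℝ) [SFinite G] (κ c : ℝ) :
    MeasurableSet (noDrop G κ c) := by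
  have hE : MeasurableSet {p : ℝ × ℝ | p.1 - κ < p.2 ∧ p.2 < p.1 - c} :=
    (measurableSet_lt (measurable_fst.sub_const κ) measurable_snd).inter
      (measurableSet_lt measurable_snd (measurable_fst.sub_const c))
  exact measurable_measure_prodMk_left hE (measurableSet_singleton 0)

lemma exists_noDrop_small (hG : LawGen G) {κ δ : ℝ} (hκ : 0 < κ) (hδ : 0 < δ) :
    ∃ c > 0, c < κ ∧ G (noDrop G κ c) ≤ ENNReal.ofReal δ := by
  have := hG.prob
  set B : ℕ → Set ℝ := fun k => noDrop G κ (1 / (k + 1)) with hB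
  have hanti : Antitone B := fun a b hab x hx => measure_mono_null
    (Ioo_subset_Ioo le_rfl (sub_le_sub_left (one_div_le_one_div_of_le (by positivity)
      (by exact_mod_cast Nat.succ_le_succ hab)) x)) hx
  have hzero : G (⋂ k, B k) = 0 := by
    refine measure_mono_null (fun x hx => ?_) (ae_iff.1 (ae_left_mass hG.noAtoms))
    simp only [mem_ofPred_eq, not_forall, not_lt, nonpos_iff_eq_zero]
    refine ⟨κ, hκ, ?_⟩
    refine measure_mono_null (fun y hy => ?_) (measure_iUnion_null fun k => mem_iInter.1 hx k)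
    obtain ⟨k, hk⟩ := exists_nat_one_div_lt (sub_pos.2 hy.2)
    exact mem_iUnion.2 ⟨k, hy.1, by linarith⟩
  have hlim : Tendsto (fun k => G (B k)) atTop (𝓝 0) := hzero ▸ tendsto_measure_iInter_atTop
    (fun k => (measurableSet_noDrop G κ _).nullMeasurableSet) hanti ⟨0, measure_ne_top _ _⟩
  obtain ⟨k, hk, hkκ⟩ := ((hlim.eventually
    (ge_mem_nhds (ENNReal.ofReal_pos.2 hδ))).and
      (tendsto_one_div_add_atTop_nhds_zero_nat.eventually (gt_mem_nhds hκ))).exists
  exact ⟨1 / (k + 1), by positivity, hkκ, hk⟩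

/-- Almost surely every long self-avoiding path keeps meeting edges that can drop a little. -/
lemma ae_drops (hG : LawGen G) :
    ∀ᵐ t ∂law G, ∀ κ > 0, ∃ c > 0, c < κ ∧ ∀ u : ℕ → V, Function.Injective u →
      (∀ i, Adj (u i) (u (i + 1))) →
        ∃ᶠ n in atTop, 0 < G (Ioo (wt t (u n) (u (n + 1)) - κ) (wt t (u n) (u (n + 1)) - c)) := by
  have := hG.prob
  obtain ⟨δ, hδ, hδ'⟩ := ae_exists_notMemG hG
  have hex : ∀ j : ℕ, ∃ c > 0, c < (1 : ℝ) / (j + 1) ∧
      G (noDrop G (1 / (j + 1)) c) ≤ ENNReal.ofReal δ :=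
    fun j => exists_noDrop_small hG (by positivity) hδ
  choose c hc hcj hcB using hex
  filter_upwards [ae_all_iff.2 fun j => hδ' _ (measurableSet_noDrop G _ _) (hcB j)] with t ht κ hκ
  obtain ⟨j, hj⟩ := exists_nat_one_div_lt hκ
  refine ⟨c j, hc j, (hcj j).trans hj, fun u hinj hadj => frequently_atTop.2 fun N => ?_⟩
  obtain ⟨n, hn⟩ := (ht j (u N)).exists
  obtain ⟨p, hlen, -, -, hpath, hS⟩ := exists_segment (t := t) hadj (Nat.le_add_right N n)
  obtain ⟨d, hd, hdB⟩ := hn _ p (hpath hinj) (by omega)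
  obtain ⟨m, hm, he⟩ :=
    hS {e | ∃ m, N ≤ m ∧ edgeOf (u m) (u (m + 1)) = e} (fun m h _ => ⟨m, h, rfl⟩) d hd
  refine ⟨m, hm, lt_of_lt_of_le (pos_iff_ne_zero.2 ?_)
    (measure_mono (Ioo_subset_Ioo (sub_le_sub_left hj.le _) le_rfl))⟩
  rw [wt, he]
  exact hdB

end Vale.Agent.P158.Match

namespace Vale.Agent.P158

/-- The surgery makes almost surely every ray of a closed pair of classes match. -/
theorem Match.ae_match {G : Measure ℝ} (hG : LawGen G) {D : (ℤ → V) → Prop}
    {E : (ℕ → V) → Prop} (hcl : Match.Closed D E) (hF : ∀ᵐ t ∂law G, ¬ Match.Fork D t) :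
    ∀ᵐ t ∂law G, ∀ γ, IsBigeodesic t γ → D γ → ∀ r, IsRayIn t Set.univ r → E r →
      (∃ C : ℝ, ∀ z, -C ≤ bus t Set.univ r z + bus t Set.univ (fwd γ 0) z) →
      ∃ c : ℝ, ∀ z, bus t Set.univ r z - bus t Set.univ (bwd γ 0) z = c := by
  have := hG.prob
  obtain ⟨κ, hκ, hgood⟩ := exists_goodG hG
  filter_upwards [hgood, Match.ae_drops hG, exists_override hF,
    hG.ae_conf (ae_left_mass hG.noAtoms)] with t hg hdrop hov hleft
  intro γ hγ hd r hr hdir hC
  by_contra hne
  obtain ⟨C, hC⟩ := hC
  have ha : Match.Att t := fun x y => (hg.exists_geodesic_univ hκ x y).imp fun p hp => hp.2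
  obtain ⟨S, W, hW, hfork⟩ := Match.exists_surgery ha hg.pos hγ hcl hd hr hdir hne hC
    (Match.measure_Iic_zero hG) (Rays.tendsto_rlen hg hκ hr.inj hr.adj) hleft hdrop
  obtain ⟨v, hv, hnf⟩ := hov S W hW
  exact hnf (hfork v hv)

/-- The matching lemma for directed lines. -/
theorem matchProp_of_forkNull {G : Measure ℝ} (hG : LawGen G) (hF : ForkNull G) :
    MatchProp G :=
  Match.ae_match hG Match.closed_directed hF

end Vale.Agent.P158
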