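import Vale.Agent.P158.MainAsm
import Vale.Agent.P158.MainPos
import Vale.Agent.P158.MainClass
import Vale.Agent.P158.Match

/-!
The directed statement from straightness, the fork lemma, the count, and the unit supply.
-/

open MeasureTheory Filter Topology
open scoped ENNReal

namespace Vale.Agent.P158

/-- A small threshold with light mass below a smaller one. -/
def LowProp (G : Measure ℝ) : Prop :=
  ∃ r₀ r : ℝ, r₀ < r ∧ 0 < G (Set.Iio r₀) ∧
    ∀ v : V, ∀ᵐ t ∂law G, ∃ L₀, FewLow r L₀ v t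

/-- The directed statement from its ingredients. -/
theorem noDirected_of_modules {G : Measure ℝ} {M : ℝ} (hG : LawOK G M) (hS : StraightProp G)
    (hF : ForkNull G) (hcount : ∀ κ, 0 < κ → CountProp M κ) (hunits : UnitsProp G)
    (hlow : LowProp G) : NoDirectedBigeodesic G := by
  haveI := hG.prob
  obtain ⟨κ, hκ, hgood⟩ := exists_good hG
  obtain ⟨GS, hGSm, hGS, hNice, hinv⟩ :=
    exists_niceSet hG hgood hS hF (matchProp_of_forkNull hG hF)
  obtain ⟨r₀, r, hrr, hp, hfew⟩ := hlow
  have hjump : ∀ (R L : ℕ) (δ a b g : ℝ), 0 < δ → HasJumps GS R L δ a b g := by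
    intro R L δ a b g hδ t ht h y y' γ γ' hl hl' hne
    exact exists_jump (hNice t ht) hκ hδ (by positivity) hl hl' hne g h
  by_contra hno
  obtain ⟨R, y, δ, hδ, hpos⟩ := siteLine_pos hG hgood hS hno
  apply hpos
  have h0 := noDirected_of_parts (R₀ := R) (δ := δ) hG hGSm hGS hNice (fun v t => (hinv v t).2)
    hunits hjump (hcount κ hκ) hrr (ENNReal.toReal_pos hp.ne' (measure_ne_top _ _)) (hfew (0, 0)) hδ
  have hsub : {t | ∃ γ, SiteLine t R (-2) 2 δ y γ} ⊆
      shift (0, y) ⁻¹' {t | ∃ γ, SiteLine t R (-2) 2 δ 0 γ} := by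
    rintro t ⟨γ, hγ⟩
    exact ⟨_, siteLine_shift (v := y) (y := 0) (by simpa using hγ)⟩
  refine measure_mono_null hsub ?_
  rw [law_shift_preimage]
  exact h0

end Vale.Agent.P158
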