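import Vale.Agent.P158.MainPos
import Vale.Agent.P158.MainMeas
import Vale.Agent.P158.Meas
import Vale.Agent.P158.BasicLaw
import Vale.Agent.P158.MainGlue

/-!
Slope units for the main argument: few light edges from every vertex, rigid site lines at height
`0`, and their mass over one family of disjoint slope units.
-/

open MeasureTheory Filter Topology
open scoped ENNReal

namespace Vale.Agent.P158

lemma FewLow.mono {r : ℝ} {L₀ L₀' : ℕ} {v : V} {t : Conf} (h : FewLow r L₀ v t) (hL : L₀ ≤ L₀') :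
    FewLow r L₀' v t := fun w p hp hl => h w p hp (hL.trans hl)

lemma hitCount_Iio (r : ℝ) (t : Conf) {x y : V} (p : grid.Walk x y) :
    hitCount (Set.Iio r) t p =
      (p.darts.filter fun d => decide (wt t d.toProd.1 d.toProd.2 < r)).length := by
  classical
  rw [hitCount, edgeList, List.countP_map, List.countP_eq_length_filter]
  congr 1

/-- A threshold with positive mass below it, below which few edges lie on long paths. -/
theorem exists_fewLowG {G : Measure ℝ} (hG : LawGen G) :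
    ∃ r₀ r : ℝ, r₀ < r ∧ 0 < G (Set.Iio r₀) ∧
      ∀ v : V, ∀ᵐ t ∂law G, ∃ L₀, FewLow r L₀ v t := by
  obtain ⟨δ, hδ, hhit⟩ := ae_hitCountG hG (θ := 1 / 4) (by norm_num)
  obtain ⟨r, -, hr, hle⟩ := exists_small_lowG hG hδ
  have hu : Set.Iio r = ⋃ q : {q : ℚ // (q : ℝ) < r}, Set.Iio (q.1 : ℝ) := by
    ext z
    simp only [Set.mem_Iio, Set.mem_iUnion]
    constructor
    · intro hz
      obtain ⟨q, h1, h2⟩ := exists_rat_btwn hz
      exact ⟨⟨q, h2⟩, h1⟩
    · rintro ⟨q, hq⟩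
      exact hq.trans q.2
  obtain ⟨q, hq⟩ : ∃ q : {q : ℚ // (q : ℝ) < r}, 0 < G (Set.Iio (q.1 : ℝ)) := by
    have := hr
    rw [hu] at this
    exact exists_measure_pos_of_not_measure_iUnion_null this.ne'
  refine ⟨q.1, r, q.2, hq, fun v => ?_⟩
  filter_upwards [hhit _ measurableSet_Iio hle] with t ht
  obtain ⟨N, hN⟩ := eventually_atTop.1 (ht v)
  refine ⟨N, fun w p hp hl => ?_⟩
  have h := hN _ hl w p hp rfl
  rw [hitCount_Iio] at h
  have h' : ((4 * (p.darts.filter fun d => decide (wt t d.toProd.1 d.toProd.2 < r)).length : ℕ) : ℝ)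
      ≤ (p.length : ℝ) := by
    push_cast; linarith
  exact_mod_cast h'

/-- The same for a bounded law. -/
theorem exists_fewLow {G : Measure ℝ} {M : ℝ} (hG : LawOK G M) :
    ∃ r₀ r : ℝ, r₀ < r ∧ 0 < G (Set.Iio r₀) ∧
      ∀ v : V, ∀ᵐ t ∂law G, ∃ L₀, FewLow r L₀ v t :=
  exists_fewLowG hG.gen

/-- Rigid site lines exist with positive probability at height `0`. -/
theorem siteLine_pos0 {G : Measure ℝ} {M κ : ℝ} (hG : LawOK G M)
    (hgood : ∀ᵐ t ∂law G, Good M κ t) (hS : StraightProp G) (h : ¬ NoDirectedBigeodesic G) :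
    ∃ (R : ℕ) (δ : ℝ), 0 < δ ∧ law G {t | ∃ γ, SiteLine t R (-2) 2 δ 0 γ} ≠ 0 := by
  have := hG.prob
  obtain ⟨R, y, δ, hδ, hpos⟩ := siteLine_pos hG hgood hS h
  refine ⟨R, δ, hδ, fun h0 => hpos ?_⟩
  refine measure_mono_null (t := shift ((0 : ℤ), y) ⁻¹' {t | ∃ γ, SiteLine t R (-2) 2 δ 0 γ})
    (fun t ht => ?_) (by rw [law_shift_preimage]; exact h0)
  obtain ⟨γ, hγ⟩ := ht
  exact ⟨_, siteLine_shift (by simpa using hγ)⟩

/-- The direction of a ray in the cone of slopes `[-2, 2]` points right, with slope in it. -/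
lemma dir_of_inCone {r : ℕ → V} {θ : ℂ} {R : ℕ} (hr : Function.Injective r) (h : RayDir r θ)
    (hc : InCone 0 1 (-2) 2 R r) : 0 < θ.re ∧ |θ.im| ≤ 2 * θ.re := by
  have hN := tendsto_norm_toPlane hr
  have h1 : Tendsto (fun n => (‖toPlane (r n)‖⁻¹ • toPlane (r n)).re -
      ((r 0).1 : ℝ) * ‖toPlane (r n)‖⁻¹) atTop (𝓝 θ.re) := by
    simpa using ((Complex.continuous_re.tendsto θ).comp h).sub
      ((tendsto_inv_atTop_zero.comp hN).const_mul ((r 0).1 : ℝ))
  have h2 : Tendsto (fun n => (‖toPlane (r n)‖⁻¹ • toPlane (r n)).im -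
      ((r 0).2 : ℝ) * ‖toPlane (r n)‖⁻¹) atTop (𝓝 θ.im) := by
    simpa using ((Complex.continuous_im.tendsto θ).comp h).sub
      ((tendsto_inv_atTop_zero.comp hN).const_mul ((r 0).2 : ℝ))
  have hle : |θ.im| ≤ 2 * θ.re := by
    refine le_of_tendsto_of_tendsto h2.abs (h1.const_mul 2) ?_
    filter_upwards [eventually_ge_atTop R] with n hn
    obtain ⟨-, hlo, hhi⟩ := hc n hn
    simp only [lev, zero_mul, add_zero, one_mul] at hlo hhi
    push_cast at hlo hhi
    simp only [Complex.smul_re, Complex.smul_im, smul_eq_mul, toPlane]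
    have hi : (0 : ℝ) ≤ ‖({ re := ((r n).1 : ℝ), im := ((r n).2 : ℝ) } : ℂ)‖⁻¹ := by positivity
    rw [abs_le]
    constructor <;> nlinarith
  refine ⟨lt_of_le_of_ne (by linarith [abs_nonneg θ.im]) fun h0 => ?_, hle⟩
  have him : θ.im = 0 := abs_eq_zero.1 (le_antisymm (by linarith) (abs_nonneg _))
  have hθ : θ = 0 := Complex.ext h0.symm him
  have h1n := norm_rayDir hr h
  rw [hθ, norm_zero] at h1n
  exact zero_ne_one h1n

/-- A straight site line lies in a slope unit around one of finitely many centres. -/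
lemma SiteLine.unit {t : Conf} {R : ℕ} {δ ε : ℝ} {γ : ℤ → V}
    (hst : ∀ γ θ θ', IsBigeodesic t γ → RayDir (fwd γ 0) θ → RayDir (bwd γ 0) θ' → θ' = -θ)
    (h : SiteLine t R (-2) 2 δ 0 γ) (hε : 0 < ε) (hε1 : ε ≤ 1) :
    ∃ i : ℤ, |i| ≤ ⌈2 / ε⌉ + 1 ∧
      ∀ᶠ R' : ℕ in atTop, SiteLine t R' (((i : ℝ) - 1) * ε) (((i : ℝ) + 1) * ε) δ 0 γ := by
  obtain ⟨⟨hγ, hf, -⟩, hdir, hent, hrig⟩ := h
  obtain ⟨⟨θ, hθ⟩, θ', hθ'⟩ := (hasDirections_iff γ).1 hdir
  obtain rfl := hst γ θ θ' hγ hθ hθ'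
  obtain ⟨hre, him⟩ := dir_of_inCone (injective_fwd hγ.inj 0) hθ hf
  set s := θ.im / θ.re with hs
  have hs2 : |s| ≤ 2 := by rw [hs, abs_div, abs_of_pos hre, div_le_iff₀ hre]; exact him
  have hround : |s / ε - round (s / ε)| ≤ 1 / 2 := abs_sub_round _
  refine ⟨round (s / ε), ?_, ?_⟩
  · have h1 : |s / ε| ≤ 2 / ε := by rw [abs_div, abs_of_pos hε]; gcongr
    have h2 : |((round (s / ε) : ℤ) : ℝ)| ≤ ((⌈2 / ε⌉ + 1 : ℤ) : ℝ) := by
      push_cast
      have := Int.le_ceil (2 / ε)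
      rw [abs_le] at h1 hround ⊢
      constructor <;> linarith
    exact_mod_cast h2
  · rw [abs_le] at hround
    have e : s / ε * ε = s := div_mul_cancel₀ s hε.ne'
    have hev : ∀ᶠ R' : ℕ in atTop, InCone 0 1 ((((round (s / ε) : ℤ) : ℝ) - 1) * ε)
        ((((round (s / ε) : ℤ) : ℝ) + 1) * ε) R' (fwd γ 0) ∧
        InCone 0 (-1) ((((round (s / ε) : ℤ) : ℝ) - 1) * ε)
        ((((round (s / ε) : ℤ) : ℝ) + 1) * ε) R' (bwd γ 0) := by
      have hlo : (((round (s / ε) : ℤ) : ℝ) - 1) * ε < s := by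
        have := mul_lt_mul_of_pos_right
          (show ((round (s / ε) : ℤ) : ℝ) - 1 < s / ε by linarith) hε
        rwa [e] at this
      have hhi : s < (((round (s / ε) : ℤ) : ℝ) + 1) * ε := by
        have := mul_lt_mul_of_pos_right
          (show s / ε < ((round (s / ε) : ℤ) : ℝ) + 1 by linarith) hε
        rwa [e] at this
      have hb := rayDir_neg hθ'
      rw [neg_neg] at hb
      filter_upwards [eventually_inCone (injective_fwd hγ.inj 0) hθ hre hlo hhi,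
        eventually_inCone (neg_injective.comp (injective_bwd hγ.inj 0)) hb hre hlo hhi] with R' h1 h2
      exact ⟨h1, inCone_neg_iff.2 h2⟩
    filter_upwards [hev] with R' hR'
    exact ⟨⟨hγ, hR'⟩, hdir, hent, hrig⟩

/-- The site lines spread over the units of one colour carry a share of the mass. -/
theorem units_mass {G : Measure ℝ} {M κ : ℝ} (hG : LawOK G M)
    (_hgood : ∀ᵐ t ∂law G, Good M κ t) (hS : StraightProp G) {r : ℝ}
    (hlow : ∀ᵐ t ∂law G, ∃ L₀, FewLow r L₀ (0, 0) t) (R : ℕ) (δ ε : ℝ) (hε : 0 < ε) (hε1 : ε ≤ 1) :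
    ∃ (R' L₀ m : ℕ) (a b : Fin m → ℝ),
      (∀ u, a u ≤ b u ∧ -8 ≤ a u ∧ b u ≤ 8 ∧ b u - a u ≤ 2 * ε) ∧
      (∀ u v, u < v → b u < a v) ∧ R ≤ R' ∧
      law G {t | ∃ γ, SiteLine t R (-2) 2 δ 0 γ} / 16 ≤
        ∑ u, law G (siteEvent R' L₀ (a u) (b u) δ r 0) := by
  have := hG.prob
  have := law_isProb hG
  set E : Set Conf := {t | ∃ γ, SiteLine t R (-2) 2 δ 0 γ} with hE
  by_cases h0 : law G E = 0
  · exact ⟨R, 0, 0, Fin.elim0, Fin.elim0, fun u => u.elim0, fun u => u.elim0, le_rfl, by simp [h0]⟩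
  set K : ℕ := ⌈2 / ε⌉₊ + 1 with hK
  set m : ℕ := K / 2 + 1 with hm
  let ctr : Fin 4 → Fin m → ℝ := fun c u => -(K : ℝ) + (c : ℝ) + 4 * (u : ℝ)
  let S : ℕ → Fin 4 × Fin m → Set Conf := fun N cu =>
    siteEvent (N + R) N ((ctr cu.1 cu.2 - 1) * ε) ((ctr cu.1 cu.2 + 1) * ε) δ r 0
  have hmono : Monotone fun N => ⋃ cu, S N cu := by
    intro N N' hN
    refine Set.iUnion_mono fun cu t ht => ?_
    obtain ⟨hfew, γ, hγ⟩ := ht
    exact ⟨hfew.mono hN, γ, hγ.mono le_rfl le_rfl (Nat.add_le_add_right hN R)⟩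
  have hcov : ∀ᵐ t ∂law G, t ∈ E → t ∈ ⋃ N, ⋃ cu, S N cu := by
    filter_upwards [hS, hlow] with t hst hl
    rintro ⟨γ, hγ⟩
    obtain ⟨L₀, hL₀⟩ := hl
    obtain ⟨i, hi, hev⟩ := hγ.unit hst hε hε1
    obtain ⟨N₀, hN₀⟩ := eventually_atTop.1 hev
    have hceil : ⌈2 / ε⌉ + 1 = ((K : ℕ) : ℤ) := by
      rw [hK]; push_cast; rw [Int.natCast_ceil_eq_ceil (by positivity)]
    rw [hceil, abs_le] at hi
    have hc : ((i + K) % 4).toNat < 4 := by omega
    have hu : ((i + K) / 4).toNat < m := by omega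
    refine Set.mem_iUnion.2 ⟨max N₀ L₀, Set.mem_iUnion.2 ⟨(⟨_, hc⟩, ⟨_, hu⟩), ?_⟩⟩
    have hctr : ctr ⟨_, hc⟩ ⟨_, hu⟩ = (i : ℝ) := by
      simp only [ctr]
      have h1 : (i : ℤ) = -(K : ℤ) + (((i + K) % 4).toNat : ℤ) + 4 * (((i + K) / 4).toNat : ℤ) := by
        omega
      conv_rhs => rw [h1]
      push_cast
      ring
    simp only [S, hctr]
    exact ⟨hL₀.mono (le_max_right _ _), γ, hN₀ _ ((le_max_left _ _).trans (Nat.le_add_right _ _))⟩
  have hle : law G E ≤ ⨆ N, law G (⋃ cu, S N cu) := by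
    rw [← hmono.measure_iUnion]
    exact measure_mono_ae hcov
  have hhalf : law G E / 2 < ⨆ N, law G (⋃ cu, S N cu) :=
    (ENNReal.half_lt_self h0 (measure_ne_top _ _)).trans_le hle
  obtain ⟨N, hN⟩ := lt_iSup_iff.1 hhalf
  have hsum : law G E / 2 ≤ ∑ c, ∑ u, law G (S N (c, u)) := by
    rw [← Fintype.sum_prod_type' (f := fun c u => law G (S N (c, u)))]
    exact hN.le.trans (measure_iUnion_fintype_le _ _)
  obtain ⟨c, -, hc⟩ := Finset.exists_max_image Finset.univ (fun c => ∑ u, law G (S N (c, u)))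
    Finset.univ_nonempty
  have hfour : law G E / 2 ≤ 4 * ∑ u, law G (S N (c, u)) := by
    refine hsum.trans ((Finset.sum_le_card_nsmul _ _ _ fun c' hc' => hc c' hc').trans_eq ?_)
    simp
  refine ⟨N + R, N, m, fun u => (ctr c u - 1) * ε, fun u => (ctr c u + 1) * ε, fun u => ?_,
    fun u v huv => ?_, Nat.le_add_left _ _, ?_⟩
  · have hKle : (K : ℝ) * ε ≤ 2 + 2 * ε := by
      have h1 := (Nat.ceil_lt_add_one (show 0 ≤ 2 / ε by positivity)).le
      have h2 : (K : ℝ) ≤ 2 / ε + 2 := by rw [hK]; push_cast; linarith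
      have h3 := mul_le_mul_of_nonneg_right h2 hε.le
      rwa [add_mul, div_mul_cancel₀ _ hε.ne'] at h3
    have hc4 : (c : ℝ) ≤ 3 := by
      have := c.2
      exact_mod_cast (by omega : (c : ℕ) ≤ 3)
    have hu4 : 4 * (u : ℝ) ≤ 2 * K := by
      have := u.2
      exact_mod_cast (by omega : 4 * (u : ℕ) ≤ 2 * K)
    simp only [ctr]
    refine ⟨by nlinarith, ?_, ?_, by linarith⟩
    · nlinarith [mul_nonneg (show (0 : ℝ) ≤ c by positivity) hε.le,
        mul_nonneg (show (0 : ℝ) ≤ u by positivity) hε.le]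
    · nlinarith [mul_le_mul_of_nonneg_right hc4 hε.le, mul_le_mul_of_nonneg_right hu4 hε.le]
  · have : (u : ℝ) + 1 ≤ v := by exact_mod_cast (Fin.lt_def.1 huv)
    simp only [ctr]
    nlinarith
  · have e16 : law G E / 16 ≤ law G E / 2 / 4 := by
      simp only [div_eq_mul_inv, mul_assoc]
      rw [← ENNReal.mul_inv (Or.inl (by norm_num)) (Or.inl (by norm_num))]
      gcongr
      norm_num
    refine e16.trans ?_
    rw [ENNReal.div_le_iff (by norm_num) (by norm_num), mul_comm]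
    exact hfour

/-- The threshold module. -/
theorem lowProp {G : Measure ℝ} {M : ℝ} (hG : LawOK G M) : LowProp G := exists_fewLow hG

/-- The slope-unit module. -/
theorem unitsProp {G : Measure ℝ} {M : ℝ} (hG : LawOK G M) (hS : StraightProp G) :
    UnitsProp G := by
  intro r δ R hlow ε hε hε1
  obtain ⟨κ, -, hgood⟩ := exists_good hG
  exact units_mass hG hgood hS hlow R δ ε hε hε1

end Vale.Agent.P158
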