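import Vale.Agent.P158.Mass.Count
import Vale.Agent.P158.MainUnits

/-!
If bigeodesics exist, sites of separated slopes are plentiful.
-/

open MeasureTheory Filter Topology
open scoped ENNReal

namespace Vale.Agent.P158

namespace Mass

/-- The nonnegative configurations with a bigeodesic through the origin. -/
def lineEvent : Set Conf :=
  {t | ∃ γ ∈ pathsFrom 0, (t, γ) ∈ {q : Conf × (ℤ → V) | q.1 ∈ NN ∧ IsBigeodesic q.1 q.2}}

lemma measurableSet_lineEvent : MeasurableSet lineEvent :=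
  (isClosed_exists_mem (isCompact_pathsFrom 0) isClosed_isBigeodesic).measurableSet

lemma mem_lineVerts_of_shift {N : ℕ} {t : Conf} {v : V} (hv : v ∈ box N)
    (h : shift v t ∈ lineEvent) : v ∈ Run.lineVerts N t := by
  classical
  obtain ⟨γ, ⟨h0, -⟩, -, hγ⟩ := h
  exact Finset.mem_filter.2 ⟨hv, fun i => γ i + v, (isBigeodesic_shift v t γ).1 hγ, by simp [h0]⟩

lemma lineEvent_pos {G : Measure ℝ} (hG : LawGen G) (h : ¬ NoBigeodesic G) :
    law G lineEvent ≠ 0 := by
  have := hG.prob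
  intro h0
  apply h
  have hsh : ∀ᵐ t ∂law G, ∀ v : V, shift v t ∉ lineEvent :=
    ae_shift (p := fun t => t ∉ lineEvent) (measure_eq_zero_iff_ae_notMem.1 h0)
  filter_upwards [hsh, law_ae_nonnegG hG] with t ht hnn
  rintro ⟨γ, hγ⟩
  refine ht (γ 0) ⟨fun i => γ i - γ 0, ⟨by simp, fun i => by simpa [Adj] using hγ.adj i⟩,
    fun e => hnn _, ?_⟩
  exact (isBigeodesic_shift (γ 0) t _).2 (by simpa using hγ)

lemma tendsto_not_fewLow {G : Measure ℝ} (hG : LawGen G) {r : ℝ}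
    (h : ∀ᵐ t ∂law G, ∃ L₀, FewLow r L₀ (0, 0) t) :
    Tendsto (fun L : ℕ => law G {t | ¬ FewLow r L (0, 0) t}) atTop (𝓝 0) := by
  have := hG.prob
  have : IsProbabilityMeasure (law G) := law_isProbG hG
  have hlim := tendsto_measure_iInter_atTop (μ := law G)
    (s := fun L : ℕ => {t | ¬ FewLow r L (0, 0) t})
    (fun L => (measurableSet_fewLow r L (0, 0)).compl.nullMeasurableSet)
    (fun a b hab t ht hlow => ht (hlow.mono hab)) ⟨0, measure_ne_top _ _⟩
  have h0 : law G (⋂ L : ℕ, {t | ¬ FewLow r L (0, 0) t}) = 0 := by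
    refine measure_mono_null (fun t ht => ?_) (ae_iff.1 h)
    rintro ⟨L₀, hL⟩
    exact Set.mem_iInter.1 ht L₀ hL
  rwa [h0] at hlim

lemma law_not_fewLow {G : Measure ℝ} [IsProbabilityMeasure G] (r : ℝ) (L : ℕ) (x : V) :
    law G {t | ¬ FewLow r L x t} ≤ law G {t | ¬ FewLow r L (0, 0) t} := by
  rw [← law_shift_preimage (G := G) x {t | ¬ FewLow r L (0, 0) t}]
  refine measure_mono fun t ht hlow => ht ?_
  have := fewLow_shift (w := -x) (v := x) (t := shift x t) (r := r) (L₀ := L)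
    (by rw [add_neg_cancel]; exact hlow)
  rwa [shift_shift, neg_add_cancel, shift_zero] at this

lemma toReal_goodAt_le {G : Measure ℝ} [IsProbabilityMeasure G] {P : SiteP} {r₁ : ℝ} {k c : ℤ}
    {s : ℝ} {x : V} {y : ℤ} (hy : 4 * |y| ≤ (P.N : ℤ)) (hδ : 0 ≤ P.δ) :
    (law G (goodAt P r₁ k c s x)).toReal * (G (Set.Ico 0 (r₁ - P.δ))).toReal ≤
      4 * (law G (siteEvent2 P k c s y)).toReal := by
  have : IsProbabilityMeasure (law G) := by unfold law; infer_instance
  have h1 : law G (goodAt P r₁ k c s x) ≤ law G (preEvent P r₁ k c s y) := by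
    rw [← law_shift_preimage (G := G) (x - pt k c y) (preEvent P r₁ k c s y)]
    exact measure_mono fun t ht => ht y hy
  have h2 : law G (goodAt P r₁ k c s x) * G (Set.Ico 0 (r₁ - P.δ)) ≤
      4 * law G (siteEvent2 P k c s y) :=
    (mul_le_mul' h1 le_rfl).trans (law_preEvent_le P r₁ k c s y hδ)
  have h3 := ENNReal.toReal_mono (ENNReal.mul_ne_top (by simp) (measure_ne_top _ _)) h2
  rw [ENNReal.toReal_mul, ENNReal.toReal_mul] at h3
  simpa using h3

/-- The main inequality of one run. -/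
lemma run_count {G : Measure ℝ} (hG : LawGen G) (U : Run) (hU : U.OK) {OK : Set Conf}
    (hOKm : MeasurableSet OK) (hOKnn : OK ⊆ NN)
    (hOK : ∀ t ∈ OK, ∀ i, ChordOK U.γ₀ U.C (U.rs i) (U.es i) (U.Rs i) (U.K * U.N) t)
    (hcount : ∫⁻ t in OK, ((lineChords t U.N U.N).encard : ℝ≥0∞) ∂law G ≤
      (U.K : ℝ≥0∞) ^ 2 * U.N) :
    ((box U.N).card : ℝ) * (law G lineEvent).toReal ≤
      ((box U.N).card : ℝ) * (law G OKᶜ).toReal +
      (2 * (U.R : ℝ) + 1) ^ 2 * ∑ q : Run.Frame, ∑ x ∈ box (2 * U.N),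
        ((law G {t | ¬ FewLow U.r U.L (0, 0) t}).toReal +
          (law G (wildSite (Run.fk q) U.R U.r₁ U.A U.rho U.n)).toReal +
          ∑ u ∈ Finset.range (⌈U.A / U.ε⌉₊ + 1), (law G (goodAt U.P U.r₁ (Run.fk q)
            (stripLev U.K₀ U.L u) (slopeGrid U.A U.ε u) x)).toReal) +
      2 * U.η * (U.K * U.N) * ((U.K : ℝ) ^ 2 * U.N) := by
  classical
  have := hG.prob
  have : IsProbabilityMeasure (law G) := law_isProbG hG
  set I := (Finset.univ : Finset Run.Frame) ×ˢ box (2 * U.N) with hI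
  set E : Run.Frame × V → Set Conf := fun p => toMeasurable (law G)
    {t | U.ev (Run.fk p.1) p.2 ((Run.fs p.1).symm.act t)} with hE
  have hEm : ∀ p, MeasurableSet (E p) := fun p => measurableSet_toMeasurable _ _
  set c2 : ℕ := (2 * U.R + 1) ^ 2 with hc2
  set D : ℝ := 2 * U.η * (U.K * U.N : ℕ) with hD
  have hD0 : 0 ≤ D := by have := hU.hη; positivity
  set g1 : Conf → ℝ≥0∞ := fun t => ((box U.N).card : ℝ≥0∞) * OKᶜ.indicator 1 t with hg1
  set g2 : Conf → ℝ≥0∞ := fun t => (c2 : ℝ≥0∞) * ∑ p ∈ I, (E p).indicator 1 t with hg2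
  set g3 : Conf → ℝ≥0∞ := fun t => ENNReal.ofReal D *
    OK.indicator (fun t => ((lineChords t U.N U.N).encard : ℝ≥0∞)) t with hg3
  set A : Conf → ℝ≥0∞ := fun t => ∑ v ∈ box U.N, (shift v ⁻¹' lineEvent).indicator 1 t with hA
  have hpoint : ∀ t, A t ≤ g1 t + g2 t + g3 t := by
    intro t
    by_cases ht : t ∈ OK
    · have h1 : A t ≤ ((Run.lineVerts U.N t).card : ℝ≥0∞) := by
        simp only [hA, Set.indicator_apply, Pi.one_apply, Set.mem_preimage, ← Finset.natCast_card_filter]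
        exact_mod_cast Finset.card_le_card fun v hv =>
          mem_lineVerts_of_shift (Finset.mem_filter.1 hv).1 (Finset.mem_filter.1 hv).2
      refine h1.trans ((Run.vertex_count hU (hOKnn ht) (hOK t ht)).trans ?_)
      refine add_le_add (le_add_left ?_) ?_
      · refine mul_le_mul' le_rfl ?_
        rw [Run.hits, Finset.natCast_card_filter]
        refine Finset.sum_le_sum fun p _ => ?_
        by_cases hp : U.ev (Run.fk p.1) p.2 ((Run.fs p.1).symm.act t)
        · have hmem : t ∈ E p := subset_toMeasurable (law G)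
            {t | U.ev (Run.fk p.1) p.2 ((Run.fs p.1).symm.act t)} hp
          rw [if_pos hp, Set.indicator_of_mem hmem]
          exact le_rfl
        · rw [if_neg hp]
          exact zero_le
      · simp only [hg3, Set.indicator_of_mem ht]
        exact le_rfl
    · refine le_trans ?_ (le_add_right (le_add_right le_rfl))
      simp only [hg1, hA, Set.indicator_of_mem (Set.mem_compl ht), Pi.one_apply, mul_one]
      refine (Finset.sum_le_sum (g := fun _ => (1 : ℝ≥0∞)) fun v _ => ?_).trans (le_of_eq (by simp))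
      by_cases hv : t ∈ shift v ⁻¹' lineEvent
      · rw [Set.indicator_of_mem hv]; exact le_rfl
      · rw [Set.indicator_of_notMem hv]; exact zero_le
  have hA' : ∫⁻ t, A t ∂law G = ((box U.N).card : ℝ≥0∞) * law G lineEvent := by
    simp only [hA]
    have hm : ∀ v : V, MeasurableSet (shift v ⁻¹' lineEvent) := fun v =>
      measurableSet_lineEvent.preimage (shiftSym v).measurable_act
    rw [lintegral_finsetSum _ fun v _ => measurable_one.indicator (hm v)]
    simp only [lintegral_indicator_one (hm _), law_shift_preimage]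
    rw [Finset.sum_const, nsmul_eq_mul]
  have hg1m : Measurable g1 := (measurable_one.indicator hOKm.compl).const_mul _
  have hg2m : Measurable g2 :=
    (Finset.measurable_sum _ fun p _ => measurable_one.indicator (hEm p)).const_mul _
  have hI' : ∫⁻ t, g1 t + g2 t + g3 t ∂law G ≤ ((box U.N).card : ℝ≥0∞) * law G OKᶜ +
      (c2 : ℝ≥0∞) * ∑ p ∈ I, law G (E p) + ENNReal.ofReal D * ((U.K : ℝ≥0∞) ^ 2 * U.N) := by
    rw [lintegral_add_left (f := fun t => g1 t + g2 t) (hg1m.add hg2m), lintegral_add_left hg1m]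
    refine add_le_add (add_le_add ?_ ?_) ?_
    · simp only [hg1]
      rw [lintegral_const_mul _ (measurable_one.indicator hOKm.compl),
        lintegral_indicator_one hOKm.compl]
    · simp only [hg2]
      rw [lintegral_const_mul _ (Finset.measurable_sum _ fun p _ => measurable_one.indicator (hEm p)),
        lintegral_finsetSum _ fun p _ => measurable_one.indicator (hEm p)]
      simp only [lintegral_indicator_one (hEm _)]
      exact le_rfl
    · simp only [hg3]
      rw [lintegral_const_mul' _ _ ENNReal.ofReal_ne_top, lintegral_indicator hOKm]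
      exact mul_le_mul' le_rfl hcount
  have hEp : ∀ p, law G (E p) ≤ law G {t | ¬ FewLow U.r U.L (0, 0) t} +
      law G (wildSite (Run.fk p.1) U.R U.r₁ U.A U.rho U.n) +
      ∑ u ∈ Finset.range (⌈U.A / U.ε⌉₊ + 1), law G (goodAt U.P U.r₁ (Run.fk p.1)
        (stripLev U.K₀ U.L u) (slopeGrid U.A U.ε u) p.2) := by
    intro p
    simp only [hE]
    rw [measure_toMeasurable]
    show law G ((Run.fs p.1).symm.act ⁻¹' {t | U.ev (Run.fk p.1) p.2 t}) ≤ _
    rw [LatSym.law_act_preimage]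
    have hsub : {t | U.ev (Run.fk p.1) p.2 t} ⊆ ({t | ¬ FewLow U.r U.L p.2 t} ∪
        shift p.2 ⁻¹' wildSite (Run.fk p.1) U.R U.r₁ U.A U.rho U.n) ∪
        ⋃ u ∈ Finset.range (⌈U.A / U.ε⌉₊ + 1), goodAt U.P U.r₁ (Run.fk p.1)
          (stripLev U.K₀ U.L u) (slopeGrid U.A U.ε u) p.2 := by
      rintro t (h1 | h2 | ⟨u, hu, h3⟩)
      · exact Or.inl (Or.inl h1)
      · exact Or.inl (Or.inr h2)
      · exact Or.inr (Set.mem_iUnion₂.2 ⟨u, hu, h3⟩)
    refine (measure_mono hsub).trans ((measure_union_le _ _).trans (add_le_add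
      ((measure_union_le _ _).trans (add_le_add (law_not_fewLow _ _ _) ?_))
      (measure_biUnion_finset_le _ _)))
    rw [law_shift_preimage]
  have hfin : ∀ s : Set Conf, law G s ≠ ⊤ := fun s => measure_ne_top _ _
  have hmain := ((lintegral_mono hpoint).trans hI').trans (add_le_add (add_le_add le_rfl
    (mul_le_mul' le_rfl (Finset.sum_le_sum fun p (_ : p ∈ I) => hEp p))) le_rfl)
  rw [hA'] at hmain
  have hne1 : ((box U.N).card : ℝ≥0∞) * law G OKᶜ ≠ ⊤ := ENNReal.mul_ne_top (by simp) (hfin _)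
  have hne2 : ∀ p : Run.Frame × V, law G {t | ¬ FewLow U.r U.L (0, 0) t} +
      law G (wildSite (Run.fk p.1) U.R U.r₁ U.A U.rho U.n) ≠ ⊤ :=
    fun p => ENNReal.add_ne_top.2 ⟨hfin _, hfin _⟩
  have hne3 : ∀ p : Run.Frame × V, (∑ u ∈ Finset.range (⌈U.A / U.ε⌉₊ + 1),
      law G (goodAt U.P U.r₁ (Run.fk p.1) (stripLev U.K₀ U.L u) (slopeGrid U.A U.ε u) p.2)) ≠ ⊤ :=
    fun p => ENNReal.sum_ne_top.2 fun u _ => hfin _
  have hne4 : (c2 : ℝ≥0∞) * ∑ p ∈ I, (law G {t | ¬ FewLow U.r U.L (0, 0) t} +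
      law G (wildSite (Run.fk p.1) U.R U.r₁ U.A U.rho U.n) +
      ∑ u ∈ Finset.range (⌈U.A / U.ε⌉₊ + 1), law G (goodAt U.P U.r₁ (Run.fk p.1)
        (stripLev U.K₀ U.L u) (slopeGrid U.A U.ε u) p.2)) ≠ ⊤ :=
    ENNReal.mul_ne_top (by simp)
      (ENNReal.sum_ne_top.2 fun p _ => ENNReal.add_ne_top.2 ⟨hne2 p, hne3 p⟩)
  have hne5 : ENNReal.ofReal D * ((U.K : ℝ≥0∞) ^ 2 * U.N) ≠ ⊤ :=
    ENNReal.mul_ne_top ENNReal.ofReal_ne_top (ENNReal.mul_ne_top (by simp) (by simp))
  have hreal := ENNReal.toReal_mono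
    (ENNReal.add_ne_top.2 ⟨ENNReal.add_ne_top.2 ⟨hne1, hne4⟩, hne5⟩) hmain
  rw [ENNReal.toReal_add (ENNReal.add_ne_top.2 ⟨hne1, hne4⟩) hne5,
    ENNReal.toReal_add hne1 hne4, ENNReal.toReal_mul, ENNReal.toReal_mul, ENNReal.toReal_mul,
    ENNReal.toReal_mul, ENNReal.toReal_sum fun p _ => ENNReal.add_ne_top.2 ⟨hne2 p, hne3 p⟩,
    hI, Finset.sum_product, ENNReal.toReal_ofReal hD0] at hreal
  have hterm : ∀ (q : Run.Frame) (x : V),
      (law G {t | ¬ FewLow U.r U.L (0, 0) t} +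
        law G (wildSite (Run.fk q) U.R U.r₁ U.A U.rho U.n) +
        ∑ u ∈ Finset.range (⌈U.A / U.ε⌉₊ + 1), law G (goodAt U.P U.r₁ (Run.fk q)
          (stripLev U.K₀ U.L u) (slopeGrid U.A U.ε u) x)).toReal =
      (law G {t | ¬ FewLow U.r U.L (0, 0) t}).toReal +
        (law G (wildSite (Run.fk q) U.R U.r₁ U.A U.rho U.n)).toReal +
        ∑ u ∈ Finset.range (⌈U.A / U.ε⌉₊ + 1), (law G (goodAt U.P U.r₁ (Run.fk q)
          (stripLev U.K₀ U.L u) (slopeGrid U.A U.ε u) x)).toReal := fun q x => by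
    rw [ENNReal.toReal_add (hne2 (q, x)) (hne3 (q, x)), ENNReal.toReal_add (hfin _) (hfin _),
      ENNReal.toReal_sum fun u _ => hfin _]
  simp only [hterm, ENNReal.toReal_natCast, hc2, hD, ENNReal.toReal_mul, ENNReal.toReal_pow]
    at hreal
  push_cast at hreal ⊢
  exact hreal

lemma split_sum {ι : Type*} [Fintype ι] {X : Finset V} {n θ a : ℝ} {m : ℕ} (hX : (X.card : ℝ) ≤ n)
    (ha : 0 ≤ a) (haθ : a ≤ θ) {w : ι → ℝ} (hw0 : ∀ q, 0 ≤ w q) (hwθ : ∀ q, w q ≤ θ)
    (g : ι → V → ℕ → ℝ) :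
    ∑ q, ∑ x ∈ X, (a + w q + ∑ u ∈ Finset.range m, g q x u) ≤
      (Fintype.card ι : ℝ) * (n * (2 * θ)) + ∑ q, ∑ u ∈ Finset.range m, ∑ x ∈ X, g q x u := by
  have hone : ∀ q, ∑ x ∈ X, (a + w q + ∑ u ∈ Finset.range m, g q x u) ≤
      n * (2 * θ) + ∑ u ∈ Finset.range m, ∑ x ∈ X, g q x u := fun q => by
    rw [Finset.sum_add_distrib, Finset.sum_comm, Finset.sum_const, nsmul_eq_mul]
    refine add_le_add (mul_le_mul hX (by linarith [hwθ q]) (add_nonneg ha (hw0 q))
      ((Nat.cast_nonneg _).trans hX)) le_rfl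
  refine (Finset.sum_le_sum fun q _ => hone q).trans (le_of_eq ?_)
  rw [Finset.sum_add_distrib, Finset.sum_const, Finset.card_univ, nsmul_eq_mul]

lemma exists_class {ι : Type*} [Fintype ι] [Nonempty ι] {F : ι → ℕ → ℝ} {m : ℕ} {x c : ℝ}
    (hc : 0 < c) (h : x ≤ c * ∑ q, ∑ u ∈ Finset.range m, F q u) :
    ∃ q : ι, ∃ a < 3,
      x / (3 * (Fintype.card ι : ℝ) * c) ≤
        ∑ u ∈ (Finset.range m).filter (fun u => u % 3 = a), F q u := by
  classical
  obtain ⟨⟨q, a⟩, hqa, hbest⟩ : ∃ p ∈ (Finset.univ : Finset ι) ×ˢ Finset.range 3,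
      x / (3 * (Fintype.card ι : ℝ) * c) ≤
        ∑ u ∈ (Finset.range m).filter (fun u => u % 3 = p.2), F p.1 u := by
    refine Finset.exists_le_of_sum_le
      (Finset.univ_nonempty.product (Finset.nonempty_range_iff.2 (by norm_num))) ?_
    rw [Finset.sum_const, Finset.card_product, Finset.card_univ, Finset.card_range, nsmul_eq_mul,
      Finset.sum_product]
    have h3 : ∀ q, ∑ u ∈ Finset.range m, F q u =
        ∑ a ∈ Finset.range 3, ∑ u ∈ (Finset.range m).filter (fun u => u % 3 = a), F q u :=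
      fun q => (Finset.sum_fiberwise_of_maps_to
        (fun u _ => Finset.mem_range.2 (Nat.mod_lt u (by norm_num))) _).symm
    rw [← Finset.sum_congr rfl fun q _ => h3 q]
    have hn : (0 : ℝ) < Fintype.card ι := by exact_mod_cast Fintype.card_pos
    push_cast
    calc (Fintype.card ι : ℝ) * 3 * (x / (3 * (Fintype.card ι : ℝ) * c)) = x / c := by
          field_simp
      _ ≤ _ := by rw [div_le_iff₀ hc]; linarith
  exact ⟨q, a, Finset.mem_range.1 (Finset.mem_product.1 hqa).2, hbest⟩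

lemma sum_goodAt_le {G : Measure ℝ} [IsProbabilityMeasure G] {P : SiteP} {r₁ : ℝ} {k y : ℤ}
    (hy : 4 * |y| ≤ (P.N : ℤ)) (hδ : 0 ≤ P.δ) {X : Finset V} {n : ℝ} (hX : (X.card : ℝ) ≤ n)
    (c : ℕ → ℤ) (s : ℕ → ℝ) (S : Finset ℕ) :
    (∑ u ∈ S, ∑ x ∈ X, (law G (goodAt P r₁ k (c u) (s u) x)).toReal) *
        (G (Set.Ico 0 (r₁ - P.δ))).toReal ≤
      n * (4 * ∑ u ∈ S, (law G (siteEvent2 P k (c u) (s u) y)).toReal) := by
  rw [Finset.sum_mul, Finset.mul_sum, Finset.mul_sum]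
  refine Finset.sum_le_sum fun u _ => ?_
  rw [Finset.sum_mul]
  refine (Finset.sum_le_card_nsmul _ _ _ fun x _ => toReal_goodAt_le (y := y) hy hδ).trans ?_
  rw [nsmul_eq_mul]
  exact mul_le_mul_of_nonneg_right hX (mul_nonneg (by norm_num) ENNReal.toReal_nonneg)

lemma supply_bound {f K η θ c N B p X Y : ℝ} (hf : 0 < f) (hK : 1 ≤ K)
    (hη : η = f / (2 * K ^ 3)) (hθ : θ = f / (c * 12 * 25 * 2)) (hN : 1 ≤ N)
    (hB : B = (2 * N + 1) ^ 2) (hp : p ≤ f / 9) (hc : 0 < c)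
    (hY : Y ≤ 12 * (25 * N ^ 2 * (2 * θ)) + X) (hT : B * f ≤ B * p + c * Y + 2 * η * (K * N) * (K ^ 2 * N)) :
    f * N ^ 2 ≤ c * X := by
  have hb1 : 4 * N ^ 2 ≤ B := by rw [hB]; nlinarith
  have hb2 : B ≤ 9 * N ^ 2 := by rw [hB]; nlinarith
  have hB0 : 0 ≤ B := by rw [hB]; positivity
  have h1 : 4 * N ^ 2 * f ≤ B * f := mul_le_mul_of_nonneg_right hb1 hf.le
  have h2 : B * p ≤ f * N ^ 2 :=
    (mul_le_mul_of_nonneg_left hp hB0).trans
      ((mul_le_mul_of_nonneg_right hb2 (by positivity)).trans (le_of_eq (by ring)))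
  have hK0 : K ≠ 0 := by linarith
  have h3 : 2 * η * (K * N) * (K ^ 2 * N) = f * N ^ 2 := by
    rw [hη]; field_simp
  have h4 : c * (12 * (25 * N ^ 2 * (2 * θ))) = f * N ^ 2 := by
    rw [hθ]; field_simp
  have h5 := mul_le_mul_of_nonneg_left hY hc.le
  rw [mul_add, h4] at h5
  linarith

lemma final_bound {f c gU N X S : ℝ} (hN : 1 ≤ N) (hgU : 0 ≤ gU)
    (h1 : f * N ^ 2 / (3 * 12 * c) ≤ X) (h2 : X * gU ≤ 25 * N ^ 2 * (4 * S)) :
    f * gU / (36 * c * 25 * 4) ≤ S := by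
  have hN0 : 0 < N ^ 2 := by positivity
  refine le_of_mul_le_mul_left ?_ hN0
  have hb := mul_le_mul_of_nonneg_right h1 hgU
  have e1 : N ^ 2 * (f * gU / (36 * c * 25 * 4)) = f * N ^ 2 / (3 * 12 * c) * gU / 100 := by ring
  rw [e1]
  linarith

end Mass

open Mass in
/-- If bigeodesics exist, the sites of separated slopes have a probability bounded below, for
every atomless law. -/
theorem massPropG {G : Measure ℝ} (hG : LawGen G) (hC : ChordProp G)
    (hN : ChordCount G) (hW : WildNull G) : MassProp G := by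
  classical
  have := hG.prob
  have : IsProbabilityMeasure (law G) := law_isProbG hG
  intro hNo
  set f := (law G lineEvent).toReal with hf
  have hf0 : 0 < f := ENNReal.toReal_pos (lineEvent_pos hG hNo) (measure_ne_top _ _)
  obtain ⟨γ₀, C, hγ, hγ1, hCp, hC'⟩ := hC
  choose! rf Rf hrf hlim using hC'
  set ε₀ := γ₀ / 32 with hε₀
  have hε₀p : 0 < ε₀ := by rw [hε₀]; positivity
  obtain ⟨K, hK, hcnt⟩ := hN γ₀ C (rf ε₀) hγ hγ1 hCp (hrf ε₀ hε₀p)
  have hKp : (1 : ℝ) ≤ K := by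
    have := hK.trans (mul_le_of_le_one_left (Nat.cast_nonneg _) hγ1)
    linarith
  set η := f / (2 * (K : ℝ) ^ 3) with hη
  have hηp : 0 < η := div_pos hf0 (by positivity)
  -- the ladder of tolerances
  set e : ℕ → ℝ := fun n => Nat.rec (η / 2)
    (fun _ x => min x (η / (8 * (2 * (Rf x : ℝ) + 1) ^ 2))) n with he
  have hes : ∀ n, e (n + 1) = min (e n) (η / (8 * (2 * (Rf (e n) : ℝ) + 1) ^ 2)) := fun n => rfl
  have hepos : ∀ n, 0 < e n := by
    intro n
    induction n with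
    | zero => show 0 < η / 2; linarith
    | succ n ih => rw [hes]; exact lt_min ih (by positivity)
  have hanti : Antitone e := antitone_nat_of_succ_le fun n => by rw [hes]; exact min_le_left _ _
  have he0 : e 0 = η / 2 := rfl
  set es : Fin 13 → ℝ := fun i => e i with hesd
  set rs : Fin 13 → ℝ := fun i => rf (es i) with hrsd
  set Rs : Fin 13 → ℕ := fun i => Rf (es i) with hRsd
  set R := Finset.univ.sup Rs with hRd
  set r₁ := Finset.univ.inf' Finset.univ_nonempty rs with hr₁d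
  have hr₁ : 0 < G (Set.Iio r₁) := by
    obtain ⟨i, -, hi⟩ := Finset.exists_mem_eq_inf' Finset.univ_nonempty rs
    rw [hr₁d, hi]
    exact hrf _ (hepos i)
  obtain ⟨δ, hδ, hgap⟩ := exists_gap hG hr₁
  obtain ⟨r₀, r, hr, hr₀, hlow⟩ := exists_fewLowG hG
  set A := 3 * C * (2 * (R : ℝ) + 1) ^ 2 / η + 1 with hAd
  have hAp : 0 < A := by positivity
  set c2 := (2 * (R : ℝ) + 1) ^ 2 with hc2
  set gU := (G (Set.Ico 0 (r₁ - δ))).toReal with hgU
  have hgUp : 0 < gU := ENNReal.toReal_pos hgap.ne' (measure_ne_top _ _)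
  refine ⟨A, r₀, r, δ, f * gU / (36 * c2 * 25 * 4), R, R, hAp, hr, hr₀, hδ, by positivity, ?_⟩
  intro ε hε _ K₀ hK₀
  set mu := ⌈A / ε⌉₊ + 1 with hmu
  set ρ := ε / (3 * ((mu : ℝ) + 1) * K₀) with hρ
  have hρp : 0 < ρ := by
    have : (0 : ℝ) < K₀ := by exact_mod_cast (show 0 < K₀ by omega)
    positivity
  set θ := f / (c2 * 12 * 25 * 2) with hθ
  have hθp : 0 < θ := by positivity
  have hscale : Tendsto (fun L : ℕ => 3 * ((mu + 1) * K₀ * L)) atTop atTop :=
    tendsto_atTop_atTop.2 fun b => ⟨b, fun L hL => by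
      have : 1 ≤ (mu + 1) * K₀ := Nat.one_le_iff_ne_zero.2 (Nat.mul_ne_zero (by omega) (by omega))
      calc b ≤ L := hL
        _ = 1 * L := (one_mul L).symm
        _ ≤ (mu + 1) * K₀ * L := Nat.mul_le_mul_right _ this
        _ ≤ _ := Nat.le_mul_of_pos_left _ (by omega)⟩
  have hreal : ∀ {u : ℕ → ℝ≥0∞}, (∀ n, u n ≠ ⊤) → Tendsto u atTop (𝓝 0) → ∀ {θ : ℝ}, 0 < θ →
      ∀ᶠ n in atTop, (u n).toReal ≤ θ := by
    intro u hu hlim θ hθ
    filter_upwards [hlim.eventually_le_const (ENNReal.ofReal_pos.2 hθ)] with n hn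
    exact (ENNReal.toReal_mono ENNReal.ofReal_ne_top hn).trans_eq (ENNReal.toReal_ofReal hθ.le)
  filter_upwards [eventually_ge_atTop (R + 2),
    hreal (fun _ => measure_ne_top _ _) (tendsto_not_fewLow hG (hlow (0, 0))) hθp,
    hreal (fun _ => measure_ne_top _ _) ((hW 0 (Or.inl rfl) R r₁ A ρ hr₁ hρp).comp hscale) hθp,
    hreal (fun _ => measure_ne_top _ _) ((hW 1 (Or.inr rfl) R r₁ A ρ hr₁ hρp).comp hscale) hθp]
    with L hL hPlow hPw0 hPw1
  set Lam := (mu + 1) * K₀ * L with hLam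
  set Bad : ℕ → Set Conf := fun N =>
    ((NN ∩ {t | ChordOK γ₀ C (rf ε₀) ε₀ (Rf ε₀) (K * N) t}) ∩
      ⋂ i : Fin 13, {t | ChordOK γ₀ C (rs i) (es i) (Rs i) (K * N) t})ᶜ with hBad
  have hKN : Tendsto (fun N : ℕ => K * N) atTop atTop :=
    tendsto_atTop_atTop.2 fun b => ⟨b, fun N hN' => hN'.trans
      (Nat.le_mul_of_pos_left _ (by exact_mod_cast (show (0 : ℝ) < K by linarith)))⟩
  have hbadlim : Tendsto (fun N => law G (Bad N)) atTop (𝓝 0) := by
    have hsum : Tendsto (fun N : ℕ => law G {t | ¬ ChordOK γ₀ C (rf ε₀) ε₀ (Rf ε₀) (K * N) t} +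
        ∑ i : Fin 13, law G {t | ¬ ChordOK γ₀ C (rs i) (es i) (Rs i) (K * N) t})
        atTop (𝓝 (0 + ∑ _i : Fin 13, 0)) :=
      ((hlim ε₀ hε₀p).comp hKN).add (tendsto_finset_sum _ fun i _ => (hlim _ (hepos i)).comp hKN)
    rw [Finset.sum_const_zero, add_zero] at hsum
    refine tendsto_of_tendsto_of_tendsto_of_le_of_le tendsto_const_nhds hsum (fun N => zero_le)
      fun N => ?_
    have hnn : law G NNᶜ = 0 := ae_iff.1 (law_ae_nonnegG hG)
    calc law G (Bad N) ≤ law G (NNᶜ ∪ {t | ¬ ChordOK γ₀ C (rf ε₀) ε₀ (Rf ε₀) (K * N) t} ∪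
          ⋃ i : Fin 13, {t | ¬ ChordOK γ₀ C (rs i) (es i) (Rs i) (K * N) t}) := by
            refine measure_mono fun t ht => ?_
            simp only [hBad, Set.mem_compl_iff, Set.mem_inter_iff, Set.mem_iInter,
              Set.mem_ofPred_eq] at ht
            simp only [Set.mem_union, Set.mem_iUnion, Set.mem_compl_iff, Set.mem_ofPred_eq]
            by_contra hcon
            push Not at hcon
            exact ht ⟨hcon.1, hcon.2⟩
      _ ≤ law G (NNᶜ ∪ {t | ¬ ChordOK γ₀ C (rf ε₀) ε₀ (Rf ε₀) (K * N) t}) + _ :=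
          measure_union_le _ _
      _ ≤ _ := by
          refine add_le_add ((measure_union_le _ _).trans (by rw [hnn, zero_add])) ?_
          exact measure_iUnion_fintype_le _ _
  obtain ⟨b0, hb0⟩ : ∃ b : ℕ, 4 * (A * (3 * (Lam : ℝ)) + Lam + 2) ≤ b := exists_nat_ge _
  filter_upwards [eventually_ge_atTop (2 * R + 2 * Lam + 3 * Lam + b0 + 1),
    hreal (fun _ => measure_ne_top _ _) hbadlim (show 0 < f / 9 by positivity),
    hcnt ε₀ hε₀p le_rfl (Rf ε₀)] with N hNge hPbad hcntN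
  let U : Run := ⟨γ₀, C, A, ε, δ, r₁, r, η, K, K₀, R, L, N, es, rs, Rs⟩
  have hUOK : U.OK := {
    hγ := hγ
    hγ1 := hγ1
    hK := hK
    hA := hAp
    hε := hε
    hK₀ := hK₀
    hL := by show 2 ≤ L; omega
    hR := by show R < L; omega
    hN := by
      show 2 * R + 2 * Lam + 3 * Lam ≤ N
      omega
    hfit := by
      show 4 * (A * (3 * ((Lam : ℤ) : ℝ)) + (Lam : ℝ) + 2) ≤ 3 * (N : ℝ)
      have : (b0 : ℝ) ≤ N := by exact_mod_cast (show b0 ≤ N by omega)
      rw [Int.cast_natCast]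
      linarith [Nat.cast_nonneg (α := ℝ) N]
    hη := hηp
    hes := fun i => (hepos i).le
    hrs := fun i => Finset.inf'_le _ (Finset.mem_univ i)
    hRs := fun i => Finset.le_sup (Finset.mem_univ i)
    hpair := fun i j hij => by
      show e i + 4 * (2 * (Rf (e i) : ℝ) + 1) ^ 2 * e j ≤ η
      have h1 : e i ≤ η / 2 := (hanti (Nat.zero_le _)).trans_eq he0
      have h2 : e j ≤ η / (8 * (2 * (Rf (e i) : ℝ) + 1) ^ 2) :=
        (hanti (show (i : ℕ) + 1 ≤ j from hij)).trans ((hes i).trans_le (min_le_right _ _))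
      rw [le_div_iff₀ (by positivity)] at h2
      nlinarith
    hlong := by
      show 3 * C * (2 * (R : ℝ) + 1) ^ 2 ≤ η * A
      rw [hAd, mul_add, mul_div_cancel₀ _ hηp.ne']
      linarith }
  have hOKm : MeasurableSet (Bad N)ᶜ := by
    rw [hBad, compl_compl]
    exact (isClosed_NN.measurableSet.inter (measurableSet_chordOK ..)).inter
      (MeasurableSet.iInter fun i => measurableSet_chordOK ..)
  have hmain := run_count hG U hUOK hOKm (by rw [hBad, compl_compl]; exact fun t ht => ht.1.1)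
    (by rw [hBad, compl_compl]; exact fun t ht i => Set.mem_iInter.1 ht.2 i)
    ((lintegral_mono_set (by rw [hBad, compl_compl]; exact fun t ht => ht.1.2)).trans hcntN)
  rw [compl_compl] at hmain
  have hcount2 : ((box (2 * N)).card : ℝ) ≤ 25 * (N : ℝ) ^ 2 := by
    rw [card_box]; push_cast
    have : (1 : ℝ) ≤ N := by exact_mod_cast (show 1 ≤ N by omega)
    nlinarith
  have hsplit := split_sum (ι := Run.Frame) (m := ⌈A / ε⌉₊ + 1) hcount2 ENNReal.toReal_nonneg hPlow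
    (w := fun q => (law G (wildSite (Run.fk q) R r₁ A U.rho U.n)).toReal)
    (fun q => ENNReal.toReal_nonneg)
    (fun q => by
      rcases Run.fk_cases q with h | h <;> simp only [h]
      exacts [hPw0, hPw1])
    (fun q x u => (law G (goodAt U.P r₁ (Run.fk q) (stripLev K₀ L u) (slopeGrid A ε u) x)).toReal)
  rw [Run.card_frame, Nat.cast_ofNat] at hsplit
  have hsupply : f * (N : ℝ) ^ 2 ≤ c2 * ∑ q : Run.Frame, ∑ u ∈ Finset.range mu,
      ∑ x ∈ box (2 * N),
        (law G (goodAt U.P r₁ (Run.fk q) (stripLev K₀ L u) (slopeGrid A ε u) x)).toReal :=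
    supply_bound hf0 hKp hη hθ (show (1 : ℝ) ≤ N by exact_mod_cast (show 1 ≤ N by omega))
      (by rw [card_box]; push_cast; ring) hPbad (show 0 < c2 by positivity) hsplit hmain
  have : Nonempty Run.Frame := ⟨(⟨0, by simp [frameSyms]⟩, true)⟩
  obtain ⟨q, a, ha, hbest⟩ := exists_class (show 0 < c2 by positivity) hsupply
  rw [Run.card_frame, Nat.cast_ofNat] at hbest
  refine ⟨Run.fk q, Run.fk_cases q, a, ha, fun y hy => ?_⟩
  have hup := sum_goodAt_le (G := G) (P := U.P) (r₁ := r₁) (k := Run.fk q) (y := y) hy hδ.le hcount2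
    (stripLev K₀ L) (fun u => slopeGrid A ε u) ((Finset.range mu).filter fun u => u % 3 = a)
  exact final_bound (show (1 : ℝ) ≤ N by exact_mod_cast (show 1 ≤ N by omega)) hgUp.le hbest hup

/-- If bigeodesics exist, the sites of separated slopes have a probability bounded below. -/
theorem massProp {G : Measure ℝ} {M : ℝ} (hG : LawOK G M) (hC : ChordProp G)
    (hN : ChordCount G) (hW : WildNull G) : MassProp G :=
  massPropG hG.gen hC hN hW

end Vale.Agent.P158
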