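import Vale.Agent.P158.Basic

/-!
Walk lengths and restricted passage times: what the Busemann lemmas need.
-/

open MeasureTheory Filter Topology

namespace Vale.Agent.P158.Rays

variable {t t' : Conf} {S : Set Edge} {x y z : V}

/-- The two ends of the code of an edge. -/
theorem edge_ends {x y : V} (h : Adj x y) :
    (x = eFst (edgeOf x y) ∧ y = eSnd (edgeOf x y)) ∨
      (y = eFst (edgeOf x y) ∧ x = eSnd (edgeOf x y)) := by
  obtain ⟨a, b⟩ := x
  obtain ⟨c, d⟩ := y
  simp only [Adj] at h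
  rcases abs_cases (a - c) with h1 | h1 <;> rcases abs_cases (b - d) with h2 | h2 <;>
    simp only [edgeOf, eFst, eSnd] <;> by_cases hac : a = c <;>
    simp [hac, Prod.ext_iff] <;> omega

@[simp] theorem plen_cons (t : Conf) {x y z : V} (h : grid.Adj x y) (p : grid.Walk y z) :
    plen t (SimpleGraph.Walk.cons h p) = wt t x y + plen t p := by simp [plen]

theorem walkIn_cons {h : grid.Adj x y} {p : grid.Walk y z} :
    WalkIn S (SimpleGraph.Walk.cons h p) ↔ edgeOf x y ∈ S ∧ WalkIn S p := by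
  simp [WalkIn]

theorem connIn_adj (h : Adj x y) (hS : edgeOf x y ∈ S) : ConnIn S x y :=
  ⟨.cons (show grid.Adj x y from h) .nil, walkIn_cons.2 ⟨hS, walkIn_nil (S := S) (x := y)⟩⟩

theorem TS_univ (t : Conf) (x y : V) : TS t Set.univ x y = T t x y := by
  simp [TS, T, walkIn_univ, Set.image_univ]

theorem TS_le' (h0 : ∀ e, 0 ≤ t e) (p : grid.Walk x y) (hp : WalkIn S p) :
    TS t S x y ≤ plen t p := TS_le h0 hp

theorem TS_adj_le (h0 : ∀ e, 0 ≤ t e) (h : Adj x y) (hS : edgeOf x y ∈ S) :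
    TS t S x y ≤ wt t x y := by
  simpa using TS_le' (S := S) h0 (.cons (show grid.Adj x y from h) .nil)
    (walkIn_cons.2 ⟨hS, walkIn_nil (S := S) (x := y)⟩)

theorem TS_step (h0 : ∀ e, 0 ≤ t e) (hc : ConnIn S x y) (hne : x ≠ y) :
    ∃ z ∈ nbrs x, Adj x z ∧ edgeOf x z ∈ S ∧ ConnIn S z y ∧
      TS t S x y = wt t x z + TS t S z y := by
  classical
  set N := (nbrs x).filter fun z => Adj x z ∧ edgeOf x z ∈ S ∧ ConnIn S z y
  have key : ∀ p : grid.Walk x y, WalkIn S p →
      ∃ z ∈ N, wt t x z + TS t S z y ≤ plen t p := by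
    intro p hp
    cases p with
    | nil => exact absurd rfl hne
    | cons h q =>
      obtain ⟨h1, h2⟩ := walkIn_cons.1 hp
      refine ⟨_, Finset.mem_filter.2 ⟨mem_nbrs.2 h, h, h1, ⟨q, h2⟩⟩, ?_⟩
      rw [plen_cons]; linarith [TS_le' h0 q h2]
  have hN : N.Nonempty := by
    obtain ⟨p, hp⟩ := hc
    obtain ⟨z, hz, -⟩ := key p hp
    exact ⟨z, hz⟩
  obtain ⟨z, hz, hmin⟩ := N.exists_min_image (fun z => wt t x z + TS t S z y) hN
  obtain ⟨hzn, hza, hzS, hzc⟩ := Finset.mem_filter.1 hz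
  refine ⟨z, hzn, hza, hzS, hzc, le_antisymm ?_ (le_TS hc fun p hp => ?_)⟩
  · calc TS t S x y ≤ TS t S x z + TS t S z y := TS_triangle h0 (connIn_adj hza hzS) hzc
      _ ≤ wt t x z + TS t S z y := by linarith [TS_adj_le h0 hza hzS]
  · obtain ⟨w, hw, hwp⟩ := key p hp
    exact (hmin w hw).trans hwp

/-- The vertices incident to a finite set of edges. -/
def ends (F : Finset Edge) : Finset V := F.image eFst ∪ F.image eSnd

theorem mem_ends {F : Finset Edge} (h : Adj x y) (hF : edgeOf x y ∈ F) : x ∈ ends F := by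
  rcases edge_ends h with ⟨h1, -⟩ | ⟨-, h1⟩
  · exact Finset.mem_union_left _ (Finset.mem_image.2 ⟨_, hF, h1.symm⟩)
  · exact Finset.mem_union_right _ (Finset.mem_image.2 ⟨_, hF, h1.symm⟩)

/-- A walk either avoids `F` or has an initial piece avoiding `F` that ends in `ends F`. -/
theorem split_first (F : Finset Edge) (p : grid.Walk x y) (hp : WalkIn S p) :
    WalkIn (S \ F) p ∨ ∃ u ∈ ends F, ∃ (p1 : grid.Walk x u) (p2 : grid.Walk u y),
      WalkIn (S \ F) p1 ∧ WalkIn S p2 ∧ ∀ s : Conf, plen s p = plen s p1 + plen s p2 := by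
  induction p with
  | nil => exact .inl (walkIn_nil (S := _) (x := _))
  | @cons a b c h q ih =>
    obtain ⟨h1, h2⟩ := walkIn_cons.1 hp
    by_cases hF : edgeOf a b ∈ F
    · exact .inr ⟨a, mem_ends h hF, .nil, .cons h q, walkIn_nil (S := _) (x := _), hp, fun s => by simp⟩
    rcases ih h2 with hq | ⟨u, hu, p1, p2, hp1, hp2, heq⟩
    · exact .inl (walkIn_cons.2 ⟨⟨h1, hF⟩, hq⟩)
    · exact .inr ⟨u, hu, .cons h p1, p2, walkIn_cons.2 ⟨⟨h1, hF⟩, hp1⟩, hp2,
        fun s => by simp [heq s]; ring⟩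

theorem plen_congr {p : grid.Walk x y} (hp : WalkIn S p) (h : ∀ e ∈ S, t' e = t e) :
    plen t' p = plen t p := by
  unfold plen
  congr 1
  exact List.map_congr_left fun d hd => h _ (hp d hd)

theorem edgeOf_inj {a b c d : V} (h1 : Adj a b) (h2 : Adj c d)
    (h : edgeOf a b = edgeOf c d) : (a = c ∧ b = d) ∨ (a = d ∧ b = c) := by
  rcases edge_ends h1 with ⟨e1, e2⟩ | ⟨e1, e2⟩ <;> rcases edge_ends h2 with ⟨e3, e4⟩ | ⟨e3, e4⟩ <;>
    rw [h] at e1 e2
  · exact .inl ⟨e1.trans e3.symm, e2.trans e4.symm⟩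
  · exact .inr ⟨e1.trans e3.symm, e2.trans e4.symm⟩
  · exact .inr ⟨e2.trans e4.symm, e1.trans e3.symm⟩
  · exact .inl ⟨e2.trans e4.symm, e1.trans e3.symm⟩

/-- A self-avoiding walk changes its weight by at most the total change on a finite set. -/
theorem plen_change {F : Finset Edge} (hoff : ∀ e, e ∉ F → t' e = t e) {p : grid.Walk x y}
    (hp : p.IsPath) : plen t' p ≤ plen t p + ∑ e ∈ F, max (t' e - t e) 0 := by
  classical
  set l := p.darts.map fun d => edgeOf d.toProd.1 d.toProd.2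
  have hnd : l.Nodup := by
    refine List.Nodup.map_on ?_ (SimpleGraph.Walk.darts_nodup_of_support_nodup hp.support_nodup)
    intro d hd d' hd' h
    have hdd : d.edge = d'.edge := by
      rcases edgeOf_inj d.adj d'.adj h with ⟨h1, h2⟩ | ⟨h1, h2⟩
      · exact Sym2.eq_iff.2 (.inl ⟨h1, h2⟩)
      · exact Sym2.eq_iff.2 (.inr ⟨h1, h2⟩)
    exact List.inj_on_of_nodup_map hp.isTrail.edges_nodup hd hd' hdd
  have e1 : ∀ s : Conf, plen s p = ∑ e ∈ l.toFinset, s e := fun s => by
    rw [List.sum_toFinset _ hnd]; simp [plen, l, List.map_map, Function.comp_def, wt]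
  have hle : ∑ e ∈ l.toFinset, (t' e - t e) ≤ ∑ e ∈ F, max (t' e - t e) 0 := by
    calc ∑ e ∈ l.toFinset, (t' e - t e)
        ≤ ∑ e ∈ l.toFinset, max (t' e - t e) 0 := Finset.sum_le_sum fun e _ => le_max_left _ _
      _ = ∑ e ∈ l.toFinset.filter (· ∈ F), max (t' e - t e) 0 := by
          refine (Finset.sum_filter_of_ne fun e _ hne => ?_).symm
          by_contra hF; simp [hoff e hF] at hne
      _ ≤ _ := Finset.sum_le_sum_of_subset_of_nonneg
          (fun e he => (Finset.mem_filter.1 he).2) fun e _ _ => le_max_right _ _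
  rw [Finset.sum_sub_distrib] at hle
  rw [e1, e1]; linarith

/-- Changing finitely many weights changes restricted passage times by a bounded amount. -/
theorem TS_change (h0 : ∀ e, 0 ≤ t e) (h0' : ∀ e, 0 ≤ t' e) {F : Finset Edge}
    (hoff : ∀ e, e ∉ F → t' e = t e) (hc : ConnIn S x y) :
    TS t' S x y ≤ TS t S x y + ∑ e ∈ F, max (t' e - t e) 0 := by
  have : TS t' S x y - ∑ e ∈ F, max (t' e - t e) 0 ≤ TS t S x y := le_TS hc fun p hp => by
    linarith [TS_le' h0' p.bypass ((WalkIn.bypass hp)), plen_change hoff p.bypass_isPath,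
      plen_bypass_le h0 p]
  linarith

end Vale.Agent.P158.Rays
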