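import Vale.Agent.P158.GoodCross
import Vale.Agent.P158.OrderBox
import Vale.Agent.P158.Meas

/-!
P158, rings of good edges: four crossings of the sides of an annulus give a short connected set of
good edges which every walk leaving the inner box meets.
-/

open MeasureTheory Filter Topology
open scoped BigOperators ENNReal

namespace Vale.Agent.P158

open SimpleGraph (Walk)

/-- A walk of length at most `D` through good edges of the annulus between the boxes of radii `r`
and `3 r`, met by every walk from the inner box to the outside of the outer one. -/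
def HasRing (gd : Edge → Prop) (r : ℕ) (D : ℕ) : Prop :=
  ∃ (a b : V) (C : grid.Walk a b), C.length ≤ D ∧ (∀ e ∈ edgeList C, gd e) ∧
    (∀ x ∈ C.support, InSq (3 * r) x ∧ ¬ InSq r x) ∧
    ∀ (u v : V) (w : grid.Walk u v), InSq r u → ¬ InSq (3 * r) v →
      ∃ x, x ∈ C.support ∧ x ∈ w.support

theorem edgeList_append {a b c : V} (p : grid.Walk a b) (q : grid.Walk b c) :
    edgeList (p.append q) = edgeList p ++ edgeList q := by
  simp [edgeList, Walk.darts_append]

theorem mem_edgeList_reverse {a b : V} (p : grid.Walk a b) {e : Edge} :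
    e ∈ edgeList p.reverse ↔ e ∈ edgeList p := by
  simp only [edgeList, Walk.darts_reverse, List.map_reverse, List.mem_reverse, List.map_map]
  constructor <;> rintro h <;> obtain ⟨d, hd, rfl⟩ := List.mem_map.1 h <;>
    exact List.mem_map.2 ⟨d, hd, by simp [edgeOf_comm]⟩

theorem edgeList_takeUntil_subset {a b m : V} (p : grid.Walk a b) (hm : m ∈ p.support) :
    edgeList (p.takeUntil m hm) ⊆ edgeList p ∧ edgeList (p.dropUntil m hm) ⊆ edgeList p := by
  constructor <;> intro e he <;> rw [← p.take_spec hm, edgeList_append, List.mem_append]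
  exacts [Or.inl he, Or.inr he]

/-- Two walks with a common vertex give one walk through both. -/
theorem absorb {a b c d : V} (p : grid.Walk a b) (q : grid.Walk c d)
    (h : ∃ m, m ∈ p.support ∧ m ∈ q.support) :
    ∃ w : grid.Walk a d, w.length ≤ 2 * p.length + 2 * q.length ∧
      (∀ x, x ∈ w.support ↔ x ∈ p.support ∨ x ∈ q.support) ∧
      ∀ e ∈ edgeList w, e ∈ edgeList p ∨ e ∈ edgeList q := by
  obtain ⟨m, hp, hq⟩ := h
  refine ⟨((p.append (p.dropUntil m hp).reverse).append (q.takeUntil m hq).reverse).append q,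
    ?_, fun x => ?_, fun e he => ?_⟩
  · simp only [Walk.length_append, Walk.length_reverse]
    have h1 := p.length_dropUntil_le_length hp
    have h2 := q.length_takeUntil_le_length hq
    omega
  · simp only [Walk.mem_support_append_iff, Walk.support_reverse, List.mem_reverse]
    constructor
    · rintro (((h | h) | h) | h)
      exacts [Or.inl h, Or.inl (p.support_dropUntil_subset_support hp h),
        Or.inr (q.support_takeUntil_subset_support hq h), Or.inr h]
    · rintro (h | h)
      exacts [Or.inl (Or.inl (Or.inl h)), Or.inr h]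
  · simp only [edgeList_append, List.mem_append, mem_edgeList_reverse] at he
    rcases he with ((h | h) | h) | h
    exacts [Or.inl h, Or.inl ((edgeList_takeUntil_subset p hp).2 h),
      Or.inr ((edgeList_takeUntil_subset q hq).1 h), Or.inr h]

theorem straight_walk (u : V) (dx dy : ℤ) (hd : |dx| + |dy| = 1) : ∀ n : ℕ,
    ∃ w : grid.Walk u (u.1 + n * dx, u.2 + n * dy),
      ∀ x ∈ w.support, ∃ i : ℕ, i ≤ n ∧ x = (u.1 + i * dx, u.2 + i * dy) := by
  intro n
  induction n with
  | zero =>
    exact ⟨(Walk.nil' u).copy rfl (by simp), fun x hx => ⟨0, le_rfl, by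
      rw [Walk.support_copy, Walk.support_nil, List.mem_singleton] at hx; simp [hx]⟩⟩
  | succ n ih =>
    obtain ⟨w, hw⟩ := ih
    have hadj : grid.Adj (u.1 + (n : ℤ) * dx, u.2 + (n : ℤ) * dy)
        (u.1 + ((n + 1 : ℕ) : ℤ) * dx, u.2 + ((n + 1 : ℕ) : ℤ) * dy) := by
      show Adj _ _
      simp only [Adj]
      push_cast
      rw [show u.1 + n * dx - (u.1 + (n + 1) * dx) = -dx by ring,
        show u.2 + n * dy - (u.2 + (n + 1) * dy) = -dy by ring, abs_neg, abs_neg]
      exact hd
    refine ⟨w.concat hadj, fun x hx => ?_⟩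
    rw [Walk.support_concat, List.mem_append, List.mem_singleton] at hx
    rcases hx with hx | rfl
    · obtain ⟨i, hi, rfl⟩ := hw x hx
      exact ⟨i, by omega, rfl⟩
    · exact ⟨n + 1, le_rfl, rfl⟩

/-- The first vertex of a walk on the boundary of a box. -/
theorem exit_box {N : ℤ} : ∀ {u v : V} (w : grid.Walk u v), InSq N u → ¬ InSq N v →
    ∃ (z : V) (w' : grid.Walk u z), OnBd N z ∧
      (∀ x ∈ w'.support, InSq N x ∧ x ∈ w.support) := by
  intro u v w
  induction w with
  | nil => exact fun h h' => absurd h h'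
  | @cons x y z hxy w ih =>
    intro hx hz
    by_cases hy : InSq N y
    · obtain ⟨z', w', hb, hw⟩ := ih hy hz
      refine ⟨z', Walk.cons hxy w', hb, fun a ha => ?_⟩
      rw [Walk.support_cons, List.mem_cons] at ha
      rcases ha with rfl | ha
      exacts [⟨hx, List.mem_cons_self⟩, ⟨(hw a ha).1, List.mem_cons_of_mem _ (hw a ha).2⟩]
    · refine ⟨x, .nil, ?_, fun a ha => ?_⟩
      · rcases adj_iff.1 (hxy : Adj x y) with ⟨e1, e2⟩ | ⟨e1, e2⟩ <;>
          simp only [OnBd, InSq] at hx hy ⊢ <;> omega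
      · rw [Walk.support_nil, List.mem_singleton] at ha
        rw [ha]; exact ⟨hx, List.mem_cons_self⟩

/-- Four crossings of the sides of the annulus make a ring. -/
theorem ring_of_crossings (gd : Edge → Prop) {r D : ℕ} (hr : 1 ≤ r)
    {a₁ b₁ a₂ b₂ a₃ b₃ a₄ b₄ : V} (B : grid.Walk a₁ b₁) (R : grid.Walk a₂ b₂)
    (T : grid.Walk a₃ b₃) (L : grid.Walk a₄ b₄)
    (hB : ∀ x ∈ B.support, InRect (-(3 * r)) (-(3 * r)) (6 * r) (2 * r - 1) x)
    (hT : ∀ x ∈ T.support, InRect (-(3 * r)) (r + 1) (6 * r) (2 * r - 1) x)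
    (hL : ∀ x ∈ L.support, InRect (-(3 * r)) (-(3 * r)) (2 * r - 1) (6 * r) x)
    (hR : ∀ x ∈ R.support, InRect (r + 1) (-(3 * r)) (2 * r - 1) (6 * r) x)
    (eB : a₁.1 = -(3 * r : ℤ) ∧ b₁.1 = (3 * r : ℤ)) (eT : a₃.1 = -(3 * r : ℤ) ∧ b₃.1 = (3 * r : ℤ))
    (eL : a₄.2 = -(3 * r : ℤ) ∧ b₄.2 = (3 * r : ℤ)) (eR : a₂.2 = -(3 * r : ℤ) ∧ b₂.2 = (3 * r : ℤ))
    (gB : ∀ e ∈ edgeList B, gd e) (gR : ∀ e ∈ edgeList R, gd e) (gT : ∀ e ∈ edgeList T, gd e)
    (gL : ∀ e ∈ edgeList L, gd e)
    (hD : 8 * (B.length + R.length + T.length + L.length) ≤ D) : HasRing gd r D := by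
  obtain ⟨N, hN⟩ : ∃ N : ℤ, N = 3 * r := ⟨_, rfl⟩
  simp only [InRect] at hB hT hL hR
  have box : ∀ x : V, x ∈ B.support ∨ x ∈ R.support ∨ x ∈ T.support ∨ x ∈ L.support →
      InSq N x ∧ ¬ InSq r x := by
    intro x hx
    simp only [InSq, hN]
    rcases hx with h | h | h | h
    · have := hB x h; omega
    · have := hR x h; omega
    · have := hT x h; omega
    · have := hL x h; omega
  -- a side to side and a bottom to top walk of the box meet
  have cross : ∀ {a b c d : V} (p : grid.Walk a b) (q : grid.Walk c d),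
      (∀ x ∈ p.support, InSq N x) → (∀ x ∈ q.support, InSq N x) →
      a.1 = -N → b.1 = N → c.2 = -N → d.2 = N → ∃ x, x ∈ p.support ∧ x ∈ q.support := by
    intro a b c d p q hp hq ha hb hc hd
    by_contra hno
    have h1 := hp a p.start_mem_support
    have h2 := hp b p.end_mem_support
    have h3 := hq c q.start_mem_support
    have h4 := hq d q.end_mem_support
    have ne : ∀ u v, u ∈ p.support → v ∈ q.support → ¬ (u.1 = v.1 ∧ u.2 = v.2) :=
      fun u v hu hv e => hno ⟨u, hu, Prod.ext e.1 e.2 ▸ hv⟩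
    have n1 := ne a c p.start_mem_support q.start_mem_support
    have n2 := ne a d p.start_mem_support q.end_mem_support
    have n3 := ne b c p.end_mem_support q.start_mem_support
    have n4 := ne b d p.end_mem_support q.end_mem_support
    obtain ⟨x, x1, x2⟩ := meet_box_alt p q hp hq (a := a) (b := b) (c := c) (d := d)
      ⟨h1, by omega⟩ ⟨h2, by omega⟩ ⟨h3, by omega⟩ ⟨h4, by omega⟩ (by
        simp only [InSq] at h1 h2 h3 h4
        unfold Alt bdPos
        split_ifs <;> omega)
    exact hno ⟨x, x1, x2⟩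
  have sB : ∀ x ∈ B.support, InSq N x := fun x h => (box x (Or.inl h)).1
  have sR : ∀ x ∈ R.support, InSq N x := fun x h => (box x (Or.inr (Or.inl h))).1
  have sT : ∀ x ∈ T.support, InSq N x := fun x h => (box x (Or.inr (Or.inr (Or.inl h)))).1
  have sL : ∀ x ∈ L.support, InSq N x := fun x h => (box x (Or.inr (Or.inr (Or.inr h)))).1
  subst hN
  obtain ⟨w1, l1, m1, g1⟩ := absorb B R (cross B R sB sR eB.1 eB.2 eR.1 eR.2)
  obtain ⟨w2, l2, m2, g2⟩ := absorb T L (cross T L sT sL eT.1 eT.2 eL.1 eL.2)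
  obtain ⟨C, lC, mC, gC⟩ := absorb w1 w2 (by
    obtain ⟨x, h1, h2⟩ := cross B L sB sL eB.1 eB.2 eL.1 eL.2
    exact ⟨x, (m1 x).2 (Or.inl h1), (m2 x).2 (Or.inr h2)⟩)
  have memC : ∀ x, x ∈ C.support ↔
      x ∈ B.support ∨ x ∈ R.support ∨ x ∈ T.support ∨ x ∈ L.support := by
    intro x; rw [mC, m1, m2, or_assoc]
  refine ⟨_, _, C, by omega, fun e he => ?_, fun x hx => box x ((memC x).1 hx),
    fun u v w hu hv => ?_⟩
  · rcases gC e he with h | h
    · rcases g1 e h with h | h
      exacts [gB e h, gR e h]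
    · rcases g2 e h with h | h
      exacts [gT e h, gL e h]
  obtain ⟨z, w', hz, hw'⟩ := exit_box w (inBox_mono (by omega) hu) hv
  obtain ⟨u1, u2, u3, u4⟩ := hu
  -- extend the walk from `u` away from the exit side: the extension misses that side's crossing
  have finish : ∀ {a b : V} (p : grid.Walk a b) (dx dy : ℤ), |dx| + |dy| = 1 →
      (∀ x ∈ p.support, x ∈ C.support) → ∀ n : ℕ,
      (∀ i : ℕ, i ≤ n → InSq (3 * r) (u.1 + i * dx, u.2 + i * dy) ∧
        (u.1 + i * dx, u.2 + i * dy) ∉ p.support) →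
      (∀ q : grid.Walk z (u.1 + n * dx, u.2 + n * dy), (∀ x ∈ q.support, InSq (3 * r) x) →
        ∃ x, x ∈ p.support ∧ x ∈ q.support) →
      ∃ x, x ∈ C.support ∧ x ∈ w.support := by
    intro a b p dx dy hd hpC n hseg hmeet
    obtain ⟨s, hs⟩ := straight_walk u dx dy hd n
    obtain ⟨x, hx1, hx2⟩ := hmeet (w'.reverse.append s) fun x hx => by
      rw [Walk.mem_support_append_iff, Walk.support_reverse, List.mem_reverse] at hx
      rcases hx with hx | hx
      · exact (hw' x hx).1
      · obtain ⟨i, hi, rfl⟩ := hs x hx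
        exact (hseg i hi).1
    rw [Walk.mem_support_append_iff, Walk.support_reverse, List.mem_reverse] at hx2
    rcases hx2 with hx2 | hx2
    · exact ⟨x, hpC x hx1, (hw' x hx2).2⟩
    · obtain ⟨i, hi, rfl⟩ := hs x hx2
      exact absurd hx1 (hseg i hi).2
  obtain ⟨⟨z1, z2, z3, z4⟩, hz⟩ := hz
  rcases hz with hz | hz | hz | hz
  · refine finish B 0 1 (by simp) (fun x h => (memC x).2 (Or.inl h)) (3 * r - u.2).toNat
      (fun i hi => ⟨by simp only [InSq]; omega, fun h => by have := hB _ h; simp only at this; omega⟩)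
      fun q hq => cross B q sB hq eB.1 eB.2 hz (by simp only; omega)
  · refine finish R (-1) 0 (by simp) (fun x h => (memC x).2 (Or.inr (Or.inl h)))
      (3 * r + u.1).toNat
      (fun i hi => ⟨by simp only [InSq]; omega, fun h => by have := hR _ h; simp only at this; omega⟩)
      fun q hq => ?_
    obtain ⟨x, h1, h2⟩ := cross q.reverse R (fun x hx => hq x (by simpa using hx)) sR
      (by simp only; omega) hz eR.1 eR.2
    exact ⟨x, h2, by simpa using h1⟩
  · refine finish T 0 (-1) (by simp) (fun x h => (memC x).2 (Or.inr (Or.inr (Or.inl h))))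
      (3 * r + u.2).toNat
      (fun i hi => ⟨by simp only [InSq]; omega, fun h => by have := hT _ h; simp only at this; omega⟩)
      fun q hq => ?_
    obtain ⟨x, h1, h2⟩ := cross T q.reverse sT (fun x hx => hq x (by simpa using hx)) eT.1 eT.2
      (by simp only; omega) hz
    exact ⟨x, h1, by simpa using h2⟩
  · refine finish L 1 0 (by simp) (fun x h => (memC x).2 (Or.inr (Or.inr (Or.inr h))))
      (3 * r - u.1).toNat
      (fun i hi => ⟨by simp only [InSq]; omega, fun h => by have := hL _ h; simp only at this; omega⟩)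
      fun q hq => ?_
    obtain ⟨x, h1, h2⟩ := cross q L hq sL hz (by simp only; omega) eL.1 eL.2
    exact ⟨x, h2, h1⟩

/-- With the bad edges rare enough, rings exist except with exponentially small probability. -/
theorem ring_prob (G : Measure ℝ) [IsProbabilityMeasure G] : ∃ δ : ℝ, 0 < δ ∧
    ∀ B, MeasurableSet B → G B ≤ ENNReal.ofReal δ → ∀ (c : V) (r : ℕ), 1 ≤ r →
      law G {t | ¬ HasRing (fun e => t (eShift c e) ∉ B) r (3072 * r)} ≤
        ENNReal.ofReal (24 * r * (1 / 2) ^ (2 * r - 1)) := by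
  obtain ⟨δ, hδ, h⟩ := good_crossing_prob G
  refine ⟨δ, hδ, fun B hB hle c r hr => ?_⟩
  set E : ℤ → ℤ → ℕ → ℕ → Set Conf := fun x₀ y₀ w n => {t | ¬ ∃ (u v : V) (q : grid.Walk u v),
    u.1 = x₀ ∧ v.1 = x₀ + w ∧ q.length ≤ 16 * w ∧ (∀ x ∈ q.support, InRect x₀ y₀ w n x) ∧
      ∀ e ∈ edgeList q, t e ∉ B} with hE
  set W := 6 * r with hW
  set n := 2 * r - 1 with hn
  have shInj : Function.Injective (eShift c) := fun e e' he => by
    simpa [eShift, Prod.ext_iff] using he
  have swInj : Function.Injective (fun e : Edge => eShift c (swapSym.emap e)) :=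
    shInj.comp swapSym.emap.injective
  have bound : ∀ (φ : Edge → Edge), Function.Injective φ → ∀ x₀ y₀,
      law G ((fun t e => t (φ e)) ⁻¹' E x₀ y₀ W n) ≤ ENNReal.ofReal (W * (1 / 2) ^ n) := by
    intro φ hφ x₀ y₀
    refine (Measure.le_map_apply (μ := law G) (f := fun t e => t (φ e)) (Measurable.aemeasurable
      (measurable_pi_lambda _ fun e => measurable_pi_apply _)) _).trans ?_
    rw [law_map_inj G hφ]
    exact h B hB hle x₀ y₀ W n (by omega)
  obtain ⟨f₁, hf₁⟩ : ∃ f : Conf → Conf, f = fun t e => t (eShift c e) := ⟨_, rfl⟩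
  obtain ⟨f₂, hf₂⟩ : ∃ f : Conf → Conf, f = fun t e => t (eShift c (swapSym.emap e)) := ⟨_, rfl⟩
  have hsub : {t | ¬ HasRing (fun e => t (eShift c e) ∉ B) r (3072 * r)} ⊆
      (f₁ ⁻¹' E (-(3 * r)) (-(3 * r)) W n ∪ f₁ ⁻¹' E (-(3 * r)) (r + 1) W n) ∪
        (f₂ ⁻¹' E (-(3 * r)) (-(3 * r)) W n ∪ f₂ ⁻¹' E (-(3 * r)) (r + 1) W n) := by
    intro t ht
    by_contra hc
    simp only [Set.mem_union, Set.mem_preimage, hE, Set.mem_ofPred_eq, not_or, not_not] at hc
    obtain ⟨⟨⟨a1, b1, q1, e1, e1', l1, i1, g1⟩, a3, b3, q3, e3, e3', l3, i3, g3⟩,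
      ⟨a4, b4, q4, e4, e4', l4, i4, g4⟩, a2, b2, q2, e2, e2', l2, i2, g2⟩ := hc
    rw [hf₁] at g1 g3
    rw [hf₂] at g4 g2
    -- the two vertical crossings are horizontal crossings of the swapped configuration
    have sw : ∀ {u v : V} (q : grid.Walk u v) {e : Edge},
        e ∈ edgeList (q.map swapSym.hom) → ∃ e' ∈ edgeList q, e = swapSym.emap e' := by
      intro u v q e he
      simp only [edgeList, Walk.darts_map, List.map_map, List.mem_map] at he
      obtain ⟨d, hd, rfl⟩ := he
      exact ⟨_, List.mem_map.2 ⟨d, hd, rfl⟩, (swapSym.edge_map _ _ d.adj).symm⟩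
    have sup : ∀ {u v : V} (q : grid.Walk u v) {x : V},
        x ∈ (q.map swapSym.hom).support → ((x.2, x.1) : V) ∈ q.support := by
      intro u v q x hx
      rw [Walk.support_map, List.mem_map] at hx
      obtain ⟨y, hy, rfl⟩ := hx
      exact hy
    refine ht (ring_of_crossings (r := r) _ hr q1 (q2.map swapSym.hom) q3 (q4.map swapSym.hom)
      i1 i3 (fun x hx => ?_) (fun x hx => ?_) ⟨e1, by rw [e1', hW]; push_cast; ring⟩
      ⟨e3, by rw [e3', hW]; push_cast; ring⟩ ⟨e4, ?_⟩ ⟨e2, ?_⟩ g1 (fun e he => ?_) g3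
      (fun e he => ?_) ?_)
    · have := i4 _ (sup q4 hx)
      simp only [InRect] at this ⊢
      omega
    · have := i2 _ (sup q2 hx)
      simp only [InRect] at this ⊢
      omega
    · show b4.1 = _
      rw [e4', hW]; push_cast; ring
    · show b2.1 = _
      rw [e2', hW]; push_cast; ring
    · obtain ⟨e', he', rfl⟩ := sw q2 he
      exact g2 e' he'
    · obtain ⟨e', he', rfl⟩ := sw q4 he
      exact g4 e' he'
    · simp only [Walk.length_map]
      omega
  refine (measure_mono hsub).trans ((measure_union_le _ _).trans ?_)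
  refine (add_le_add (measure_union_le _ _) (measure_union_le _ _)).trans ?_
  rw [hf₁, hf₂]
  refine (add_le_add (add_le_add (bound _ shInj _ _) (bound _ shInj _ _))
    (add_le_add (bound _ swInj _ _) (bound _ swInj _ _))).trans ?_
  rw [← ENNReal.ofReal_add (by positivity) (by positivity),
    ← ENNReal.ofReal_add (by positivity) (by positivity)]
  refine ENNReal.ofReal_le_ofReal (le_of_eq ?_)
  rw [hW]; push_cast; ring

end Vale.Agent.P158
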