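import Vale.Agent.P158.Core

/-!
The interface between the modules of the proof. Each `def … : Prop` below is proved in its own
module and may be taken as a hypothesis by the modules that consume it.
-/

open MeasureTheory Filter Topology

namespace Vale.Agent.P158

/-- The hypothesis on the law of one weight. -/
structure LawOK (G : Measure ℝ) (M : ℝ) : Prop where
  prob : IsProbabilityMeasure G
  noAtoms : ∀ x, G {x} = 0
  supp : G (Set.Icc 0 M) = 1

/-- Long self-avoiding walks have weight at least `κ` per step. -/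
def LenBound (κ : ℝ) (t : Conf) : Prop :=
  ∀ x : V, ∀ᶠ n : ℕ in atTop, ∀ (y : V) (p : grid.Walk x y),
    p.IsPath → p.length = n → κ * n ≤ plen t p

/-- The configurations on which all deterministic lemmas work. -/
structure Good (M κ : ℝ) (t : Conf) : Prop where
  range : InRange M t
  pos : ∀ e, 0 < t e
  tieFree : TieFree t
  lenBound : LenBound κ t

/-- The configuration equal to `v` on the finite edge set `S` and to `t` elsewhere. -/
def override (t : Conf) (S : Finset Edge) (v : S → ℝ) : Conf :=
  fun e => if h : e ∈ S then v ⟨e, h⟩ else t e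

/-- The forward end has asymptotic direction `θ`. -/
def RayDir (r : ℕ → V) (θ : ℂ) : Prop :=
  Tendsto (fun n : ℕ => ‖toPlane (r n)‖⁻¹ • toPlane (r n)) atTop (𝓝 θ)

/-- Almost surely the two directions of a doubly directed bigeodesic are opposite. -/
def StraightProp (G : Measure ℝ) : Prop :=
  ∀ᵐ t ∂law G, ∀ γ θ θ', IsBigeodesic t γ → RayDir (fwd γ 0) θ → RayDir (bwd γ 0) θ' → θ' = -θ

/-- Almost surely no two doubly directed bigeodesics share a forward ray from a vertex and
enter that vertex from different neighbours. -/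
def ForkNull (G : Measure ℝ) : Prop :=
  ∀ᵐ t ∂law G, ¬ ∃ γ δ, IsBigeodesic t γ ∧ HasDirections γ ∧ IsBigeodesic t δ ∧ HasDirections δ ∧
    (∀ n : ℕ, γ n = δ n) ∧ γ (-1) ≠ δ (-1)

/-- Almost surely a directed geodesic ray whose Busemann function has finite crossed excess
with the forward end of a doubly directed bigeodesic has the same Busemann function, up to a
constant, as the backward end. -/
def MatchProp (G : Measure ℝ) : Prop :=
  ∀ᵐ t ∂law G, ∀ γ, IsBigeodesic t γ → HasDirections γ → ∀ r, IsRayIn t Set.univ r →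
    (∃ θ, RayDir r θ) →
    (∃ C : ℝ, ∀ z, -C ≤ bus t Set.univ r z + bus t Set.univ (fwd γ 0) z) →
    ∃ c : ℝ, ∀ z, bus t Set.univ r z - bus t Set.univ (bwd γ 0) z = c

/-- A bigeodesic through the entrance edge from `(-1,0)` to `(0,0)`: the origin is its first
vertex in column `0`, and it traverses at most `J` edges between the columns `-1` and `0`. -/
def Entrance (J : ℕ) (γ : ℤ → V) : Prop :=
  γ 0 = (0, 0) ∧ γ (-1) = (-1, 0) ∧ (∀ i : ℤ, i < 0 → (γ i).1 < 0) ∧
    ∀ F : Finset ℤ, (∀ i ∈ F, min (γ i).1 (γ (i + 1)).1 = -1 ∧ max (γ i).1 (γ (i + 1)).1 = 0) →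
      F.card ≤ J

/-- The configurations with a straight cone line of slope in `[a, b]` through the entrance
edge at the origin, that edge having weight at least `r₁`. -/
def unitEvent (r₁ a b : ℝ) (R J : ℕ) : Set Conf :=
  {t | r₁ ≤ t ((-1, 0), false) ∧ ∃ γ, ConeLine t 0 a b R γ ∧ Entrance J γ}

/-- The expected number of disjoint slope units met at one entrance edge is bounded, uniformly
in the units and in the cone radius. -/
def UnitBound (G : Measure ℝ) : Prop :=
  ∀ r₁ : ℝ, 0 < G (Set.Iio r₁) → ∃ C : ℝ, ∀ (R J N : ℕ) (a b : Fin N → ℝ),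
    (∀ i, a i ≤ b i ∧ -8 ≤ a i ∧ b i ≤ 8) → (∀ i j, i < j → b i < a j) →
    ∑ i, (law G (unitEvent r₁ (a i) (b i) R J)).toReal ≤ C * (J + 1) ^ 2

/-- The final statement for bounded atomless laws. -/
def NoDirectedBigeodesic (G : Measure ℝ) : Prop :=
  ∀ᵐ t ∂law G, ¬ ∃ γ, IsBigeodesic t γ ∧ HasDirections γ

end Vale.Agent.P158
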