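import Vale.Agent.P158.StraightShape

/-!
Directions of doubly infinite paths, and the choice of a frame transversal to a linear cone.
-/

open MeasureTheory Filter Topology

namespace Vale.Agent.P158.Straight

open Vale.Agent.P158

/-- A lattice point scaled to Euclidean length one. -/
noncomputable def unit (v : V) : ℝ × ℝ := ‖toPlane v‖⁻¹ • toR v

/-- The two ends of a path have directions `w` and `u`. -/
def Dirs (γ : ℤ → V) (w u : ℝ × ℝ) : Prop :=
  Tendsto (fun i => unit (γ i)) atTop (𝓝 w) ∧ Tendsto (fun i => unit (γ i)) atBot (𝓝 u)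

theorem norm_le_r1 (v : V) : ‖toPlane v‖ ≤ r1 (toR v) := by
  simpa [r1, toR, toPlane] using Complex.norm_le_abs_re_add_abs_im (toPlane v)

theorem tendsto_norm_int {γ : ℤ → V} (hinj : Function.Injective γ) :
    Tendsto (fun i => ‖toPlane (γ i)‖) atTop atTop ∧ Tendsto (fun i => ‖toPlane (γ i)‖) atBot atTop := by
  have h : Tendsto (fun i => ‖toPlane (γ i)‖) cofinite atTop := by
    refine tendsto_atTop.2 fun b => ?_
    rw [eventually_cofinite]
    exact ((finite_norm_toPlane_lt b).preimage hinj.injOn).subset fun i hi => not_le.1 hi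
  rw [Int.cofinite_eq] at h
  exact ⟨h.mono_left le_sup_right, h.mono_left le_sup_left⟩

theorem tendsto_unit_add {l : Filter ℤ} {γ : ℤ → V} {w : ℝ × ℝ}
    (hn : Tendsto (fun i => ‖toPlane (γ i)‖) l atTop) (h : Tendsto (fun i => unit (γ i)) l (𝓝 w))
    (v : V) : Tendsto (fun i => unit (γ i + v)) l (𝓝 w) := by
  have hm : Tendsto (fun i => ‖toPlane (γ i + v)‖) l atTop := by
    refine tendsto_atTop_mono (fun i => ?_) (tendsto_atTop_add_const_right l (-‖toPlane v‖) hn)
    have := norm_add_le (toPlane (γ i + v)) (-toPlane v)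
    rw [toPlane_add, add_neg_cancel_right, norm_neg] at this
    rw [toPlane_add]
    linarith
  have hq : Tendsto (fun i => ‖toPlane (γ i)‖ * ‖toPlane (γ i + v)‖⁻¹) l (𝓝 1) := by
    have h0 : Tendsto (fun i => ‖toPlane (γ i + v)‖⁻¹ * ‖toPlane v‖) l (𝓝 0) := by
      simpa using hm.inv_tendsto_atTop.mul_const ‖toPlane v‖
    refine tendsto_iff_norm_sub_tendsto_zero.2 (squeeze_zero' (Eventually.of_forall fun i =>
      norm_nonneg _) ?_ h0)
    filter_upwards [hm.eventually_gt_atTop 0] with i hi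
    rw [Real.norm_eq_abs, show ‖toPlane (γ i)‖ * ‖toPlane (γ i + v)‖⁻¹ - 1 =
      ‖toPlane (γ i + v)‖⁻¹ * (‖toPlane (γ i)‖ - ‖toPlane (γ i + v)‖) by
        rw [mul_sub, inv_mul_cancel₀ hi.ne']; ring, abs_mul, abs_inv, abs_of_pos hi]
    refine mul_le_mul_of_nonneg_left ?_ (inv_nonneg.2 hi.le)
    calc |‖toPlane (γ i)‖ - ‖toPlane (γ i + v)‖| ≤ ‖toPlane (γ i) - toPlane (γ i + v)‖ :=
          abs_norm_sub_norm_le _ _
      _ = ‖toPlane v‖ := by rw [toPlane_add, sub_add_cancel_left, norm_neg]
  have hz : Tendsto (fun i => ‖toPlane (γ i + v)‖⁻¹ • toR v) l (𝓝 0) := by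
    simpa using hm.inv_tendsto_atTop.smul_const (toR v)
  have := (hq.smul h).add hz
  rw [one_smul, add_zero] at this
  refine this.congr' ?_
  filter_upwards [hn.eventually_gt_atTop 0] with i hi
  rw [show unit (γ i + v) = ‖toPlane (γ i + v)‖⁻¹ • toR (γ i + v) from rfl, unit, smul_smul,
    mul_right_comm, mul_inv_cancel₀ hi.ne', one_mul, toR_add, smul_add]

theorem Dirs.add {γ : ℤ → V} {w u : ℝ × ℝ} (h : Dirs γ w u) (hinj : Function.Injective γ) (v : V) :
    Dirs (fun i => γ i + v) w u :=
  ⟨tendsto_unit_add (tendsto_norm_int hinj).1 h.1 v, tendsto_unit_add (tendsto_norm_int hinj).2 h.2 v⟩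

theorem Dirs.reindex {γ : ℤ → V} {w u : ℝ × ℝ} (h : Dirs γ w u) (m : ℤ) :
    Dirs (fun i => γ (i + m)) w u :=
  ⟨h.1.comp (tendsto_atTop_add_const_right _ m tendsto_id),
    h.2.comp (tendsto_atBot_add_const_right _ m tendsto_id)⟩

theorem Dirs.reverse {γ : ℤ → V} {w u : ℝ × ℝ} (h : Dirs γ w u) :
    Dirs (fun i => γ (-i)) u w :=
  ⟨h.2.comp tendsto_neg_atTop_atBot, h.1.comp tendsto_neg_atBot_atTop⟩

theorem unit_swap (v : V) : unit (v.2, v.1) = ((unit v).2, (unit v).1) := by
  simp [unit, toR, toPlane, Complex.norm_def, Complex.normSq_apply, add_comm]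

theorem unit_flip (v : V) : unit (v.1, -v.2) = ((unit v).1, -(unit v).2) := by
  simp [unit, toR, toPlane, Complex.norm_def, Complex.normSq_apply]

theorem Dirs.swap {γ : ℤ → V} {w u : ℝ × ℝ} (h : Dirs γ w u) :
    Dirs (fun i => ((γ i).2, (γ i).1)) (w.2, w.1) (u.2, u.1) := by
  constructor <;> simp only [unit_swap]
  · exact (continuous_swap.tendsto w).comp h.1
  · exact (continuous_swap.tendsto u).comp h.2

theorem Dirs.flip {γ : ℤ → V} {w u : ℝ × ℝ} (h : Dirs γ w u) :
    Dirs (fun i => ((γ i).1, -(γ i).2)) (w.1, -w.2) (u.1, -u.2) := by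
  have hc : Continuous fun p : ℝ × ℝ => (p.1, -p.2) := by fun_prop
  constructor <;> simp only [unit_flip]
  · exact (hc.tendsto w).comp h.1
  · exact (hc.tendsto u).comp h.2

theorem unit_sq {v : V} (hv : 0 < ‖toPlane v‖) : (unit v).1 ^ 2 + (unit v).2 ^ 2 = 1 := by
  have h : ‖toPlane v‖ ^ 2 = (v.1 : ℝ) ^ 2 + (v.2 : ℝ) ^ 2 := by
    rw [Complex.sq_norm, Complex.normSq_apply]; simp [toPlane, sq]
  simp only [unit, toR, Prod.smul_fst, Prod.smul_snd, smul_eq_mul, mul_pow, ← mul_add, ← h]
  rw [inv_pow, inv_mul_cancel₀ (pow_pos hv 2).ne']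

theorem Dirs.sq_eq_one {γ : ℤ → V} {w u : ℝ × ℝ} (h : Dirs γ w u) (hinj : Function.Injective γ) :
    w.1 ^ 2 + w.2 ^ 2 = 1 ∧ u.1 ^ 2 + u.2 ^ 2 = 1 := by
  have key : ∀ (l : Filter ℤ) [l.NeBot], Tendsto (fun i => ‖toPlane (γ i)‖) l atTop →
      ∀ x : ℝ × ℝ, Tendsto (fun i => unit (γ i)) l (𝓝 x) → x.1 ^ 2 + x.2 ^ 2 = 1 := by
    intro l _ hn x hx
    have hc : Continuous fun p : ℝ × ℝ => p.1 ^ 2 + p.2 ^ 2 := by fun_prop
    refine tendsto_nhds_unique ((hc.tendsto x).comp hx) (tendsto_const_nhds.congr' ?_)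
    filter_upwards [hn.eventually_gt_atTop 0] with i hi
    exact (unit_sq hi).symm
  exact ⟨key _ (tendsto_norm_int hinj).1 w h.1, key _ (tendsto_norm_int hinj).2 u h.2⟩

/-- The level of a point of the plane. -/
def levR (k : ℤ) (p : ℝ × ℝ) : ℝ := p.1 + k * p.2

theorem levR_toR (k : ℤ) (v : V) : levR k (toR v) = (lev k v : ℝ) := by
  simp [levR, toR, lev]

/-- On an end whose direction satisfies a strict linear inequality, so do the points. -/
theorem tendsto_combo {l : Filter ℤ} {γ : ℤ → V} {w : ℝ × ℝ}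
    (hn : Tendsto (fun i => ‖toPlane (γ i)‖) l atTop) (h : Tendsto (fun i => unit (γ i)) l (𝓝 w))
    (k : ℤ) {a b : ℝ} (hpos : 0 < a * levR k w + b * w.2) :
    Tendsto (fun i => a * (lev k (γ i) : ℝ) + b * ((γ i).2 : ℝ)) l atTop := by
  have hc : Continuous fun p : ℝ × ℝ => a * levR k p + b * p.2 := by unfold levR; fun_prop
  refine (hn.atTop_mul_pos hpos ((hc.tendsto w).comp h)).congr' ?_
  filter_upwards [hn.eventually_gt_atTop 0] with i hi
  simp only [Function.comp, unit, levR, Prod.smul_fst, Prod.smul_snd, smul_eq_mul, toR, lev]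
  push_cast
  field_simp

/-- An additive pair spans an angle of at most a right angle, so some lattice frame is
transversal to it. -/
theorem frame_exists {G : Measure ℝ} {M : ℝ} {μ : ℝ × ℝ → ℝ} (hs : Shape G M μ) {w v : ℝ × ℝ}
    (hw : w ≠ 0) (hv : v ≠ 0) (h : μ (w + v) = μ w + μ v) :
    0 < w.1 * v.1 ∨ 0 < w.2 * v.2 ∨ 0 < (w.1 + w.2) * (v.1 + v.2) ∨
      0 < (w.1 - w.2) * (v.1 - v.2) := by
  obtain ⟨a, b⟩ := w
  obtain ⟨c, d⟩ := v
  by_contra hcon
  simp only [not_or, not_lt] at hcon
  obtain ⟨h1, h2, h3, h4⟩ := hcon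
  have hμw := hs.pos _ hw
  have hμv := hs.pos _ hv
  have hnorm : 0 < a ^ 2 + b ^ 2 := by
    by_contra h0
    rw [not_lt] at h0
    have ha : a = 0 := by nlinarith [sq_nonneg a, sq_nonneg b]
    have hb : b = 0 := by nlinarith [sq_nonneg a, sq_nonneg b]
    exact hw (by simp [ha, hb])
  rcases lt_or_eq_of_le (show a * c + b * d ≤ 0 by linarith) with hdot | hdot
  · -- an obtuse angle
    have key : ∀ σ : ℝ, (σ = 1 ∨ σ = -1) → 0 < σ * (a * d - b * c) → False := by
      intro σ hσ hq
      set q := σ * (a * d - b * c) / (a ^ 2 + b ^ 2) with hqd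
      set e := -(a * c + b * d) / (σ * (a * d - b * c)) with hed
      have hσ2 : σ * σ = 1 := by rcases hσ with rfl | rfl <;> norm_num
      have he : 0 < e := div_pos (by linarith) hq
      have hq0 : 0 < q := div_pos hq hnorm
      have hrot : ∀ x y : ℝ, μ (-(σ * y), σ * x) = μ (x, y) := by
        intro x y
        rcases hσ with rfl | rfl
        · simpa using hs.rot x y
        · rw [← hs.rot x y, ← hs.neg (-y, x)]; simp
      have e1 : ((-(σ * b), σ * a) : ℝ × ℝ) = (1 / q) • (c, d) + e • (a, b) := by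
        simp only [hqd, hed, Prod.smul_mk, smul_eq_mul, Prod.mk_add_mk, Prod.mk.injEq]
        have hne : a * d - b * c ≠ 0 := fun h0 => by rw [h0, mul_zero] at hq; exact lt_irrefl _ hq
        rcases hσ with rfl | rfl <;>
          constructor <;> field_simp <;> ring
      have A : μ (a, b) = (1 / q) * μ (c, d) + e * μ (a, b) := by
        have := hs.additive h he.le (show (0 : ℝ) ≤ 1 / q by positivity)
        rw [add_comm (e • _), ← e1, hrot a b] at this
        linarith
      have B : (1 + e ^ 2) * μ (a, b) + e / q * μ (c, d) = (1 / q) * μ (c, d) := by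
        rw [← hs.additive h (by positivity) (by positivity), ← hs.smul _ _ (by positivity)]
        have e2 : (1 + e ^ 2) • ((a, b) : ℝ × ℝ) + (e / q) • ((c, d) : ℝ × ℝ) =
            (a - e * (σ * b), b + e * (σ * a)) := by
          have x1 : -(σ * b) = 1 / q * c + e * a := congrArg Prod.fst e1
          have x2 : σ * a = 1 / q * d + e * b := congrArg Prod.snd e1
          simp only [Prod.smul_mk, smul_eq_mul, Prod.mk_add_mk, Prod.mk.injEq]
          constructor
          · linear_combination (-e) * x1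
          · linear_combination (-e) * x2
        rw [e2, ← hrot]
        congr 1
        have x1 : -(σ * b) = 1 / q * c + e * a := congrArg Prod.fst e1
        have x2 : σ * a = 1 / q * d + e * b := congrArg Prod.snd e1
        simp only [Prod.smul_mk, smul_eq_mul, Prod.mk.injEq]
        constructor
        · linear_combination x1 - e * a * hσ2
        · linear_combination x2 - e * b * hσ2
      rw [div_mul_eq_mul_div, mul_div_assoc, show μ (c, d) / q = 1 / q * μ (c, d) by ring] at B
      nlinarith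
    rcases lt_trichotomy (a * d - b * c) 0 with hq | hq | hq
    · exact key (-1) (Or.inr rfl) (by linarith)
    · set p := -(a * c + b * d) / (a ^ 2 + b ^ 2)
      have hp : 0 < p := div_pos (by linarith) hnorm
      have e0 : p • ((a, b) : ℝ × ℝ) + (1 : ℝ) • (c, d) = 0 := by
        simp only [p, Prod.smul_mk, smul_eq_mul, Prod.mk_add_mk, Prod.mk_eq_zero]
        constructor <;> field_simp
        · linear_combination -b * hq
        · linear_combination a * hq
      have := hs.additive h hp.le zero_le_one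
      rw [e0, show μ (0 : ℝ × ℝ) = 0 by simpa using hs.smul 0 0 le_rfl] at this
      nlinarith [mul_pos hp hμw]
    · exact key 1 (Or.inl rfl) (by linarith)
  · have hac : a * c = 0 := by linarith
    have hbd : b * d = 0 := by linarith
    have had : a * d + b * c = 0 := by linarith
    rcases mul_eq_zero.1 hac with rfl | rfl
    · have hb : b ≠ 0 := fun hb => hw (by simp [hb])
      rcases mul_eq_zero.1 hbd with h | rfl
      · exact hb h
      · exact hv (by simp [(by simpa [hb] using had : c = 0)])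
    · have hd' : d ≠ 0 := fun hd => hv (by simp [hd])
      rcases mul_eq_zero.1 hbd with rfl | h
      · exact hw (by simp [(by simpa [hd'] using had : a = 0)])
      · exact hd' h

end Vale.Agent.P158.Straight
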