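import Vale.Agent.P158.StraightLine

/-!
Straightness of doubly directed bigeodesics, from the shape and the meeting property.
-/

open MeasureTheory Filter Topology

namespace Vale.Agent.P158.Straight

open Vale.Agent.P158

variable {G : Measure ℝ} {M : ℝ} {μ : ℝ × ℝ → ℝ}

theorem toR_zero : toR (0 : V) = 0 := by simp [toR]

theorem r1_add_three (a b c : ℝ × ℝ) : r1 (a + b + c) ≤ r1 a + r1 b + r1 c :=
  (r1_add _ _).trans (add_le_add (r1_add _ _) le_rfl)

/-- The first point of an end at Euclidean distance `n` is close to `n` times its direction. -/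
theorem first_passage {r : ℕ → V} {w : ℝ × ℝ} (h0 : r 0 = 0)
    (hadj : ∀ i, Adj (r i) (r (i + 1))) (hn : Tendsto (fun i => ‖toPlane (r i)‖) atTop atTop)
    (hdir : Tendsto (fun i => unit (r i)) atTop (𝓝 w)) {η : ℝ} (hη : 0 < η) :
    ∀ᶠ n : ℕ in atTop, ∃ i, r1 (toR (r i) - (n : ℝ) • w) ≤ η * n := by
  classical
  have hex : ∀ n : ℕ, ∃ i, (n : ℝ) ≤ ‖toPlane (r i)‖ := fun n => (hn.eventually_ge_atTop _).exists
  have hstep : ∀ i, ‖toPlane (r (i + 1))‖ ≤ ‖toPlane (r i)‖ + 1 := fun i => by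
    have h1 : r1 (toR (r (i + 1) - r i)) = 1 := by
      have h' : |(r (i + 1)).1 - (r i).1| + |(r (i + 1)).2 - (r i).2| = 1 := by
        rw [abs_sub_comm (r (i + 1)).1, abs_sub_comm (r (i + 1)).2]; exact hadj i
      have h'' := congrArg (fun z : ℤ => (z : ℝ)) h'
      simpa [r1, toR] using h''
    have h2 := norm_add_le (toPlane (r i)) (toPlane (r (i + 1) - r i))
    rw [← toPlane_add, add_sub_cancel] at h2
    linarith [norm_le_r1 (r (i + 1) - r i)]
  set f : ℕ → ℕ := fun n => Nat.find (hex n)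
  have hf : ∀ n : ℕ, (n : ℝ) ≤ ‖toPlane (r (f n))‖ := fun n => Nat.find_spec (hex n)
  have hf2 : ∀ n : ℕ, ‖toPlane (r (f n))‖ ≤ n + 1 := by
    intro n
    rcases Nat.eq_zero_or_pos (f n) with h | h
    · rw [h, h0]
      simp [toPlane, Complex.norm_def, Complex.normSq_apply]
      positivity
    · have h1 : ‖toPlane (r (f n - 1))‖ < n := not_le.1 (Nat.find_min (hex n) (Nat.sub_lt h one_pos))
      have h2 := hstep (f n - 1)
      rw [Nat.sub_add_cancel h] at h2
      linarith
  have hfl : Tendsto f atTop atTop := by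
    refine tendsto_atTop.2 fun m => ?_
    obtain ⟨B, hB⟩ := ((Set.finite_lt_nat m).image fun i => ‖toPlane (r i)‖).bddAbove
    obtain ⟨N, hN⟩ := exists_nat_gt B
    filter_upwards [eventually_ge_atTop N] with n hn'
    by_contra hc
    have h1 : ‖toPlane (r (f n))‖ ≤ B := hB ⟨f n, not_le.1 hc, rfl⟩
    have h2 := hf n
    have h3 : (N : ℝ) ≤ n := by exact_mod_cast hn'
    linarith
  have hu : Tendsto (fun n => r1 (unit (r (f n)) - w)) atTop (𝓝 0) := by
    have hc : Continuous fun p : ℝ × ℝ => r1 (p - w) := by unfold r1; fun_prop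
    simpa [r1, Function.comp_def] using (hc.tendsto w).comp (hdir.comp hfl)
  filter_upwards [hu.eventually_le_const (half_pos hη),
    (tendsto_const_div_atTop_nhds_zero_nat (r1 w + η)).eventually_le_const (half_pos hη),
    eventually_gt_atTop 0] with n h1 h2 hn0
  refine ⟨f n, ?_⟩
  have hn' : (0 : ℝ) < n := by exact_mod_cast hn0
  set s := ‖toPlane (r (f n))‖
  have hs : 0 < s := hn'.trans_le (hf n)
  have e : toR (r (f n)) - (n : ℝ) • w = s • (unit (r (f n)) - w) + (s - n) • w := by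
    rw [smul_sub, sub_smul, unit, smul_smul, mul_inv_cancel₀ hs.ne', one_smul]
    abel
  rw [e]
  refine (r1_add _ _).trans ?_
  rw [r1_smul, r1_smul, abs_of_pos hs, abs_of_nonneg (sub_nonneg.2 (hf n))]
  rw [div_le_iff₀ hn'] at h2
  have h3 : s * r1 (unit (r (f n)) - w) ≤ (n + 1) * (η / 2) :=
    mul_le_mul (hf2 n) h1 (r1_nonneg _) (by positivity)
  have h4 : (s - n) * r1 w ≤ 1 * r1 w :=
    mul_le_mul_of_nonneg_right (by linarith [hf2 n]) (r1_nonneg w)
  linarith

theorem exists_rat_near (w : ℝ × ℝ) {η : ℝ} (hη : 0 < η) :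
    ∃ q : ℚ × ℚ, r1 ((((q.1 : ℚ) : ℝ), ((q.2 : ℚ) : ℝ)) - w) ≤ η := by
  obtain ⟨a, ha1, ha2⟩ := exists_rat_btwn (show w.1 < w.1 + η / 2 by linarith)
  obtain ⟨b, hb1, hb2⟩ := exists_rat_btwn (show w.2 < w.2 + η / 2 by linarith)
  refine ⟨(a, b), ?_⟩
  simp only [r1, Prod.fst_sub, Prod.snd_sub]
  rw [abs_of_nonneg (by linarith), abs_of_nonneg (by linarith)]
  linarith

/-- The two directions of a bigeodesic through the origin span a cone on which the shape is
linear. -/
theorem ae_additive (hG : LawOK G M) (hs : Shape G M μ) :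
    ∀ᵐ t ∂law G, ∀ γ w u, IsBigeodesic t γ → γ 0 = 0 → Dirs γ w u →
      μ (w + -u) = μ w + μ (-u) := by
  haveI := hG.prob
  have : IsProbabilityMeasure (law G) := by unfold law; infer_instance
  let qr : ℚ × ℚ → ℝ × ℝ := fun q => ((q.1 : ℝ), (q.2 : ℝ))
  let x : ℚ × ℚ → ℕ → V := fun q n => flr n (qr q)
  have hx : ∀ q, Scaled (x q) (qr q) := by
    intro q
    have := scaled_pt 0 (tendsto_floor_div (qr q).1) (tendsto_floor_div (qr q).2)
    simpa [Scaled, pt, frame, x, flr, mul_comm] using this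
  have hx0 : Scaled (fun _ => (0 : V)) 0 := by
    simp [Scaled, toR_zero]
  let bad : ℚ × ℚ → ℚ × ℚ → ℕ → ℕ → Set Conf := fun p q m n =>
    {t | (n : ℝ) * (μ (qr q - qr p) + 1 / (m + 1)) < T t (x p n) (x q n)} ∪
      ({t | T t 0 (x p n) < n * (μ (qr p - 0) - 1 / (m + 1))} ∪
        {t | T t 0 (x q n) < n * (μ (qr q - 0) - 1 / (m + 1))})
  have hnull : ∀ᵐ t ∂law G, ∀ p q m N, ∃ n ≥ N, t ∉ bad p q m n := by
    simp only [ae_all_iff]
    intro p q m N
    rw [ae_iff]
    have he : (0 : ℝ) < 1 / ((m : ℝ) + 1) := by positivity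
    have ht := ((hs.upper _ _ _ _ (hx p) (hx q) _ he).add
      ((hs.lower _ _ _ _ hx0 (hx p) _ he).add (hs.lower _ _ _ _ hx0 (hx q) _ he)))
    simp only [add_zero] at ht
    have hzero : ((law G) {t | ¬∃ n ≥ N, t ∉ bad p q m n}).toReal ≤ 0 := by
      refine ge_of_tendsto ht ?_
      filter_upwards [eventually_ge_atTop N] with n hn
      refine (measureReal_mono (s₂ := bad p q m n) fun t ht => ?_).trans
        ((measureReal_union_le _ _).trans (add_le_add le_rfl (measureReal_union_le _ _)))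
      simp only [Set.mem_ofPred_eq, not_exists, not_and, not_not] at ht
      exact ht n hn
    exact (ENNReal.toReal_eq_zero_iff _).1 (le_antisymm hzero ENNReal.toReal_nonneg) |>.resolve_right
      (measure_ne_top _ _)
  filter_upwards [hnull, hG.ae_conf hG.ae_mem] with t ht hrange
  intro γ w u hγ h0 hd
  have h0' : ∀ e, 0 ≤ t e := fun e => (hrange e).1
  have hM : 0 ≤ M := (hrange ((0, 0), false)).1.trans (hrange ((0, 0), false)).2
  have hTr : ∀ a b : V, T t a b ≤ M * r1 (toR a - toR b) := fun a b => by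
    have := T_le_l1 hrange a b
    simpa [r1, toR, abs_sub_comm] using this
  refine le_antisymm (hs.add_le _ _) ?_
  refine le_of_forall_pos_le_add fun ε hε => ?_
  set η := ε / (4 + 17 * M)
  have hη : 0 < η := by positivity
  obtain ⟨q, hq⟩ := exists_rat_near w hη
  obtain ⟨p, hp⟩ := exists_rat_near u hη
  obtain ⟨m, hm⟩ := exists_nat_one_div_lt hη
  have hnz := tendsto_norm_int hγ.inj
  have natc : Tendsto (fun i : ℕ => (i : ℤ)) atTop atTop := tendsto_natCast_atTop_atTop
  have natn : Tendsto (fun i : ℕ => -(i : ℤ)) atTop atBot := tendsto_neg_atTop_atBot.comp natc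
  have e1 := first_passage (r := fun i : ℕ => γ i) (by simpa using h0)
    (fun i => by simpa using hγ.adj i) (hnz.1.comp natc) (hd.1.comp natc) hη
  have e2 := first_passage (r := fun i : ℕ => γ (-i)) (by simpa using h0)
    (fun i => by
      have := (hγ.adj (-(i : ℤ) - 1)).symm
      rw [sub_add_cancel] at this
      rwa [show (-((i + 1 : ℕ) : ℤ)) = -(i : ℤ) - 1 by push_cast; ring])
    (hnz.2.comp natn) (hd.2.comp natn) hη
  obtain ⟨N, hN⟩ := eventually_atTop.1 (e1.and (e2.and
    (((tendsto_const_div_atTop_nhds_zero_nat (2 : ℝ)).eventually_le_const hη).and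
      (eventually_gt_atTop 0))))
  obtain ⟨n, hn, hgood⟩ := ht p q m N
  obtain ⟨⟨i, hi⟩, ⟨j, hj⟩, h2n, hn0⟩ := hN n hn
  have hn' : (0 : ℝ) < n := by exact_mod_cast hn0
  rw [div_le_iff₀ hn'] at h2n
  simp only [bad, Set.mem_union, Set.mem_ofPred_eq, not_or, not_lt, sub_zero] at hgood
  obtain ⟨g1, g2, g3⟩ := hgood
  -- endpoints near the grid
  have close : ∀ (c : ℚ × ℚ) (dir : ℝ × ℝ) (z : V), r1 (qr c - dir) ≤ η →
      r1 (toR z - (n : ℝ) • dir) ≤ η * n → T t z (x c n) ≤ M * (3 * η * n) := by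
    intro c dir z h1 h2
    refine (hTr _ _).trans (mul_le_mul_of_nonneg_left ?_ hM)
    rw [show toR z - toR (x c n) = (toR z - (n : ℝ) • dir) + -(toR (x c n) - (n : ℝ) • qr c) +
      -((n : ℝ) • (qr c - dir)) by rw [smul_sub]; abel]
    refine (r1_add_three _ _ _).trans ?_
    rw [r1_neg, r1_neg, r1_smul, abs_of_pos hn']
    have := flr_close (n : ℝ) (qr c)
    have := mul_le_mul_of_nonneg_left h1 hn'.le
    simp only [x]
    linarith
  have ci := close q w (γ i) hq hi
  have cj := close p u (γ (-j)) hp hj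
  -- exactness along the line
  have hgeo : T t (γ (-j)) (γ i) = T t (γ (-j)) 0 + T t 0 (γ i) := by
    have l1 : -(j : ℤ) ≤ 0 := neg_nonpos.2 (Int.natCast_nonneg j)
    have l2 : (0 : ℤ) ≤ i := Int.natCast_nonneg i
    rw [← hγ.sum_eq_T h0' (l1.trans l2), ← h0, ← hγ.sum_eq_T h0' l1, ← hγ.sum_eq_T h0' l2]
    rw [← Finset.sum_union (Finset.Ico_disjoint_Ico_consecutive _ _ _),
      Finset.Ico_union_Ico_eq_Ico l1 l2]
  have a1 := T_triangle h0' (0 : V) (γ i) (x q n)
  have a2 := T_triangle h0' (0 : V) (γ (-j)) (x p n)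
  have a3 := T_triangle h0' (γ (-j)) (x p n) (γ i)
  have a4 := T_triangle h0' (x p n) (x q n) (γ i)
  rw [T_comm t (x q n) (γ i)] at a4
  rw [T_comm t (γ (-j)) 0] at hgeo
  have total : (n : ℝ) * (μ (qr p) + μ (qr q)) ≤
      n * (μ (qr q - qr p) + 3 * (1 / (m + 1)) + 12 * M * η) := by linarith
  have key : μ (qr p) + μ (qr q) ≤ μ (qr q - qr p) + 3 * (1 / (m + 1)) + 12 * M * η :=
    le_of_mul_le_mul_left total hn'
  have l1 := abs_le.1 (hs.lip (qr p) u)
  have l2 := abs_le.1 (hs.lip (qr q) w)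
  have l3 := abs_le.1 (hs.lip (qr q - qr p) (w - u))
  have r3 : r1 (qr q - qr p - (w - u)) ≤ 2 * η := by
    rw [show qr q - qr p - (w - u) = (qr q - w) + -(qr p - u) by abel]
    refine (r1_add _ _).trans ?_
    rw [r1_neg]; linarith
  have m1 : M * r1 (qr p - u) ≤ M * η := mul_le_mul_of_nonneg_left hp hM
  have m2 : M * r1 (qr q - w) ≤ M * η := mul_le_mul_of_nonneg_left hq hM
  have m3 := mul_le_mul_of_nonneg_left r3 hM
  rw [hs.neg u, ← sub_eq_add_neg]
  have hε' : η * (4 + 17 * M) = ε := div_mul_cancel₀ _ (by positivity)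
  nlinarith [mul_nonneg hM hη.le]

/-- The forward direction is steeper than the backward one, both crossing the levels. -/
def Bent (k : ℤ) (w u : ℝ × ℝ) : Prop :=
  0 < levR k w ∧ levR k u < 0 ∧ w.2 * levR k u < u.2 * levR k w

theorem dirs_zero {t : Conf} {γ : ℤ → V} {w u : ℝ × ℝ} (hγ : IsBigeodesic t γ) (hd : Dirs γ w u)
    (m : ℤ) : IsBigeodesic (shift (γ m) t) (fun i => γ (i + m) - γ m) ∧
      (fun i => γ (i + m) - γ m) 0 = 0 ∧ Dirs (fun i => γ (i + m) - γ m) w u := by
  refine ⟨(isBigeodesic_shift _ _ _).2 ?_, by simp, ?_⟩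
  · simpa using hγ.reindex m
  · simpa [sub_eq_add_neg] using (hd.reindex m).add
      (fun a b hab => by simpa using hγ.inj hab) (-γ m)

theorem no_bent (hG : LawOK G M) (hs : Shape G M μ) {k : ℤ} (hk : k = 0 ∨ k = 1) (hm : Meets k) :
    ∀ᵐ t ∂law G, ¬ ∃ γ w u, IsBigeodesic t γ ∧ Dirs γ w u ∧ Bent k w u := by
  haveI := hG.prob
  have : IsProbabilityMeasure (law G) := by unfold law; infer_instance
  have hseed : ∀ᵐ t ∂law G, ∀ (d : V) (v1 v2 r0 r1 : ℚ) (R n0 : ℕ),
      IsOffset k d → (v1 : ℝ) < v2 → (r0 : ℝ) < r1 → 0 < G (Set.Iic (r0 : ℝ)) →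
      μ (vec k v1 + vec k v2) = μ (vec k v1) + μ (vec k v2) →
      ∃ n ≥ n0, ¬ Seed k n R v1 v2 r1 d t := by
    simp only [ae_all_iff]
    intro d v1 v2 r0 r1 R n0
    intro hd hv hr hr0 hlin
    · have ht := seed_tendsto_zero hG hs hk hm hd hv hlin R hr hr0
      rw [ae_iff]
      have hzero : ((law G) {t | ¬∃ n ≥ n0, ¬ Seed k n R v1 v2 r1 d t}).toReal ≤ 0 := by
        refine ge_of_tendsto ht ?_
        filter_upwards [eventually_ge_atTop n0] with n hn
        refine measureReal_mono fun t ht => ?_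
        simp only [Set.mem_ofPred_eq, not_exists, not_and, not_not] at ht
        exact ht n hn
      exact (ENNReal.toReal_eq_zero_iff _).1 (le_antisymm hzero ENNReal.toReal_nonneg)
        |>.resolve_right (measure_ne_top _ _)
  have hbase : ∀ᵐ t ∂law G, (∀ e : Edge, t e ∈ Set.Icc (0 : ℝ) M) ∧
      (∀ e : Edge, ∀ ε > (0 : ℝ), 0 < G (Set.Ioo (t e - ε) (t e))) :=
    (hG.ae_conf hG.ae_mem).and (hG.ae_conf (ae_left_mass hG.noAtoms))
  filter_upwards [ae_shift ((ae_additive hG hs).and (hseed.and hbase))] with t ht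
  rintro ⟨γ, w, u, hγ, hd, hw, hu, hslope⟩
  have hn := tendsto_norm_int hγ.inj
  have up := tendsto_combo hn.1 hd.1 k (a := 1) (b := 0) (by linarith)
  have down := tendsto_combo hn.2 hd.2 k (a := -1) (b := 0) (by linarith)
  have hup : Tendsto (fun i => lev k (γ i)) atTop atTop := by
    rw [← tendsto_intCast_atTop_iff (R := ℝ)]; simpa using up
  have hdown : Tendsto (fun i => lev k (γ i)) atBot atBot := by
    rw [← tendsto_intCast_atBot_iff (R := ℝ)]
    simpa [Function.comp_def] using tendsto_neg_atTop_atBot.comp down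
  -- re-base at the first vertex of nonnegative level
  obtain ⟨U, hU⟩ := eventually_atTop.1 (hup.eventually_ge_atTop 0)
  obtain ⟨B, hB⟩ := eventually_atBot.1 (hdown.eventually (eventually_lt_atBot 0))
  obtain ⟨i0, hi0, hmin⟩ := Int.exists_least_of_bdd (P := fun i => 0 ≤ lev k (γ i))
    ⟨B, fun z hz => le_of_not_gt fun hlt => absurd (hB z hlt.le) (not_lt.2 hz)⟩ ⟨U, hU U le_rfl⟩
  have hi0lev : lev k (γ i0) = 0 := by
    have h1 : lev k (γ (i0 - 1)) < 0 := not_le.1 fun hc => by linarith [hmin _ hc]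
    have h2 := lev_step hk (hγ.adj (i0 - 1))
    rw [sub_add_cancel, abs_le] at h2
    omega
  obtain ⟨hγ', h0', hd'⟩ := dirs_zero hγ hd i0
  obtain ⟨hadd, hseeds, hrange, hmass⟩ := ht (γ i0)
  set t' := shift (γ i0) t
  set γ' : ℤ → V := fun i => γ (i + i0) - γ i0
  have hlev' : ∀ i, lev k (γ' i) = lev k (γ (i + i0)) := fun i => by
    simp only [γ', lev, Prod.fst_sub, Prod.snd_sub] at *; linarith
  have ent : Entered k t' γ' := ⟨hγ', h0', fun i hi => by
    rw [hlev']; exact not_le.1 fun hc => by have := hmin _ hc; omega⟩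
  have hadd' := hadd γ' w u hγ' h0' hd'
  -- slopes
  set su := u.2 / levR k u
  set sw := w.2 / levR k w
  have hsu : su < sw := by
    simp only [su, sw]
    rw [lt_div_iff₀ hw, div_mul_eq_mul_div, div_lt_iff_of_neg hu]
    linarith
  obtain ⟨v1, hv1, hv1'⟩ := exists_rat_btwn hsu
  obtain ⟨v2, hv2, hv2'⟩ := exists_rat_btwn hv1'
  have hlin : μ (vec k v1 + vec k v2) = μ (vec k v1) + μ (vec k v2) := by
    have co : ∀ v : ℝ, su ≤ v → v ≤ sw → ∃ a b : ℝ, 0 ≤ a ∧ 0 ≤ b ∧ vec k v = a • w + b • (-u) := by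
      intro v h1 h2
      have hden : 0 < sw - su := sub_pos.2 hsu
      refine ⟨(v - su) / (sw - su) / levR k w, (sw - v) / (sw - su) / (-levR k u),
        div_nonneg (div_nonneg (by linarith) hden.le) hw.le,
        div_nonneg (div_nonneg (by linarith) hden.le) (by linarith), ?_⟩
      have hw2 : w.2 = sw * levR k w := (div_mul_cancel₀ _ hw.ne').symm
      have hu2 : u.2 = su * levR k u := (div_mul_cancel₀ _ hu.ne).symm
      have hw1 : w.1 = levR k w - k * w.2 := by simp [levR]
      have hu1 : u.1 = levR k u - k * u.2 := by simp [levR]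
      refine Prod.ext ?_ ?_ <;>
        simp only [vec, frame, Prod.fst_add, Prod.snd_add, Prod.smul_fst, Prod.smul_snd,
          Prod.fst_neg, Prod.snd_neg, smul_eq_mul]
      · rw [hw1, hu1, hw2, hu2]
        have := hw.ne'; have := hu.ne
        field_simp
        ring
      · rw [hw2, hu2]
        have := hw.ne'; have := hu.ne
        field_simp
        ring
    obtain ⟨a1, b1, ha1, hb1, e1⟩ := co v1 hv1.le hv1'.le
    obtain ⟨a2, b2, ha2, hb2, e2⟩ := co v2 (hv1.trans hv2).le hv2'.le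
    rw [e1, e2, show a1 • w + b1 • -u + (a2 • w + b2 • -u) = (a1 + a2) • w + (b1 + b2) • -u by
      module, hs.additive hadd' (by linarith) (by linarith), hs.additive hadd' ha1 hb1,
      hs.additive hadd' ha2 hb2]
    ring
  have hnorm' := tendsto_norm_int hγ'.inj
  have hw2 : w.2 = sw * levR k w := (div_mul_cancel₀ _ hw.ne').symm
  have hu2 : u.2 = su * levR k u := (div_mul_cancel₀ _ hu.ne).symm
  have hf := (tendsto_combo hnorm'.1 hd'.1 k (a := -(v2 : ℝ)) (b := 1) (by
    rw [hw2]; nlinarith)).eventually_ge_atTop 0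
  have hb := (tendsto_combo hnorm'.2 hd'.2 k (a := -(v1 : ℝ)) (b := 1) (by
    rw [hu2]; nlinarith)).eventually_ge_atTop 0
  -- the weight of the entrance edge
  set d := -γ' (-1)
  have hm' := hmass (edge0 d) 1 one_pos
  obtain ⟨r0, hr0, hr0'⟩ : ∃ r0 : ℚ, (r0 : ℝ) < t' (edge0 d) ∧ 0 < G (Set.Iic (r0 : ℝ)) := by
    by_contra hno
    push Not at hno
    refine hm'.ne' (measure_mono_null (t := ⋃ q : {q : ℚ // (q : ℝ) < t' (edge0 d)},
      Set.Iic ((q : ℚ) : ℝ)) (fun z hz => ?_) ?_)
    · obtain ⟨q, hq1, hq2⟩ := exists_rat_btwn hz.2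
      exact Set.mem_iUnion.2 ⟨⟨q, hq2⟩, hq1.le⟩
    · exact measure_iUnion_null fun q => le_antisymm (hno q q.2) bot_le
  obtain ⟨r1, hr1, hr1'⟩ := exists_rat_btwn hr0
  have hup' : Tendsto (fun i => lev k (γ' i)) atTop atTop := by
    simp only [hlev']; exact hup.comp (tendsto_atTop_add_const_right _ i0 tendsto_id)
  have hdown' : Tendsto (fun i => lev k (γ' i)) atBot atBot := by
    simp only [hlev']; exact hdown.comp (tendsto_atBot_add_const_right _ i0 tendsto_id)
  obtain ⟨R, hR⟩ := ent.seeds hk (fun e => (hrange e).1) (v1 := (v1 : ℝ)) (v2 := (v2 : ℝ))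
    (r := (r1 : ℝ)) hr1'.le hup' hdown' (hf.mono fun i hi => by linarith)
    (hb.mono fun i hi => by linarith)
  obtain ⟨n0, hn0⟩ := eventually_atTop.1 hR
  obtain ⟨n, hn, hno⟩ := hseeds d v1 v2 r0 r1 R n0 (ent.offset hk) (by exact_mod_cast hv2) hr1 hr0' hlin
  exact hno (hn0 n hn)

theorem reverse_bigeodesic {t : Conf} (h0 : ∀ e, 0 ≤ t e) {γ : ℤ → V} (h : IsBigeodesic t γ) :
    IsBigeodesic t fun i => γ (-i) where
  inj a b hab := by simpa using h.inj hab
  adj i := by
    have := (h.adj (-i - 1)).symm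
    rw [sub_add_cancel] at this
    rwa [show -(i + 1) = -i - 1 by ring]
  geo i j hij := by
    rw [T_comm t (γ (-i)), ← h.sum_eq_T h0 (show -j ≤ -i by omega)]
    refine Finset.sum_nbij (fun m => -m - 1) (fun m hm => ?_) (fun a _ b _ hab => by simpa using hab)
      (fun m hm => ?_) (fun m _ => ?_)
    · simp only [Finset.coe_Ico, Finset.mem_Ico, Set.mem_Ico] at *; omega
    · simp only [Finset.coe_Ico, Set.mem_Ico, Set.mem_image] at *
      exact ⟨-m - 1, by omega, by ring⟩
    · rw [sub_add_cancel, wt_comm t (γ (-m - 1)) (γ (-m))]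
      congr 2; ring

/-- Straightness of doubly directed bigeodesics. -/
theorem straight_of_shape (hG : LawOK G M) (hs : Shape G M μ) (hm0 : Meets 0) (hm1 : Meets 1) :
    StraightProp G := by
  haveI := hG.prob
  set NB : Conf → Prop := fun t => (∀ e, 0 ≤ t e) ∧
    ∀ k : ℤ, (k = 0 ∨ k = 1) → ¬ ∃ γ w u, IsBigeodesic t γ ∧ Dirs γ w u ∧ Bent k w u
  have hNB : ∀ᵐ t ∂law G, NB t := by
    filter_upwards [hG.ae_nonneg, no_bent hG hs (Or.inl rfl) hm0, no_bent hG hs (Or.inr rfl) hm1]
      with t h0 h1 h2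
    exact ⟨h0, fun k hk => by rcases hk with rfl | rfl <;> assumption⟩
  let rot : Conf → Conf := fun t => flipConf (swapConf (flipConf (swapConf t)))
  have hrot : ∀ {p : Conf → Prop}, (∀ᵐ t ∂law G, p t) → ∀ᵐ t ∂law G, p (rot t) := fun h =>
    ae_swapConf (ae_flipConf (ae_swapConf (ae_flipConf h)))
  have h1 := hNB.and (hrot hNB)
  filter_upwards [h1, ae_swapConf h1, ae_flipConf h1,
    ae_shift (ae_additive hG hs)] with t ht hts htf hadd
  intro γ θ θ' hγ hθ hθ'
  -- the directions in the plane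
  set w : ℝ × ℝ := (θ.re, θ.im)
  set u : ℝ × ℝ := (θ'.re, θ'.im)
  have hc : Continuous fun z : ℂ => (z.re, z.im) := by fun_prop
  have htoNat : Tendsto Int.toNat atTop atTop :=
    tendsto_atTop.2 fun b => (eventually_ge_atTop (b : ℤ)).mono fun i hi => by omega
  have hd : Dirs γ w u := by
    constructor
    · have h2 := (hc.tendsto θ).comp hθ
      refine ((h2.comp htoNat).congr' ?_)
      filter_upwards [eventually_ge_atTop 0] with i hi
      simp [fwd, unit, toR, toPlane, Prod.smul_def, hi]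
    · have h2 := (hc.tendsto θ').comp hθ'
      have h3 : Tendsto (fun i : ℤ => (-i).toNat) atBot atTop :=
        htoNat.comp tendsto_neg_atBot_atTop
      refine ((h2.comp h3).congr' ?_)
      filter_upwards [eventually_le_atBot 0] with i hi
      simp [bwd, unit, toR, toPlane, Prod.smul_def, hi]
  obtain ⟨hγ0, h00, hd0⟩ := dirs_zero hγ hd 0
  have hA := hadd (γ 0) _ w u hγ0 h00 hd0
  obtain ⟨hw1, hu1⟩ := hd.sq_eq_one hγ.inj
  have hw0 : w ≠ 0 := fun h => by rw [h] at hw1; norm_num at hw1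
  have hu0 : -u ≠ 0 := fun h => by rw [neg_eq_zero] at h; rw [h] at hu1; norm_num at hu1
  -- a transversal frame forces opposite directions
  have master : ∀ (s : Conf) (δ : ℤ → V) (W U : ℝ × ℝ), NB s ∧ NB (rot s) → IsBigeodesic s δ →
      Dirs δ W U → W.1 ^ 2 + W.2 ^ 2 = 1 → U.1 ^ 2 + U.2 ^ 2 = 1 → ∀ k : ℤ, (k = 0 ∨ k = 1) →
      0 < levR k W * levR k (-U) → U = -W := by
    intro s δ W U ⟨⟨hs0, hsB⟩, ⟨hr0, hrB⟩⟩ hδ hD hW1 hU1 k hk hpos
    have hneg : levR k (-U) = -levR k U := by simp [levR]; ring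
    rw [hneg] at hpos
    have hrotD : ∀ {δ : ℤ → V} {W U : ℝ × ℝ}, IsBigeodesic s δ → Dirs δ W U →
        IsBigeodesic (rot s) (fun i => -δ i) ∧ Dirs (fun i => -δ i) (-W) (-U) := by
      intro δ W U hδ hD
      constructor
      · simp only [rot, isBigeodesic_flipConf, isBigeodesic_swapConf]
        simpa using hδ
      · exact hD.swap.flip.swap.flip
    rcases lt_trichotomy (W.2 * levR k U) (U.2 * levR k W) with hlt | heq | hgt
    · -- the forward end is steeper
      rcases lt_trichotomy (levR k W) 0 with hW | hW | hW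
      · have hU : 0 < levR k U := by nlinarith
        obtain ⟨a, b⟩ := hrotD hδ hD
        refine absurd ⟨_, _, _, a, b, ?_, ?_, ?_⟩ (hrB k hk) <;> simp [levR] at * <;> nlinarith
      · rw [hW, zero_mul] at hpos; exact absurd hpos (lt_irrefl _)
      · exact absurd ⟨δ, W, U, hδ, hD, hW, by nlinarith, hlt⟩ (hsB k hk)
    · -- parallel directions
      have hWne : levR k W ≠ 0 := fun h => by simp [h] at hpos
      set c := levR k U / levR k W
      have hc : c < 0 := by
        rcases lt_or_gt_of_ne hWne with hW | hW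
        · exact div_neg_of_pos_of_neg (by nlinarith) hW
        · exact div_neg_of_neg_of_pos (by nlinarith) hW
      have hU2 : U.2 = c * W.2 := by
        simp only [c]; field_simp; linarith
      have hU1' : U.1 = c * W.1 := by
        have : levR k U = c * levR k W := (div_mul_cancel₀ _ hWne).symm
        simp only [levR] at this
        rw [hU2] at this; linarith
      have hc1 : c = -1 := by
        have h2 : c ^ 2 = 1 := by rw [hU2, hU1'] at hU1; linear_combination hU1 - c ^ 2 * hW1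
        nlinarith
      refine Prod.ext ?_ ?_ <;> simp [hU1', hU2, hc1]
    · -- the backward end is steeper
      have hrev := reverse_bigeodesic hs0 hδ
      rcases lt_trichotomy (levR k W) 0 with hW | hW | hW
      · exact absurd ⟨_, U, W, hrev, hD.reverse, by nlinarith, hW, by linarith⟩ (hsB k hk)
      · rw [hW, zero_mul] at hpos; exact absurd hpos (lt_irrefl _)
      · have hU : levR k U < 0 := by nlinarith
        obtain ⟨a, b⟩ := hrotD hrev hD.reverse
        refine absurd ⟨_, _, _, a, b, ?_, ?_, ?_⟩ (hrB k hk) <;> simp [levR] at * <;> nlinarith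
  have hsum : u = -w := by
    rcases frame_exists hs hw0 hu0 hA with h | h | h | h
    · exact master t γ w u ht hγ hd hw1 hu1 0 (Or.inl rfl) (by simpa [levR] using h)
    · have h' := master (swapConf t) _ (w.2, w.1) (u.2, u.1) hts
        ((isBigeodesic_swapConf _ _).2 (by simpa using hγ)) hd.swap (by linarith) (by linarith) 0
        (Or.inl rfl) (by simpa [levR] using h)
      simp only [Prod.mk.injEq, Prod.neg_mk] at h'
      exact Prod.ext h'.2 h'.1
    · exact master t γ w u ht hγ hd hw1 hu1 1 (Or.inr rfl) (by simpa [levR] using h)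
    · have h' := master (flipConf t) _ (w.1, -w.2) (u.1, -u.2) htf
        ((isBigeodesic_flipConf _ _).2 (by simpa using hγ)) hd.flip (by linarith) (by linarith) 1
        (Or.inr rfl) (by simpa [levR, sub_eq_add_neg] using h)
      simp only [Prod.mk.injEq, Prod.neg_mk] at h'
      exact Prod.ext h'.1 (by simpa [neg_eq_iff_eq_neg] using h'.2)
  exact Complex.ext (by simpa [w, u] using congrArg Prod.fst hsum)
    (by simpa [w, u] using congrArg Prod.snd hsum)

end Vale.Agent.P158.Straight
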