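import Vale.Agent.P158.Tilt

/-!
Comparison of the tilted law with the original one through a power of the density.
-/

open MeasureTheory Filter Topology ProbabilityTheory
open scoped ENNReal

namespace Vale.Agent.P158

variable {G : Measure ℝ} [IsProbabilityMeasure G] {η : ℝ}

lemma tiltRho_pow_le (h0 : 0 ≤ η) (h1 : η ≤ 1) {q : ℕ} (hq : (q : ℝ) * η ≤ 1) (x : ℝ) :
    tiltRho G η x ^ q ≤ 1 + (q : ℝ) * η * (2 * G.real (Set.Ici x) - 1) + (q : ℝ) ^ 2 * η ^ 2 := by
  have hx : G.real (Set.Ici x) ≤ 1 := measureReal_le_one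
  have hx0 : 0 ≤ G.real (Set.Ici x) := measureReal_nonneg
  have hnn := tiltRho_nonneg (G := G) h0 h1 x
  unfold tiltRho at hnn ⊢
  obtain ⟨u, hu⟩ : ∃ u, u = 2 * G.real (Set.Ici x) - 1 := ⟨_, rfl⟩
  rw [← hu] at hnn ⊢
  have hu1 : |u| ≤ 1 := abs_le.2 ⟨by linarith, by linarith⟩
  have hy : |(q : ℝ) * η * u| ≤ 1 := by
    rw [abs_mul, abs_of_nonneg (mul_nonneg (Nat.cast_nonneg q) h0)]
    exact mul_le_one₀ hq (abs_nonneg u) hu1
  have h2 := (abs_le.1 (Real.abs_exp_sub_one_sub_id_le hy)).2
  have hu2 : u ^ 2 ≤ 1 := by rw [← sq_abs]; exact pow_le_one₀ (abs_nonneg u) hu1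
  have h4 : ((q : ℝ) * η * u) ^ 2 ≤ (q : ℝ) ^ 2 * η ^ 2 := by
    rw [mul_pow, mul_pow]; exact mul_le_of_le_one_right (by positivity) hu2
  calc (1 + η * u) ^ q ≤ Real.exp (η * u) ^ q :=
        pow_le_pow_left₀ hnn (by linarith [Real.add_one_le_exp (η * u)]) q
    _ = Real.exp ((q : ℝ) * η * u) := by rw [← Real.exp_nat_mul]; ring_nf
    _ ≤ _ := by linarith

lemma lintegral_tiltRho_pow (hat : ∀ x, G {x} = 0) (h0 : 0 ≤ η) (h1 : η ≤ 1) {q : ℕ}
    (hq : (q : ℝ) * η ≤ 1) :
    ∫⁻ x, ENNReal.ofReal (tiltRho G η x) ^ q ∂G ≤ ENNReal.ofReal (1 + (q : ℝ) ^ 2 * η ^ 2) := by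
  have hnn := fun x => tiltRho_nonneg (G := G) h0 h1 x
  have i1 : Integrable (fun x => 2 * G.real (Set.Ici x) - 1) G :=
    (integrable_Ici_real.const_mul 2).sub (integrable_const 1)
  have hi : Integrable
      (fun x => 1 + (q : ℝ) * η * (2 * G.real (Set.Ici x) - 1) + (q : ℝ) ^ 2 * η ^ 2) G :=
    ((integrable_const 1).add (i1.const_mul _)).add (integrable_const _)
  simp_rw [← ENNReal.ofReal_pow (hnn _)]
  refine (lintegral_mono fun x => ENNReal.ofReal_le_ofReal (tiltRho_pow_le h0 h1 hq x)).trans ?_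
  rw [← ofReal_integral_eq_lintegral_ofReal hi
    (ae_of_all _ fun x => (pow_nonneg (hnn x) q).trans (tiltRho_pow_le h0 h1 hq x))]
  refine ENNReal.ofReal_le_ofReal (le_of_eq ?_)
  rw [integral_add (f := fun x => 1 + (q : ℝ) * η * (2 * G.real (Set.Ici x) - 1))
      ((integrable_const 1).add (i1.const_mul _)) (integrable_const _),
    integral_add (integrable_const 1) (i1.const_mul _), integral_const_mul,
    integral_sub (integrable_Ici_real.const_mul 2) (integrable_const 1), integral_const_mul,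
    integral_Ici_real hat]
  simp

/-- Any set is at most `lam` times likelier under the tilt, up to a term controlled by the moment
of order `q` of the density. -/
theorem tilt_pow (hat : ∀ x, G {x} = 0) (h0 : 0 ≤ η) (h1 : η ≤ 1) (S : Finset Edge) {q : ℕ}
    (hq1 : 1 ≤ q) (hq : (q : ℝ) * η ≤ 1) {lam : ℝ} (hlam : 0 < lam) (A : Set Conf) :
    ((law G).prod (markField G η)) (tiltMap S ⁻¹' A) ≤
      ENNReal.ofReal lam * law G A +
        ENNReal.ofReal ((1 + (q : ℝ) ^ 2 * η ^ 2) ^ S.card / lam ^ (q - 1)) := by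
  have : IsProbabilityMeasure (law G) := by unfold law; infer_instance
  set A' := toMeasurable (law G) A with hA'
  have hA := measurableSet_toMeasurable (law G) A
  rw [← measure_toMeasurable A, ← hA']
  refine (measure_mono (Set.preimage_mono (subset_toMeasurable (law G) A))).trans ?_
  rw [← Measure.map_apply (measurable_tiltMap S) hA, tiltMap_law hat h0 h1, withDensity_apply _ hA,
    ← lintegral_indicator hA]
  have hpt : ∀ t, A'.indicator (tiltDens G η S) t ≤
      ENNReal.ofReal lam * A'.indicator (fun _ => 1) t +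
        ENNReal.ofReal (1 / lam ^ (q - 1)) * tiltDens G η S t ^ q := fun t => by
    by_cases ht : t ∈ A'
    · rw [Set.indicator_of_mem ht, Set.indicator_of_mem ht, mul_one]
      have hd : 0 ≤ ∏ e ∈ S, tiltRho G η (t e) :=
        Finset.prod_nonneg fun e _ => tiltRho_nonneg h0 h1 _
      rw [tiltDens, ← ENNReal.ofReal_prod_of_nonneg fun e _ => tiltRho_nonneg h0 h1 _,
        ← ENNReal.ofReal_pow hd, ← ENNReal.ofReal_mul (by positivity),
        ← ENNReal.ofReal_add hlam.le (by positivity)]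
      refine ENNReal.ofReal_le_ofReal ?_
      obtain ⟨d, hdd⟩ : ∃ d, d = ∏ e ∈ S, tiltRho G η (t e) := ⟨_, rfl⟩
      rw [← hdd] at hd ⊢
      rcases le_or_gt d lam with h | h
      · exact h.trans (le_add_of_nonneg_right (by positivity))
      · refine le_add_of_nonneg_of_le hlam.le ?_
        rw [one_div_mul_eq_div, le_div_iff₀ (by positivity)]
        calc d * lam ^ (q - 1) ≤ d * d ^ (q - 1) :=
              mul_le_mul_of_nonneg_left (pow_le_pow_left₀ hlam.le h.le _) hd
          _ = d ^ q := by rw [← pow_succ', Nat.sub_add_cancel hq1]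
    · rw [Set.indicator_of_notMem ht]; exact zero_le
  refine (lintegral_mono hpt).trans ?_
  rw [lintegral_add_left ((measurable_const.indicator hA).const_mul _),
    lintegral_const_mul' _ _ ENNReal.ofReal_ne_top,
    lintegral_const_mul' _ _ ENNReal.ofReal_ne_top, lintegral_indicator_const hA, one_mul]
  refine add_le_add le_rfl ?_
  have hint : ∫⁻ t, tiltDens G η S t ^ q ∂law G ≤
      ENNReal.ofReal ((1 + (q : ℝ) ^ 2 * η ^ 2) ^ S.card) := by
    simp only [tiltDens, ← Finset.prod_pow]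
    unfold law
    rw [lintegral_prod_coord (fun _ : Edge => G) S (fun _ x => ENNReal.ofReal (tiltRho G η x) ^ q)
      (fun _ => (measurable_tiltRho (G := G)).ennreal_ofReal.pow_const q)]
    refine (Finset.prod_le_prod' fun _ _ => lintegral_tiltRho_pow hat h0 h1 hq).trans ?_
    rw [Finset.prod_const, ← ENNReal.ofReal_pow (by positivity)]
  refine (mul_le_mul_of_nonneg_left hint zero_le).trans ?_
  rw [← ENNReal.ofReal_mul (by positivity), one_div_mul_eq_div]

end Vale.Agent.P158
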